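import Mathlib

set_option linter.all false

section

/-!
Differential function spaces and families (P205, full question).

`DAlg P κ`: points `P`, smooth complex functions on `P`, derivations `D j`, `j : κ`.
`wd w u`: iterated derivative along the word `w`.
`Bd μ k C u`: all words of length at most `k`, `‖wd w u p‖ ≤ C μ^|w|`.
`FO μ s u`: for a family `u i`: for every `k` there is `C` with `Bd (μ i) k (C s i) (u i)` for
all `i`.
-/

open scoped ContDiff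

namespace Vale.Agent.P205.F

/-- A differential function space. -/
structure DAlg (P κ : Type*) where
  /-- smooth functions -/
  Sm : (P → ℂ) → Prop
  /-- the derivations -/
  D : κ → (P → ℂ) → (P → ℂ)
  sm_const : ∀ c : ℂ, Sm (fun _ => c)
  sm_add : ∀ {u v}, Sm u → Sm v → Sm (u + v)
  sm_mul : ∀ {u v}, Sm u → Sm v → Sm (u * v)
  sm_conj : ∀ {u}, Sm u → Sm (fun p => (starRingEnd ℂ) (u p))
  sm_D : ∀ {u} (j : κ), Sm u → Sm (D j u)
  D_const : ∀ (j : κ) (c : ℂ), D j (fun _ => c) = 0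
  D_add : ∀ {u v} (j : κ), Sm u → Sm v → D j (u + v) = D j u + D j v
  D_mul : ∀ {u v} (j : κ), Sm u → Sm v → D j (u * v) = D j u * v + u * D j v
  D_conj : ∀ {u} (j : κ), Sm u →
    D j (fun p => (starRingEnd ℂ) (u p)) = fun p => (starRingEnd ℂ) (D j u p)
  sm_comp : ∀ {F : ℝ → ℂ} {u : P → ℂ}, ContDiff ℝ ∞ F → Sm u → (∀ p, (u p).im = 0) →
    Sm (fun p => F (u p).re)
  D_comp : ∀ {F : ℝ → ℂ} {u : P → ℂ} (j : κ), ContDiff ℝ ∞ F → Sm u → (∀ p, (u p).im = 0) →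
    D j (fun p => F (u p).re) = fun p => deriv F (u p).re * D j u p
  bdd : ∀ {u}, Sm u → ∃ C : ℝ, ∀ p, ‖u p‖ ≤ C

variable {P κ : Type*} (S : DAlg P κ)

/-- iterated derivative along a word: `wd (j :: w) u = D j (wd w u)` -/
def DAlg.wd : List κ → (P → ℂ) → (P → ℂ)
  | [], u => u
  | j :: w, u => S.D j (DAlg.wd w u)

/-- scale invariant bounds for all derivatives of order at most `k` -/
def DAlg.Bd (μ : ℝ) (k : ℕ) (C : ℝ) (u : P → ℂ) : Prop :=
  ∀ w : List κ, w.length ≤ k → ∀ p, ‖S.wd w u p‖ ≤ C * μ ^ w.length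

/-- unweighted bounds for all derivatives of order at most `k` -/
def DAlg.Nb (k : ℕ) (C : ℝ) (u : P → ℂ) : Prop :=
  ∀ w : List κ, w.length ≤ k → ∀ p, ‖S.wd w u p‖ ≤ C

/-- families: `u i = O(s i)` at scale `μ i`, together with all derivatives -/
def DAlg.FO {ι : Type*} (μ s : ι → ℝ) (u : ι → P → ℂ) : Prop :=
  (∀ i, S.Sm (u i)) ∧ ∀ k, ∃ C : ℝ, 0 ≤ C ∧ ∀ i, S.Bd (μ i) k (C * s i) (u i)

/-- `u` and all its derivatives vanish outside `K` -/
def DAlg.Zs (K : Set P) (u : P → ℂ) : Prop :=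
  ∀ w : List κ, ∀ p, p ∉ K → S.wd w u p = 0

/-- real valued -/
def Rl (u : P → ℂ) : Prop := ∀ p, (u p).im = 0

/-- derivative along the field with coefficients `c` -/
def DAlg.dir [Fintype κ] (c : κ → P → ℂ) (u : P → ℂ) : P → ℂ :=
  fun p => ∑ j, c j p * S.D j u p

/-- Euclidean (bilinear) product of maps into `ℂ⁴` -/
def dot (X Y : Fin 4 → P → ℂ) : P → ℂ := fun p => ∑ i, X i p * Y i p

/-- a ray: phase, two fields, coefficients, region -/
structure Ray (P κ : Type*) where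
  /-- phase -/
  Ψ : P → ℂ
  /-- the field with `t Ψ = 1` -/
  t : κ → P → ℂ
  /-- the field with `w Ψ = 0` -/
  w : κ → P → ℂ
  /-- `D j = (D j Ψ) t + β j w` on `K` -/
  β : κ → P → ℂ
  /-- the region -/
  K : Set P

/-- validity of a ray -/
structure Ray.Ok [Fintype κ] (r : Ray P κ) : Prop where
  smΨ : S.Sm r.Ψ
  smt : ∀ j, S.Sm (r.t j)
  smw : ∀ j, S.Sm (r.w j)
  smβ : ∀ j, S.Sm (r.β j)
  rΨ : Rl r.Ψ
  rt : ∀ j, Rl (r.t j)
  rw' : ∀ j, Rl (r.w j)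
  rβ : ∀ j, Rl (r.β j)
  tΨ : ∀ p ∈ r.K, S.dir r.t r.Ψ p = 1
  wΨ : ∀ p ∈ r.K, S.dir r.w r.Ψ p = 0
  dec : ∀ u, S.Sm u → ∀ j, ∀ p ∈ r.K,
    S.D j u p = S.D j r.Ψ p * S.dir r.t u p + r.β j p * S.dir r.w u p

/-- completeness in the seminorms -/
def DAlg.Complete : Prop :=
  ∀ u : ℕ → P → ℂ, (∀ q, S.Sm (u q)) →
    (∀ k, ∃ c : ℕ → ℝ, Summable c ∧ ∃ q0, ∀ q, q0 ≤ q → S.Nb k (c q) (u (q + 1) - u q)) →
    ∃ v, S.Sm v ∧ ∀ w : List κ, ∀ p,
      Filter.Tendsto (fun q => S.wd w (u q) p) Filter.atTop (nhds (S.wd w v p))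

/-- smoothing operators of order `m` -/
structure DAlg.Smoothing (m : ℕ) where
  /-- the operators, `θ ≥ 1` is the frequency -/
  T : ℝ → (P → ℂ) → (P → ℂ)
  /-- constants -/
  C : ℕ → ℝ
  sm : ∀ {θ u}, 1 ≤ θ → S.Sm u → S.Sm (T θ u)
  real : ∀ {θ u}, 1 ≤ θ → S.Sm u → Rl u → Rl (T θ u)
  gain : ∀ {k l : ℕ} {θ B : ℝ} {u : P → ℂ}, k ≤ l → 1 ≤ θ → S.Sm u → S.Nb k B u →
    S.Nb l (C l * θ ^ (l - k) * B) (T θ u)
  appr : ∀ {k : ℕ} {θ B : ℝ} {u : P → ℂ}, 1 ≤ θ → S.Sm u → S.Nb (k + m) B u →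
    S.Nb k (C k * (θ ^ m)⁻¹ * B) (u - T θ u)

end Vale.Agent.P205.F
end

section

/-!
The differential function space of a compact manifold: cut-off chart fields.

`Cov E M`: a finite atlas `chartAt E (K.c i)` with smooth cut-offs `K.χ i` supported in the chart
domains, `K.χ i = 1` on the open set `K.V i`, the `K.V i` cover `M`.
`K.X b (i, a) p = χ i p • ∂_a` is the field of the `i`-th chart in the direction `b a`,
`K.Dv b (i, a) u p = χ i p • fderiv ℝ (u ∘ ϕ_i⁻¹) (ϕ_i p) (b a)` the derivative of `u` along it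
(`= mfderiv u p (K.X b (i, a) p)` for differentiable `u`, see `Cov.Dv_eq`).
`K.dalg b : DAlg M (Fin K.n × A)` is the differential function space.
-/

noncomputable section

set_option linter.unusedSectionVars false
set_option linter.deprecated false

open scoped Manifold ContDiff Topology
open Set Filter

namespace Vale.Agent.P205.F

variable {E : Type*} [NormedAddCommGroup E] [NormedSpace ℝ E]
  {M : Type*} [TopologicalSpace M] [ChartedSpace E M]

/-- finite atlas with cut-off functions -/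
structure Cov (E : Type*) [NormedAddCommGroup E] [NormedSpace ℝ E]
    (M : Type*) [TopologicalSpace M] [ChartedSpace E M] where
  /-- number of charts -/
  n : ℕ
  /-- centres of the charts -/
  c : Fin n → M
  /-- cut-offs -/
  χ : Fin n → M → ℝ
  /-- regions where the cut-offs are one -/
  V : Fin n → Set M
  sm : ∀ i, ContMDiff 𝓘(ℝ, E) 𝓘(ℝ, ℝ) ∞ (χ i)
  sup : ∀ i, tsupport (χ i) ⊆ (chartAt E (c i)).source
  opn : ∀ i, IsOpen (V i)
  one : ∀ i, ∀ p ∈ V i, χ i p = 1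
  cov : ∀ p, ∃ i, p ∈ V i

/-- existence of the atlas -/
theorem Cov.exists [FiniteDimensional ℝ E] [T2Space M] [CompactSpace M]
    [IsManifold 𝓘(ℝ, E) ∞ M] : Nonempty (Cov E M) := by
  classical
  let f : ∀ p : M, SmoothBumpFunction 𝓘(ℝ, E) p := fun p => Classical.arbitrary _
  let U : M → Set M := fun p => interior {x | f p x = 1}
  have hU : ∀ p, U p ∈ 𝓝 p := fun p => interior_mem_nhds.2 (f p).eventuallyEq_one
  obtain ⟨t, -, ht⟩ := (isCompact_univ (X := M)).elim_nhds_subcover U fun p _ => hU p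
  let e := t.equivFin
  refine ⟨⟨t.card, fun i => (e.symm i : M), fun i => f (e.symm i), fun i => U (e.symm i),
    fun i => (f _).contMDiff, fun i => (f _).tsupport_subset_chartAt_source,
    fun i => isOpen_interior, fun i p hp => ?_, fun p => ?_⟩⟩
  · have h2 : p ∈ {x | f (e.symm i) x = 1} := interior_subset hp
    exact h2
  · have h1 := ht (mem_univ p)
    simp only [mem_iUnion] at h1
    obtain ⟨x, hx, hp⟩ := h1
    refine ⟨e ⟨x, hx⟩, ?_⟩
    simpa using hp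

namespace Cov

variable (K : Cov E M) {A : Type*} (b : A → E)

/-- the chart -/
abbrev ph (i : Fin K.n) : PartialEquiv M E := extChartAt 𝓘(ℝ, E) (K.c i)

/-- the cut-off chart fields -/
def X (j : Fin K.n × A) (p : M) : TangentSpace 𝓘(ℝ, E) p :=
  K.χ j.1 p • (mfderiv 𝓘(ℝ, E) 𝓘(ℝ, E) (K.ph j.1).symm (K.ph j.1 p) (b j.2) : E)

/-- derivatives along the cut-off chart fields -/
def Dv {F : Type*} [NormedAddCommGroup F] [NormedSpace ℝ F] (j : Fin K.n × A) (u : M → F) :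
    M → F :=
  fun p => K.χ j.1 p • fderiv ℝ (u ∘ (K.ph j.1).symm) (K.ph j.1 p) (b j.2)

variable {F : Type*} [NormedAddCommGroup F] [NormedSpace ℝ F]

theorem isOpen_target (i : Fin K.n) : IsOpen (K.ph i).target := isOpen_extChartAt_target (K.c i)

theorem isOpen_source (i : Fin K.n) : IsOpen (K.ph i).source := isOpen_extChartAt_source (K.c i)

theorem mem_source {i : Fin K.n} {p : M} (h : K.χ i p ≠ 0) : p ∈ (K.ph i).source := by
  rw [extChartAt_source]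
  exact K.sup i (subset_tsupport _ h)

theorem tsupport_sub (i : Fin K.n) : tsupport (K.χ i) ⊆ (K.ph i).source := by
  rw [extChartAt_source]
  exact K.sup i

theorem V_sub (i : Fin K.n) : K.V i ⊆ (K.ph i).source := fun p hp => K.mem_source (by
  rw [K.one i p hp]
  exact one_ne_zero)

theorem Dv_eq_zero (j : Fin K.n × A) (u : M → F) {p : M} (h : p ∉ (K.ph j.1).source) :
    K.Dv b j u p = 0 := by
  have h1 : K.χ j.1 p = 0 := by
    by_contra h2
    exact h (K.mem_source h2)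
  rw [Dv, h1, zero_smul]

section man

variable [IsManifold 𝓘(ℝ, E) ∞ M]

theorem contDiffOn_symm {u : M → F} (hu : ContMDiff 𝓘(ℝ, E) 𝓘(ℝ, F) ∞ u) (i : Fin K.n) :
    ContDiffOn ℝ ∞ (u ∘ (K.ph i).symm) (K.ph i).target := by
  rw [← contMDiffOn_iff_contDiffOn]
  exact hu.comp_contMDiffOn (contMDiffOn_extChartAt_symm (K.c i))

theorem differentiableAt_symm {u : M → F} (hu : ContMDiff 𝓘(ℝ, E) 𝓘(ℝ, F) ∞ u) {i : Fin K.n}
    {p : M} (hp : p ∈ (K.ph i).source) :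
    DifferentiableAt ℝ (u ∘ (K.ph i).symm) (K.ph i p) :=
  ((K.contDiffOn_symm hu i).contDiffAt
    ((K.isOpen_target i).mem_nhds ((K.ph i).map_source hp))).differentiableAt (by simp)

/-- the derivative in the chart is smooth -/
theorem contMDiffOn_fderiv {u : M → F} (hu : ContMDiff 𝓘(ℝ, E) 𝓘(ℝ, F) ∞ u) (i : Fin K.n)
    (v : E) : ContMDiffOn 𝓘(ℝ, E) 𝓘(ℝ, F) ∞
      (fun p => fderiv ℝ (u ∘ (K.ph i).symm) (K.ph i p) v) (K.ph i).source := by
  have h1 : ContDiffOn ℝ ∞ (fun y => fderiv ℝ (u ∘ (K.ph i).symm) y v) (K.ph i).target :=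
    ((K.contDiffOn_symm hu i).fderiv_of_isOpen (K.isOpen_target i) (by simp)).clm_apply
      contDiffOn_const
  rw [extChartAt_source]
  refine (contMDiffOn_iff_contDiffOn.2 h1).comp (contMDiffOn_extChartAt (x := K.c i)) ?_
  intro p hp
  rw [← extChartAt_source 𝓘(ℝ, E)] at hp
  exact (K.ph i).map_source hp

theorem Dv_contMDiff {u : M → F} (hu : ContMDiff 𝓘(ℝ, E) 𝓘(ℝ, F) ∞ u) (j : Fin K.n × A) :
    ContMDiff 𝓘(ℝ, E) 𝓘(ℝ, F) ∞ (K.Dv b j u) := by
  refine contMDiff_of_tsupport fun p hp => ?_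
  have h1 : p ∈ (K.ph j.1).source := K.tsupport_sub j.1 (tsupport_smul_subset_left _ _ hp)
  exact (K.sm j.1).contMDiffAt.smul ((K.contMDiffOn_fderiv hu j.1 (b j.2)).contMDiffAt
    ((K.isOpen_source j.1).mem_nhds h1))

theorem Dv_const (j : Fin K.n × A) (c : F) : K.Dv b j (fun _ : M => c) = 0 := by
  funext p
  have h1 : (fun _ : M => c) ∘ (K.ph j.1).symm = fun _ => c := rfl
  rw [Dv, h1, fderiv_const_apply]
  simp

theorem Dv_add {u v : M → F} (hu : ContMDiff 𝓘(ℝ, E) 𝓘(ℝ, F) ∞ u)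
    (hv : ContMDiff 𝓘(ℝ, E) 𝓘(ℝ, F) ∞ v) (j : Fin K.n × A) :
    K.Dv b j (u + v) = K.Dv b j u + K.Dv b j v := by
  funext p
  by_cases hp : p ∈ (K.ph j.1).source
  · have h1 : (u + v) ∘ (K.ph j.1).symm = u ∘ (K.ph j.1).symm + v ∘ (K.ph j.1).symm := rfl
    rw [Dv, h1, fderiv_add (K.differentiableAt_symm hu hp) (K.differentiableAt_symm hv hp),
      Pi.add_apply, Dv, Dv, ContinuousLinearMap.add_apply, smul_add]
  · rw [Pi.add_apply, K.Dv_eq_zero b j _ hp, K.Dv_eq_zero b j _ hp, K.Dv_eq_zero b j _ hp,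
      add_zero]

theorem Dv_mul {u v : M → ℂ} (hu : ContMDiff 𝓘(ℝ, E) 𝓘(ℝ, ℂ) ∞ u)
    (hv : ContMDiff 𝓘(ℝ, E) 𝓘(ℝ, ℂ) ∞ v) (j : Fin K.n × A) :
    K.Dv b j (u * v) = K.Dv b j u * v + u * K.Dv b j v := by
  funext p
  by_cases hp : p ∈ (K.ph j.1).source
  · have h1 : (u * v) ∘ (K.ph j.1).symm = u ∘ (K.ph j.1).symm * v ∘ (K.ph j.1).symm := rfl
    rw [Dv, h1, fderiv_mul (K.differentiableAt_symm hu hp) (K.differentiableAt_symm hv hp),
      Pi.add_apply, Pi.mul_apply, Pi.mul_apply, Dv, Dv, ContinuousLinearMap.add_apply,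
      ContinuousLinearMap.smul_apply, ContinuousLinearMap.smul_apply, Function.comp_apply,
      Function.comp_apply, (K.ph j.1).left_inv hp]
    simp only [smul_eq_mul, Complex.real_smul]
    ring
  · rw [Pi.add_apply, Pi.mul_apply, Pi.mul_apply, K.Dv_eq_zero b j _ hp, K.Dv_eq_zero b j _ hp,
      K.Dv_eq_zero b j _ hp]
    ring

/-- continuous linear maps -/
theorem Dv_clm {F' : Type*} [NormedAddCommGroup F'] [NormedSpace ℝ F'] (L : F →L[ℝ] F')
    {u : M → F} (hu : ContMDiff 𝓘(ℝ, E) 𝓘(ℝ, F) ∞ u) (j : Fin K.n × A) :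
    K.Dv b j (fun p => L (u p)) = fun p => L (K.Dv b j u p) := by
  funext p
  by_cases hp : p ∈ (K.ph j.1).source
  · have h1 : (fun p => L (u p)) ∘ (K.ph j.1).symm = fun y => L ((u ∘ (K.ph j.1).symm) y) := rfl
    rw [Dv, h1, Dv, map_smul]
    congr 1
    have h2 := (L.hasFDerivAt.comp (K.ph j.1 p)
      (K.differentiableAt_symm hu hp).hasFDerivAt).fderiv
    have h3 : fderiv ℝ (fun y => L ((u ∘ (K.ph j.1).symm) y)) (K.ph j.1 p) =
      L.comp (fderiv ℝ (u ∘ (K.ph j.1).symm) (K.ph j.1 p)) := h2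
    rw [h3]
    rfl
  · rw [K.Dv_eq_zero b j _ hp, K.Dv_eq_zero b j _ hp, map_zero]

/-- composition with a function of one variable -/
theorem Dv_comp {G : ℝ → ℂ} (hG : ContDiff ℝ ∞ G) {u : M → ℝ}
    (hu : ContMDiff 𝓘(ℝ, E) 𝓘(ℝ, ℝ) ∞ u) (j : Fin K.n × A) :
    K.Dv b j (fun p => G (u p)) = fun p => deriv G (u p) * ((K.Dv b j u p : ℝ) : ℂ) := by
  funext p
  by_cases hp : p ∈ (K.ph j.1).source
  · have hG1 : HasFDerivAt G (fderiv ℝ G ((u ∘ (K.ph j.1).symm) (K.ph j.1 p)))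
        ((u ∘ (K.ph j.1).symm) (K.ph j.1 p)) :=
      (hG.differentiable (by simp)).differentiableAt.hasFDerivAt
    have h2 := (hG1.comp (K.ph j.1 p) (K.differentiableAt_symm hu hp).hasFDerivAt).fderiv
    have h3 : fderiv ℝ ((fun p => G (u p)) ∘ (K.ph j.1).symm) (K.ph j.1 p) =
      (fderiv ℝ G ((u ∘ (K.ph j.1).symm) (K.ph j.1 p))).comp
        (fderiv ℝ (u ∘ (K.ph j.1).symm) (K.ph j.1 p)) := h2
    rw [Dv, h3, Function.comp_apply, (K.ph j.1).left_inv hp, ContinuousLinearMap.comp_apply,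
      fderiv_eq_smul_deriv, Dv]
    rw [Complex.real_smul, Complex.real_smul, smul_eq_mul, Complex.ofReal_mul]
    ring
  · rw [K.Dv_eq_zero b j _ hp, K.Dv_eq_zero b j _ hp]
    simp

/-- `K.Dv` is the derivative along the field `K.X` -/
theorem Dv_eq {u : M → F} (hu : ContMDiff 𝓘(ℝ, E) 𝓘(ℝ, F) ∞ u) (j : Fin K.n × A) (p : M) :
    K.Dv b j u p = mfderiv 𝓘(ℝ, E) 𝓘(ℝ, F) u p (K.X b j p) := by
  by_cases hp : p ∈ (K.ph j.1).source
  · have h1 : MDifferentiableAt 𝓘(ℝ, E) 𝓘(ℝ, E) (K.ph j.1).symm (K.ph j.1 p) :=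
      ((contMDiffOn_extChartAt_symm (n := ∞) (K.c j.1)).contMDiffAt
        ((K.isOpen_target j.1).mem_nhds ((K.ph j.1).map_source hp))).mdifferentiableAt (by simp)
    have h2 : MDifferentiableAt 𝓘(ℝ, E) 𝓘(ℝ, F) u ((K.ph j.1).symm (K.ph j.1 p)) :=
      hu.contMDiffAt.mdifferentiableAt (by simp)
    have h3 := mfderiv_comp (K.ph j.1 p) h2 h1
    rw [mfderiv_eq_fderiv] at h3
    have h4 : (K.ph j.1).symm (K.ph j.1 p) = p := (K.ph j.1).left_inv hp
    have h5 : fderiv ℝ (u ∘ (K.ph j.1).symm) (K.ph j.1 p) =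
        (mfderiv 𝓘(ℝ, E) 𝓘(ℝ, F) u ((K.ph j.1).symm (K.ph j.1 p)) : E →L[ℝ] F).comp
          (mfderiv 𝓘(ℝ, E) 𝓘(ℝ, E) (K.ph j.1).symm (K.ph j.1 p) : E →L[ℝ] E) := h3
    rw [h4] at h5
    have key : ∀ (T : E →L[ℝ] F) (S : E →L[ℝ] E) (r : ℝ) (v : E),
        r • (T.comp S) v = T (r • S v) := by
      intro T S r v
      rw [map_smul]
      rfl
    rw [Dv, h5]
    exact key _ _ _ _
  · have h1 : K.χ j.1 p = 0 := by
      by_contra h2
      exact hp (K.mem_source h2)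
    rw [K.Dv_eq_zero b j _ hp, X, h1, zero_smul]
    exact (map_zero _).symm

end man

variable [IsManifold 𝓘(ℝ, E) ∞ M] [CompactSpace M]

/-- the differential function space of a compact manifold -/
def dalg : DAlg M (Fin K.n × A) where
  Sm u := ContMDiff 𝓘(ℝ, E) 𝓘(ℝ, ℂ) ∞ u
  D j u := K.Dv b j u
  sm_const c := contMDiff_const
  sm_add hu hv := hu.add hv
  sm_mul hu hv := (contDiff_mul (𝕜 := ℝ) (𝔸 := ℂ)).comp_contMDiff (hu.prodMk_space hv)
  sm_conj hu := Complex.conjCLE.contDiff.comp_contMDiff hu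
  sm_D j hu := K.Dv_contMDiff b hu j
  D_const j c := K.Dv_const b j c
  D_add j hu hv := K.Dv_add b hu hv j
  D_mul j hu hv := K.Dv_mul b hu hv j
  D_conj j hu := K.Dv_clm b (Complex.conjCLE : ℂ →L[ℝ] ℂ) hu j
  sm_comp hG hu _ := (hG.comp Complex.reCLM.contDiff).comp_contMDiff hu
  D_comp := by
    intro G u j hG hu hr
    have h1 : ContMDiff 𝓘(ℝ, E) 𝓘(ℝ, ℝ) ∞ (fun p => (u p).re) :=
      Complex.reCLM.contDiff.comp_contMDiff hu
    have h2 := K.Dv_comp b hG h1 j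
    have h3 := K.Dv_clm b Complex.ofRealCLM h1 j
    have h4 : (fun p => Complex.ofRealCLM (u p).re) = u := by
      funext p
      exact Complex.ext rfl (hr p).symm
    rw [h4] at h3
    rw [h2, h3]
    rfl
  bdd := by
    intro u hu
    obtain ⟨C, hC⟩ := (isCompact_univ (X := M)).exists_bound_of_continuousOn
      hu.continuous.continuousOn
    exact ⟨C, fun p => hC p (mem_univ p)⟩

theorem dalg_Sm {u : M → ℂ} : (K.dalg b).Sm u ↔ ContMDiff 𝓘(ℝ, E) 𝓘(ℝ, ℂ) ∞ u := Iff.rfl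

theorem dalg_D (j : Fin K.n × A) (u : M → ℂ) : (K.dalg b).D j u = K.Dv b j u := rfl

end Cov

end Vale.Agent.P205.F
end
end

section

/-!
Closure lemmas for `Sm`, `wd`, `Bd`, `FO`, `Zs` (P205, full question).
-/

open scoped ContDiff

namespace Vale.Agent.P205.F

variable {P κ : Type*}

/-! ### smooth functions and derivations -/

section Sm

variable (S : DAlg P κ)

theorem DAlg.sm_zero : S.Sm 0 := S.sm_const 0

theorem DAlg.sm_one : S.Sm 1 := S.sm_const 1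

theorem DAlg.sm_smul {u : P → ℂ} (c : ℂ) (hu : S.Sm u) : S.Sm (fun p => c * u p) :=
  S.sm_mul (S.sm_const c) hu

theorem DAlg.sm_neg {u : P → ℂ} (hu : S.Sm u) : S.Sm (-u) := by
  have h := S.sm_smul (-1) hu
  have e : (fun p => (-1 : ℂ) * u p) = -u := by
    funext p
    simp
  rwa [e] at h

theorem DAlg.sm_sub {u v : P → ℂ} (hu : S.Sm u) (hv : S.Sm v) : S.Sm (u - v) := by
  rw [sub_eq_add_neg]
  exact S.sm_add hu (S.sm_neg hv)

theorem DAlg.sm_sum {ι : Type*} {A : Finset ι} {u : ι → P → ℂ} (hu : ∀ a ∈ A, S.Sm (u a)) :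
    S.Sm (∑ a ∈ A, u a) := by
  classical
  induction A using Finset.induction_on with
  | empty => exact S.sm_zero
  | insert a A ha ih =>
    rw [Finset.sum_insert ha]
    exact S.sm_add (hu a (Finset.mem_insert_self a A))
      (ih fun b hb => hu b (Finset.mem_insert_of_mem hb))

theorem DAlg.sm_sum' {ι : Type*} {A : Finset ι} {u : ι → P → ℂ} (hu : ∀ a ∈ A, S.Sm (u a)) :
    S.Sm (fun p => ∑ a ∈ A, u a p) := by
  have h := S.sm_sum hu
  have e : (∑ a ∈ A, u a) = fun p => ∑ a ∈ A, u a p := by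
    funext p
    exact Finset.sum_apply p A u
  rwa [e] at h

theorem DAlg.sm_pow {u : P → ℂ} (hu : S.Sm u) (n : ℕ) : S.Sm (u ^ n) := by
  induction n with
  | zero =>
    rw [pow_zero]
    exact S.sm_one
  | succ n ih =>
    rw [pow_succ]
    exact S.sm_mul ih hu

theorem DAlg.sm_dir [Fintype κ] {c : κ → P → ℂ} {u : P → ℂ} (hc : ∀ j, S.Sm (c j))
    (hu : S.Sm u) : S.Sm (S.dir c u) :=
  S.sm_sum' fun j _ => S.sm_mul (hc j) (S.sm_D j hu)

theorem DAlg.sm_dot {X Y : Fin 4 → P → ℂ} (hX : ∀ a, S.Sm (X a)) (hY : ∀ a, S.Sm (Y a)) :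
    S.Sm (dot X Y) :=
  S.sm_sum' fun a _ => S.sm_mul (hX a) (hY a)

theorem DAlg.sm_wd (w : List κ) {u : P → ℂ} (hu : S.Sm u) : S.Sm (S.wd w u) := by
  induction w with
  | nil => exact hu
  | cons j w ih => exact S.sm_D j ih

/-- real part -/
theorem DAlg.sm_re {u : P → ℂ} (hu : S.Sm u) : S.Sm (fun p => ((u p).re : ℂ)) := by
  have h := S.sm_smul (1 / 2) (S.sm_add hu (S.sm_conj hu))
  have e : (fun p => (1 / 2 : ℂ) * (u + fun p => (starRingEnd ℂ) (u p)) p)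
      = fun p => ((u p).re : ℂ) := by
    funext p
    have h2 := Complex.add_conj (u p)
    simp only [Pi.add_apply, h2]
    push_cast
    ring
  rwa [e] at h

theorem DAlg.D_zero (j : κ) : S.D j 0 = 0 := S.D_const j 0

theorem DAlg.D_smul {u : P → ℂ} (j : κ) (c : ℂ) (hu : S.Sm u) :
    S.D j (fun p => c * u p) = fun p => c * S.D j u p := by
  have h := S.D_mul j (S.sm_const c) hu
  rw [S.D_const] at h
  have e : ((fun _ : P => c) * u) = fun p => c * u p := rfl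
  rw [e] at h
  rw [h]
  funext p
  simp

theorem DAlg.D_neg {u : P → ℂ} (j : κ) (hu : S.Sm u) : S.D j (-u) = -S.D j u := by
  have h := S.D_smul j (-1) hu
  have e : (fun p => (-1 : ℂ) * u p) = -u := by
    funext p
    simp
  rw [e] at h
  rw [h]
  funext p
  simp

theorem DAlg.D_sub {u v : P → ℂ} (j : κ) (hu : S.Sm u) (hv : S.Sm v) :
    S.D j (u - v) = S.D j u - S.D j v := by
  rw [sub_eq_add_neg, S.D_add j hu (S.sm_neg hv), S.D_neg j hv, sub_eq_add_neg]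

theorem DAlg.D_sum {ι : Type*} {A : Finset ι} {u : ι → P → ℂ} (j : κ)
    (hu : ∀ a ∈ A, S.Sm (u a)) : S.D j (∑ a ∈ A, u a) = ∑ a ∈ A, S.D j (u a) := by
  classical
  induction A using Finset.induction_on with
  | empty => simpa using S.D_zero j
  | insert a A ha ih =>
    have h1 : ∀ b ∈ A, S.Sm (u b) := fun b hb => hu b (Finset.mem_insert_of_mem hb)
    rw [Finset.sum_insert ha, Finset.sum_insert ha,
      S.D_add j (hu a (Finset.mem_insert_self a A)) (S.sm_sum h1), ih h1]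

theorem DAlg.D_sum' {ι : Type*} {A : Finset ι} {u : ι → P → ℂ} (j : κ)
    (hu : ∀ a ∈ A, S.Sm (u a)) :
    S.D j (fun p => ∑ a ∈ A, u a p) = fun p => ∑ a ∈ A, S.D j (u a) p := by
  have e : (∑ a ∈ A, u a) = fun p => ∑ a ∈ A, u a p := by
    funext p
    exact Finset.sum_apply p A u
  have h := S.D_sum j hu
  rw [e] at h
  rw [h]
  funext p
  exact Finset.sum_apply p A _

/-! pointwise versions -/

theorem DAlg.D_const_apply (j : κ) (c : ℂ) (p : P) : S.D j (fun _ => c) p = 0 := by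
  rw [S.D_const]
  rfl

theorem DAlg.D_add_apply {u v : P → ℂ} (j : κ) (hu : S.Sm u) (hv : S.Sm v) (p : P) :
    S.D j (u + v) p = S.D j u p + S.D j v p := by
  rw [S.D_add j hu hv]
  rfl

theorem DAlg.D_sub_apply {u v : P → ℂ} (j : κ) (hu : S.Sm u) (hv : S.Sm v) (p : P) :
    S.D j (u - v) p = S.D j u p - S.D j v p := by
  rw [S.D_sub j hu hv]
  rfl

theorem DAlg.D_neg_apply {u : P → ℂ} (j : κ) (hu : S.Sm u) (p : P) :
    S.D j (-u) p = -S.D j u p := by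
  rw [S.D_neg j hu]
  rfl

theorem DAlg.D_mul_apply {u v : P → ℂ} (j : κ) (hu : S.Sm u) (hv : S.Sm v) (p : P) :
    S.D j (u * v) p = S.D j u p * v p + u p * S.D j v p := by
  rw [S.D_mul j hu hv]
  rfl

theorem DAlg.D_smul_apply {u : P → ℂ} (j : κ) (c : ℂ) (hu : S.Sm u) (p : P) :
    S.D j (fun p => c * u p) p = c * S.D j u p := by
  rw [S.D_smul j c hu]

theorem DAlg.D_conj_apply {u : P → ℂ} (j : κ) (hu : S.Sm u) (p : P) :
    S.D j (fun p => (starRingEnd ℂ) (u p)) p = (starRingEnd ℂ) (S.D j u p) := by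
  rw [S.D_conj j hu]

theorem DAlg.D_sum_apply {ι : Type*} {A : Finset ι} {u : ι → P → ℂ} (j : κ)
    (hu : ∀ a ∈ A, S.Sm (u a)) (p : P) :
    S.D j (fun p => ∑ a ∈ A, u a p) p = ∑ a ∈ A, S.D j (u a) p := by
  rw [S.D_sum' j hu]

theorem DAlg.D_dir [Fintype κ] {c : κ → P → ℂ} {u : P → ℂ} (j : κ) (hc : ∀ l, S.Sm (c l))
    (hu : S.Sm u) (p : P) :
    S.D j (S.dir c u) p
      = S.dir (fun l => S.D j (c l)) u p + ∑ l, c l p * S.D j (S.D l u) p := by
  have h : S.D j (S.dir c u) p = ∑ l, S.D j (c l * S.D l u) p :=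
    S.D_sum_apply (A := Finset.univ) (u := fun l => c l * S.D l u) j
      (fun l _ => S.sm_mul (hc l) (S.sm_D l hu)) p
  rw [h]
  simp only [DAlg.dir]
  rw [← Finset.sum_add_distrib]
  exact Finset.sum_congr rfl fun l _ => S.D_mul_apply j (hc l) (S.sm_D l hu) p

section dirlin

variable [Fintype κ] {c c' : κ → P → ℂ} {u v : P → ℂ}

theorem DAlg.dir_add (hu : S.Sm u) (hv : S.Sm v) (p : P) :
    S.dir c (u + v) p = S.dir c u p + S.dir c v p := by
  simp only [DAlg.dir]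
  rw [← Finset.sum_add_distrib]
  exact Finset.sum_congr rfl fun j _ => by rw [S.D_add_apply j hu hv, mul_add]

theorem DAlg.dir_sub (hu : S.Sm u) (hv : S.Sm v) (p : P) :
    S.dir c (u - v) p = S.dir c u p - S.dir c v p := by
  simp only [DAlg.dir]
  rw [← Finset.sum_sub_distrib]
  exact Finset.sum_congr rfl fun j _ => by rw [S.D_sub_apply j hu hv, mul_sub]

theorem DAlg.dir_mul (hu : S.Sm u) (hv : S.Sm v) (p : P) :
    S.dir c (u * v) p = S.dir c u p * v p + u p * S.dir c v p := by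
  simp only [DAlg.dir]
  rw [Finset.sum_mul, Finset.mul_sum, ← Finset.sum_add_distrib]
  refine Finset.sum_congr rfl fun j _ => ?_
  rw [S.D_mul_apply j hu hv]
  ring

theorem DAlg.dir_smul (a : ℂ) (hu : S.Sm u) (p : P) :
    S.dir c (fun p => a * u p) p = a * S.dir c u p := by
  simp only [DAlg.dir]
  rw [Finset.mul_sum]
  refine Finset.sum_congr rfl fun j _ => ?_
  rw [S.D_smul_apply j a hu]
  ring

end dirlin

/-! ### words -/

@[simp] theorem DAlg.wd_nil (u : P → ℂ) : S.wd [] u = u := rfl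

@[simp] theorem DAlg.wd_cons (j : κ) (w : List κ) (u : P → ℂ) :
    S.wd (j :: w) u = S.D j (S.wd w u) := rfl

theorem DAlg.wd_append (w w' : List κ) (u : P → ℂ) :
    S.wd (w ++ w') u = S.wd w (S.wd w' u) := by
  induction w with
  | nil => rfl
  | cons j w ih => rw [List.cons_append, S.wd_cons, ih, S.wd_cons]

theorem DAlg.wd_snoc (w : List κ) (j : κ) (u : P → ℂ) :
    S.wd (w ++ [j]) u = S.wd w (S.D j u) := S.wd_append w [j] u

theorem DAlg.wd_zero (w : List κ) : S.wd w 0 = 0 := by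
  induction w with
  | nil => rfl
  | cons j w ih => rw [S.wd_cons, ih, S.D_zero]

theorem DAlg.wd_const (w : List κ) (hw : w ≠ []) (c : ℂ) : S.wd w (fun _ => c) = 0 := by
  induction w with
  | nil => exact absurd rfl hw
  | cons j w ih =>
    rw [S.wd_cons]
    by_cases h : w = []
    · subst h
      exact S.D_const j c
    · rw [ih h, S.D_zero]

theorem DAlg.wd_add (w : List κ) {u v : P → ℂ} (hu : S.Sm u) (hv : S.Sm v) :
    S.wd w (u + v) = S.wd w u + S.wd w v := by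
  induction w with
  | nil => rfl
  | cons j w ih =>
    rw [S.wd_cons, ih, S.D_add j (S.sm_wd w hu) (S.sm_wd w hv)]
    rfl

theorem DAlg.wd_neg (w : List κ) {u : P → ℂ} (hu : S.Sm u) : S.wd w (-u) = -S.wd w u := by
  induction w with
  | nil => rfl
  | cons j w ih =>
    rw [S.wd_cons, ih, S.D_neg j (S.sm_wd w hu)]
    rfl

theorem DAlg.wd_sub (w : List κ) {u v : P → ℂ} (hu : S.Sm u) (hv : S.Sm v) :
    S.wd w (u - v) = S.wd w u - S.wd w v := by
  rw [sub_eq_add_neg, S.wd_add w hu (S.sm_neg hv), S.wd_neg w hv, sub_eq_add_neg]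

theorem DAlg.wd_smul (w : List κ) (c : ℂ) {u : P → ℂ} (hu : S.Sm u) :
    S.wd w (fun p => c * u p) = fun p => c * S.wd w u p := by
  induction w with
  | nil => rfl
  | cons j w ih =>
    rw [S.wd_cons, ih, S.D_smul j c (S.sm_wd w hu)]
    rfl

theorem DAlg.wd_conj (w : List κ) {u : P → ℂ} (hu : S.Sm u) :
    S.wd w (fun p => (starRingEnd ℂ) (u p)) = fun p => (starRingEnd ℂ) (S.wd w u p) := by
  induction w with
  | nil => rfl
  | cons j w ih =>
    rw [S.wd_cons, ih, S.D_conj j (S.sm_wd w hu)]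
    rfl

theorem DAlg.wd_sum {ι : Type*} {A : Finset ι} {u : ι → P → ℂ} (w : List κ)
    (hu : ∀ a ∈ A, S.Sm (u a)) : S.wd w (∑ a ∈ A, u a) = ∑ a ∈ A, S.wd w (u a) := by
  induction w with
  | nil => rfl
  | cons j w ih =>
    rw [S.wd_cons, ih, S.D_sum j fun a ha => S.sm_wd w (hu a ha)]
    rfl

theorem DAlg.wd_sum' {ι : Type*} {A : Finset ι} {u : ι → P → ℂ} (w : List κ)
    (hu : ∀ a ∈ A, S.Sm (u a)) (p : P) :
    S.wd w (fun p => ∑ a ∈ A, u a p) p = ∑ a ∈ A, S.wd w (u a) p := by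
  have e : (∑ a ∈ A, u a) = fun p => ∑ a ∈ A, u a p := by
    funext p
    exact Finset.sum_apply p A u
  have h := S.wd_sum w hu
  rw [e] at h
  rw [h]
  exact Finset.sum_apply p A _

/-- real valued functions have real valued derivatives -/
theorem DAlg.rl_D {u : P → ℂ} (j : κ) (hu : S.Sm u) (hr : Rl u) : Rl (S.D j u) := by
  have e : (fun p => (starRingEnd ℂ) (u p)) = u := by
    funext p
    exact Complex.conj_eq_iff_im.2 (hr p)
  have h := S.D_conj j hu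
  rw [e] at h
  intro p
  exact Complex.conj_eq_iff_im.1 (congrFun h p).symm

end Sm

/-! ### real valued functions -/

theorem Rl.add {u v : P → ℂ} (hu : Rl u) (hv : Rl v) : Rl (u + v) := fun p => by
  rw [Pi.add_apply, Complex.add_im, hu p, hv p, add_zero]

theorem Rl.neg {u : P → ℂ} (hu : Rl u) : Rl (-u) := fun p => by
  rw [Pi.neg_apply, Complex.neg_im, hu p, neg_zero]

theorem Rl.sub {u v : P → ℂ} (hu : Rl u) (hv : Rl v) : Rl (u - v) := fun p => by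
  rw [Pi.sub_apply, Complex.sub_im, hu p, hv p, sub_zero]

theorem Rl.mul {u v : P → ℂ} (hu : Rl u) (hv : Rl v) : Rl (u * v) := fun p => by
  rw [Pi.mul_apply, Complex.mul_im, hu p, hv p, mul_zero, zero_mul, add_zero]

theorem Rl.const {c : ℂ} (hc : c.im = 0) : Rl (fun _ : P => c) := fun _ => hc

theorem Rl.ofReal (f : P → ℝ) : Rl (fun p => (f p : ℂ)) := fun p => Complex.ofReal_im (f p)

theorem Rl.smul {u : P → ℂ} {c : ℂ} (hc : c.im = 0) (hu : Rl u) : Rl (fun p => c * u p) :=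
  (Rl.const hc).mul hu

theorem Rl.sum {ι : Type*} {A : Finset ι} {u : ι → P → ℂ} (hu : ∀ a ∈ A, Rl (u a)) :
    Rl (fun p => ∑ a ∈ A, u a p) := fun p => by
  rw [Complex.im_sum]
  exact Finset.sum_eq_zero fun a ha => hu a ha p

theorem Rl.dir [Fintype κ] {S : DAlg P κ} {c : κ → P → ℂ} {u : P → ℂ} (hc : ∀ j, Rl (c j))
    (hu : S.Sm u) (hr : Rl u) : Rl (S.dir c u) :=
  Rl.sum (A := Finset.univ) (u := fun j => c j * S.D j u) fun j _ => (hc j).mul (S.rl_D j hu hr)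

theorem Rl.dot {X Y : Fin 4 → P → ℂ} (hX : ∀ a, Rl (X a)) (hY : ∀ a, Rl (Y a)) :
    Rl (dot X Y) :=
  Rl.sum (A := Finset.univ) (u := fun a => X a * Y a) fun a _ => (hX a).mul (hY a)

theorem Rl.ofReal_re {u : P → ℂ} (hu : Rl u) (p : P) : ((u p).re : ℂ) = u p :=
  Complex.ext (by simp) (by simp [hu p])

/-! ### one function: `Bd` and `Nb` -/

section Bd

variable {S : DAlg P κ} {μ μ' C C' : ℝ} {k k' : ℕ} {u v : P → ℂ}

theorem DAlg.Bd.mono (h : S.Bd μ k C u) (hμ : 0 ≤ μ) (hC : C ≤ C') : S.Bd μ k C' u :=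
  fun w hw p => (h w hw p).trans (mul_le_mul_of_nonneg_right hC (pow_nonneg hμ _))

theorem DAlg.Bd.mono_k (h : S.Bd μ k C u) (hk : k' ≤ k) : S.Bd μ k' C u :=
  fun w hw p => h w (hw.trans hk) p

theorem DAlg.Bd.mono_mu (h : S.Bd μ k C u) (hμ : 0 ≤ μ) (hμ' : μ ≤ μ') (hC : 0 ≤ C) :
    S.Bd μ' k C u :=
  fun w hw p => (h w hw p).trans (mul_le_mul_of_nonneg_left (pow_le_pow_left₀ hμ hμ' _) hC)

theorem DAlg.Bd.apply (h : S.Bd μ k C u) (p : P) : ‖u p‖ ≤ C := by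
  have := h [] (Nat.zero_le _) p
  simpa using this

theorem DAlg.Bd.add (hu : S.Sm u) (hv : S.Sm v) (h : S.Bd μ k C u) (h' : S.Bd μ k C' v) :
    S.Bd μ k (C + C') (u + v) := fun w hw p => by
  rw [S.wd_add w hu hv, Pi.add_apply, add_mul]
  exact (norm_add_le _ _).trans (add_le_add (h w hw p) (h' w hw p))

theorem DAlg.Bd.neg (hu : S.Sm u) (h : S.Bd μ k C u) : S.Bd μ k C (-u) := fun w hw p => by
  rw [S.wd_neg w hu, Pi.neg_apply, norm_neg]
  exact h w hw p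

theorem DAlg.Bd.sub (hu : S.Sm u) (hv : S.Sm v) (h : S.Bd μ k C u) (h' : S.Bd μ k C' v) :
    S.Bd μ k (C + C') (u - v) := fun w hw p => by
  rw [S.wd_sub w hu hv, Pi.sub_apply, add_mul]
  exact (norm_sub_le _ _).trans (add_le_add (h w hw p) (h' w hw p))

theorem DAlg.Bd.conj (hu : S.Sm u) (h : S.Bd μ k C u) :
    S.Bd μ k C (fun p => (starRingEnd ℂ) (u p)) := fun w hw p => by
  rw [S.wd_conj w hu, RCLike.norm_conj]
  exact h w hw p

theorem DAlg.Bd.smul (hu : S.Sm u) (h : S.Bd μ k C u) (c : ℂ) {r : ℝ} (hc : ‖c‖ ≤ r) :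
    S.Bd μ k (r * C) (fun p => c * u p) := fun w hw p => by
  rw [S.wd_smul w c hu, norm_mul, mul_assoc]
  exact mul_le_mul hc (h w hw p) (norm_nonneg _) ((norm_nonneg _).trans hc)

theorem DAlg.Bd.D (j : κ) (h : S.Bd μ (k + 1) C u) : S.Bd μ k (C * μ) (S.D j u) :=
  fun w hw p => by
  have h1 := h (w ++ [j]) (by simpa using hw) p
  rw [S.wd_snoc, List.length_append, List.length_singleton, pow_succ] at h1
  calc ‖S.wd w (S.D j u) p‖ ≤ C * (μ ^ w.length * μ) := h1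
    _ = C * μ * μ ^ w.length := by ring

theorem DAlg.Bd.mul (hu : S.Sm u) (hv : S.Sm v) (h : S.Bd μ k C u) (h' : S.Bd μ k C' v) :
    S.Bd μ k (2 ^ k * (C * C')) (u * v) := by
  induction k generalizing u v C C' with
  | zero =>
    intro w hw p
    have hw0 : w = [] := List.length_eq_zero_iff.1 (Nat.le_zero.1 hw)
    subst hw0
    simp only [S.wd_nil, Pi.mul_apply, List.length_nil, pow_zero, mul_one, one_mul, norm_mul]
    exact mul_le_mul (h.apply p) (h'.apply p) (norm_nonneg _)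
      ((norm_nonneg _).trans (h.apply p))
  | succ k ih =>
    intro w hw p
    rcases List.eq_nil_or_concat w with rfl | ⟨w', j, rfl⟩
    · simp only [S.wd_nil, Pi.mul_apply, List.length_nil, pow_zero, mul_one, norm_mul]
      have hu0 := (norm_nonneg _).trans (h.apply p)
      have hv0 := (norm_nonneg _).trans (h'.apply p)
      have h1 : ‖u p‖ * ‖v p‖ ≤ C * C' :=
        mul_le_mul (h.apply p) (h'.apply p) (norm_nonneg _) hu0
      have h2 : (1 : ℝ) ≤ 2 ^ (k + 1) := one_le_pow₀ one_le_two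
      linarith only [mul_nonneg (sub_nonneg.2 h2) (sub_nonneg.2 (mul_nonneg hu0 hv0)), h1]
    · rw [List.concat_eq_append] at hw ⊢
      have hw' : w'.length ≤ k := by simpa using hw
      rw [S.wd_snoc, S.D_mul j hu hv,
        S.wd_add w' (S.sm_mul (S.sm_D j hu) hv) (S.sm_mul hu (S.sm_D j hv)), Pi.add_apply,
        List.length_append, List.length_singleton]
      have e1 := ih (S.sm_D j hu) hv (h.D j) (h'.mono_k (Nat.le_succ k)) w' hw' p
      have e2 := ih hu (S.sm_D j hv) (h.mono_k (Nat.le_succ k)) (h'.D j) w' hw' p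
      calc ‖S.wd w' (S.D j u * v) p + S.wd w' (u * S.D j v) p‖
          ≤ 2 ^ k * (C * μ * C') * μ ^ w'.length + 2 ^ k * (C * (C' * μ)) * μ ^ w'.length :=
            (norm_add_le _ _).trans (add_le_add e1 e2)
        _ = 2 ^ (k + 1) * (C * C') * μ ^ (w'.length + 1) := by ring

theorem DAlg.Bd.const (c : ℂ) (hμ : 0 ≤ μ) (hc : ‖c‖ ≤ C) : S.Bd μ k C (fun _ : P => c) :=
  fun w _ p => by
  by_cases h : w = []
  · subst h
    simpa using hc
  · rw [S.wd_const w h, Pi.zero_apply, norm_zero]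
    exact mul_nonneg ((norm_nonneg _).trans hc) (pow_nonneg hμ _)

theorem DAlg.Nb.bd (h : S.Nb k C u) : S.Bd 1 k C u := fun w hw p => by
  simpa using h w hw p

theorem DAlg.Bd.nb' (h : S.Bd 1 k C u) : S.Nb k C u := fun w hw p => by
  simpa using h w hw p

theorem DAlg.Nb.mul (hu : S.Sm u) (hv : S.Sm v) (h : S.Nb k C u) (h' : S.Nb k C' v) :
    S.Nb k (2 ^ k * (C * C')) (u * v) := (h.bd.mul hu hv h'.bd).nb'

end Bd

/-! ### families: `FO` -/

section FO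

variable {S : DAlg P κ} {ι : Type*} {μ μ' s s' r : ι → ℝ} {u v : ι → P → ℂ}

theorem DAlg.FO.sm (hu : S.FO μ s u) (i : ι) : S.Sm (u i) := hu.1 i

/-- pointwise bound -/
theorem DAlg.FO.apply (hu : S.FO μ s u) : ∃ C : ℝ, 0 ≤ C ∧ ∀ i p, ‖u i p‖ ≤ C * s i := by
  obtain ⟨C, hC, h⟩ := hu.2 0
  exact ⟨C, hC, fun i p => (h i).apply p⟩

theorem DAlg.FO.congr (hu : S.FO μ s u) (h : ∀ i p, u i p = v i p) : S.FO μ s v := by
  have e : u = v := funext fun i => funext fun p => h i p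
  rwa [e] at hu

theorem DAlg.FO.congr_s (hu : S.FO μ s u) (h : ∀ i, s i = s' i) : S.FO μ s' u := by
  have e : s = s' := funext h
  rwa [e] at hu

theorem DAlg.FO.congr_mu (hu : S.FO μ s u) (h : ∀ i, μ i = μ' i) : S.FO μ' s u := by
  have e : μ = μ' := funext h
  rwa [e] at hu

theorem DAlg.FO.add (hu : S.FO μ s u) (hv : S.FO μ s v) : S.FO μ s (fun i => u i + v i) := by
  refine ⟨fun i => S.sm_add (hu.1 i) (hv.1 i), fun k => ?_⟩
  obtain ⟨C, hC, h⟩ := hu.2 k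
  obtain ⟨C', hC', h'⟩ := hv.2 k
  refine ⟨C + C', add_nonneg hC hC', fun i => ?_⟩
  rw [add_mul]
  exact (h i).add (hu.1 i) (hv.1 i) (h' i)

theorem DAlg.FO.neg (hu : S.FO μ s u) : S.FO μ s (fun i => -u i) := by
  refine ⟨fun i => S.sm_neg (hu.1 i), fun k => ?_⟩
  obtain ⟨C, hC, h⟩ := hu.2 k
  exact ⟨C, hC, fun i => (h i).neg (hu.1 i)⟩

theorem DAlg.FO.sub (hu : S.FO μ s u) (hv : S.FO μ s v) : S.FO μ s (fun i => u i - v i) := by
  refine ⟨fun i => S.sm_sub (hu.1 i) (hv.1 i), fun k => ?_⟩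
  obtain ⟨C, hC, h⟩ := hu.2 k
  obtain ⟨C', hC', h'⟩ := hv.2 k
  refine ⟨C + C', add_nonneg hC hC', fun i => ?_⟩
  rw [add_mul]
  exact (h i).sub (hu.1 i) (hv.1 i) (h' i)

theorem DAlg.FO.conj (hu : S.FO μ s u) :
    S.FO μ s (fun i p => (starRingEnd ℂ) (u i p)) := by
  refine ⟨fun i => S.sm_conj (hu.1 i), fun k => ?_⟩
  obtain ⟨C, hC, h⟩ := hu.2 k
  exact ⟨C, hC, fun i => (h i).conj (hu.1 i)⟩

theorem DAlg.FO.zero : S.FO μ s (fun _ => 0) := by
  refine ⟨fun _ => S.sm_zero, fun k => ⟨0, le_rfl, fun i w _ p => ?_⟩⟩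
  rw [S.wd_zero]
  simp

theorem DAlg.FO.sum {α : Type*} {A : Finset α} {u : α → ι → P → ℂ}
    (hu : ∀ a ∈ A, S.FO μ s (u a)) : S.FO μ s (fun i => ∑ a ∈ A, u a i) := by
  classical
  induction A using Finset.induction_on with
  | empty => simpa using (DAlg.FO.zero (S := S) (μ := μ) (s := s))
  | insert a A ha ih =>
    have h := (hu a (Finset.mem_insert_self a A)).add
      (ih fun b hb => hu b (Finset.mem_insert_of_mem hb))
    refine h.congr fun i p => ?_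
    rw [Finset.sum_insert ha]

/-- version of `FO.sum` with the sum inside -/
theorem DAlg.FO.sum' {α : Type*} {A : Finset α} {u : α → ι → P → ℂ}
    (hu : ∀ a ∈ A, S.FO μ s (u a)) : S.FO μ s (fun i p => ∑ a ∈ A, u a i p) :=
  (DAlg.FO.sum hu).congr fun _ p => Finset.sum_apply p A _

theorem DAlg.FO.mul (hu : S.FO μ s u) (hv : S.FO μ s' v) :
    S.FO μ (fun i => s i * s' i) (fun i => u i * v i) := by
  refine ⟨fun i => S.sm_mul (hu.1 i) (hv.1 i), fun k => ?_⟩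
  obtain ⟨C, hC, h⟩ := hu.2 k
  obtain ⟨C', hC', h'⟩ := hv.2 k
  refine ⟨2 ^ k * (C * C'), by positivity, fun i => ?_⟩
  have e : 2 ^ k * (C * C') * (s i * s' i) = 2 ^ k * (C * s i * (C' * s' i)) := by ring
  rw [e]
  exact (h i).mul (hu.1 i) (hv.1 i) (h' i)

theorem DAlg.FO.D (j : κ) (hu : S.FO μ s u) :
    S.FO μ (fun i => s i * μ i) (fun i => S.D j (u i)) := by
  refine ⟨fun i => S.sm_D j (hu.1 i), fun k => ?_⟩
  obtain ⟨C, hC, h⟩ := hu.2 (k + 1)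
  refine ⟨C, hC, fun i => ?_⟩
  rw [← mul_assoc]
  exact (h i).D j

/-- constants -/
theorem DAlg.FO.cst {c : ι → ℂ} {C : ℝ} (hc : ∀ i, ‖c i‖ ≤ C * s i) (hs : ∀ i, 0 ≤ s i)
    (hμ : ∀ i, 0 ≤ μ i) : S.FO μ s (fun i _ => c i) := by
  refine ⟨fun i => S.sm_const (c i), fun k => ⟨|C|, abs_nonneg C, fun i => ?_⟩⟩
  exact DAlg.Bd.const (c i) (hμ i)
    ((hc i).trans (mul_le_mul_of_nonneg_right (le_abs_self C) (hs i)))

/-- a fixed constant -/
theorem DAlg.FO.const (c : ℂ) (hμ : ∀ i, 0 ≤ μ i) : S.FO μ (fun _ => 1) (fun _ _ => c) :=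
  DAlg.FO.cst (C := ‖c‖) (fun _ => by simp) (fun _ => zero_le_one) hμ

theorem DAlg.FO.smul {c : ι → ℂ} {C : ℝ} (hc : ∀ i, ‖c i‖ ≤ C * r i) (hr : ∀ i, 0 ≤ r i)
    (hu : S.FO μ s u) : S.FO μ (fun i => r i * s i) (fun i p => c i * u i p) := by
  refine ⟨fun i => S.sm_smul (c i) (hu.1 i), fun k => ?_⟩
  obtain ⟨C', hC', h⟩ := hu.2 k
  refine ⟨|C| * C', by positivity, fun i => ?_⟩
  have e : |C| * C' * (r i * s i) = |C| * r i * (C' * s i) := by ring
  rw [e]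
  exact (h i).smul (hu.1 i) (c i)
    ((hc i).trans (mul_le_mul_of_nonneg_right (le_abs_self C) (hr i)))

/-- multiplication by one fixed constant -/
theorem DAlg.FO.const_mul (c : ℂ) (hu : S.FO μ s u) : S.FO μ s (fun i p => c * u i p) :=
  (DAlg.FO.smul (r := fun _ => 1) (c := fun _ => c) (C := ‖c‖) (fun _ => by simp)
    (fun _ => zero_le_one) hu).congr_s fun i => one_mul (s i)

/-- multiplication by a real number depending on the index -/
theorem DAlg.FO.real_mul (hr : ∀ i, 0 ≤ r i) (hu : S.FO μ s u) :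
    S.FO μ (fun i => r i * s i) (fun i p => (r i : ℂ) * u i p) :=
  DAlg.FO.smul (C := 1) (fun i => by rw [Complex.norm_real, Real.norm_eq_abs,
    abs_of_nonneg (hr i), one_mul]) hr hu

theorem DAlg.FO.mono_s {C : ℝ} (hu : S.FO μ s u) (h : ∀ i, s i ≤ C * s' i)
    (hs' : ∀ i, 0 ≤ s' i) (hμ : ∀ i, 0 ≤ μ i) : S.FO μ s' u := by
  refine ⟨hu.1, fun k => ?_⟩
  obtain ⟨C', hC', h'⟩ := hu.2 k
  refine ⟨C' * |C|, by positivity, fun i => (h' i).mono (hμ i) ?_⟩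
  rw [mul_assoc]
  exact mul_le_mul_of_nonneg_left
    ((h i).trans (mul_le_mul_of_nonneg_right (le_abs_self C) (hs' i))) hC'

theorem DAlg.FO.mono_s' (hu : S.FO μ s u) (h : ∀ i, s i ≤ s' i) (hμ : ∀ i, 0 ≤ μ i) :
    S.FO μ s' u := by
  refine ⟨hu.1, fun k => ?_⟩
  obtain ⟨C', hC', h'⟩ := hu.2 k
  exact ⟨C', hC', fun i => (h' i).mono (hμ i) (mul_le_mul_of_nonneg_left (h i) hC')⟩

theorem DAlg.FO.mono_mu (hu : S.FO μ s u) (h : ∀ i, μ i ≤ μ' i) (hμ : ∀ i, 0 ≤ μ i)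
    (hs : ∀ i, 0 ≤ s i) : S.FO μ' s u := by
  refine ⟨hu.1, fun k => ?_⟩
  obtain ⟨C', hC', h'⟩ := hu.2 k
  exact ⟨C', hC', fun i => (h' i).mono_mu (hμ i) (h i) (mul_nonneg hC' (hs i))⟩

/-- restriction / reindexing of a family -/
theorem DAlg.FO.reindex {ι' : Type*} (f : ι' → ι) (hu : S.FO μ s u) :
    S.FO (fun i => μ (f i)) (fun i => s (f i)) (fun i => u (f i)) :=
  ⟨fun i => hu.1 (f i), fun k => by
    obtain ⟨C, hC, h⟩ := hu.2 k
    exact ⟨C, hC, fun i => h (f i)⟩⟩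

theorem DAlg.FO.dot {X Y : ι → Fin 4 → P → ℂ} (hX : ∀ a, S.FO μ s (fun i => X i a))
    (hY : ∀ a, S.FO μ s' (fun i => Y i a)) :
    S.FO μ (fun i => s i * s' i) (fun i => dot (X i) (Y i)) :=
  DAlg.FO.sum' (S := S) (A := (Finset.univ : Finset (Fin 4))) (u := fun a i => X i a * Y i a)
    fun a _ => (hX a).mul (hY a)

end FO

/-! ### supports: `Zs` -/

section Zs

variable {S : DAlg P κ} {K K' : Set P} {u v : P → ℂ}

theorem DAlg.Zs.apply (h : S.Zs K u) {p : P} (hp : p ∉ K) : u p = 0 := h [] p hp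

theorem DAlg.Zs.D (j : κ) (h : S.Zs K u) : S.Zs K (S.D j u) := fun w p hp => by
  rw [← S.wd_snoc]
  exact h _ p hp

theorem DAlg.Zs.add (hu : S.Sm u) (hv : S.Sm v) (h : S.Zs K u) (h' : S.Zs K v) :
    S.Zs K (u + v) := fun w p hp => by
  rw [S.wd_add w hu hv, Pi.add_apply, h w p hp, h' w p hp, add_zero]

theorem DAlg.Zs.sub (hu : S.Sm u) (hv : S.Sm v) (h : S.Zs K u) (h' : S.Zs K v) :
    S.Zs K (u - v) := fun w p hp => by
  rw [S.wd_sub w hu hv, Pi.sub_apply, h w p hp, h' w p hp, sub_zero]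

theorem DAlg.Zs.smul (hu : S.Sm u) (c : ℂ) (h : S.Zs K u) : S.Zs K (fun p => c * u p) :=
  fun w p hp => by
  rw [S.wd_smul w c hu]
  change c * S.wd w u p = 0
  rw [h w p hp, mul_zero]

theorem DAlg.Zs.conj (hu : S.Sm u) (h : S.Zs K u) :
    S.Zs K (fun p => (starRingEnd ℂ) (u p)) := fun w p hp => by
  rw [S.wd_conj w hu]
  change (starRingEnd ℂ) (S.wd w u p) = 0
  rw [h w p hp, map_zero]

/-- one factor suffices (the left one) -/
theorem DAlg.Zs.mul_left (hu : S.Sm u) (hv : S.Sm v) (h : S.Zs K u) : S.Zs K (u * v) := by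
  intro w
  induction w using List.reverseRecOn generalizing u v with
  | nil =>
    intro p hp
    rw [S.wd_nil, Pi.mul_apply, h.apply hp, zero_mul]
  | append_singleton w j ih =>
    intro p hp
    rw [S.wd_snoc, S.D_mul j hu hv,
      S.wd_add w (S.sm_mul (S.sm_D j hu) hv) (S.sm_mul hu (S.sm_D j hv)), Pi.add_apply,
      ih (S.sm_D j hu) hv (h.D j) p hp, ih hu (S.sm_D j hv) h p hp, add_zero]

/-- one factor suffices (the right one) -/
theorem DAlg.Zs.mul_right (hu : S.Sm u) (hv : S.Sm v) (h : S.Zs K v) : S.Zs K (u * v) := by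
  rw [mul_comm]
  exact DAlg.Zs.mul_left hv hu h

theorem DAlg.Zs.sum' {ι : Type*} {A : Finset ι} {u : ι → P → ℂ} (hu : ∀ a ∈ A, S.Sm (u a))
    (h : ∀ a ∈ A, S.Zs K (u a)) : S.Zs K (fun p => ∑ a ∈ A, u a p) := fun w p hp => by
  rw [S.wd_sum' w hu]
  exact Finset.sum_eq_zero fun a ha => h a ha w p hp

theorem DAlg.Zs.dot_left {X Y : Fin 4 → P → ℂ} (hX : ∀ a, S.Sm (X a)) (hY : ∀ a, S.Sm (Y a))
    (h : ∀ a, S.Zs K (X a)) : S.Zs K (dot X Y) :=
  DAlg.Zs.sum' (A := Finset.univ) (u := fun a => X a * Y a)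
    (fun a _ => S.sm_mul (hX a) (hY a)) fun a _ => DAlg.Zs.mul_left (hX a) (hY a) (h a)

theorem DAlg.Zs.dot_right {X Y : Fin 4 → P → ℂ} (hX : ∀ a, S.Sm (X a)) (hY : ∀ a, S.Sm (Y a))
    (h : ∀ a, S.Zs K (Y a)) : S.Zs K (dot X Y) :=
  DAlg.Zs.sum' (A := Finset.univ) (u := fun a => X a * Y a)
    (fun a _ => S.sm_mul (hX a) (hY a)) fun a _ => DAlg.Zs.mul_right (hX a) (hY a) (h a)

end Zs

end Vale.Agent.P205.F
end

section

/-!
The cut-off chart fields span; completeness of the differential function space.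
-/

noncomputable section

set_option linter.unusedSectionVars false

open scoped Manifold ContDiff Topology
open Set Filter

namespace Vale.Agent.P205.F

namespace Cov

variable {E : Type*} [NormedAddCommGroup E] [NormedSpace ℝ E]
  {M : Type*} [TopologicalSpace M] [ChartedSpace E M] [IsManifold 𝓘(ℝ, E) ∞ M]
  (K : Cov E M) {A : Type*} [Fintype A] (b : Module.Basis A ℝ E)
  {F : Type*} [NormedAddCommGroup F] [NormedSpace ℝ F]

/-- the fields of one chart span, up to the cut-off -/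
theorem X_span {i : Fin K.n} {p : M} (hp : p ∈ (K.ph i).source)
    (ξ : TangentSpace 𝓘(ℝ, E) p) :
    K.χ i p • ξ = ∑ a, (b.repr (mfderiv 𝓘(ℝ, E) 𝓘(ℝ, E) (K.ph i) p ξ : E) a) • K.X b (i, a) p := by
  have h1 := mfderivWithin_extChartAt_symm_comp_mfderiv_extChartAt' (I := 𝓘(ℝ, E)) (x := K.c i) hp
  rw [ModelWithCorners.range_eq_univ, mfderivWithin_univ] at h1
  let T : E →L[ℝ] E := mfderiv 𝓘(ℝ, E) 𝓘(ℝ, E) (K.ph i).symm (K.ph i p)
  let S : E →L[ℝ] E := mfderiv 𝓘(ℝ, E) 𝓘(ℝ, E) (K.ph i) p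
  have h2 : ∀ v : E, T (S v) = v := fun v => DFunLike.congr_fun h1 v
  have key : ∀ (r : ℝ) (v : E), r • v = ∑ a, (b.repr (S v) a) • (r • T (b a) : E) := by
    intro r v
    have h3 : ∑ a, (b.repr (S v) a) • (r • T (b a) : E) =
        r • T (∑ a, (b.repr (S v) a) • b a) := by
      rw [map_sum, Finset.smul_sum]
      refine Finset.sum_congr rfl fun a _ => ?_
      rw [map_smul, smul_comm]
    rw [h3, b.sum_repr, h2]
  exact key (K.χ i p) ξ

/-- on `V i` the derivatives along the fields of the chart `i` determine all derivatives -/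
theorem Dv_span {i : Fin K.n} {p : M} (hp : p ∈ K.V i) (ξ : TangentSpace 𝓘(ℝ, E) p) :
    ∃ c : A → ℝ, ∀ {u : M → F}, ContMDiff 𝓘(ℝ, E) 𝓘(ℝ, F) ∞ u →
      (mfderiv 𝓘(ℝ, E) 𝓘(ℝ, F) u p ξ : F) = ∑ a, c a • K.Dv b (i, a) u p := by
  refine ⟨fun a => b.repr (mfderiv 𝓘(ℝ, E) 𝓘(ℝ, E) (K.ph i) p ξ : E) a, fun {u} hu => ?_⟩
  have h1 := K.X_span b (K.V_sub i hp) ξ
  rw [K.one i p hp, one_smul] at h1
  have h2 : (mfderiv 𝓘(ℝ, E) 𝓘(ℝ, F) u p ξ : F) =
      (mfderiv 𝓘(ℝ, E) 𝓘(ℝ, F) u p : E →L[ℝ] F) ((∑ a, (b.repr (mfderiv 𝓘(ℝ, E) 𝓘(ℝ, E)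
        (K.ph i) p ξ : E) a) • K.X b (i, a) p : TangentSpace 𝓘(ℝ, E) p)) :=
    congrArg _ h1
  rw [h2]
  have key : ∀ (T : E →L[ℝ] F) (r : A → ℝ) (v : A → E),
      T (∑ a, r a • v a) = ∑ a, r a • T (v a) := by
    intro T r v
    rw [map_sum]
    exact Finset.sum_congr rfl fun a _ => map_smul _ _ _
  refine (key _ _ _).trans (Finset.sum_congr rfl fun a _ => ?_)
  rw [K.Dv_eq b hu]
  rfl

theorem Dv_V {i : Fin K.n} {p : M} (hp : p ∈ K.V i) (a : A) (u : M → F) :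
    K.Dv b (i, a) u p = fderiv ℝ (u ∘ (K.ph i).symm) (K.ph i p) (b a) := by
  rw [Dv]
  change K.χ i p • _ = _
  rw [K.one i p hp, one_smul]

end Cov

/-- uniform limits -/
theorem inst_unif {P : Type*} {f : ℕ → P → ℂ} {c : ℕ → ℝ} (hc : Summable c) {q0 : ℕ}
    (h : ∀ q, q0 ≤ q → ∀ p, ‖f (q + 1) p - f q p‖ ≤ c q) :
    ∃ g : P → ℂ, TendstoUniformly f g atTop := by
  have hd : Summable (fun n => c (n + q0)) := (summable_nat_add_iff q0).2 hc
  have h1 : ∀ p n, dist (f (n + q0) p) (f (n.succ + q0) p) ≤ c (n + q0) := by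
    intro p n
    rw [dist_comm, dist_eq_norm]
    have h2 := h (n + q0) (Nat.le_add_left _ _) p
    rwa [show n + q0 + 1 = n.succ + q0 by omega] at h2
  have h2 : ∀ p, ∃ a, Tendsto (fun n => f (n + q0) p) atTop (𝓝 a) := fun p =>
    cauchySeq_tendsto_of_complete (cauchySeq_of_dist_le_of_summable _ (h1 p) hd)
  choose g hg using h2
  refine ⟨g, ?_⟩
  rw [Metric.tendstoUniformly_iff]
  intro ε hε
  have h3 := tendsto_sum_nat_add (fun n => c (n + q0))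
  obtain ⟨N, hN⟩ := eventually_atTop.1 (h3.eventually (gt_mem_nhds hε))
  refine eventually_atTop.2 ⟨N + q0, fun q hq p => ?_⟩
  obtain ⟨m, rfl⟩ : ∃ m, q = m + q0 := ⟨q - q0, by omega⟩
  have h5 := dist_le_tsum_of_dist_le_of_tendsto _ (h1 p) hd (hg p) m
  have h6 := hN m (by omega)
  rw [dist_comm]
  refine lt_of_le_of_lt h5 (lt_of_eq_of_lt ?_ h6)
  exact tsum_congr fun k => by rw [add_comm m k]

end Vale.Agent.P205.F
end
end

section

/-!
The WKB solution of the linearised isometric immersion equation along a ray: definitions.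

`lin X v j k = D_j X · D_k v + D_k X · D_j v`.  For `v = exp(iλΨ) V` with
`V = p P1 + r P2 + s N` supported in `K` the equations `lin X v (t,t) = h 0`,
`(t,w) = h 1`, `(w,w) = h 2` (all with the factor `exp(iλΨ)`) read
`iλ p = h0/2 + X_tt·V - t p`, `iλ r = h1 + (X_wt + X_tw)·V - w p - t r`, `s = w r - h2/2`,
where `X_tt = t(tX)`, `X_wt = w(tX)`, `X_tw = t(wX)`.
-/

noncomputable section

namespace Vale.Agent.P205.F

universe u

variable {P : Type u} {κ : Type} [Fintype κ] (S : DAlg P κ)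

/-- derivative of a vector valued map -/
def DAlg.Dv (j : κ) (X : Fin 4 → P → ℂ) : Fin 4 → P → ℂ := fun a => S.D j (X a)

/-- derivative of a vector valued map along a field -/
def DAlg.dirv (c : κ → P → ℂ) (X : Fin 4 → P → ℂ) : Fin 4 → P → ℂ := fun a => S.dir c (X a)

/-- the linearised metric -/
def DAlg.lin (X v : Fin 4 → P → ℂ) (j k : κ) : P → ℂ :=
  fun p => dot (S.Dv j X) (S.Dv k v) p + dot (S.Dv k X) (S.Dv j v) p

/-- frame along a ray -/
structure Frm (P : Type*) where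
  /-- unit normal, orthogonal to `X_t, X_w, X_ww` -/
  E : Fin 4 → P → ℂ
  /-- dual to `X_ww` -/
  N : Fin 4 → P → ℂ
  /-- dual to `X_t` -/
  P1 : Fin 4 → P → ℂ
  /-- dual to `X_w` -/
  P2 : Fin 4 → P → ℂ

/-- validity of a frame -/
structure Frm.Ok (F : Frm P) (r : Ray P κ) (X : Fin 4 → P → ℂ) : Prop where
  smE : ∀ a, S.Sm (F.E a)
  smN : ∀ a, S.Sm (F.N a)
  smP1 : ∀ a, S.Sm (F.P1 a)
  smP2 : ∀ a, S.Sm (F.P2 a)
  rE : ∀ a, Rl (F.E a)
  rN : ∀ a, Rl (F.N a)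
  rP1 : ∀ a, Rl (F.P1 a)
  rP2 : ∀ a, Rl (F.P2 a)
  EE : ∀ p ∈ r.K, dot F.E F.E p = 1
  Et : ∀ p ∈ r.K, dot F.E (S.dirv r.t X) p = 0
  Ew : ∀ p ∈ r.K, dot F.E (S.dirv r.w X) p = 0
  Eww : ∀ p ∈ r.K, dot F.E (S.dirv r.w (S.dirv r.w X)) p = 0
  Nt : ∀ p ∈ r.K, dot F.N (S.dirv r.t X) p = 0
  Nw : ∀ p ∈ r.K, dot F.N (S.dirv r.w X) p = 0
  Nww : ∀ p ∈ r.K, dot F.N (S.dirv r.w (S.dirv r.w X)) p = 1
  P1t : ∀ p ∈ r.K, dot F.P1 (S.dirv r.t X) p = 1
  P1w : ∀ p ∈ r.K, dot F.P1 (S.dirv r.w X) p = 0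
  P1ww : ∀ p ∈ r.K, dot F.P1 (S.dirv r.w (S.dirv r.w X)) p = 0
  P2t : ∀ p ∈ r.K, dot F.P2 (S.dirv r.t X) p = 0
  P2w : ∀ p ∈ r.K, dot F.P2 (S.dirv r.w X) p = 1
  P2ww : ∀ p ∈ r.K, dot F.P2 (S.dirv r.w (S.dirv r.w X)) p = 0

/-- the vector `V = p P1 + r P2 + s N` of a state `x = (p, r, s)` -/
def Frm.vec (F : Frm P) (x : Fin 3 → P → ℂ) : Fin 4 → P → ℂ :=
  fun a q => x 0 q * F.P1 a q + x 1 q * F.P2 a q + x 2 q * F.N a q

/-- one WKB step; `h = (h_tt, h_tw, h_ww)`, state `x = (p, r, s)` -/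
def DAlg.wstep (lam : ℝ) (r : Ray P κ) (F : Frm P) (X : Fin 4 → P → ℂ) (h x : Fin 3 → P → ℂ) :
    Fin 3 → P → ℂ :=
  let V := F.vec x
  let p' : P → ℂ := fun q => (h 0 q / 2 + dot (S.dirv r.t (S.dirv r.t X)) V q
    - S.dir r.t (x 0) q) / (Complex.I * lam)
  let r' : P → ℂ := fun q => (h 1 q + (dot (S.dirv r.w (S.dirv r.t X)) V q
    + dot (S.dirv r.t (S.dirv r.w X)) V q) - S.dir r.w (x 0) q - S.dir r.t (x 1) q)
      / (Complex.I * lam)
  let s' : P → ℂ := fun q => S.dir r.w r' q - h 2 q / 2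
  ![p', r', s']

/-- the states of the WKB iteration -/
def DAlg.wst (lam : ℝ) (r : Ray P κ) (F : Frm P) (X : Fin 4 → P → ℂ) (h : Fin 3 → P → ℂ) :
    ℕ → Fin 3 → P → ℂ
  | 0 => ![fun _ => 0, fun _ => 0, fun q => - h 2 q / 2]
  | m + 1 => S.wstep lam r F X h (DAlg.wst lam r F X h m)

/-- the WKB approximate solution `W_m(h)` -/
def DAlg.wkb (lam : ℝ) (r : Ray P κ) (F : Frm P) (X : Fin 4 → P → ℂ) (m : ℕ)
    (h : Fin 3 → P → ℂ) : Fin 4 → P → ℂ := F.vec (S.wst lam r F X h m)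

/-- the residual `(tt, tw, ww)` of `W_m(h)` -/
def DAlg.wres (lam : ℝ) (r : Ray P κ) (F : Frm P) (X : Fin 4 → P → ℂ) (m : ℕ)
    (h : Fin 3 → P → ℂ) : Fin 3 → P → ℂ :=
  ![fun q => 2 * (Complex.I * lam) * (S.wst lam r F X h m 0 q - S.wst lam r F X h (m + 1) 0 q),
    fun q => Complex.I * lam * (S.wst lam r F X h m 1 q - S.wst lam r F X h (m + 1) 1 q),
    fun _ => 0]

/-- the tensor with components `h = (tt, tw, ww)` along the ray, in the directions `j, k` -/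
def Ray.ten (r : Ray P κ) (h : Fin 3 → P → ℂ) (j k : κ) : P → ℂ :=
  fun q => S.D j r.Ψ q * S.D k r.Ψ q * h 0 q
    + (S.D j r.Ψ q * r.β k q + r.β j q * S.D k r.Ψ q) * h 1 q + r.β j q * r.β k q * h 2 q

/-- the oscillating factor -/
def osc (lam : ℝ) (Ψ : P → ℂ) : P → ℂ := fun q => Complex.exp (Complex.I * lam * Ψ q)

/-- **(W1)** algebra of the WKB solution -/
def DAlg.WkbAlg : Prop := ∀ (lam : ℝ) (r : Ray P κ) (F : Frm P) (X : Fin 4 → P → ℂ) (m : ℕ)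
    (h : Fin 3 → P → ℂ), lam ≠ 0 → r.Ok S → (∀ a, S.Sm (X a)) → (∀ a, Rl (X a)) →
    F.Ok S r X → (∀ c, S.Sm (h c)) → (∀ c, S.Zs r.K (h c)) →
    (∀ a, S.Sm (S.wkb lam r F X m h a)) ∧ (∀ a, S.Zs r.K (S.wkb lam r F X m h a)) ∧
    ∀ j k q, S.lin X (fun a => osc lam r.Ψ * S.wkb lam r F X m h a) j k q =
      osc lam r.Ψ q * (r.ten S h j k q + r.ten S (S.wres lam r F X m h) j k q)

/-- **(W2')** scale invariant bounds for the WKB solution (USE THIS ONE), families; `1 ≤ b ≤ θ ≤ λ`, `b` is the size of the second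
derivatives of `X` -/
def DAlg.WkbB : Prop := ∀ (ι : Type u) (θ b lam s : ι → ℝ) (r : ι → Ray P κ) (F : ι → Frm P)
    (X : ι → Fin 4 → P → ℂ) (m : ℕ) (h : ι → Fin 3 → P → ℂ),
    (∀ i, 1 ≤ b i) → (∀ i, b i ≤ θ i) → (∀ i, θ i ≤ lam i) → (∀ i, 0 ≤ s i) →
    (∀ j, S.FO θ (fun _ => 1) (fun i => (r i).t j)) →
    (∀ j, S.FO θ (fun _ => 1) (fun i => (r i).w j)) →
    (∀ a, S.FO θ (fun i => 1 / b i) (fun i => (F i).N a)) →
    (∀ a, S.FO θ (fun _ => 1) (fun i => (F i).P1 a)) →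
    (∀ a, S.FO θ (fun _ => 1) (fun i => (F i).P2 a)) →
    (∀ a, S.FO θ b (fun i => S.dirv (r i).t (S.dirv (r i).t (X i)) a)) →
    (∀ a, S.FO θ b (fun i => S.dirv (r i).w (S.dirv (r i).t (X i)) a)) →
    (∀ a, S.FO θ b (fun i => S.dirv (r i).t (S.dirv (r i).w (X i)) a)) →
    (∀ c, S.FO θ s (fun i => h i c)) →
    (∀ a, S.FO θ (fun i => s i / b i) (fun i => S.wkb (lam i) (r i) (F i) (X i) m (h i) a)) ∧
    (∀ a, S.FO θ (fun i => s i * (θ i / (b i * lam i)))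
      (fun i => fun q => S.wkb (lam i) (r i) (F i) (X i) m (h i) a q
        + h i 2 q / 2 * (F i).N a q)) ∧
    (∀ c, S.FO θ (fun i => s i * (θ i / lam i) ^ m)
      (fun i => S.wres (lam i) (r i) (F i) (X i) m (h i) c))

/-- **(W3)** linearity in `h` -/
def DAlg.WkbLin : Prop := ∀ (lam : ℝ) (r : Ray P κ) (F : Frm P) (X : Fin 4 → P → ℂ) (m : ℕ)
    (h h' : Fin 3 → P → ℂ) (c : ℂ), r.Ok S → (∀ a, S.Sm (X a)) →
    F.Ok S r X → (∀ c, S.Sm (h c)) → (∀ c, S.Sm (h' c)) →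
    ∀ a q, S.wkb lam r F X m (fun b q => h b q + c * h' b q) a q =
      S.wkb lam r F X m h a q + c * S.wkb lam r F X m h' a q

end Vale.Agent.P205.F
end
end

section

/-!
Kernel solutions, pieces, the quadratic step, the stage: definitions and statements.
-/

noncomputable section

namespace Vale.Agent.P205.F

universe u

variable {P : Type u} {κ : Type} [Fintype κ] (S : DAlg P κ)

/-- `linearised metric` of the leading kernel term `(iλ)⁻¹ α E` -/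
def DAlg.ksrc (lam : ℝ) (r : Ray P κ) (F : Frm P) (X : Fin 4 → P → ℂ) (α : P → ℂ) :
    Fin 3 → P → ℂ :=
  ![fun q => -2 * α q * dot (S.dirv r.t (S.dirv r.t X)) F.E q / (Complex.I * lam),
    fun q => - α q * (dot (S.dirv r.w (S.dirv r.t X)) F.E q
      + dot (S.dirv r.t (S.dirv r.w X)) F.E q) / (Complex.I * lam),
    fun _ => 0]

/-- the kernel solution with amplitude `α` -/
def DAlg.ker (lam : ℝ) (r : Ray P κ) (F : Frm P) (X : Fin 4 → P → ℂ) (m : ℕ) (α : P → ℂ) :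
    Fin 4 → P → ℂ :=
  fun a q => α q * F.E a q / (Complex.I * lam) - S.wkb lam r F X m (S.ksrc lam r F X α) a q

/-- `D j (osc · ker) = osc · kerB j` -/
def DAlg.kerB (lam : ℝ) (r : Ray P κ) (F : Frm P) (X : Fin 4 → P → ℂ) (m : ℕ) (α : P → ℂ)
    (j : κ) : Fin 4 → P → ℂ :=
  fun a q => S.D j (S.ker lam r F X m α a) q
    + Complex.I * lam * S.D j r.Ψ q * S.ker lam r F X m α a q

/-- **(K1)** algebra of the kernel solution -/
def DAlg.KerAlg : Prop := ∀ (lam : ℝ) (r : Ray P κ) (F : Frm P) (X : Fin 4 → P → ℂ) (m : ℕ)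
    (α : P → ℂ), lam ≠ 0 → r.Ok S → (∀ a, S.Sm (X a)) → (∀ a, Rl (X a)) → F.Ok S r X →
    S.Sm α → S.Zs r.K α →
    (∀ a, S.Sm (S.ker lam r F X m α a)) ∧ (∀ a, S.Zs r.K (S.ker lam r F X m α a)) ∧
    (∀ j a, S.Sm (S.kerB lam r F X m α j a)) ∧ (∀ j a, S.Zs r.K (S.kerB lam r F X m α j a)) ∧
    (∀ j a q, S.D j (osc lam r.Ψ * S.ker lam r F X m α a) q =
      osc lam r.Ψ q * S.kerB lam r F X m α j a q) ∧
    ∀ j k q, S.lin X (fun a => osc lam r.Ψ * S.ker lam r F X m α a) j k q =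
      - (osc lam r.Ψ q * r.ten S (S.wres lam r F X m (S.ksrc lam r F X α)) j k q)

/-- **(K2')** (USE THIS ONE) bounds for the kernel solution, `1 ≤ b ≤ θ ≤ λ` -/
def DAlg.KerB : Prop := ∀ (ι : Type u) (θ b lam s : ι → ℝ) (r : ι → Ray P κ) (F : ι → Frm P)
    (X : ι → Fin 4 → P → ℂ) (m : ℕ) (α : ι → P → ℂ),
    (∀ i, 1 ≤ b i) → (∀ i, b i ≤ θ i) → (∀ i, θ i ≤ lam i) → (∀ i, 0 ≤ s i) →
    (∀ j, S.FO θ (fun _ => 1) (fun i => (r i).t j)) →
    (∀ j, S.FO θ (fun _ => 1) (fun i => (r i).w j)) →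
    (∀ j, S.FO θ (fun _ => 1) (fun i => S.D j (r i).Ψ)) →
    (∀ a, S.FO θ (fun _ => 1) (fun i => (F i).E a)) →
    (∀ a, S.FO θ (fun i => 1 / b i) (fun i => (F i).N a)) →
    (∀ a, S.FO θ (fun _ => 1) (fun i => (F i).P1 a)) →
    (∀ a, S.FO θ (fun _ => 1) (fun i => (F i).P2 a)) →
    (∀ a, S.FO θ b (fun i => S.dirv (r i).t (S.dirv (r i).t (X i)) a)) →
    (∀ a, S.FO θ b (fun i => S.dirv (r i).w (S.dirv (r i).t (X i)) a)) →
    (∀ a, S.FO θ b (fun i => S.dirv (r i).t (S.dirv (r i).w (X i)) a)) →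
    S.FO θ s α →
    (∀ a, S.FO θ (fun i => s i / lam i)
      (fun i => S.ker (lam i) (r i) (F i) (X i) m (α i) a)) ∧
    (∀ j a, S.FO θ (fun i => s i * (θ i / lam i))
      (fun i q => S.kerB (lam i) (r i) (F i) (X i) m (α i) j a q
        - α i q * S.D j (r i).Ψ q * (F i).E a q)) ∧
    (∀ c, S.FO θ (fun i => s i * (θ i / lam i) ^ m)
      (fun i => S.wres (lam i) (r i) (F i) (X i) m (S.ksrc (lam i) (r i) (F i) (X i) (α i)) c))

/-- **(K3)** linearity in the amplitude -/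
def DAlg.KerLin : Prop := ∀ (lam : ℝ) (r : Ray P κ) (F : Frm P) (X : Fin 4 → P → ℂ) (m : ℕ)
    (α α' : P → ℂ) (c : ℂ), r.Ok S → (∀ a, S.Sm (X a)) →
    F.Ok S r X → S.Sm α → S.Sm α' →
    ∀ a q, S.ker lam r F X m (fun q => α q + c * α' q) a q =
      S.ker lam r F X m α a q + c * S.ker lam r F X m α' a q

/-- symmetric tensors (pointwise compatible with the linear relations between the `D j`) -/
def DAlg.IsT (T : κ → κ → P → ℂ) : Prop :=
  (∀ j k, T j k = T k j) ∧ ∀ (p : P) (c : κ → ℂ),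
    (∀ u, S.Sm u → ∑ j, c j * S.D j u p = 0) → ∀ k, ∑ j, c j * T j k p = 0

/-- the induced metric -/
def DAlg.met (X : Fin 4 → P → ℂ) (j k : κ) : P → ℂ := dot (S.Dv j X) (S.Dv k X)

/-- the pieces of T1 -/
structure PData (P κ Q : Type*) where
  /-- rays of the pieces -/
  ray : Q → Ray P κ
  /-- rays of the pairs: phase `ψ a + ψ b` (`true`), `ψ a - ψ b` (`false`) -/
  pr : Q → Q → Bool → Ray P κ
  /-- cut-offs -/
  χ : Q → P → ℂ
  /-- coefficient functionals -/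
  ℓ : Q → κ → κ → P → ℂ

/-- coefficient of the piece `a` in the tensor `T` -/
def PData.ell {Q : Type*} (d : PData P κ Q) (a : Q) (T : κ → κ → P → ℂ) : P → ℂ :=
  fun p => ∑ j, ∑ k, d.ℓ a j k p * T j k p

/-- validity of the pieces -/
structure PData.Ok {Q : Type*} [Fintype Q] (d : PData P κ Q) : Prop where
  ray : ∀ a, (d.ray a).Ok S
  pr : ∀ a b σ, (σ = true ∨ a ≠ b) → (d.pr a b σ).Ok S
  prΨ : ∀ a b, (d.pr a b true).Ψ = (d.ray a).Ψ + (d.ray b).Ψ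
  prΨ' : ∀ a b, a ≠ b → (d.pr a b false).Ψ = (d.ray a).Ψ - (d.ray b).Ψ
  prK : ∀ a b σ, (d.pr a b σ).K = (d.ray a).K ∩ (d.ray b).K
  smχ : ∀ a, S.Sm (d.χ a)
  rχ : ∀ a, Rl (d.χ a)
  zχ : ∀ a, S.Zs (d.ray a).K (d.χ a)
  smℓ : ∀ a j k, S.Sm (d.ℓ a j k)
  rℓ : ∀ a j k, Rl (d.ℓ a j k)
  dec : ∀ T, S.IsT T → ∀ j k p, T j k p =
    ∑ a, d.χ a p ^ 2 * d.ell a T p * (S.D j (d.ray a).Ψ p * S.D k (d.ray a).Ψ p)

/-- all rays of the pieces, `none` is used for the diagonal difference -/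
def PData.rays {Q : Type*} (d : PData P κ Q) : Q ⊕ (Q × Q × Bool) → Ray P κ
  | Sum.inl a => d.ray a
  | Sum.inr (a, b, σ) => d.pr a b σ

/-- the rays in use -/
def usedRay {Q : Type*} : Q ⊕ (Q × Q × Bool) → Prop
  | Sum.inl _ => True
  | Sum.inr (a, b, σ) => σ = true ∨ a ≠ b

/-- Gram determinant of three vectors -/
def gram3 (x y z : Fin 4 → P → ℂ) : P → ℂ := fun p =>
  dot x x p * (dot y y p * dot z z p - dot y z p * dot y z p)
    - dot x y p * (dot x y p * dot z z p - dot y z p * dot x z p)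
    + dot x z p * (dot x y p * dot y z p - dot y y p * dot x z p)

/-- nondegeneracy of `X` along the rays in use: Gram determinant of `X_t, X_w, X_ww` at least
`c0 b²` on `K` -/
def PData.Nondeg {Q : Type*} (d : PData P κ Q) (c0 b : ℝ) (X : Fin 4 → P → ℂ) : Prop :=
  ∀ x, usedRay x → ∀ p ∈ (d.rays x).K, c0 * b ^ 2 ≤
    (gram3 (S.dirv (d.rays x).t X) (S.dirv (d.rays x).w X)
      (S.dirv (d.rays x).w (S.dirv (d.rays x).w X)) p).re

/-- the bounds on the pieces: everything is slow (`O(1)` at scale `1`), the cut-offs are `O(1)` at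
scale `θ` -/
structure PData.FBd {Q ι : Type*} (d : ι → PData P κ Q) (θ : ι → ℝ) : Prop where
  Ψ : ∀ x, usedRay x → ∀ j, S.FO (fun _ => 1) (fun _ => 1) (fun i => S.D j ((d i).rays x).Ψ)
  t : ∀ x, usedRay x → ∀ j, S.FO (fun _ => 1) (fun _ => 1) (fun i => ((d i).rays x).t j)
  w : ∀ x, usedRay x → ∀ j, S.FO (fun _ => 1) (fun _ => 1) (fun i => ((d i).rays x).w j)
  β : ∀ x, usedRay x → ∀ j, S.FO (fun _ => 1) (fun _ => 1) (fun i => ((d i).rays x).β j)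
  χ : ∀ a, S.FO θ (fun _ => 1) (fun i => (d i).χ a)
  ℓ : ∀ a j k, S.FO (fun _ => 1) (fun _ => 1) (fun i => (d i).ℓ a j k)

/-- **(ST)** the stage without smoothing, `1 ≤ b ≤ θ ≤ λ` -/
def DAlg.StageF (Q : Type) [Fintype Q] : Prop :=
  ∀ (m : ℕ) (ι : Type u) (θ b lam ε : ι → ℝ) (c0 : ℝ) (d : ι → PData P κ Q)
    (X : ι → Fin 4 → P → ℂ) (T : ι → κ → κ → P → ℂ),
    0 < c0 → (∀ i, 1 ≤ b i) → (∀ i, b i ≤ θ i) → (∀ i, θ i ≤ lam i) → (∀ i, 0 ≤ ε i) →
    (∀ i, ε i ≤ 1) →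
    (∀ i, (d i).Ok S) → PData.FBd S d θ → (∀ i, (d i).Nondeg S c0 (b i) (X i)) →
    (∀ i a, S.Sm (X i a)) → (∀ i a, Rl (X i a)) →
    (∀ j a, S.FO θ (fun _ => 1) (fun i => S.D j (X i a))) →
    (∀ j k a, S.FO θ b (fun i => S.D j (S.D k (X i a)))) →
    (∀ i, S.IsT (T i)) → (∀ i j k, Rl (T i j k)) →
    (∀ j k, S.FO θ (fun _ => 1) (fun i => T i j k)) →
    (∀ i a p, p ∈ ((d i).ray a).K → c0 ≤ ((d i).ell a (T i) p).re) →
    ∃ η : ℝ, 0 < η ∧ ∃ y : ι → Fin 4 → P → ℂ, (∀ i a, S.Sm (y i a)) ∧ (∀ i a, Rl (y i a)) ∧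
      (∀ a, S.FO (ι := {i // θ i / lam i ≤ η}) (fun i => lam i)
        (fun i => ε i / b i) (fun i => y i a)) ∧
      (∀ j k, S.FO (ι := {i // θ i / lam i ≤ η}) (fun i => lam i)
        (fun i => ε i * (θ i / lam i) ^ m + ε i ^ 3 * (lam i / b i) ^ 2)
        (fun i p => S.met (fun a => X i a + y i a) j k p - S.met (X i) j k p
          - ε i ^ 2 * T i j k p))

/-- finitely many coordinate boxes in which the tensor `G` is within `κ0` of the Euclidean one -/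
structure Boxes (C : Type) [Fintype C] (G : κ → κ → P → ℂ) (κ0 : ℝ) where
  /-- coordinates -/
  x : C → Fin 2 → P → ℂ
  /-- coordinate fields -/
  Y : C → Fin 2 → κ → P → ℂ
  /-- regions -/
  K : C → Set P
  /-- cut-offs -/
  ρ : C → P → ℂ
  smx : ∀ c i, S.Sm (x c i)
  rx : ∀ c i, Rl (x c i)
  smY : ∀ c i j, S.Sm (Y c i j)
  rY : ∀ c i j, Rl (Y c i j)
  smρ : ∀ c, S.Sm (ρ c)
  rρ : ∀ c, Rl (ρ c)
  zρ : ∀ c, S.Zs (K c) (ρ c)
  sum : ∀ p, ∑ c, ρ c p ^ 2 = 1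
  Yx : ∀ c, ∀ p ∈ K c, ∀ i j, S.dir (Y c i) (x c j) p = if i = j then 1 else 0
  dec : ∀ c u, S.Sm u → ∀ j, ∀ p ∈ K c, S.D j u p = ∑ i, S.D j (x c i) p * S.dir (Y c i) u p
  near : ∀ c, ∀ p ∈ K c, ∀ i j,
    ‖(∑ j', ∑ k', Y c i j' p * Y c j k' p * G j' k' p) - (if i = j then 1 else 0)‖ ≤ κ0
  /-- the coordinate fields commute -/
  comm : ∀ c u, S.Sm u → ∀ p ∈ K c,
    S.dir (Y c 0) (S.dir (Y c 1) u) p = S.dir (Y c 1) (S.dir (Y c 0) u) p
  /-- `K c` is open: derivatives are local -/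
  loc : ∀ c u, S.Sm u → (∀ p ∈ K c, u p = 0) → ∀ j, ∀ p ∈ K c, S.D j u p = 0

/-- **(PC)** the pieces exist: `|II| ≥ c b` for all maps of the family; `G` fixed; the coefficients
of all tensors `κ1`-close to `G` are positive -/
def DAlg.Pieces : Prop :=
  ∃ κ0 : ℝ, 0 < κ0 ∧ ∀ (C : Type) [Fintype C] (G : κ → κ → P → ℂ), S.IsT G →
    (∀ j k, Rl (G j k)) → (∀ j k, S.Sm (G j k)) → Boxes S C G κ0 →
    ∃ κ1 : ℝ, 0 < κ1 ∧
    ∀ (ι : Type u) (θ b : ι → ℝ) (f : ι → Fin 4 → P → ℂ) (c0 : ℝ), 0 < c0 →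
      (∀ i, 1 ≤ b i) → (∀ i, b i ≤ θ i) → (∀ i a, S.Sm (f i a)) → (∀ i a, Rl (f i a)) →
      (∀ j a, S.FO θ (fun _ => 1) (fun i => S.D j (f i a))) →
      (∀ j k a, S.FO θ b (fun i => S.D j (S.D k (f i a)))) →
      (∀ i p, ∃ j1 j2 j k, c0 * b i ^ 2 ≤
        (gram3 (S.Dv j1 (f i)) (S.Dv j2 (f i)) (S.Dv j (S.Dv k (f i))) p).re) →
      ∃ (Q : Type) (_ : Fintype Q) (d : ι → PData P κ Q) (c1 : ℝ), 0 < c1 ∧
        (∀ i, (d i).Ok S) ∧ PData.FBd S d θ ∧ (∀ i, (d i).Nondeg S c1 (b i) (f i)) ∧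
        ∀ i a (T : κ → κ → P → ℂ), (∀ j k p, ‖T j k p - G j k p‖ ≤ κ1) →
          ∀ p ∈ ((d i).ray a).K, c1 ≤ ((d i).ell a T p).re

/-- **T1U**, the scale invariant perturbation theorem, family version (all orders).  For a
diagonal family indexed by `ℕ` the hypotheses `FO` follow from bounds for the orders `k ≤ i`. -/
def DAlg.T1U : Prop :=
  ∃ κ0 : ℝ, 0 < κ0 ∧ ∀ (C : Type) [Fintype C] (G : κ → κ → P → ℂ), S.IsT G →
    (∀ j k, Rl (G j k)) → (∀ j k, S.Sm (G j k)) → Boxes S C G κ0 →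
    ∃ κ1 : ℝ, 0 < κ1 ∧ ∀ (ι : Type u) (Lam δ : ι → ℝ) (f : ι → Fin 4 → P → ℂ) (c0 : ℝ),
      0 < c0 → (∀ i, 1 ≤ Lam i) → (∀ i, 0 < δ i) → (∀ i, δ i ≤ 1) →
      (∀ i a, S.Sm (f i a)) → (∀ i a, Rl (f i a)) →
      (∀ a, S.FO Lam (fun _ => 1) (fun i => f i a)) →
      (∀ j a, S.FO Lam (fun _ => 1) (fun i => S.D j (f i a))) →
      (∀ i p, ∃ j1 j2 j k, c0 * Lam i ^ 2 ≤
        (gram3 (S.Dv j1 (f i)) (S.Dv j2 (f i)) (S.Dv j (S.Dv k (f i))) p).re) →
      (∀ i j k p, ‖G j k p - S.met (f i) j k p - δ i * G j k p‖ ≤ κ1 * δ i) →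
      (∀ j k, S.FO Lam δ (fun i p => G j k p - S.met (f i) j k p)) →
      ∃ δ0 : ℝ, 0 < δ0 ∧ ∀ i, δ i ≤ δ0 →
        ∃ F : Fin 4 → P → ℂ, (∀ a, S.Sm (F a)) ∧ (∀ a, Rl (F a)) ∧
          ∀ j k p, S.met F j k p = G j k p

/-- **(IT)** the iteration -/
def DAlg.Iter : Prop :=
  (∀ (Q : Type) [Fintype Q], S.StageF Q) → S.Pieces → S.Complete →
    (∀ m, Nonempty (S.Smoothing m)) → S.T1U

end Vale.Agent.P205.F
end
end

section

/-!
The corrugation of one stage: definitions (quadratic identity, interface of the stage).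

`y = ε u1 + ε² u2`, `u1 = Σ_a Re (osc ψ_a · ker_a)`,
`u2 = - Σ_(a,b,σ) used Re (osc (pr a b σ).Ψ · wkb (pairH))`.
-/

noncomputable section

open scoped Classical

namespace Vale.Agent.P205.F

universe u

variable {P : Type u} {κ : Type} [Fintype κ] (S : DAlg P κ)

/-- conjugate of a vector -/
def cjv (V : Fin 4 → P → ℂ) : Fin 4 → P → ℂ := fun a q => (starRingEnd ℂ) (V a q)

/-- `V` for `true`, the conjugate for `false` -/
def twv (σ : Bool) (V : Fin 4 → P → ℂ) : Fin 4 → P → ℂ := bif σ then V else cjv V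

/-- component along a field of a covector field with values in `ℂ⁴` -/
def cmp (c : κ → P → ℂ) (B : κ → Fin 4 → P → ℂ) : Fin 4 → P → ℂ :=
  fun a q => ∑ j, c j q * B j a q

/-- `(tt, tw, ww)` of the symmetric part of `B ⊗ B' / 2` -/
def pairH (r : Ray P κ) (B B' : κ → Fin 4 → P → ℂ) : Fin 3 → P → ℂ :=
  ![fun q => (1 / 2) * dot (cmp r.t B) (cmp r.t B') q,
    fun q => (1 / 4) * (dot (cmp r.t B) (cmp r.w B') q + dot (cmp r.w B) (cmp r.t B') q),
    fun q => (1 / 2) * dot (cmp r.w B) (cmp r.w B') q]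

/-- slow part of the quadratic term -/
def slowM {Q : Type} [Fintype Q] (B : Q → κ → Fin 4 → P → ℂ) (j k : κ) : P → ℂ :=
  fun q => ∑ a, (((1 / 2) * dot (B a j) (cjv (B a k)) q).re : ℂ)

section

variable {Q : Type} [Fintype Q] (lam : ℝ) (d : PData P κ Q) (F : Q ⊕ (Q × Q × Bool) → Frm P)
  (X : Fin 4 → P → ℂ) (m : ℕ) (α : Q → P → ℂ)

/-- the kernel solution of the piece `a` -/
def DAlg.sk (a : Q) : Fin 4 → P → ℂ := S.ker lam (d.ray a) (F (Sum.inl a)) X m (α a)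

/-- its derivative, without the oscillating factor -/
def DAlg.sB (a : Q) (j : κ) : Fin 4 → P → ℂ :=
  S.kerB lam (d.ray a) (F (Sum.inl a)) X m (α a) j

/-- the source of the pair `(a, b, σ)` -/
def DAlg.sh (x : Q × Q × Bool) : Fin 3 → P → ℂ :=
  pairH (d.pr x.1 x.2.1 x.2.2) (S.sB lam d F X m α x.1)
    (fun k => twv x.2.2 (S.sB lam d F X m α x.2.1 k))

/-- the WKB solution of the pair -/
def DAlg.sw (x : Q × Q × Bool) : Fin 4 → P → ℂ :=
  S.wkb lam (d.pr x.1 x.2.1 x.2.2) (F (Sum.inr x)) X m (S.sh lam d F X m α x)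

/-- first order part -/
def DAlg.su1 : Fin 4 → P → ℂ :=
  fun c q => ∑ a, ((osc lam (d.ray a).Ψ q * S.sk lam d F X m α a c q).re : ℂ)

/-- second order part -/
def DAlg.su2 : Fin 4 → P → ℂ :=
  fun c q => - ∑ x : Q × Q × Bool, if usedRay (Sum.inr x) then
    ((osc lam (d.pr x.1 x.2.1 x.2.2).Ψ q * S.sw lam d F X m α x c q).re : ℂ) else 0

/-- the corrugation -/
def DAlg.sy (ε : ℝ) : Fin 4 → P → ℂ :=
  fun c q => ε * S.su1 lam d F X m α c q + ε ^ 2 * S.su2 lam d F X m α c q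

/-- **(QA)** the quadratic identity -/
def DAlg.QuadAlg (Q : Type) [Fintype Q] : Prop :=
  ∀ (lam ε : ℝ) (d : PData P κ Q) (F : Q ⊕ (Q × Q × Bool) → Frm P) (X : Fin 4 → P → ℂ) (m : ℕ)
    (α : Q → P → ℂ), lam ≠ 0 → d.Ok S → (∀ a, S.Sm (X a)) → (∀ a, Rl (X a)) →
    (∀ x, usedRay x → (F x).Ok S (d.rays x) X) → (∀ a, S.Sm (α a)) →
    (∀ a, S.Zs (d.ray a).K (α a)) → (∀ a, Rl (α a)) →
    ∀ j k q, S.met (fun a => X a + S.sy lam d F X m α ε a) j k q - S.met X j k q =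
      - ε * ∑ a, ((osc lam (d.ray a).Ψ q * (d.ray a).ten S (S.wres lam (d.ray a)
          (F (Sum.inl a)) X m (S.ksrc lam (d.ray a) (F (Sum.inl a)) X (α a))) j k q).re : ℂ)
      - ε ^ 2 * (∑ x : Q × Q × Bool, if usedRay (Sum.inr x) then
          ((osc lam (d.pr x.1 x.2.1 x.2.2).Ψ q * (d.pr x.1 x.2.1 x.2.2).ten S
            (S.wres lam (d.pr x.1 x.2.1 x.2.2) (F (Sum.inr x)) X m
              (S.sh lam d F X m α x)) j k q).re : ℂ) else 0)
      + ε ^ 2 * slowM (S.sB lam d F X m α) j k q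
      + ε ^ 3 * (dot (S.Dv j (S.su1 lam d F X m α)) (S.Dv k (S.su2 lam d F X m α)) q
          + dot (S.Dv j (S.su2 lam d F X m α)) (S.Dv k (S.su1 lam d F X m α)) q)
      + ε ^ 4 * dot (S.Dv j (S.su2 lam d F X m α)) (S.Dv k (S.su2 lam d F X m α)) q

end

/-- frames of all rays in use with their bounds, `1 ≤ b ≤ θ`, scale `θ` -/
structure FrmBd {Q : Type} {ι : Type u} (θ b : ι → ℝ) (d : ι → PData P κ Q)
    (X : ι → Fin 4 → P → ℂ) (F : ι → Q ⊕ (Q × Q × Bool) → Frm P) : Prop where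
  ok : ∀ i x, usedRay x → (F i x).Ok S ((d i).rays x) (X i)
  E : ∀ x, usedRay x → ∀ a, S.FO θ (fun _ => 1) (fun i => (F i x).E a)
  N : ∀ x, usedRay x → ∀ a, S.FO θ (fun i => 1 / b i) (fun i => (F i x).N a)
  P1 : ∀ x, usedRay x → ∀ a, S.FO θ (fun _ => 1) (fun i => (F i x).P1 a)
  P2 : ∀ x, usedRay x → ∀ a, S.FO θ (fun _ => 1) (fun i => (F i x).P2 a)
  tt : ∀ x, usedRay x → ∀ a, S.FO θ b
    (fun i => S.dirv ((d i).rays x).t (S.dirv ((d i).rays x).t (X i)) a)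
  wt : ∀ x, usedRay x → ∀ a, S.FO θ b
    (fun i => S.dirv ((d i).rays x).w (S.dirv ((d i).rays x).t (X i)) a)
  tw : ∀ x, usedRay x → ∀ a, S.FO θ b
    (fun i => S.dirv ((d i).rays x).t (S.dirv ((d i).rays x).w (X i)) a)

/-- **(PREP)** frames and bounds for all rays in use, families -/
def DAlg.Prep (Q : Type) [Fintype Q] : Prop :=
  ∀ (ι : Type u) (θ b : ι → ℝ) (c0 : ℝ) (d : ι → PData P κ Q) (X : ι → Fin 4 → P → ℂ),
    0 < c0 → (∀ i, 1 ≤ b i) → (∀ i, b i ≤ θ i) →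
    (∀ i, (d i).Ok S) → PData.FBd S d θ → (∀ i, (d i).Nondeg S c0 (b i) (X i)) →
    (∀ i a, S.Sm (X i a)) → (∀ i a, Rl (X i a)) →
    (∀ j a, S.FO θ (fun _ => 1) (fun i => S.D j (X i a))) →
    (∀ j k a, S.FO θ b (fun i => S.D j (S.D k (X i a)))) →
    ∃ F : ι → Q ⊕ (Q × Q × Bool) → Frm P, FrmBd S θ b d X F

end Vale.Agent.P205.F
end
end

section

/-!
The equations of `DAlg.wd` (generated here once, so that no other module has to generate them).
-/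

namespace Vale.Agent.P205.F

end Vale.Agent.P205.F
end

section

/-!
Algebra of the moving frame in dimension four (P205).

For three vectors `X Y Z` in `ℂ⁴` (functions on `P`): the cross product `cr4 X Y Z`, the Gram
determinant `gr X Y Z`, and the cofactor vectors `cf1`, `cf2`, `cf3`, which are dual to
`X, Y, Z` up to the factor `gr X Y Z`.
-/

namespace Vale.Agent.P205.F

variable {P κ : Type*}

theorem dot_eq (X Y : Fin 4 → P → ℂ) :
    dot X Y = X 0 * Y 0 + X 1 * Y 1 + X 2 * Y 2 + X 3 * Y 3 := by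
  funext p
  simp [dot, Fin.sum_univ_four]

theorem dot_comm (X Y : Fin 4 → P → ℂ) : dot X Y = dot Y X := by
  rw [dot_eq, dot_eq]; ring

/-- cross product of three vectors in dimension four -/
def cr4 (X Y Z : Fin 4 → P → ℂ) : Fin 4 → P → ℂ := ![
  X 1 * (Y 2 * Z 3 - Y 3 * Z 2) - X 2 * (Y 1 * Z 3 - Y 3 * Z 1) + X 3 * (Y 1 * Z 2 - Y 2 * Z 1),
  -(X 0 * (Y 2 * Z 3 - Y 3 * Z 2) - X 2 * (Y 0 * Z 3 - Y 3 * Z 0)
    + X 3 * (Y 0 * Z 2 - Y 2 * Z 0)),
  X 0 * (Y 1 * Z 3 - Y 3 * Z 1) - X 1 * (Y 0 * Z 3 - Y 3 * Z 0) + X 3 * (Y 0 * Z 1 - Y 1 * Z 0),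
  -(X 0 * (Y 1 * Z 2 - Y 2 * Z 1) - X 1 * (Y 0 * Z 2 - Y 2 * Z 0)
    + X 2 * (Y 0 * Z 1 - Y 1 * Z 0))]

/-- Gram determinant -/
def gr (X Y Z : Fin 4 → P → ℂ) : P → ℂ :=
  dot X X * dot Y Y * dot Z Z + 2 * (dot X Y * dot Y Z * dot X Z)
    - dot X X * (dot Y Z * dot Y Z) - dot Y Y * (dot X Z * dot X Z)
    - dot Z Z * (dot X Y * dot X Y)

/-- linear combination of three vectors -/
def lc3 (a b c : P → ℂ) (X Y Z : Fin 4 → P → ℂ) : Fin 4 → P → ℂ :=
  fun i => a * X i + b * Y i + c * Z i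

/-- first cofactor vector -/
def cf1 (X Y Z : Fin 4 → P → ℂ) : Fin 4 → P → ℂ :=
  lc3 (dot Y Y * dot Z Z - dot Y Z * dot Y Z) (dot X Z * dot Y Z - dot X Y * dot Z Z)
    (dot X Y * dot Y Z - dot X Z * dot Y Y) X Y Z

/-- second cofactor vector -/
def cf2 (X Y Z : Fin 4 → P → ℂ) : Fin 4 → P → ℂ :=
  lc3 (dot X Z * dot Y Z - dot X Y * dot Z Z) (dot X X * dot Z Z - dot X Z * dot X Z)
    (dot X Z * dot X Y - dot X X * dot Y Z) X Y Z

/-- third cofactor vector -/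
def cf3 (X Y Z : Fin 4 → P → ℂ) : Fin 4 → P → ℂ :=
  lc3 (dot X Y * dot Y Z - dot X Z * dot Y Y) (dot X Z * dot X Y - dot X X * dot Y Z)
    (dot X X * dot Y Y - dot X Y * dot X Y) X Y Z

theorem dot_lc3 (a b c : P → ℂ) (X Y Z V : Fin 4 → P → ℂ) :
    dot (lc3 a b c X Y Z) V = a * dot X V + b * dot Y V + c * dot Z V := by
  simp only [dot_eq, lc3]; ring

theorem cf1_X (X Y Z : Fin 4 → P → ℂ) : dot (cf1 X Y Z) X = gr X Y Z := by
  rw [cf1, dot_lc3, gr, dot_comm Y X, dot_comm Z X]; ring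

theorem cf1_Y (X Y Z : Fin 4 → P → ℂ) : dot (cf1 X Y Z) Y = 0 := by
  rw [cf1, dot_lc3, dot_comm Z Y]; ring

theorem cf1_Z (X Y Z : Fin 4 → P → ℂ) : dot (cf1 X Y Z) Z = 0 := by
  rw [cf1, dot_lc3]; ring

theorem cf2_X (X Y Z : Fin 4 → P → ℂ) : dot (cf2 X Y Z) X = 0 := by
  rw [cf2, dot_lc3, dot_comm Y X, dot_comm Z X]; ring

theorem cf2_Y (X Y Z : Fin 4 → P → ℂ) : dot (cf2 X Y Z) Y = gr X Y Z := by
  rw [cf2, dot_lc3, gr, dot_comm Z Y]; ring

theorem cf2_Z (X Y Z : Fin 4 → P → ℂ) : dot (cf2 X Y Z) Z = 0 := by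
  rw [cf2, dot_lc3]; ring

theorem cf3_X (X Y Z : Fin 4 → P → ℂ) : dot (cf3 X Y Z) X = 0 := by
  rw [cf3, dot_lc3, dot_comm Y X, dot_comm Z X]; ring

theorem cf3_Y (X Y Z : Fin 4 → P → ℂ) : dot (cf3 X Y Z) Y = 0 := by
  rw [cf3, dot_lc3, dot_comm Z Y]; ring

theorem cf3_Z (X Y Z : Fin 4 → P → ℂ) : dot (cf3 X Y Z) Z = gr X Y Z := by
  rw [cf3, dot_lc3, gr]; ring

theorem cr4_X (X Y Z : Fin 4 → P → ℂ) : dot (cr4 X Y Z) X = 0 := by
  rw [dot_eq]
  simp only [cr4, Matrix.cons_val]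
  ring

theorem cr4_Y (X Y Z : Fin 4 → P → ℂ) : dot (cr4 X Y Z) Y = 0 := by
  rw [dot_eq]
  simp only [cr4, Matrix.cons_val]
  ring

theorem cr4_Z (X Y Z : Fin 4 → P → ℂ) : dot (cr4 X Y Z) Z = 0 := by
  rw [dot_eq]
  simp only [cr4, Matrix.cons_val]
  ring

theorem cr4_sq (X Y Z : Fin 4 → P → ℂ) : dot (cr4 X Y Z) (cr4 X Y Z) = gr X Y Z := by
  rw [gr]
  simp only [dot_eq, cr4, Matrix.cons_val]
  ring

theorem dot_smul_left (a : P → ℂ) (X Y : Fin 4 → P → ℂ) :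
    dot (fun i => a * X i) Y = a * dot X Y := by
  simp only [dot_eq]; ring

theorem dot_smul_right (a : P → ℂ) (X Y : Fin 4 → P → ℂ) :
    dot X (fun i => a * Y i) = a * dot X Y := by
  simp only [dot_eq]; ring

end Vale.Agent.P205.F
end

section

/-!
Composition of families with a fixed smooth function all of whose derivatives are bounded, and
the inverse square root.
-/

noncomputable section

open scoped ContDiff

namespace Vale.Agent.P205.F

/-- all derivatives of order at most `k` are bounded by `B` -/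
def BFn (k : ℕ) (B : ℝ) (F : ℝ → ℂ) : Prop := ∀ j ≤ k, ∀ x, ‖iteratedDeriv j F x‖ ≤ B

theorem BFn.nonneg {k : ℕ} {B : ℝ} {F : ℝ → ℂ} (h : BFn k B F) : 0 ≤ B :=
  (norm_nonneg _).trans (h 0 (Nat.zero_le _) 0)

theorem BFn.deriv {k : ℕ} {B : ℝ} {F : ℝ → ℂ} (h : BFn (k + 1) B F) : BFn k B (deriv F) := by
  intro j hj x
  rw [← iteratedDeriv_succ']
  exact h (j + 1) (by omega) x

theorem BFn.mono_k {k k' : ℕ} {B : ℝ} {F : ℝ → ℂ} (h : BFn k B F) (hk : k' ≤ k) :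
    BFn k' B F := fun j hj x => h j (hj.trans hk) x

/-- all derivatives are bounded -/
def BF (F : ℝ → ℂ) : Prop := ∀ k, ∃ B, BFn k B F

variable {P κ : Type*} {S : DAlg P κ}

theorem DAlg.Bd.comp (k : ℕ) : ∃ c : ℝ, 0 ≤ c ∧ ∀ (F : ℝ → ℂ) (B μ s : ℝ) (u : P → ℂ),
    ContDiff ℝ ∞ F → BFn k B F → 0 ≤ μ → 1 ≤ s → S.Sm u → (∀ p, (u p).im = 0) →
    S.Bd μ k s u → S.Bd (μ * s) k (c * B) (fun p => F (u p).re) := by
  induction k with
  | zero =>
    refine ⟨1, zero_le_one, fun F B μ s u hF hB hμ hs hu hr hb w hw p => ?_⟩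
    have h0 : w = [] := List.length_eq_zero_iff.1 (Nat.le_zero.1 hw)
    subst h0
    rw [S.wd_nil]
    have := hB 0 le_rfl (u p).re
    simpa using this
  | succ k ih =>
    obtain ⟨c, hc, ih⟩ := ih
    refine ⟨max 1 (2 ^ k * c), le_max_of_le_left zero_le_one,
      fun F B μ s u hF hB hμ hs hu hr hb w hw p => ?_⟩
    have hB0 := hB.nonneg
    have hms : 0 ≤ μ * s := mul_nonneg hμ (zero_le_one.trans hs)
    rcases List.eq_nil_or_concat' w with rfl | ⟨w', j, rfl⟩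
    · rw [S.wd_nil]
      have h1 := hB 0 (Nat.zero_le _) (u p).re
      simp only [iteratedDeriv_zero] at h1
      simp only [List.length_nil, pow_zero, mul_one]
      exact h1.trans (le_mul_of_one_le_left hB0 (le_max_left _ _))
    · rw [S.wd_snoc, S.D_comp j hF hu hr]
      have hF' : ContDiff ℝ ∞ (deriv F) := by
        have h2 := hF
        rw [show (∞ : WithTop ℕ∞) = ∞ + 1 from rfl] at h2
        exact (contDiff_succ_iff_deriv.1 h2).2.2
      have e1 := ih (deriv F) B μ s u hF' hB.deriv hμ hs hu hr (hb.mono_k (Nat.le_succ k))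
      have hD : S.Bd (μ * s) k (s * μ) (S.D j u) :=
        (hb.D j).mono_mu hμ (le_mul_of_one_le_right hμ hs) (by positivity)
      have e2 := e1.mul (S.sm_comp hF' hu hr) (S.sm_D j hu) hD
      have hw' : w'.length ≤ k := by
        rw [List.length_append, List.length_singleton] at hw
        omega
      have e3 := e2 w' hw' p
      have e4 : (fun p => deriv F (u p).re * S.D j u p)
          = (fun p => deriv F (u p).re) * S.D j u := rfl
      rw [e4]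
      refine e3.trans ?_
      rw [List.length_append, List.length_singleton, pow_succ]
      have e5 : 2 ^ k * (c * B * (s * μ)) * (μ * s) ^ w'.length
          = (2 ^ k * c) * (B * ((μ * s) ^ w'.length * (μ * s))) := by ring
      have e6 : max 1 (2 ^ k * c) * B * ((μ * s) ^ w'.length * (μ * s))
          = max 1 (2 ^ k * c) * (B * ((μ * s) ^ w'.length * (μ * s))) := by ring
      rw [e5, e6]
      exact mul_le_mul_of_nonneg_right (le_max_right _ _) (by (clear * - hB0 hμ hs; positivity))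

variable {ι : Type*} {μ s : ι → ℝ} {u : ι → P → ℂ}

/-- composition with a fixed smooth function with bounded derivatives -/
theorem DAlg.FO.comp {F : ℝ → ℂ} (hF : ContDiff ℝ ∞ F) (hB : BF F) (hu : S.FO μ s u)
    (hμ : ∀ i, 0 ≤ μ i) (hs : ∀ i, 1 ≤ s i) (hr : ∀ i, Rl (u i)) :
    S.FO (fun i => μ i * s i) (fun _ => 1) (fun i p => F (u i p).re) := by
  refine ⟨fun i => S.sm_comp hF (hu.1 i) (hr i), fun k => ?_⟩
  obtain ⟨B, hB⟩ := hB k
  obtain ⟨C, hC, h⟩ := hu.2 k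
  obtain ⟨c, hc, hcomp⟩ := DAlg.Bd.comp (S := S) k
  set C1 : ℝ := max C 1 with hC1
  have hC1' : 1 ≤ C1 := le_max_right _ _
  have hB0 := hB.nonneg
  refine ⟨c * B * C1 ^ k, by positivity, fun i w hw p => ?_⟩
  have hsi := hs i
  have h1 : S.Bd (μ i) k (C1 * s i) (u i) :=
    (h i).mono (hμ i) (mul_le_mul_of_nonneg_right (le_max_left _ _) (by linarith))
  have h2 := hcomp F B (μ i) (C1 * s i) (u i) hF hB (hμ i)
    (one_le_mul_of_one_le_of_one_le hC1' hsi) (hu.1 i) (hr i) h1 w hw p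
  refine h2.trans ?_
  have e : μ i * (C1 * s i) = C1 * (μ i * s i) := by ring
  rw [e, mul_pow, mul_one, ← mul_assoc]
  have hms : 0 ≤ (μ i * s i) ^ w.length :=
    pow_nonneg (mul_nonneg (hμ i) (by linarith)) _
  refine mul_le_mul_of_nonneg_right ?_ hms
  exact mul_le_mul_of_nonneg_left (pow_le_pow_right₀ hC1' hw) (by positivity)

/-! ### bounded derivatives: closure -/

theorem BFn.mul {k : ℕ} {B C : ℝ} {F G : ℝ → ℂ} (hF : ContDiff ℝ ∞ F) (hG : ContDiff ℝ ∞ G)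
    (h : BFn k B F) (h' : BFn k C G) : ∃ A, BFn k A (fun x => F x * G x) := by
  refine ⟨2 ^ k * (B * C), fun j hj x => ?_⟩
  have hB := h.nonneg
  have hC := h'.nonneg
  rw [← norm_iteratedFDeriv_eq_norm_iteratedDeriv]
  have h1 := norm_iteratedFDeriv_mul_le (n := j) (N := ∞) hF hG x (by exact_mod_cast le_top)
  refine h1.trans ?_
  have h2 : ∀ i ∈ Finset.range (j + 1), (j.choose i : ℝ) * ‖iteratedFDeriv ℝ i F x‖
      * ‖iteratedFDeriv ℝ (j - i) G x‖ ≤ (j.choose i : ℝ) * (B * C) := by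
    intro i hi
    rw [norm_iteratedFDeriv_eq_norm_iteratedDeriv, norm_iteratedFDeriv_eq_norm_iteratedDeriv,
      mul_assoc]
    have hi' : i ≤ j := Nat.lt_succ_iff.1 (Finset.mem_range.1 hi)
    refine mul_le_mul_of_nonneg_left ?_ (Nat.cast_nonneg _)
    exact mul_le_mul (h i (hi'.trans hj) x) (h' (j - i) ((Nat.sub_le _ _).trans hj) x)
      (norm_nonneg _) hB
  refine (Finset.sum_le_sum h2).trans ?_
  rw [← Finset.sum_mul]
  have h3 : ∑ i ∈ Finset.range (j + 1), (j.choose i : ℝ) = 2 ^ j := by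
    rw [← Nat.cast_sum, Nat.sum_range_choose]
    push_cast
    rfl
  rw [h3]
  exact mul_le_mul_of_nonneg_right (pow_le_pow_right₀ (by norm_num) hj) (by positivity)

/-- sufficient: bounded and the derivative is fine -/
theorem BFn.of_deriv {k : ℕ} {B C : ℝ} {F : ℝ → ℂ} (h0 : ∀ x, ‖F x‖ ≤ B)
    (h : BFn k C (_root_.deriv F)) : BFn (k + 1) (max B C) F := by
  intro j hj x
  rcases j with _ | j
  · rw [iteratedDeriv_zero]
    exact (h0 x).trans (le_max_left _ _)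
  · rw [iteratedDeriv_succ']
    exact (h j (by omega) x).trans (le_max_right _ _)

theorem BF.const (c : ℂ) : BF (fun _ => c) := fun k => by
  refine ⟨‖c‖, fun j _ x => ?_⟩
  rcases j with _ | j
  · simp
  · rw [iteratedDeriv_const]
    simp

/-- smooth functions with compact support -/
theorem BF.of_compact {F : ℝ → ℂ} (hF : ContDiff ℝ ∞ F) (hc : HasCompactSupport F) : BF F := by
  intro k
  have h : ∀ j, ∃ C, ∀ x, ‖iteratedDeriv j F x‖ ≤ C := by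
    intro j
    have h1 : Continuous (iteratedFDeriv ℝ j F) := hF.continuous_iteratedFDeriv
      (by exact_mod_cast le_top)
    have h2 : HasCompactSupport (iteratedFDeriv ℝ j F) := hc.iteratedFDeriv j
    obtain ⟨C, hC⟩ := h2.exists_bound_of_continuous h1
    exact ⟨C, fun x => by
      rw [← norm_iteratedFDeriv_eq_norm_iteratedDeriv]
      exact hC x⟩
  choose C hC using h
  refine ⟨∑ j ∈ Finset.range (k + 1), |C j|, fun j hj x => (hC j x).trans ?_⟩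
  refine (le_abs_self _).trans ?_
  exact Finset.single_le_sum (f := fun j => |C j|) (fun _ _ => abs_nonneg _)
    (Finset.mem_range.2 (Nat.lt_succ_of_le hj))

/-- eventually constant smooth functions -/
theorem BF.of_deriv_compact {F : ℝ → ℂ} (hF : ContDiff ℝ ∞ F) (hc : HasCompactSupport (deriv F))
    {B : ℝ} (h0 : ∀ x, ‖F x‖ ≤ B) : BF F := by
  intro k
  have hF' : ContDiff ℝ ∞ (deriv F) := by
    have h2 := hF
    rw [show (∞ : WithTop ℕ∞) = ∞ + 1 from rfl] at h2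
    exact (contDiff_succ_iff_deriv.1 h2).2.2
  obtain ⟨C, hC⟩ := BF.of_compact hF' hc k
  exact ⟨_, (BFn.of_deriv h0 hC).mono_k (Nat.le_succ k)⟩

end Vale.Agent.P205.F
end
end

section

/-!
From an exact map of the differential function space of a compact manifold to a smooth isometric
map with values in `ℝ⁴`.
-/

noncomputable section

set_option linter.unusedSectionVars false

open scoped Manifold ContDiff Topology
open Set Filter

namespace Vale.Agent.P205.F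

theorem real_conv {α : Type*} {v sv w sw : α} (Φ : α → α → Prop) (hv : v = sv) (hw : w = sw)
    (h : Φ sv sw) : Φ v w := by
  subst hv
  subst hw
  exact h

theorem real_bilin {E : Type*} [NormedAddCommGroup E] [NormedSpace ℝ E] {A : Type*} [Fintype A]
    {ι : Type*} [Fintype ι] (T : ι → E →L[ℝ] ℝ) (G : E →L[ℝ] E →L[ℝ] ℝ) (x : A → E)
    (h : ∀ a b, ∑ i, T i (x a) * T i (x b) = G (x a) (x b)) (c d : A → ℝ) :
    ∑ i, T i (∑ a, c a • x a) * T i (∑ a, d a • x a) =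
      G (∑ a, c a • x a) (∑ a, d a • x a) := by
  have h1 : ∀ i, T i (∑ a, c a • x a) * T i (∑ a, d a • x a) =
      ∑ a, ∑ b, c a * d b * (T i (x a) * T i (x b)) := by
    intro i
    rw [map_sum, map_sum, Finset.sum_mul_sum]
    refine Finset.sum_congr rfl fun a _ => Finset.sum_congr rfl fun b _ => ?_
    rw [map_smul, map_smul, smul_eq_mul, smul_eq_mul]
    ring
  have h2 : G (∑ a, c a • x a) (∑ a, d a • x a) = ∑ a, ∑ b, c a * d b * G (x a) (x b) := by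
    have h3 : G (∑ a, c a • x a) = ∑ a, c a • G (x a) := by
      rw [map_sum]
      exact Finset.sum_congr rfl fun a _ => map_smul _ _ _
    rw [h3, sum_apply]
    refine Finset.sum_congr rfl fun a _ => ?_
    rw [_root_.ContinuousLinearMap.smul_apply, map_sum, Finset.smul_sum]
    refine Finset.sum_congr rfl fun b _ => ?_
    rw [map_smul, smul_eq_mul, smul_eq_mul]
    ring
  rw [h2, Finset.sum_congr rfl fun i _ => h1 i, Finset.sum_comm]
  refine Finset.sum_congr rfl fun a _ => ?_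
  rw [Finset.sum_comm]
  refine Finset.sum_congr rfl fun b _ => ?_
  rw [← Finset.mul_sum, h]

namespace Cov

variable {E : Type*} [NormedAddCommGroup E] [NormedSpace ℝ E]
  {M : Type*} [TopologicalSpace M] [ChartedSpace E M] [IsManifold 𝓘(ℝ, E) ∞ M] [CompactSpace M]
  (K : Cov E M) {A : Type} [Fintype A] (b : Module.Basis A ℝ E)

/-- the real parts of a real element of the algebra -/
theorem contMDiff_re {u : M → ℂ} (hu : ContMDiff 𝓘(ℝ, E) 𝓘(ℝ, ℂ) ∞ u) :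
    ContMDiff 𝓘(ℝ, E) 𝓘(ℝ, ℝ) ∞ (fun p => (u p).re) :=
  (Complex.reCLM.contDiff.contMDiff (n := ∞)).comp hu

theorem Dv_ofReal {u : M → ℝ} (hu : ContMDiff 𝓘(ℝ, E) 𝓘(ℝ, ℝ) ∞ u) (j : Fin K.n × A) :
    K.Dv b j (fun p => (u p : ℂ)) = fun p => ((K.Dv b j u p : ℝ) : ℂ) :=
  K.Dv_clm b Complex.ofRealCLM hu j

/-- a real exact map is an isometric map into `ℝ⁴` -/
theorem exists_real (g : Bundle.ContMDiffRiemannianMetric 𝓘(ℝ, E) ∞ E
      (fun x : M => TangentSpace 𝓘(ℝ, E) x))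
    (F : Fin 4 → M → ℂ) (hF : ∀ a, (K.dalg b).Sm (F a)) (hr : ∀ a, Rl (F a))
    (hm : ∀ j k p, (K.dalg b).met F j k p =
      ((g.inner p (K.X b j p) (K.X b k p) : ℝ) : ℂ)) :
    ∃ X : Fin 4 → M → ℝ, (∀ i, ContMDiff 𝓘(ℝ, E) 𝓘(ℝ) ∞ (X i)) ∧
      ∀ (m : M) (v w : TangentSpace 𝓘(ℝ, E) m),
        ∑ i, mvfderiv 𝓘(ℝ, E) (X i) m v * mvfderiv 𝓘(ℝ, E) (X i) m w = g.inner m v w := by
  have hX : ∀ i, ContMDiff 𝓘(ℝ, E) 𝓘(ℝ, ℝ) ∞ (fun p => (F i p).re) :=
    fun i => contMDiff_re (hF i)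
  refine ⟨fun i p => (F i p).re, hX, fun m v w => ?_⟩
  have hFX : ∀ i, F i = fun p => (((F i p).re : ℝ) : ℂ) := by
    intro i
    funext p
    exact Complex.ext (by simp) (by simpa using hr i p)
  have hD : ∀ j i p, K.Dv b j (F i) p = ((K.Dv b j (fun p => (F i p).re) p : ℝ) : ℂ) := by
    intro j i p
    conv_lhs => rw [hFX i]
    rw [K.Dv_ofReal b (hX i)]
  have hm' : ∀ j k, ∑ i, K.Dv b j (fun p => (F i p).re) m * K.Dv b k (fun p => (F i p).re) m =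
      g.inner m (K.X b j m) (K.X b k m) := by
    intro j k
    have h1 := hm j k m
    have h2 : (K.dalg b).met F j k m =
        ((∑ i, K.Dv b j (fun p => (F i p).re) m * K.Dv b k (fun p => (F i p).re) m : ℝ) : ℂ) := by
      rw [DAlg.met, dot]
      push_cast
      refine Finset.sum_congr rfl fun i _ => ?_
      rw [← hD, ← hD]
      rfl
    rw [h2] at h1
    exact_mod_cast h1
  obtain ⟨i, hi⟩ := K.cov m
  have hv := K.X_span b (K.V_sub i hi) v
  have hw := K.X_span b (K.V_sub i hi) w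
  rw [K.one i m hi, one_smul] at hv hw
  let T : Fin 4 → E →L[ℝ] ℝ := fun q => mfderiv 𝓘(ℝ, E) 𝓘(ℝ, ℝ) (fun p => (F q p).re) m
  let G : E →L[ℝ] E →L[ℝ] ℝ := g.inner m
  let x : A → E := fun a => K.X b (i, a) m
  have hT : ∀ q a, T q (x a) = K.Dv b (i, a) (fun p => (F q p).re) m := fun q a =>
    (K.Dv_eq b (hX q) (i, a) m).symm
  have hG : ∀ a a', G (x a) (x a') = g.inner m (K.X b (i, a) m) (K.X b (i, a') m) :=
    fun _ _ => rfl
  have key := real_bilin T G x (fun a a' => by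
      rw [hG, ← hm' (i, a) (i, a')]
      exact Finset.sum_congr rfl fun q _ => by rw [hT, hT])
    (fun a => b.repr (mfderiv 𝓘(ℝ, E) 𝓘(ℝ, E) (K.ph i) m v : E) a)
    (fun a => b.repr (mfderiv 𝓘(ℝ, E) 𝓘(ℝ, E) (K.ph i) m w : E) a)
  exact real_conv (α := E) (fun x y => ∑ q, T q x * T q y = G x y) hv hw key

end Cov

end Vale.Agent.P205.F
end
end

section

/-!
P205, scheme T1W, block FORMULA: definitions.

For one index: `X` slow map, `q1, q2` orthonormal normal frame, `ψ` phase, `r` a ray with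
`r.Ψ` = radius, `G = met X + ρ² dψ²`.  On `r.K`: `m = u(t) - bt u(w)`, `bt = G_tw / G_ww`,
`u(v) = (X_v, ρ ψ_v)`, `|m| ν = σ (ρ(-ψ_t (E_ww X_t - E_tw X_w) + ψ_w (E_tw X_t - E_tt X_w)), det)`,
`Γ = C m + Sn |m| ν`, and
`f = X + l (c1 X_t + c2 X_w) + l ρ (cos Φ q1 + sin Φ q2)`, `Φ = ψ / l + Γ_z / ρ`, `l = 1 / μ`.
-/

noncomputable section

namespace Vale.Agent.P205.TW

open Vale.Agent.P205.F

universe u

variable {P : Type u} {κ : Type} [Fintype κ] (S : DAlg P κ)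

/-- slow functions: bounded, and derivatives small of order `ε μ` at scale `μ` -/
def SL {ι : Type*} (μ ε : ι → ℝ) (u : ι → P → ℂ) : Prop :=
  S.FO μ (fun _ => 1) u ∧ ∀ j, S.FO μ (fun i => ε i * μ i) (fun i => S.D j (u i))

/-- cosine of a real valued function -/
def co (u : P → ℂ) : P → ℂ := fun p => ((Real.cos (u p).re : ℝ) : ℂ)

/-- sine of a real valued function -/
def si (u : P → ℂ) : P → ℂ := fun p => ((Real.sin (u p).re : ℝ) : ℂ)

/-- the data of the formula (one index) -/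
structure TData (P κ : Type*) where
  /-- slow map -/
  X : Fin 4 → P → ℂ
  /-- normal frame -/
  q1 : Fin 4 → P → ℂ
  /-- normal frame -/
  q2 : Fin 4 → P → ℂ
  /-- phase -/
  ψ : P → ℂ
  /-- radius, fields `t`, `w` -/
  r : Ray P κ
  /-- `1 / G_ww` on `K` -/
  iG : P → ℂ
  /-- `(det_X G_ww)^(-1/2)` on `K` -/
  σ : P → ℂ
  /-- `cos χ` -/
  c : P → ℂ
  /-- `sin χ` -/
  s : P → ℂ
  /-- `χ'` -/
  h : P → ℂ
  /-- `1 / v` -/
  iv : P → ℂ
  /-- primitive of `cos χ / v - 1` -/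
  C : P → ℂ
  /-- primitive of `sin χ / v` -/
  Sn : P → ℂ

namespace TData

variable (d : TData P κ) (ρ μ : ℝ)

/-- `X_t` -/
def Xt : Fin 4 → P → ℂ := S.dirv d.r.t d.X
/-- `X_w` -/
def Xw : Fin 4 → P → ℂ := S.dirv d.r.w d.X
/-- `ψ_t` -/
def ψt : P → ℂ := S.dir d.r.t d.ψ
/-- `ψ_w` -/
def ψw : P → ℂ := S.dir d.r.w d.ψ
/-- `X_t · X_t` -/
def Ett : P → ℂ := dot (d.Xt S) (d.Xt S)
/-- `X_t · X_w` -/
def Etw : P → ℂ := dot (d.Xt S) (d.Xw S)
/-- `X_w · X_w` -/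
def Eww : P → ℂ := dot (d.Xw S) (d.Xw S)
/-- determinant of the induced metric of `X` -/
def dX : P → ℂ := fun p => d.Ett S p * d.Eww S p - d.Etw S p * d.Etw S p
/-- `G_tt` -/
def Gtt : P → ℂ := fun p => d.Ett S p + ρ ^ 2 * (d.ψt S p * d.ψt S p)
/-- `G_tw` -/
def Gtw : P → ℂ := fun p => d.Etw S p + ρ ^ 2 * (d.ψt S p * d.ψw S p)
/-- `G_ww` -/
def Gww : P → ℂ := fun p => d.Eww S p + ρ ^ 2 * (d.ψw S p * d.ψw S p)
/-- `G_tw / G_ww` -/
def bt : P → ℂ := fun p => d.Gtw S ρ p * d.iG p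
/-- `|m|²` -/
def M2 : P → ℂ := fun p => d.Gtt S ρ p - d.Gtw S ρ p * d.Gtw S ρ p * d.iG p
/-- second component of `m` -/
def a2 : P → ℂ := fun p => - d.bt S ρ p
/-- vertical component of `m` -/
def a3 : P → ℂ := fun p => ρ * (d.ψt S p - d.bt S ρ p * d.ψw S p)
/-- first component of `|m| ν` -/
def b1 : P → ℂ := fun p => d.σ p * (ρ * (d.ψw S p * d.Etw S p - d.ψt S p * d.Eww S p))
/-- second component of `|m| ν` -/
def b2 : P → ℂ := fun p => d.σ p * (ρ * (d.ψt S p * d.Etw S p - d.ψw S p * d.Ett S p))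
/-- vertical component of `|m| ν` -/
def b3 : P → ℂ := fun p => d.σ p * d.dX S p
/-- coefficient of `X_t` in `Γ` -/
def c1 : P → ℂ := fun p => d.C p + d.Sn p * d.b1 S ρ p
/-- coefficient of `X_w` in `Γ` -/
def c2 : P → ℂ := fun p => d.C p * d.a2 S ρ p + d.Sn p * d.b2 S ρ p
/-- vertical component of `Γ` -/
def Γz : P → ℂ := fun p => d.C p * d.a3 S ρ p + d.Sn p * d.b3 S p
/-- the phase -/
def Φ : P → ℂ := fun p => μ * d.ψ p + (1 / ρ : ℂ) * d.Γz S ρ p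
/-- `E = cos Φ q1 + sin Φ q2` -/
def E : Fin 4 → P → ℂ := fun a p =>
  co (d.Φ S ρ μ) p * d.q1 a p + si (d.Φ S ρ μ) p * d.q2 a p
/-- `iE = -sin Φ q1 + cos Φ q2` -/
def iE : Fin 4 → P → ℂ := fun a p =>
  co (d.Φ S ρ μ) p * d.q2 a p - si (d.Φ S ρ μ) p * d.q1 a p
/-- **the map** -/
def f : Fin 4 → P → ℂ := fun a p => d.X a p
  + (1 / μ : ℂ) * (d.c1 S ρ p * d.Xt S a p + d.c2 S ρ p * d.Xw S a p)
  + (ρ / μ : ℂ) * d.E S ρ μ a p
/-- `cos χ / v - 1` -/
def cc : P → ℂ := fun p => d.c p * d.iv p - 1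
/-- `sin χ / v` -/
def ss : P → ℂ := fun p => d.s p * d.iv p
/-- coefficient of `X_t` in `e - m` -/
def e1 : P → ℂ := fun p => d.cc p + d.ss p * d.b1 S ρ p
/-- coefficient of `X_w` in `e - m` -/
def e2 : P → ℂ := fun p => d.cc p * d.a2 S ρ p + d.ss p * d.b2 S ρ p
/-- vertical component of `e - m` -/
def e3 : P → ℂ := fun p => d.cc p * d.a3 S ρ p + d.ss p * d.b3 S p
/-- `ζ_j = ρ ψ_j + r_j (e - m)_z` -/
def ζ (j : κ) : P → ℂ := fun p => ρ * S.D j d.ψ p + S.D j d.r.Ψ p * d.e3 S ρ p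
/-- leading term of `D_j f` -/
def L (j : κ) : Fin 4 → P → ℂ := fun a p => S.D j (d.X a) p
  + S.D j d.r.Ψ p * (d.e1 S ρ p * d.Xt S a p + d.e2 S ρ p * d.Xw S a p)
  + d.ζ S ρ j p * d.iE S ρ μ a p
/-- coefficient of `X_t` in `∂_θ e` -/
def g1 : P → ℂ := fun p => d.h p * d.iv p * (d.c p * d.b1 S ρ p - d.s p)
/-- coefficient of `X_w` in `∂_θ e` -/
def g2 : P → ℂ := fun p => d.h p * d.iv p * (d.c p * d.b2 S ρ p - d.s p * d.a2 S ρ p)
/-- vertical component of `∂_θ e` -/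
def g3 : P → ℂ := fun p => d.h p * d.iv p * (d.c p * d.b3 S p - d.s p * d.a3 S ρ p)
/-- leading term of `D_k D_j f / μ` -/
def B (j k : κ) : Fin 4 → P → ℂ := fun a p =>
  S.D j d.r.Ψ p * S.D k d.r.Ψ p *
    (d.g1 S ρ p * d.Xt S a p + d.g2 S ρ p * d.Xw S a p + d.g3 S ρ p * d.iE S ρ μ a p)
  - (1 / ρ : ℂ) * (d.ζ S ρ j p * d.ζ S ρ k p) * d.E S ρ μ a p
/-- the slow metric -/
def Q (j k : κ) : P → ℂ := fun p => S.met d.X j k p
  + ρ ^ 2 * (S.D j d.ψ p * S.D k d.ψ p)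
  + (d.iv p ^ 2 - 1) * d.M2 S ρ p * (S.D j d.r.Ψ p * S.D k d.r.Ψ p)

end TData

/-- pointwise validity -/
structure TData.Ok (d : TData P κ) (ρ : ℝ) : Prop where
  ray : d.r.Ok S
  smX : ∀ a, S.Sm (d.X a)
  smq1 : ∀ a, S.Sm (d.q1 a)
  smq2 : ∀ a, S.Sm (d.q2 a)
  smψ : S.Sm d.ψ
  smiG : S.Sm d.iG
  smσ : S.Sm d.σ
  smc : S.Sm d.c
  sms : S.Sm d.s
  smh : S.Sm d.h
  smiv : S.Sm d.iv
  smC : S.Sm d.C
  smSn : S.Sm d.Sn
  rX : ∀ a, Rl (d.X a)
  rq1 : ∀ a, Rl (d.q1 a)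
  rq2 : ∀ a, Rl (d.q2 a)
  rψ : Rl d.ψ
  riG : Rl d.iG
  rσ : Rl d.σ
  rc : Rl d.c
  rs : Rl d.s
  rh : Rl d.h
  riv : Rl d.iv
  rC : Rl d.C
  rSn : Rl d.Sn
  q1X : ∀ j p, dot d.q1 (S.Dv j d.X) p = 0
  q2X : ∀ j p, dot d.q2 (S.Dv j d.X) p = 0
  q11 : ∀ p, dot d.q1 d.q1 p = 1
  q12 : ∀ p, dot d.q1 d.q2 p = 0
  q22 : ∀ p, dot d.q2 d.q2 p = 1
  iGG : ∀ p ∈ d.r.K, d.iG p * d.Gww S ρ p = 1
  σσ : ∀ p ∈ d.r.K, d.σ p ^ 2 * (d.dX S p * d.Gww S ρ p) = 1
  cs : ∀ p, d.c p ^ 2 + d.s p ^ 2 = 1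
  zc : ∀ p, p ∉ d.r.K → d.c p = 1
  zs : ∀ p, p ∉ d.r.K → d.s p = 0
  zh : ∀ p, p ∉ d.r.K → d.h p = 0
  ziv : ∀ p, p ∉ d.r.K → d.iv p = 1
  zC : ∀ p, p ∉ d.r.K → d.C p = 0
  zSn : ∀ p, p ∉ d.r.K → d.Sn p = 0

/-- the classes -/
structure TData.Cls {ι : Type*} (d : ι → TData P κ) (μ ε : ι → ℝ) : Prop where
  DX : ∀ j a, SL S μ ε (fun i => S.D j ((d i).X a))
  q1 : ∀ a, SL S μ ε (fun i => (d i).q1 a)
  q2 : ∀ a, SL S μ ε (fun i => (d i).q2 a)
  Dψ : ∀ j, SL S μ ε (fun i => S.D j (d i).ψ)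
  Dr : ∀ j, SL S μ ε (fun i => S.D j (d i).r.Ψ)
  t : ∀ j, SL S μ ε (fun i => (d i).r.t j)
  w : ∀ j, SL S μ ε (fun i => (d i).r.w j)
  iG : SL S μ ε (fun i => (d i).iG)
  σ : SL S μ ε (fun i => (d i).σ)
  iv : SL S μ ε (fun i => (d i).iv)
  c : S.FO μ (fun _ => 1) (fun i => (d i).c)
  s : S.FO μ (fun _ => 1) (fun i => (d i).s)
  h : S.FO μ (fun _ => 1) (fun i => (d i).h)
  C : S.FO μ (fun _ => 1) (fun i => (d i).C)
  Sn : S.FO μ (fun _ => 1) (fun i => (d i).Sn)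
  Dc : ∀ j, S.FO μ (fun i => ε i * μ i)
    (fun i p => S.D j (d i).c p + μ i * ((d i).s p * (d i).h p * S.D j (d i).r.Ψ p))
  Ds : ∀ j, S.FO μ (fun i => ε i * μ i)
    (fun i p => S.D j (d i).s p - μ i * ((d i).c p * (d i).h p * S.D j (d i).r.Ψ p))
  DC : ∀ j, S.FO μ (fun i => ε i * μ i)
    (fun i p => S.D j (d i).C p - μ i * ((d i).cc p * S.D j (d i).r.Ψ p))
  DSn : ∀ j, S.FO μ (fun i => ε i * μ i)
    (fun i p => S.D j (d i).Sn p - μ i * ((d i).ss p * S.D j (d i).r.Ψ p))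

end Vale.Agent.P205.TW
end
end

section

/-!
P205, scheme T1W, block NASH: definitions and statement.

Real valued calculus in a `DAlg` (`RS`: smooth real function, `RD j`: real derivation), surfaces
(`Dim2`), normal frames (`NFr`), the statement `NashR` (real) and `NashC` (complex notation of
`DAlg`).
-/

noncomputable section

namespace Vale.Agent.P205.TW

open Vale.Agent.P205.F

universe u

variable {P : Type u} {κ : Type} [Fintype κ] (S : DAlg P κ)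

/-- smooth real function -/
def RS (u : P → ℝ) : Prop := S.Sm (fun p => (u p : ℂ))

/-- real derivation -/
def RD (j : κ) (u : P → ℝ) : P → ℝ := fun p => (S.D j (fun p => (u p : ℂ)) p).re

/-- the derivations span at most two dimensions at every point -/
def Dim2 : Prop := ∀ p, ∃ (α β : κ → ℝ) (L1 L2 : (P → ℝ) → ℝ), ∀ j (u : P → ℝ), RS S u →
  RD S j u p = α j * L1 u + β j * L2 u

/-- real metric -/
def rmet (X : Fin 4 → P → ℝ) (j k : κ) (p : P) : ℝ := ∑ i, RD S j (X i) p * RD S k (X i) p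

/-- twice the sum of the `2 × 2` Gram determinants -/
def e2 (X : Fin 4 → P → ℝ) (p : P) : ℝ :=
  ∑ j, ∑ k, (rmet S X j j p * rmet S X k k p - rmet S X j k p ^ 2)

/-- `q1, q2` is a smooth orthonormal frame of the normal bundle of `X` -/
structure NFr (X q1 q2 : Fin 4 → P → ℝ) : Prop where
  s1 : ∀ i, RS S (q1 i)
  s2 : ∀ i, RS S (q2 i)
  n11 : ∀ p, ∑ i, q1 i p * q1 i p = 1
  n22 : ∀ p, ∑ i, q2 i p * q2 i p = 1
  n12 : ∀ p, ∑ i, q1 i p * q2 i p = 0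
  t1 : ∀ j p, ∑ i, q1 i p * RD S j (X i) p = 0
  t2 : ∀ j p, ∑ i, q2 i p * RD S j (X i) p = 0

/-- `σ` commutes with the derivations -/
def Eqv (σ : P → P) : Prop := ∀ j (u : P → ℝ), RS S u → RS S (fun p => u (σ p)) →
  ∀ p, RD S j (fun p => u (σ p)) p = RD S j u (σ p)

/-- **NASH** (real form).  `X` with a global orthonormal normal frame, `e2 X ≥ c > 0`, finitely
many primitive pieces `a i ^ 2 dφ i ^ 2`: there is `Y` with a global orthonormal normal frame,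
uniformly `η`-close to `X`, with metric `η`-close to `met X + ∑ a i ^ 2 dφ i ^ 2`.  Everything is
equivariant under involutions `σ` with `a ∘ σ = a`, `φ ∘ σ = -φ`, `q2 ∘ σ = -q2`. -/
def NashR : Prop := ∀ (N : ℕ) (a φ : Fin N → P → ℝ) (X q1 q2 : Fin 4 → P → ℝ) (c η : ℝ),
  (∀ i, RS S (a i)) → (∀ i, RS S (φ i)) → (∀ i, RS S (X i)) → NFr S X q1 q2 → 0 < c →
  (∀ p, c ≤ e2 S X p) → 0 < η →
  ∃ Y p1 p2 : Fin 4 → P → ℝ, (∀ i, RS S (Y i)) ∧ NFr S Y p1 p2 ∧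
    (∃ c' : ℝ, 0 < c' ∧ ∀ p, c' ≤ e2 S Y p) ∧ (∀ i p, |Y i p - X i p| ≤ η) ∧
    (∀ j k p, |rmet S Y j k p - (rmet S X j k p
      + ∑ i, a i p ^ 2 * (RD S j (φ i) p * RD S k (φ i) p))| ≤ η) ∧
    ∀ σ : P → P, Eqv S σ → (∀ i p, X i (σ p) = X i p) → (∀ i p, q1 i (σ p) = q1 i p) →
      (∀ i p, q2 i (σ p) = -q2 i p) → (∀ i p, a i (σ p) = a i p) →
      (∀ i p, φ i (σ p) = -φ i p) →
      (∀ i p, Y i (σ p) = Y i p) ∧ (∀ i p, p1 i (σ p) = p1 i p) ∧
        ∀ i p, p2 i (σ p) = -p2 i p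

/-- normal frame, complex notation -/
structure CNFr (X q1 q2 : Fin 4 → P → ℂ) : Prop where
  s1 : ∀ i, S.Sm (q1 i)
  s2 : ∀ i, S.Sm (q2 i)
  r1 : ∀ i, Rl (q1 i)
  r2 : ∀ i, Rl (q2 i)
  n11 : ∀ p, dot q1 q1 p = 1
  n22 : ∀ p, dot q2 q2 p = 1
  n12 : ∀ p, dot q1 q2 p = 0
  t1 : ∀ j p, dot q1 (S.Dv j X) p = 0
  t2 : ∀ j p, dot q2 (S.Dv j X) p = 0

/-- **NASH** (complex notation) -/
def NashC : Prop := ∀ (N : ℕ) (a φ : Fin N → P → ℂ) (X q1 q2 : Fin 4 → P → ℂ) (c η : ℝ),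
  (∀ i, S.Sm (a i)) → (∀ i, Rl (a i)) → (∀ i, S.Sm (φ i)) → (∀ i, Rl (φ i)) →
  (∀ i, S.Sm (X i)) → (∀ i, Rl (X i)) → CNFr S X q1 q2 → 0 < c →
  (∀ p, c ≤ (∑ j, ∑ k, (S.met X j j p * S.met X k k p - S.met X j k p ^ 2)).re) → 0 < η →
  ∃ Y p1 p2 : Fin 4 → P → ℂ, (∀ i, S.Sm (Y i)) ∧ (∀ i, Rl (Y i)) ∧ CNFr S Y p1 p2 ∧
    (∀ i p, ‖Y i p - X i p‖ ≤ η) ∧
    (∀ j k p, ‖S.met Y j k p - (S.met X j k p
      + ∑ i, a i p ^ 2 * (S.D j (φ i) p * S.D k (φ i) p))‖ ≤ η) ∧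
    ∀ σ : P → P, (∀ j u, S.Sm u → S.Sm (fun p => u (σ p)) →
        ∀ p, S.D j (fun p => u (σ p)) p = S.D j u (σ p)) →
      (∀ i p, X i (σ p) = X i p) → (∀ i p, q1 i (σ p) = q1 i p) →
      (∀ i p, q2 i (σ p) = -q2 i p) → (∀ i p, a i (σ p) = a i p) →
      (∀ i p, φ i (σ p) = -φ i p) →
      (∀ i p, Y i (σ p) = Y i p) ∧ (∀ i p, p1 i (σ p) = p1 i p) ∧
        ∀ i p, p2 i (σ p) = -p2 i p

end Vale.Agent.P205.TW
end
end

section

/-!
P205, scheme T1W, block DATA on the cover (C3): statements.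

* `DIn S σ g` : qualitative input on an abstract `DAlg` with involution `σ` (to be lifted from `M`).
* `GeoC S σ g` : the final geometric data with one uniform constant `c` and all parities.
* `geoC_of : PosS S → DIn S σ g → GeoC S σ g` is proved in `DataCover.lean`.

Everything is complex valued with vanishing imaginary part (`RSm`). The helix is used with `ρ = 1`
(the phase is already scaled: `ψ` below satisfies `dψ² ≤ g / 4`).
-/

noncomputable section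

namespace Vale.Agent.P205.TW

open Vale.Agent.P205.F

universe u

variable {P : Type u} {κ : Type} [Fintype κ] (S : DAlg P κ)

/-- smooth and real valued (complex notation) -/
def RSm (u : P → ℂ) : Prop := S.Sm u ∧ Rl u

/-- the real quadratic form of a tensor at `p` -/
def qfm (T : κ → κ → P → ℂ) (p : P) (ξ : κ → ℝ) : ℝ := ∑ j, ∑ k, (T j k p).re * ξ j * ξ k

/-- smooth real symmetric tensors -/
def TSm (T : κ → κ → P → ℂ) : Prop := S.IsT T ∧ ∀ j k, RSm S (T j k)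

/-- positive smooth functions have a positive lower bound (compactness) -/
def PosS : Prop := ∀ u, RSm S u → (∀ p, 0 < (u p).re) → ∃ c : ℝ, 0 < c ∧ ∀ p, c ≤ (u p).re

/-- an involution compatible with the derivations -/
structure IsInv (σ : P → P) : Prop where
  inv : ∀ p, σ (σ p) = p
  sm : ∀ u, S.Sm u → S.Sm (fun p => u (σ p))
  D : ∀ j u, S.Sm u → ∀ p, S.D j (fun q => u (σ q)) p = S.D j u (σ p)

/-- even functions -/
def Evn (σ : P → P) (u : P → ℂ) : Prop := ∀ p, u (σ p) = u p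

/-- odd functions -/
def Odd' (σ : P → P) (u : P → ℂ) : Prop := ∀ p, u (σ p) = - u p

/-- the closed region `1/2 ≤ r ≤ 5/2` -/
def KrC (r : P → ℂ) : Set P := {p | 1 / 2 ≤ (r p).re ∧ (r p).re ≤ 5 / 2}

/-- uniform spanning: at every point two of the derivations span, with bounded coefficients -/
def Pl (g : κ → κ → P → ℂ) (c : ℝ) : Prop := ∀ p, ∃ a b, ∃ α β : κ → ℝ,
  c ≤ (g a a p).re * (g b b p).re - (g a b p).re ^ 2 ∧ (∀ j, |α j| ≤ 1 / c) ∧
  (∀ j, |β j| ≤ 1 / c) ∧ ∀ (j : κ) (u : P → ℂ), S.Sm u →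
    S.D j u p = α j * S.D a u p + β j * S.D b u p

/-- primitive decomposition of positive even tensors, `a` even, `φ` odd -/
def PrimC (σ : P → P) (g : κ → κ → P → ℂ) : Prop := ∀ T : κ → κ → P → ℂ, TSm S T →
  (∀ j k, Evn σ (T j k)) → (∃ c : ℝ, 0 < c ∧ ∀ p ξ, c * qfm g p ξ ≤ qfm T p ξ) →
  ∃ (n : ℕ) (a φ : Fin n → P → ℂ), (∀ i, RSm S (a i)) ∧ (∀ i, RSm S (φ i)) ∧
    (∀ i, Evn σ (a i)) ∧ (∀ i, Odd' σ (φ i)) ∧
    ∀ j k p, T j k p = ∑ i, a i p ^ 2 * (S.D j (φ i) p * S.D k (φ i) p)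

/-- **input** (qualitative, no constants) -/
structure DIn (σ : P → P) (g : κ → κ → P → ℂ) where
  /-- an immersion -/
  F : Fin 4 → P → ℂ
  /-- normal frame -/
  q1 : Fin 4 → P → ℂ
  /-- normal frame -/
  q2 : Fin 4 → P → ℂ
  /-- unscaled phase -/
  ψ : P → ℂ
  /-- ray of the radial function, `K = KrC Ψ` -/
  r : Ray P κ
  /-- odd local sign -/
  e : P → ℂ
  inv : IsInv S σ
  gT : TSm S g
  gev : ∀ j k, Evn σ (g j k)
  gpos : ∀ p ξ, 0 ≤ qfm g p ξ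
  grank : ∀ p, ∃ a b, 0 < (g a a p).re * (g b b p).re - (g a b p).re ^ 2
  rF : ∀ a, RSm S (F a)
  nf : CNFr S F q1 q2
  Fev : ∀ a, Evn σ (F a)
  q1ev : ∀ a, Evn σ (q1 a)
  q2od : ∀ a, Odd' σ (q2 a)
  /-- `F` is an immersion: linear relations between the `D j F` hold for all functions -/
  imm : ∀ p (c : κ → ℂ), (∀ a, ∑ j, c j * S.D j (F a) p = 0) →
    ∀ u, S.Sm u → ∑ j, c j * S.D j u p = 0
  rψ : RSm S ψ
  ψod : Odd' σ ψ
  nd : ∀ p, ((r.Ψ p).re ≤ 11 / 10 ∨ 19 / 10 ≤ (r.Ψ p).re) → ∃ j, S.D j ψ p ≠ 0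
  ray : r.Ok S
  rK : r.K = KrC r.Ψ
  Ψev : Evn σ r.Ψ
  tev : ∀ j, Evn σ (r.t j)
  wev : ∀ j, Evn σ (r.w j)
  βev : ∀ j, Evn σ (r.β j)
  /-- the field `w` does not vanish on `K` -/
  wne : ∀ p ∈ r.K, ∃ a, S.dir r.w (F a) p ≠ 0
  re : RSm S e
  eod : Odd' σ e
  esq : ∀ p, (r.Ψ p).re ≤ 5 / 2 → e p * e p = 1
  eD : ∀ p, (r.Ψ p).re ≤ 5 / 2 → ∀ j, S.D j e p = 0
  prim : PrimC S σ g

/-- **final data** (one uniform constant) -/
structure GeoC (σ : P → P) (g : κ → κ → P → ℂ) where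
  /-- short immersion -/
  X0 : Fin 4 → P → ℂ
  /-- normal frame -/
  q1 : Fin 4 → P → ℂ
  /-- normal frame -/
  q2 : Fin 4 → P → ℂ
  /-- phase of the helix (`ρ = 1`) -/
  ψ : P → ℂ
  /-- ray of the radial function, `K = KrC Ψ` -/
  r : Ray P κ
  /-- odd local sign -/
  e : P → ℂ
  /-- a positive constant for all lower bounds -/
  c : ℝ
  cpos : 0 < c
  inv : IsInv S σ
  gT : TSm S g
  gev : ∀ j k, Evn σ (g j k)
  gpos : ∀ p ξ, 0 ≤ qfm g p ξ
  pl : Pl S g c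
  rX : ∀ a, RSm S (X0 a)
  nf : CNFr S X0 q1 q2
  Xev : ∀ a, Evn σ (X0 a)
  q1ev : ∀ a, Evn σ (q1 a)
  q2od : ∀ a, Odd' σ (q2 a)
  imm : ∀ p ξ, c * qfm g p ξ ≤ qfm (S.met X0) p ξ
  short : ∀ p ξ, qfm (S.met X0) p ξ ≤ 1 / 8 * qfm g p ξ
  rψ : RSm S ψ
  ψod : Odd' σ ψ
  ψsmall : ∀ p ξ, (∑ j, (S.D j ψ p).re * ξ j) ^ 2 ≤ 1 / 4 * qfm g p ξ
  nd : ∀ p, ((r.Ψ p).re ≤ 11 / 10 ∨ 19 / 10 ≤ (r.Ψ p).re) → ∃ j, c ≤ |(S.D j ψ p).re|
  ray : r.Ok S
  rK : r.K = KrC r.Ψ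
  Ψev : Evn σ r.Ψ
  tev : ∀ j, Evn σ (r.t j)
  wev : ∀ j, Evn σ (r.w j)
  βev : ∀ j, Evn σ (r.β j)
  gww : ∀ p ∈ r.K, c ≤ qfm g p (fun j => (r.w j p).re)
  re : RSm S e
  eod : Odd' σ e
  esq : ∀ p, (r.Ψ p).re ≤ 5 / 2 → e p * e p = 1
  eD : ∀ p, (r.Ψ p).re ≤ 5 / 2 → ∀ j, S.D j e p = 0
  prim : PrimC S σ g

end Vale.Agent.P205.TW
end
end

section

/-!
P205, scheme T1W, block CHI: interface used by the assembly (helper609).

`LoopC S Λ r v τ0 c1`: the loop functions at scale `Λ` (phase `θ = Λ r`): `c = cos χ`, `s = sin χ`,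
`h = dχ/dθ`, `A`, `B` primitives of `cos χ - v` and `sin χ` with respect to `θ`, where `v` (the mean
of `cos χ`) is a fixed slow function of `r`.
-/

noncomputable section

namespace Vale.Agent.P205.TW

open Vale.Agent.P205.F

universe u

variable {P : Type u} {κ : Type} [Fintype κ] (S : DAlg P κ)

/-- the region `3/5 ≤ r ≤ 12/5` which contains the support of the loops -/
def Kc (r : P → ℂ) : Set P := {p | 3 / 5 ≤ (r p).re ∧ (r p).re ≤ 12 / 5}

/-- the loop functions at scale `Λ` -/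
structure LoopC {ι : Type} (Λ : ι → ℝ) (r v : P → ℂ) (τ0 c1 : ℝ) where
  /-- `cos χ` -/
  c : ι → P → ℂ
  /-- `sin χ` -/
  s : ι → P → ℂ
  /-- `dχ/dθ` -/
  h : ι → P → ℂ
  /-- primitive of `cos χ - v` -/
  A : ι → P → ℂ
  /-- primitive of `sin χ` -/
  B : ι → P → ℂ
  fc : S.FO Λ (fun _ => 1) c
  fs : S.FO Λ (fun _ => 1) s
  fh : S.FO Λ (fun _ => 1) h
  fA : S.FO Λ (fun _ => 1) A
  fB : S.FO Λ (fun _ => 1) B
  rc : ∀ i, Rl (c i)
  rs : ∀ i, Rl (s i)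
  rh : ∀ i, Rl (h i)
  rA : ∀ i, Rl (A i)
  rB : ∀ i, Rl (B i)
  circ : ∀ i p, c i p ^ 2 + s i p ^ 2 = 1
  dc : ∀ j, S.FO Λ (fun _ => 1) (fun i p => S.D j (c i) p + Λ i * (s i p * h i p * S.D j r p))
  ds : ∀ j, S.FO Λ (fun _ => 1) (fun i p => S.D j (s i) p - Λ i * (c i p * h i p * S.D j r p))
  dA : ∀ j, S.FO Λ (fun _ => 1) (fun i p => S.D j (A i) p - Λ i * ((c i p - v p) * S.D j r p))
  dB : ∀ j, S.FO Λ (fun _ => 1) (fun i p => S.D j (B i) p - Λ i * (s i p * S.D j r p))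
  /-- supports, with all derivatives -/
  zc : ∀ i, S.Zs (Kc r) (fun p => c i p - 1)
  zs : ∀ i, S.Zs (Kc r) (s i)
  zh : ∀ i, S.Zs (Kc r) (h i)
  zA : ∀ i, S.Zs (Kc r) (A i)
  zB : ∀ i, S.Zs (Kc r) (B i)
  /-- nondegeneracy -/
  nd1 : ∀ i p, c1 ≤ ‖h i p‖ ∨ (1 / 2 ≤ (c i p).re ∧ ‖s i p‖ ≤ τ0 * (c i p).re)
  nd2 : ∀ i p, 11 / 10 ≤ (r p).re → (r p).re ≤ 19 / 10 → c1 ≤ ‖h i p‖
  /-- everything is a function of `r` -/
  ev : ∀ i p q, r p = r q →
    c i p = c i q ∧ s i p = s i q ∧ h i p = h i q ∧ A i p = A i q ∧ B i p = B i q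

/-- **(CHI)** existence of the loop functions, `Λ = 2 π n` -/
def ChiC : Prop :=
  ∀ (r : P → ℂ), RSm S r → ∀ τ0 : ℝ, 0 < τ0 → ∃ (v : P → ℂ) (c1 : ℝ), 0 < c1 ∧ RSm S v ∧
    (∀ p, 15 / 16 ≤ (v p).re ∧ (v p).re ≤ 1) ∧ S.Zs (Kc r) (fun p => v p - 1) ∧
    (∀ p q, r p = r q → v p = v q) ∧
    ∃ N : ℕ, ∀ n : ℕ → ℕ, (∀ i, N ≤ n i) →
      Nonempty (LoopC S (fun i => 2 * Real.pi * (n i : ℝ)) r v τ0 c1)

end Vale.Agent.P205.TW
end
end

section

/-!
P205, scheme T1W, block FORMULA: closure lemmas for the classes `FO μ 1`, `SL μ ε`, `FO μ ε`.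
-/

noncomputable section

namespace Vale.Agent.P205.TW

open Vale.Agent.P205.F
open scoped ContDiff

universe u

variable {P : Type u} {κ : Type} {S : DAlg P κ}
variable {ι : Type*} {μ ε s : ι → ℝ} {u v : ι → P → ℂ}

/-- fast times anything -/
theorem fo_mul (hu : S.FO μ (fun _ => 1) u) (hv : S.FO μ s v) :
    S.FO μ s (fun i p => u i p * v i p) :=
  (hu.mul hv).congr_s fun i => one_mul (s i)

/-- anything times fast -/
theorem fo_mul' (hu : S.FO μ s u) (hv : S.FO μ (fun _ => 1) v) :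
    S.FO μ s (fun i p => u i p * v i p) :=
  (hu.mul hv).congr_s fun i => mul_one (s i)

theorem fo_add (hu : S.FO μ s u) (hv : S.FO μ s v) : S.FO μ s (fun i p => u i p + v i p) :=
  hu.add hv

theorem fo_neg (hu : S.FO μ s u) : S.FO μ s (fun i p => -u i p) := hu.neg

/-- division by `μ` of a derivative-type term -/
theorem fo_div (hμ : ∀ i, 0 < μ i) (hu : S.FO μ (fun i => s i * μ i) u) :
    S.FO μ s (fun i p => (1 / μ i : ℂ) * u i p) := by
  have h := DAlg.FO.real_mul (r := fun i => 1 / μ i)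
    (fun i => (div_pos one_pos (hμ i)).le) hu
  refine (h.congr_s fun i => ?_).congr fun i p => ?_
  · have := (hμ i).ne'
    field_simp
  · push_cast
    rfl

theorem fo_div1 (hμ : ∀ i, 0 < μ i) (hu : S.FO μ μ u) :
    S.FO μ (fun _ => 1) (fun i p => (1 / μ i : ℂ) * u i p) :=
  fo_div hμ (hu.congr_s fun _ => (one_mul _).symm)

theorem fo_mulmu (hμ : ∀ i, 0 < μ i) (hu : S.FO μ s u) :
    S.FO μ (fun i => s i * μ i) (fun i p => (μ i : ℂ) * u i p) :=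
  (DAlg.FO.real_mul (r := μ) (fun i => (hμ i).le) hu).congr_s fun i => mul_comm _ _

/-! ### slow functions -/

theorem SL.congr (h : SL S μ ε u) (e : ∀ i p, u i p = v i p) : SL S μ ε v := by
  have e : u = v := funext fun i => funext fun p => e i p
  rwa [e] at h

theorem SL.add (hu : SL S μ ε u) (hv : SL S μ ε v) : SL S μ ε (fun i p => u i p + v i p) :=
  ⟨hu.1.add hv.1, fun j => ((hu.2 j).add (hv.2 j)).congr fun i p =>
    (S.D_add_apply j (hu.1.1 i) (hv.1.1 i) p).symm⟩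

theorem SL.sub (hu : SL S μ ε u) (hv : SL S μ ε v) : SL S μ ε (fun i p => u i p - v i p) :=
  ⟨hu.1.sub hv.1, fun j => ((hu.2 j).sub (hv.2 j)).congr fun i p =>
    (S.D_sub_apply j (hu.1.1 i) (hv.1.1 i) p).symm⟩

theorem SL.neg (hu : SL S μ ε u) : SL S μ ε (fun i p => -u i p) :=
  ⟨hu.1.neg, fun j => ((hu.2 j).neg).congr fun i p =>
    (S.D_neg_apply j (hu.1.1 i) p).symm⟩

theorem SL.mul (hu : SL S μ ε u) (hv : SL S μ ε v) : SL S μ ε (fun i p => u i p * v i p) :=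
  ⟨fo_mul hu.1 hv.1, fun j => ((fo_mul' (hu.2 j) hv.1).add (fo_mul hu.1 (hv.2 j))).congr
    fun i p => (S.D_mul_apply j (hu.1.1 i) (hv.1.1 i) p).symm⟩

theorem SL.const (c : ℂ) (hμ : ∀ i, 0 < μ i) : SL S μ ε (fun _ _ => c) :=
  ⟨DAlg.FO.const c fun i => (hμ i).le, fun j =>
    (DAlg.FO.zero (S := S) (μ := μ) (s := fun i => ε i * μ i)).congr fun i p => by
      rw [S.D_const]⟩

theorem SL.cmul (c : ℂ) (hu : SL S μ ε u) : SL S μ ε (fun i p => c * u i p) :=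
  ⟨hu.1.const_mul c, fun j => ((hu.2 j).const_mul c).congr fun i p =>
    (S.D_smul_apply j c (hu.1.1 i) p).symm⟩

theorem SL.sum {α : Type*} {A : Finset α} {u : α → ι → P → ℂ} (hμ : ∀ i, 0 < μ i)
    (h : ∀ a ∈ A, SL S μ ε (u a)) : SL S μ ε (fun i p => ∑ a ∈ A, u a i p) := by
  classical
  induction A using Finset.induction_on with
  | empty => simpa using (SL.const (S := S) (ε := ε) 0 hμ)
  | insert a A ha ih =>
    refine ((h a (Finset.mem_insert_self a A)).add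
      (ih fun b hb => h b (Finset.mem_insert_of_mem hb))).congr fun i p => ?_
    rw [Finset.sum_insert ha]

theorem SL.dot (hμ : ∀ i, 0 < μ i) {X Y : ι → Fin 4 → P → ℂ}
    (hX : ∀ a, SL S μ ε (fun i => X i a))
    (hY : ∀ a, SL S μ ε (fun i => Y i a)) : SL S μ ε (fun i => dot (X i) (Y i)) :=
  SL.sum (A := (Finset.univ : Finset (Fin 4))) (u := fun a i p => X i a p * Y i a p) hμ
    fun a _ => (hX a).mul (hY a)

theorem SL.dir [Fintype κ] (hμ : ∀ i, 0 < μ i) {c : ι → κ → P → ℂ}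
    (hc : ∀ j, SL S μ ε (fun i => c i j))
    (hu : ∀ j, SL S μ ε (fun i => S.D j (u i))) : SL S μ ε (fun i => S.dir (c i) (u i)) :=
  SL.sum (A := (Finset.univ : Finset κ)) (u := fun j i p => c i j p * S.D j (u i) p) hμ
    fun j _ => (hc j).mul (hu j)

/-! ### composition with one real function -/

theorem bd_comp (S : DAlg P κ) (k : ℕ) : ∀ (F : ℝ → ℂ), ContDiff ℝ ∞ F → ∀ R : ℝ, 0 ≤ R →
    ∃ C : ℝ, 0 ≤ C ∧ ∀ (μ : ℝ) (u : P → ℂ), 0 ≤ μ → S.Sm u → Rl u → S.Bd μ k R u →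
      S.Bd μ k C (fun p => F (u p).re) := by
  induction k with
  | zero =>
    intro F hF R hR
    obtain ⟨C, hC⟩ := (isCompact_Icc (a := -R) (b := R)).exists_bound_of_continuousOn
      hF.continuous.continuousOn
    refine ⟨|C|, abs_nonneg C, fun μ u hμ hu hr hb w hw p => ?_⟩
    have hw0 : w = [] := List.length_eq_zero_iff.1 (Nat.le_zero.1 hw)
    subst hw0
    have h1 : ‖u p‖ ≤ R := hb.apply p
    have h2 : |(u p).re| ≤ R := (Complex.abs_re_le_norm _).trans h1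
    simpa using (hC _ ⟨(abs_le.1 h2).1, (abs_le.1 h2).2⟩).trans (le_abs_self C)
  | succ k ih =>
    intro F hF R hR
    obtain ⟨C0, hC0⟩ := (isCompact_Icc (a := -R) (b := R)).exists_bound_of_continuousOn
      hF.continuous.continuousOn
    have hF' : ContDiff ℝ ∞ (deriv F) := (contDiff_infty_iff_deriv.1 hF).2
    obtain ⟨C1, hC1, h1⟩ := ih (deriv F) hF' R hR
    refine ⟨max |C0| (2 ^ k * (C1 * R)), le_max_of_le_left (abs_nonneg _),
      fun μ u hμ hu hr hb w hw p => ?_⟩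
    rcases List.eq_nil_or_concat w with rfl | ⟨w', j, rfl⟩
    · have h1 : ‖u p‖ ≤ R := hb.apply p
      have h2 : |(u p).re| ≤ R := (Complex.abs_re_le_norm _).trans h1
      have h3 := (hC0 _ ⟨(abs_le.1 h2).1, (abs_le.1 h2).2⟩).trans (le_abs_self C0)
      simpa using h3.trans (le_max_left _ _)
    · rw [List.concat_eq_append] at hw ⊢
      have hw' : w'.length ≤ k := by simpa using hw
      rw [S.wd_snoc, S.D_comp j hF hu hr, List.length_append, List.length_singleton]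
      have e1 : S.Bd μ k C1 (fun p => deriv F (u p).re) :=
        h1 μ u hμ hu hr (hb.mono_k (Nat.le_succ k))
      have e2 := DAlg.Bd.mul (S.sm_comp hF' hu hr) (S.sm_D j hu) e1 (hb.D j) w' hw' p
      refine e2.trans ?_
      have h4 : (2 : ℝ) ^ k * (C1 * (R * μ)) * μ ^ w'.length
          = 2 ^ k * (C1 * R) * μ ^ (w'.length + 1) := by ring
      rw [h4]
      exact mul_le_mul_of_nonneg_right (le_max_right _ _) (by positivity)

theorem fo_comp {F : ℝ → ℂ} (hF : ContDiff ℝ ∞ F) (hμ : ∀ i, 0 ≤ μ i)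
    (hu : S.FO μ (fun _ => 1) u) (hr : ∀ i, Rl (u i)) :
    S.FO μ (fun _ => 1) (fun i p => F (u i p).re) := by
  refine ⟨fun i => S.sm_comp hF (hu.1 i) (hr i), fun k => ?_⟩
  obtain ⟨R, hR, h⟩ := hu.2 k
  obtain ⟨C, hC, h'⟩ := bd_comp S k F hF R hR
  refine ⟨C, hC, fun i => ?_⟩
  have := h i
  rw [mul_one] at this ⊢
  exact h' (μ i) (u i) (hμ i) (hu.1 i) (hr i) this

theorem SL.comp {F : ℝ → ℂ} (hF : ContDiff ℝ ∞ F) (hμ : ∀ i, 0 < μ i)
    (hu : SL S μ ε u) (hr : ∀ i, Rl (u i)) :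
    SL S μ ε (fun i p => F (u i p).re) := by
  refine ⟨fo_comp hF (fun i => (hμ i).le) hu.1 hr, fun j => ?_⟩
  have hF' : ContDiff ℝ ∞ (deriv F) := (contDiff_infty_iff_deriv.1 hF).2
  refine (fo_mul (fo_comp hF' (fun i => (hμ i).le) hu.1 hr) (hu.2 j)).congr fun i p => ?_
  rw [S.D_comp j hF (hu.1.1 i) (hr i)]

/-! ### `cos` and `sin` of a phase which is not bounded -/

theorem contDiff_cos_c : ContDiff ℝ ∞ (fun x : ℝ => ((Real.cos x : ℝ) : ℂ)) :=
  Complex.ofRealCLM.contDiff.comp Real.contDiff_cos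

theorem contDiff_sin_c : ContDiff ℝ ∞ (fun x : ℝ => ((Real.sin x : ℝ) : ℂ)) :=
  Complex.ofRealCLM.contDiff.comp Real.contDiff_sin

theorem deriv_cos_c (x : ℝ) : deriv (fun x : ℝ => ((Real.cos x : ℝ) : ℂ)) x
    = -((Real.sin x : ℝ) : ℂ) := by
  have h := (Real.hasDerivAt_cos x).ofReal_comp
  rw [h.deriv]
  push_cast
  rfl

theorem deriv_sin_c (x : ℝ) : deriv (fun x : ℝ => ((Real.sin x : ℝ) : ℂ)) x
    = ((Real.cos x : ℝ) : ℂ) := by
  have h := (Real.hasDerivAt_sin x).ofReal_comp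
  rw [h.deriv]

section

variable (S)

theorem sm_co {u : P → ℂ} (hu : S.Sm u) (hr : Rl u) : S.Sm (co u) :=
  S.sm_comp (F := fun x : ℝ => ((Real.cos x : ℝ) : ℂ)) contDiff_cos_c hu hr

theorem sm_si {u : P → ℂ} (hu : S.Sm u) (hr : Rl u) : S.Sm (si u) :=
  S.sm_comp (F := fun x : ℝ => ((Real.sin x : ℝ) : ℂ)) contDiff_sin_c hu hr

theorem D_co {u : P → ℂ} (j : κ) (hu : S.Sm u) (hr : Rl u) (p : P) :
    S.D j (co u) p = -(si u p * S.D j u p) := by
  have h := congrFun (S.D_comp j contDiff_cos_c hu hr) p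
  change S.D j (fun p => ((Real.cos (u p).re : ℝ) : ℂ)) p = _
  rw [h, deriv_cos_c, neg_mul]
  rfl

theorem D_si {u : P → ℂ} (j : κ) (hu : S.Sm u) (hr : Rl u) (p : P) :
    S.D j (si u) p = co u p * S.D j u p := by
  have h := congrFun (S.D_comp j contDiff_sin_c hu hr) p
  change S.D j (fun p => ((Real.sin (u p).re : ℝ) : ℂ)) p = _
  rw [h, deriv_sin_c]
  rfl

theorem rl_co (u : P → ℂ) : Rl (co u) := Rl.ofReal _

theorem rl_si (u : P → ℂ) : Rl (si u) := Rl.ofReal _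

/-- `cos` and `sin` of a phase with derivative `O(μ)` -/
theorem bd_cosi (k : ℕ) : ∀ R : ℝ, 0 ≤ R → ∃ C : ℝ, 0 ≤ C ∧ ∀ (μ : ℝ) (u : P → ℂ), 0 ≤ μ →
    S.Sm u → Rl u → (∀ j, S.Bd μ k (R * μ) (S.D j u)) →
      S.Bd μ k C (co u) ∧ S.Bd μ k C (si u) := by
  induction k with
  | zero =>
    intro R _
    refine ⟨1, zero_le_one, fun μ u hμ hu hr _ => ⟨fun w hw p => ?_, fun w hw p => ?_⟩⟩
    · have hw0 : w = [] := List.length_eq_zero_iff.1 (Nat.le_zero.1 hw)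
      subst hw0
      simp only [S.wd_nil, co, List.length_nil, pow_zero, mul_one, Complex.norm_real,
        Real.norm_eq_abs]
      exact Real.abs_cos_le_one _
    · have hw0 : w = [] := List.length_eq_zero_iff.1 (Nat.le_zero.1 hw)
      subst hw0
      simp only [S.wd_nil, si, List.length_nil, pow_zero, mul_one, Complex.norm_real,
        Real.norm_eq_abs]
      exact Real.abs_sin_le_one _
  | succ k ih =>
    intro R hR
    obtain ⟨C1, hC1, h1⟩ := ih R hR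
    refine ⟨max 1 (2 ^ k * (C1 * R)), le_max_of_le_left zero_le_one,
      fun μ u hμ hu hr hb => ?_⟩
    obtain ⟨hc, hs⟩ := h1 μ u hμ hu hr fun j => (hb j).mono_k (Nat.le_succ k)
    constructor
    · intro w hw p
      rcases List.eq_nil_or_concat w with rfl | ⟨w', j, rfl⟩
      · simp only [S.wd_nil, co, List.length_nil, pow_zero, mul_one, Complex.norm_real,
          Real.norm_eq_abs]
        exact (Real.abs_cos_le_one _).trans (le_max_left _ _)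
      · rw [List.concat_eq_append] at hw ⊢
        have hw' : w'.length ≤ k := by simpa using hw
        have e0 : S.D j (co u) = -(si u * S.D j u) := funext fun q => D_co S j hu hr q
        rw [S.wd_snoc, e0, S.wd_neg w' (S.sm_mul (sm_si S hu hr) (S.sm_D j hu)), Pi.neg_apply,
          norm_neg, List.length_append, List.length_singleton]
        have e2 := DAlg.Bd.mul (sm_si S hu hr) (S.sm_D j hu) hs
          ((hb j).mono_k (Nat.le_succ k)) w' hw' p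
        refine e2.trans ?_
        have h4 : (2 : ℝ) ^ k * (C1 * (R * μ)) * μ ^ w'.length
            = 2 ^ k * (C1 * R) * μ ^ (w'.length + 1) := by ring
        rw [h4]
        exact mul_le_mul_of_nonneg_right (le_max_right _ _) (by positivity)
    · intro w hw p
      rcases List.eq_nil_or_concat w with rfl | ⟨w', j, rfl⟩
      · simp only [S.wd_nil, si, List.length_nil, pow_zero, mul_one, Complex.norm_real,
          Real.norm_eq_abs]
        exact (Real.abs_sin_le_one _).trans (le_max_left _ _)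
      · rw [List.concat_eq_append] at hw ⊢
        have hw' : w'.length ≤ k := by simpa using hw
        have e0 : S.D j (si u) = co u * S.D j u := funext fun q => D_si S j hu hr q
        rw [S.wd_snoc, e0, List.length_append, List.length_singleton]
        have e2 := DAlg.Bd.mul (sm_co S hu hr) (S.sm_D j hu) hc
          ((hb j).mono_k (Nat.le_succ k)) w' hw' p
        refine e2.trans ?_
        have h4 : (2 : ℝ) ^ k * (C1 * (R * μ)) * μ ^ w'.length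
            = 2 ^ k * (C1 * R) * μ ^ (w'.length + 1) := by ring
        rw [h4]
        exact mul_le_mul_of_nonneg_right (le_max_right _ _) (by positivity)

end

theorem fo_cosi [Fintype κ] (hμ : ∀ i, 0 ≤ μ i) (sm : ∀ i, S.Sm (u i)) (hr : ∀ i, Rl (u i))
    (hu : ∀ j, S.FO μ μ (fun i => S.D j (u i))) :
    S.FO μ (fun _ => 1) (fun i => co (u i)) ∧ S.FO μ (fun _ => 1) (fun i => si (u i)) := by
  have key : ∀ k, ∃ C : ℝ, 0 ≤ C ∧ ∀ i, S.Bd (μ i) k (C * 1) (co (u i)) ∧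
      S.Bd (μ i) k (C * 1) (si (u i)) := by
    intro k
    have h1 : ∃ R : ℝ, 0 ≤ R ∧ ∀ j i, S.Bd (μ i) k (R * μ i) (S.D j (u i)) := by
      choose R hR h using fun j => (hu j).2 k
      refine ⟨∑ j, R j, Finset.sum_nonneg fun j _ => hR j, fun j i => (h j i).mono (hμ i) ?_⟩
      exact mul_le_mul_of_nonneg_right
        (Finset.single_le_sum (fun j _ => hR j) (Finset.mem_univ j)) (hμ i)
    obtain ⟨R, hR, h⟩ := h1
    obtain ⟨C, hC, h'⟩ := bd_cosi S k R hR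
    refine ⟨C, hC, fun i => ?_⟩
    rw [mul_one]
    exact h' (μ i) (u i) (hμ i) (sm i) (hr i) fun j => h j i
  refine ⟨⟨fun i => sm_co S (sm i) (hr i), fun k => ?_⟩,
    ⟨fun i => sm_si S (sm i) (hr i), fun k => ?_⟩⟩
  · obtain ⟨C, hC, h⟩ := key k
    exact ⟨C, hC, fun i => (h i).1⟩
  · obtain ⟨C, hC, h⟩ := key k
    exact ⟨C, hC, fun i => (h i).2⟩

end Vale.Agent.P205.TW
end
end

section

/-!
P205, scheme T1W, block FORMULA: the derivatives of the map `f`.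

`DM S μ ε u g`: `u` is bounded at scale `μ` and `D_j u = μ g_j + O(ε μ)`.
-/

noncomputable section

namespace Vale.Agent.P205.TW

open Vale.Agent.P205.F
open scoped ContDiff

universe u

variable {P : Type u} {κ : Type}

/-- `u = O(1)`, `D_j u = μ g_j + O(ε μ)` -/
def DM (S : DAlg P κ) {ι : Type*} (μ ε : ι → ℝ) (u : ι → P → ℂ) (g : κ → ι → P → ℂ) : Prop :=
  S.FO μ (fun _ => 1) u ∧
    ∀ j, S.FO μ (fun i => ε i * μ i) (fun i p => S.D j (u i) p - μ i * g j i p)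

variable {S : DAlg P κ} {ι : Type*} {μ ε s : ι → ℝ} {u v : ι → P → ℂ} {g g' : κ → ι → P → ℂ}

theorem DM.congr (h : DM S μ ε u g) (e : ∀ i p, u i p = v i p)
    (e' : ∀ j i p, g j i p = g' j i p) : DM S μ ε v g' := by
  have e : u = v := funext fun i => funext fun p => e i p
  have e' : g = g' := funext fun j => funext fun i => funext fun p => e' j i p
  rwa [e, e'] at h

theorem SL.dm (h : SL S μ ε u) : DM S μ ε u (fun _ _ _ => 0) :=
  ⟨h.1, fun j => (h.2 j).congr fun i p => by rw [mul_zero, sub_zero]⟩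

theorem DM.add (hu : DM S μ ε u g) (hv : DM S μ ε v g') :
    DM S μ ε (fun i p => u i p + v i p) (fun j i p => g j i p + g' j i p) := by
  refine ⟨hu.1.add hv.1, fun j => ((hu.2 j).add (hv.2 j)).congr fun i p => ?_⟩
  have := S.D_add_apply j (hu.1.1 i) (hv.1.1 i) p
  change _ = S.D j (u i + v i) p - _
  rw [this, Pi.add_apply]
  ring

theorem DM.sub (hu : DM S μ ε u g) (hv : DM S μ ε v g') :
    DM S μ ε (fun i p => u i p - v i p) (fun j i p => g j i p - g' j i p) := by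
  refine ⟨hu.1.sub hv.1, fun j => ((hu.2 j).sub (hv.2 j)).congr fun i p => ?_⟩
  have := S.D_sub_apply j (hu.1.1 i) (hv.1.1 i) p
  change _ = S.D j (u i - v i) p - _
  rw [this, Pi.sub_apply]
  ring

theorem DM.mul (hu : DM S μ ε u g) (hv : DM S μ ε v g') :
    DM S μ ε (fun i p => u i p * v i p) (fun j i p => g j i p * v i p + u i p * g' j i p) := by
  refine ⟨fo_mul hu.1 hv.1, fun j =>
    ((fo_mul' (hu.2 j) hv.1).add (fo_mul hu.1 (hv.2 j))).congr fun i p => ?_⟩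
  have := S.D_mul_apply j (hu.1.1 i) (hv.1.1 i) p
  change _ = S.D j (u i * v i) p - _
  rw [this, Pi.add_apply]
  ring

/-- `cos` and `sin` of a phase -/
theorem DM.cosi [Fintype κ] (hμ : ∀ i, 0 < μ i) (hε1 : ∀ i, ε i ≤ 1)
    (sm : ∀ i, S.Sm (u i)) (hr : ∀ i, Rl (u i))
    (hg : ∀ j, S.FO μ (fun _ => 1) (g j))
    (hu : ∀ j, S.FO μ (fun i => ε i * μ i) (fun i p => S.D j (u i) p - μ i * g j i p)) :
    DM S μ ε (fun i => co (u i)) (fun j i p => -(si (u i) p * g j i p)) ∧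
    DM S μ ε (fun i => si (u i)) (fun j i p => co (u i) p * g j i p) := by
  have h0 : ∀ j, S.FO μ μ (fun i => S.D j (u i)) := by
    intro j
    have h1 : S.FO μ μ (fun i p => S.D j (u i) p - μ i * g j i p) :=
      (hu j).mono_s' (fun i => by
        have := mul_le_mul_of_nonneg_right (hε1 i) (hμ i).le
        rwa [one_mul] at this) fun i => (hμ i).le
    have h2 : S.FO μ μ (fun i p => (μ i : ℂ) * g j i p) :=
      (fo_mulmu hμ (hg j)).congr_s fun i => one_mul (μ i)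
    exact (h1.add h2).congr fun i p => by
      simp only [Pi.add_apply]
      ring
  obtain ⟨hc, hs⟩ := fo_cosi (fun i => (hμ i).le) sm hr h0
  refine ⟨⟨hc, fun j => (fo_neg (fo_mul hs (hu j))).congr fun i p => ?_⟩,
    ⟨hs, fun j => (fo_mul hc (hu j)).congr fun i p => ?_⟩⟩
  · rw [D_co S j (sm i) (hr i)]
    ring
  · rw [D_si S j (sm i) (hr i)]
    ring

/-- dividing by `μ` -/
theorem DM.div (hμ : ∀ i, 0 < μ i) (hu : DM S μ ε u g) (j : κ) :
    S.FO μ ε (fun i p => S.D j (fun p => (1 / μ i : ℂ) * u i p) p - g j i p) := by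
  refine (fo_div hμ (hu.2 j)).congr fun i p => ?_
  rw [S.D_smul_apply j _ (hu.1.1 i)]
  have : (μ i : ℂ) ≠ 0 := by exact_mod_cast (hμ i).ne'
  field_simp

variable [Fintype κ]

namespace TData

variable {d : ι → TData P κ} {ρ : ℝ}

/-- standing hypotheses -/
structure Hyp (S : DAlg P κ) (d : ι → TData P κ) (ρ : ℝ) (μ ε : ι → ℝ) : Prop where
  ρ0 : 0 < ρ
  μ0 : ∀ i, 0 < μ i
  ε0 : ∀ i, 0 ≤ ε i
  ε1 : ∀ i, ε i ≤ 1
  ok : ∀ i, (d i).Ok S ρ
  cls : TData.Cls S d μ ε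

variable (H : Hyp S d ρ μ ε)
include H

theorem Hyp.sXt (a : Fin 4) : SL S μ ε (fun i => (d i).Xt S a) :=
  SL.dir H.μ0 H.cls.t fun j => H.cls.DX j a

theorem Hyp.sXw (a : Fin 4) : SL S μ ε (fun i => (d i).Xw S a) :=
  SL.dir H.μ0 H.cls.w fun j => H.cls.DX j a

theorem Hyp.sψt : SL S μ ε (fun i => (d i).ψt S) := SL.dir H.μ0 H.cls.t H.cls.Dψ

theorem Hyp.sψw : SL S μ ε (fun i => (d i).ψw S) := SL.dir H.μ0 H.cls.w H.cls.Dψ

theorem Hyp.sEtt : SL S μ ε (fun i => (d i).Ett S) := SL.dot H.μ0 H.sXt H.sXt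

theorem Hyp.sEtw : SL S μ ε (fun i => (d i).Etw S) := SL.dot H.μ0 H.sXt H.sXw

theorem Hyp.sEww : SL S μ ε (fun i => (d i).Eww S) := SL.dot H.μ0 H.sXw H.sXw

theorem Hyp.sdX : SL S μ ε (fun i => (d i).dX S) :=
  (H.sEtt.mul H.sEww).sub (H.sEtw.mul H.sEtw)

theorem Hyp.sGtw : SL S μ ε (fun i => (d i).Gtw S ρ) :=
  H.sEtw.add ((H.sψt.mul H.sψw).cmul _)

theorem Hyp.sbt : SL S μ ε (fun i => (d i).bt S ρ) := H.sGtw.mul H.cls.iG

theorem Hyp.sa2 : SL S μ ε (fun i => (d i).a2 S ρ) := H.sbt.neg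

theorem Hyp.sa3 : SL S μ ε (fun i => (d i).a3 S ρ) :=
  (H.sψt.sub (H.sbt.mul H.sψw)).cmul _

theorem Hyp.sb1 : SL S μ ε (fun i => (d i).b1 S ρ) :=
  H.cls.σ.mul (((H.sψw.mul H.sEtw).sub (H.sψt.mul H.sEww)).cmul _)

theorem Hyp.sb2 : SL S μ ε (fun i => (d i).b2 S ρ) :=
  H.cls.σ.mul (((H.sψt.mul H.sEtw).sub (H.sψw.mul H.sEtt)).cmul _)

theorem Hyp.sb3 : SL S μ ε (fun i => (d i).b3 S) := H.cls.σ.mul H.sdX

/-- `C` -/
theorem Hyp.dC : DM S μ ε (fun i => (d i).C)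
    (fun j i p => (d i).cc p * S.D j (d i).r.Ψ p) := ⟨H.cls.C, H.cls.DC⟩

/-- `Sn` -/
theorem Hyp.dSn : DM S μ ε (fun i => (d i).Sn)
    (fun j i p => (d i).ss p * S.D j (d i).r.Ψ p) := ⟨H.cls.Sn, H.cls.DSn⟩

theorem Hyp.dc : DM S μ ε (fun i => (d i).c)
    (fun j i p => -((d i).s p * (d i).h p * S.D j (d i).r.Ψ p)) :=
  ⟨H.cls.c, fun j => (H.cls.Dc j).congr fun i p => by ring⟩

theorem Hyp.ds : DM S μ ε (fun i => (d i).s)
    (fun j i p => (d i).c p * (d i).h p * S.D j (d i).r.Ψ p) := ⟨H.cls.s, H.cls.Ds⟩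

theorem Hyp.dcc : DM S μ ε (fun i => (d i).cc)
    (fun j i p => -((d i).s p * (d i).h p * (d i).iv p * S.D j (d i).r.Ψ p)) :=
  ((H.dc.mul H.cls.iv.dm).sub (SL.const (S := S) (ε := ε) 1 H.μ0).dm).congr
    (fun _ _ => rfl) fun j i p => by ring

theorem Hyp.dss : DM S μ ε (fun i => (d i).ss)
    (fun j i p => (d i).c p * (d i).h p * (d i).iv p * S.D j (d i).r.Ψ p) :=
  (H.ds.mul H.cls.iv.dm).congr (fun _ _ => rfl) fun j i p => by ring

theorem Hyp.dc1 : DM S μ ε (fun i => (d i).c1 S ρ)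
    (fun j i p => S.D j (d i).r.Ψ p * (d i).e1 S ρ p) :=
  (H.dC.add (H.dSn.mul H.sb1.dm)).congr (fun _ _ => rfl) fun j i p => by
    simp only [e1]
    ring

theorem Hyp.dc2 : DM S μ ε (fun i => (d i).c2 S ρ)
    (fun j i p => S.D j (d i).r.Ψ p * (d i).e2 S ρ p) :=
  ((H.dC.mul H.sa2.dm).add (H.dSn.mul H.sb2.dm)).congr (fun _ _ => rfl) fun j i p => by
    simp only [e2]
    ring

theorem Hyp.dΓz : DM S μ ε (fun i => (d i).Γz S ρ)
    (fun j i p => S.D j (d i).r.Ψ p * (d i).e3 S ρ p) :=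
  ((H.dC.mul H.sa3.dm).add (H.dSn.mul H.sb3.dm)).congr (fun _ _ => rfl) fun j i p => by
    simp only [e3]
    ring

theorem Hyp.de1 : DM S μ ε (fun i => (d i).e1 S ρ)
    (fun j i p => S.D j (d i).r.Ψ p * (d i).g1 S ρ p) :=
  (H.dcc.add (H.dss.mul H.sb1.dm)).congr (fun _ _ => rfl) fun j i p => by
    simp only [g1]
    ring

theorem Hyp.de2 : DM S μ ε (fun i => (d i).e2 S ρ)
    (fun j i p => S.D j (d i).r.Ψ p * (d i).g2 S ρ p) :=
  ((H.dcc.mul H.sa2.dm).add (H.dss.mul H.sb2.dm)).congr (fun _ _ => rfl) fun j i p => by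
    simp only [g2]
    ring

theorem Hyp.de3 : DM S μ ε (fun i => (d i).e3 S ρ)
    (fun j i p => S.D j (d i).r.Ψ p * (d i).g3 S ρ p) :=
  ((H.dcc.mul H.sa3.dm).add (H.dss.mul H.sb3.dm)).congr (fun _ _ => rfl) fun j i p => by
    simp only [g3]
    ring

theorem Hyp.dζ (j : κ) : DM S μ ε (fun i => (d i).ζ S ρ j)
    (fun k i p => S.D j (d i).r.Ψ p * S.D k (d i).r.Ψ p * (d i).g3 S ρ p) :=
  ((((H.cls.Dψ j).cmul ρ).dm).add ((H.cls.Dr j).dm.mul H.de3)).congr (fun _ _ => rfl)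
    fun k i p => by ring

omit H in
theorem _root_.Vale.Agent.P205.TW.TData.Ok.rXt {d : TData P κ} (h : d.Ok S ρ) (a : Fin 4) :
    Rl (d.Xt S a) := Rl.dir h.ray.rt (h.smX a) (h.rX a)

omit H in
theorem _root_.Vale.Agent.P205.TW.TData.Ok.rXw {d : TData P κ} (h : d.Ok S ρ) (a : Fin 4) :
    Rl (d.Xw S a) := Rl.dir h.ray.rw' (h.smX a) (h.rX a)

omit H in
theorem _root_.Vale.Agent.P205.TW.TData.Ok.rψt {d : TData P κ} (h : d.Ok S ρ) :
    Rl (d.ψt S) := Rl.dir h.ray.rt h.smψ h.rψ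

omit H in
theorem _root_.Vale.Agent.P205.TW.TData.Ok.rψw {d : TData P κ} (h : d.Ok S ρ) :
    Rl (d.ψw S) := Rl.dir h.ray.rw' h.smψ h.rψ

omit H in
theorem _root_.Vale.Agent.P205.TW.TData.Ok.rEtt {d : TData P κ} (h : d.Ok S ρ) :
    Rl (d.Ett S) := Rl.dot h.rXt h.rXt

omit H in
theorem _root_.Vale.Agent.P205.TW.TData.Ok.rEtw {d : TData P κ} (h : d.Ok S ρ) :
    Rl (d.Etw S) := Rl.dot h.rXt h.rXw

omit H in
theorem _root_.Vale.Agent.P205.TW.TData.Ok.rEww {d : TData P κ} (h : d.Ok S ρ) :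
    Rl (d.Eww S) := Rl.dot h.rXw h.rXw

omit H in
theorem _root_.Vale.Agent.P205.TW.TData.Ok.rdX {d : TData P κ} (h : d.Ok S ρ) :
    Rl (d.dX S) := (h.rEtt.mul h.rEww).sub (h.rEtw.mul h.rEtw)

omit H in
theorem rlρ2 (ρ : ℝ) : ((ρ : ℂ) ^ 2).im = 0 := by
  rw [← Complex.ofReal_pow]
  exact Complex.ofReal_im _

omit H in
theorem _root_.Vale.Agent.P205.TW.TData.Ok.rGtw {d : TData P κ} (h : d.Ok S ρ) :
    Rl (d.Gtw S ρ) := h.rEtw.add (Rl.smul (rlρ2 ρ) (h.rψt.mul h.rψw))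

omit H in
theorem _root_.Vale.Agent.P205.TW.TData.Ok.rbt {d : TData P κ} (h : d.Ok S ρ) :
    Rl (d.bt S ρ) := h.rGtw.mul h.riG

omit H in
theorem _root_.Vale.Agent.P205.TW.TData.Ok.ra2 {d : TData P κ} (h : d.Ok S ρ) :
    Rl (d.a2 S ρ) := h.rbt.neg

omit H in
theorem _root_.Vale.Agent.P205.TW.TData.Ok.ra3 {d : TData P κ} (h : d.Ok S ρ) :
    Rl (d.a3 S ρ) := Rl.smul (Complex.ofReal_im ρ) (h.rψt.sub (h.rbt.mul h.rψw))

omit H in
theorem _root_.Vale.Agent.P205.TW.TData.Ok.rb1 {d : TData P κ} (h : d.Ok S ρ) :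
    Rl (d.b1 S ρ) := h.rσ.mul (Rl.smul (Complex.ofReal_im ρ)
      ((h.rψw.mul h.rEtw).sub (h.rψt.mul h.rEww)))

omit H in
theorem _root_.Vale.Agent.P205.TW.TData.Ok.rb2 {d : TData P κ} (h : d.Ok S ρ) :
    Rl (d.b2 S ρ) := h.rσ.mul (Rl.smul (Complex.ofReal_im ρ)
      ((h.rψt.mul h.rEtw).sub (h.rψw.mul h.rEtt)))

omit H in
theorem _root_.Vale.Agent.P205.TW.TData.Ok.rb3 {d : TData P κ} (h : d.Ok S ρ) :
    Rl (d.b3 S) := h.rσ.mul h.rdX

omit H in
theorem _root_.Vale.Agent.P205.TW.TData.Ok.rc1 {d : TData P κ} (h : d.Ok S ρ) :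
    Rl (d.c1 S ρ) := h.rC.add (h.rSn.mul h.rb1)

omit H in
theorem _root_.Vale.Agent.P205.TW.TData.Ok.rc2 {d : TData P κ} (h : d.Ok S ρ) :
    Rl (d.c2 S ρ) := (h.rC.mul h.ra2).add (h.rSn.mul h.rb2)

omit H in
theorem _root_.Vale.Agent.P205.TW.TData.Ok.rΓz {d : TData P κ} (h : d.Ok S ρ) :
    Rl (d.Γz S ρ) := (h.rC.mul h.ra3).add (h.rSn.mul h.rb3)

omit H in
theorem inv_im (ρ : ℝ) : ((1 / ρ : ℂ)).im = 0 := by
  rw [← Complex.ofReal_one, ← Complex.ofReal_div]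
  exact Complex.ofReal_im _

omit H in
theorem _root_.Vale.Agent.P205.TW.TData.Ok.rΦ {d : TData P κ} (h : d.Ok S ρ) (μ : ℝ) :
    Rl (d.Φ S ρ μ) :=
  (Rl.smul (Complex.ofReal_im μ) h.rψ).add (Rl.smul (inv_im ρ) h.rΓz)

omit H in
theorem _root_.Vale.Agent.P205.TW.TData.Ok.rE {d : TData P κ} (h : d.Ok S ρ) (μ : ℝ)
    (a : Fin 4) : Rl (d.E S ρ μ a) :=
  ((rl_co _).mul (h.rq1 a)).add ((rl_si _).mul (h.rq2 a))

omit H in
/-- `f` is real -/
theorem _root_.Vale.Agent.P205.TW.TData.Ok.rf {d : TData P κ} (h : d.Ok S ρ) (μ : ℝ)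
    (a : Fin 4) : Rl (d.f S ρ μ a) := by
  refine ((h.rX a).add (Rl.smul (inv_im μ)
    ((h.rc1.mul (h.rXt a)).add (h.rc2.mul (h.rXw a))))).add (Rl.smul ?_ (h.rE μ a))
  rw [← Complex.ofReal_div]
  exact Complex.ofReal_im _

/-- the phase -/
theorem Hyp.smΦ (i : ι) : S.Sm ((d i).Φ S ρ (μ i)) :=
  S.sm_add (S.sm_smul _ (H.ok i).smψ) (S.sm_smul _ (H.dΓz.1.1 i))

theorem Hyp.foζ (j : κ) : S.FO μ (fun _ => 1) (fun i => (d i).ζ S ρ j) := (H.dζ j).1

theorem Hyp.dΦ (j : κ) : S.FO μ (fun i => ε i * μ i)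
    (fun i p => S.D j ((d i).Φ S ρ (μ i)) p - μ i * ((1 / ρ : ℂ) * (d i).ζ S ρ j p)) := by
  refine ((H.dΓz.2 j).const_mul (1 / ρ : ℂ)).congr fun i p => ?_
  have h1 : S.D j ((d i).Φ S ρ (μ i)) p
      = μ i * S.D j (d i).ψ p + (1 / ρ : ℂ) * S.D j ((d i).Γz S ρ) p := by
    have h2 := S.D_add_apply j (S.sm_smul (μ i : ℂ) (H.ok i).smψ)
      (S.sm_smul (1 / ρ : ℂ) (H.dΓz.1.1 i)) p
    rw [S.D_smul_apply j _ (H.ok i).smψ, S.D_smul_apply j _ (H.dΓz.1.1 i)] at h2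
    exact h2
  have hρ : (ρ : ℂ) ≠ 0 := by exact_mod_cast H.ρ0.ne'
  rw [h1]
  simp only [ζ]
  field_simp
  ring

theorem Hyp.dcosi :
    DM S μ ε (fun i => co ((d i).Φ S ρ (μ i)))
      (fun j i p => -(si ((d i).Φ S ρ (μ i)) p * ((1 / ρ : ℂ) * (d i).ζ S ρ j p))) ∧
    DM S μ ε (fun i => si ((d i).Φ S ρ (μ i)))
      (fun j i p => co ((d i).Φ S ρ (μ i)) p * ((1 / ρ : ℂ) * (d i).ζ S ρ j p)) :=
  DM.cosi H.μ0 H.ε1 H.smΦ (fun i => (H.ok i).rΦ (μ i))
    (fun j => (H.foζ j).const_mul _) H.dΦ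

theorem Hyp.dE (a : Fin 4) : DM S μ ε (fun i => (d i).E S ρ (μ i) a)
    (fun j i p => (1 / ρ : ℂ) * (d i).ζ S ρ j p * (d i).iE S ρ (μ i) a p) :=
  ((H.dcosi.1.mul (H.cls.q1 a).dm).add (H.dcosi.2.mul (H.cls.q2 a).dm)).congr
    (fun _ _ => rfl) fun j i p => by
      simp only [iE]
      ring

theorem Hyp.diE (a : Fin 4) : DM S μ ε (fun i => (d i).iE S ρ (μ i) a)
    (fun j i p => -((1 / ρ : ℂ) * (d i).ζ S ρ j p * (d i).E S ρ (μ i) a p)) :=
  ((H.dcosi.1.mul (H.cls.q2 a).dm).sub (H.dcosi.2.mul (H.cls.q1 a).dm)).congr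
    (fun _ _ => rfl) fun j i p => by
      simp only [E]
      ring

/-- **leading term of `D_j f`** -/
theorem Hyp.Df (j : κ) (a : Fin 4) : S.FO μ ε
    (fun i p => S.D j ((d i).f S ρ (μ i) a) p - (d i).L S ρ (μ i) j a p) := by
  have h1 := DM.div H.μ0 ((H.dc1.mul (H.sXt a).dm).add (H.dc2.mul (H.sXw a).dm)) j
  have h2 := (DM.div H.μ0 (H.dE a) j).const_mul (ρ : ℂ)
  refine (h1.add h2).congr fun i p => ?_
  have s1 : S.Sm (fun p => (d i).c1 S ρ p * (d i).Xt S a p + (d i).c2 S ρ p * (d i).Xw S a p) :=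
    ((H.dc1.mul (H.sXt a).dm).add (H.dc2.mul (H.sXw a).dm)).1.1 i
  have s2 : S.Sm ((d i).E S ρ (μ i) a) := (H.dE a).1.1 i
  have s3 : S.Sm (fun p => (1 / μ i : ℂ) * ((d i).c1 S ρ p * (d i).Xt S a p
      + (d i).c2 S ρ p * (d i).Xw S a p)) := S.sm_smul _ s1
  have s4 : S.Sm (fun p => (ρ / μ i : ℂ) * (d i).E S ρ (μ i) a p) := S.sm_smul _ s2
  have e1 : S.D j ((d i).f S ρ (μ i) a) p = S.D j ((d i).X a) p
      + S.D j (fun p => (1 / μ i : ℂ) * ((d i).c1 S ρ p * (d i).Xt S a p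
        + (d i).c2 S ρ p * (d i).Xw S a p)) p
      + S.D j (fun p => (ρ / μ i : ℂ) * (d i).E S ρ (μ i) a p) p := by
    rw [← S.D_add_apply j ((H.ok i).smX a) s3, ← S.D_add_apply j
      (S.sm_add ((H.ok i).smX a) s3) s4]
    rfl
  have e2 : S.D j (fun p => (ρ / μ i : ℂ) * (d i).E S ρ (μ i) a p) p
      = ρ * S.D j (fun p => (1 / μ i : ℂ) * (d i).E S ρ (μ i) a p) p := by
    rw [S.D_smul_apply j _ s2, S.D_smul_apply j _ s2]
    ring
  have hρ : (ρ : ℂ) ≠ 0 := by exact_mod_cast H.ρ0.ne'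
  rw [e1, e2]
  simp only [Pi.add_apply, L]
  field_simp
  ring

/-- the leading term -/
theorem Hyp.dL (j : κ) (a : Fin 4) : DM S μ ε (fun i => (d i).L S ρ (μ i) j a)
    (fun k i => (d i).B S ρ (μ i) j k a) := by
  have h := (((H.cls.DX j a).dm).add ((H.cls.Dr j).dm.mul
    ((H.de1.mul (H.sXt a).dm).add (H.de2.mul (H.sXw a).dm)))).add ((H.dζ j).mul (H.diE a))
  refine h.congr (fun _ _ => rfl) fun k i p => ?_
  simp only [B]
  ring

theorem Hyp.foL (j : κ) (a : Fin 4) : S.FO μ (fun _ => 1) (fun i => (d i).L S ρ (μ i) j a) :=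
  (H.dL j a).1

theorem Hyp.smf (i : ι) (a : Fin 4) : S.Sm ((d i).f S ρ (μ i) a) :=
  S.sm_add (S.sm_add ((H.ok i).smX a) (S.sm_smul _
    (S.sm_add (S.sm_mul (H.dc1.1.1 i) ((H.sXt a).1.1 i))
      (S.sm_mul (H.dc2.1.1 i) ((H.sXw a).1.1 i))))) (S.sm_smul _ ((H.dE a).1.1 i))

/-- `D_j f = O(1)` -/
theorem Hyp.foDf (j : κ) (a : Fin 4) :
    S.FO μ (fun _ => 1) (fun i => S.D j ((d i).f S ρ (μ i) a)) := by
  have h := ((H.Df j a).mono_s' H.ε1 fun i => (H.μ0 i).le).add (H.foL j a)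
  exact h.congr fun i p => by
    simp only [Pi.add_apply]
    ring

/-- **second derivatives** -/
theorem Hyp.DDf (j k : κ) (a : Fin 4) : S.FO μ (fun i => ε i * μ i)
    (fun i p => S.D k (S.D j ((d i).f S ρ (μ i) a)) p - μ i * (d i).B S ρ (μ i) j k a p) := by
  have h := ((H.Df j a).D k).add ((H.dL j a).2 k)
  refine h.congr fun i p => ?_
  have e := S.D_sub_apply k (S.sm_D j (H.smf i a)) ((H.foL j a).1 i) p
  change S.D k (S.D j ((d i).f S ρ (μ i) a) - (d i).L S ρ (μ i) j a) p + _ = _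
  rw [e]
  ring

omit H [Fintype κ] in
theorem dot_fo {s' : ι → ℝ} {X Y : ι → Fin 4 → P → ℂ} (hX : ∀ a, S.FO μ s (fun i => X i a))
    (hY : ∀ a, S.FO μ s' (fun i => Y i a)) :
    S.FO μ (fun i => s i * s' i) (fun i => dot (X i) (Y i)) := DAlg.FO.dot hX hY

/-- **the induced metric** -/
theorem Hyp.metf (j k : κ) : S.FO μ ε
    (fun i p => S.met ((d i).f S ρ (μ i)) j k p
      - dot ((d i).L S ρ (μ i) j) ((d i).L S ρ (μ i) k) p) := by
  have h1 := dot_fo (S := S) (X := fun i a p => S.D j ((d i).f S ρ (μ i) a) p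
      - (d i).L S ρ (μ i) j a p) (Y := fun i a => S.D k ((d i).f S ρ (μ i) a))
    (fun a => H.Df j a) (fun a => H.foDf k a)
  have h2 := dot_fo (S := S) (X := fun i a => (d i).L S ρ (μ i) j a)
    (Y := fun i a p => S.D k ((d i).f S ρ (μ i) a) p - (d i).L S ρ (μ i) k a p)
    (fun a => H.foL j a) (fun a => H.Df k a)
  refine ((h1.congr_s fun i => mul_one (ε i)).add (h2.congr_s fun i => one_mul (ε i))).congr
    fun i p => ?_
  simp only [Pi.add_apply, DAlg.met, DAlg.Dv, dot, ← Finset.sum_add_distrib,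
    ← Finset.sum_sub_distrib]
  refine Finset.sum_congr rfl fun a _ => ?_
  ring

end TData

end Vale.Agent.P205.TW
end
end

section

/-!
P205, scheme T1W, block FORMULA, part F2: pointwise algebra of the leading terms.
-/

noncomputable section

namespace Vale.Agent.P205.TW

open Vale.Agent.P205.F

universe u

/-- bilinear product of `ℂ⁴` -/
def dc (x y : Fin 4 → ℂ) : ℂ := ∑ i, x i * y i

theorem dc_comm (x y : Fin 4 → ℂ) : dc x y = dc y x := by
  simp only [dc]; exact Finset.sum_congr rfl fun i _ => by ring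

theorem dc_add_left (x y z : Fin 4 → ℂ) : dc (x + y) z = dc x z + dc y z := by
  simp only [dc, Pi.add_apply, Fin.sum_univ_four]; ring

theorem dc_add_right (x y z : Fin 4 → ℂ) : dc x (y + z) = dc x y + dc x z := by
  simp only [dc, Pi.add_apply, Fin.sum_univ_four]; ring

theorem dc_smul_left (c : ℂ) (x y : Fin 4 → ℂ) : dc (c • x) y = c * dc x y := by
  simp only [dc, Pi.smul_apply, Fin.sum_univ_four, smul_eq_mul]; ring

theorem dc_smul_right (c : ℂ) (x y : Fin 4 → ℂ) : dc x (c • y) = c * dc x y := by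
  simp only [dc, Pi.smul_apply, Fin.sum_univ_four, smul_eq_mul]; ring

/-- Gram determinant of three vectors of `ℂ⁴` -/
def dg3 (x y z : Fin 4 → ℂ) : ℂ :=
  dc x x * (dc y y * dc z z - dc y z * dc y z)
    - dc x y * (dc x y * dc z z - dc y z * dc x z)
    + dc x z * (dc x y * dc y z - dc y y * dc x z)

/-- Gram determinant of two orthogonal combinations and an orthogonal vector -/
theorem dg3_eq (N e s : Fin 4 → ℂ) (hNe : dc N e = 0) (hNs : dc N s = 0) (hes : dc e s = 0)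
    (αa αb ra rb : ℂ) :
    dg3 (αa • N + ra • e) (αb • N + rb • e) s =
      (αa * rb - αb * ra) ^ 2 * (dc N N * dc e e) * dc s s := by
  have heN : dc e N = 0 := by rw [dc_comm]; exact hNe
  have hsN : dc s N = 0 := by rw [dc_comm]; exact hNs
  have hse : dc s e = 0 := by rw [dc_comm]; exact hes
  simp only [dg3, dc_add_left, dc_add_right, dc_smul_left, dc_smul_right, hNe, hNs, hes, heN]
  ring

variable {P : Type u} {κ : Type} [Fintype κ] (S : DAlg P κ)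

theorem co_sq (u : P → ℂ) (p : P) : co u p ^ 2 + si u p ^ 2 = 1 := by
  simp only [co, si]
  norm_cast
  exact Real.cos_sq_add_sin_sq _

namespace TData

variable {d : TData P κ} {ρ : ℝ} (μ : ℝ)

variable {S}

/-- dot product with a directional derivative -/
theorem dot_dirv (c : κ → P → ℂ) (q X : Fin 4 → P → ℂ) (p : P)
    (h : ∀ j, dot q (S.Dv j X) p = 0) : dot q (S.dirv c X) p = 0 := by
  have : dot q (S.dirv c X) p = ∑ j, c j p * dot q (S.Dv j X) p := by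
    simp only [dot, DAlg.dirv, DAlg.dir, DAlg.Dv, Finset.mul_sum]
    rw [Finset.sum_comm]
    exact Finset.sum_congr rfl fun j _ => Finset.sum_congr rfl fun i _ => by ring
  rw [this]
  exact Finset.sum_eq_zero fun j _ => by rw [h, mul_zero]

/-- `X_t` at a point -/
def vT (S : DAlg P κ) (d : TData P κ) (p : P) : Fin 4 → ℂ := fun a => d.Xt S a p
/-- `X_w` at a point -/
def vW (S : DAlg P κ) (d : TData P κ) (p : P) : Fin 4 → ℂ := fun a => d.Xw S a p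
/-- `E` at a point -/
def vE (S : DAlg P κ) (d : TData P κ) (ρ μ : ℝ) (p : P) : Fin 4 → ℂ := fun a => d.E S ρ μ a p
/-- `iE` at a point -/
def vF (S : DAlg P κ) (d : TData P κ) (ρ μ : ℝ) (p : P) : Fin 4 → ℂ := fun a => d.iE S ρ μ a p
/-- `D_j X` at a point -/
def vX (S : DAlg P κ) (d : TData P κ) (j : κ) (p : P) : Fin 4 → ℂ := fun a => S.D j (d.X a) p

theorem vE_eq (p : P) : vE S d ρ μ p =
    co (d.Φ S ρ μ) p • (fun a => d.q1 a p) + si (d.Φ S ρ μ) p • (fun a => d.q2 a p) := by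
  funext a
  simp [vE, E]

theorem vF_eq (p : P) : vF S d ρ μ p =
    (-si (d.Φ S ρ μ) p) • (fun a => d.q1 a p) + co (d.Φ S ρ μ) p • (fun a => d.q2 a p) := by
  funext a
  simp [vF, iE]
  ring

theorem qq1 (hd : d.Ok S ρ) (p : P) : dc (fun a => d.q1 a p) (fun a => d.q1 a p) = 1 := hd.q11 p
theorem qq2 (hd : d.Ok S ρ) (p : P) : dc (fun a => d.q1 a p) (fun a => d.q2 a p) = 0 := hd.q12 p
theorem qq2' (hd : d.Ok S ρ) (p : P) : dc (fun a => d.q2 a p) (fun a => d.q1 a p) = 0 := by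
  rw [dc_comm]; exact hd.q12 p
theorem qq3 (hd : d.Ok S ρ) (p : P) : dc (fun a => d.q2 a p) (fun a => d.q2 a p) = 1 := hd.q22 p

theorem EE (hd : d.Ok S ρ) (p : P) : dc (vE S d ρ μ p) (vE S d ρ μ p) = 1 := by
  rw [vE_eq]
  simp only [dc_add_left, dc_add_right, dc_smul_left, dc_smul_right, qq1 hd, qq2 hd, qq2' hd,
    qq3 hd]
  linear_combination co_sq (d.Φ S ρ μ) p

theorem FF (hd : d.Ok S ρ) (p : P) : dc (vF S d ρ μ p) (vF S d ρ μ p) = 1 := by
  rw [vF_eq]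
  simp only [dc_add_left, dc_add_right, dc_smul_left, dc_smul_right, qq1 hd, qq2 hd, qq2' hd,
    qq3 hd]
  linear_combination co_sq (d.Φ S ρ μ) p

theorem EF (hd : d.Ok S ρ) (p : P) : dc (vE S d ρ μ p) (vF S d ρ μ p) = 0 := by
  rw [vE_eq, vF_eq]
  simp only [dc_add_left, dc_add_right, dc_smul_left, dc_smul_right, qq1 hd, qq2 hd, qq2' hd,
    qq3 hd]
  ring

theorem q1v (hd : d.Ok S ρ) (p : P) (j : κ) : dc (fun a => d.q1 a p) (vX S d j p) = 0 :=
  hd.q1X j p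
theorem q2v (hd : d.Ok S ρ) (p : P) (j : κ) : dc (fun a => d.q2 a p) (vX S d j p) = 0 :=
  hd.q2X j p

theorem EX (hd : d.Ok S ρ) (p : P) (j : κ) : dc (vE S d ρ μ p) (vX S d j p) = 0 := by
  rw [vE_eq]
  simp only [dc_add_left, dc_smul_left, q1v hd, q2v hd]
  ring

theorem FX (hd : d.Ok S ρ) (p : P) (j : κ) : dc (vF S d ρ μ p) (vX S d j p) = 0 := by
  rw [vF_eq]
  simp only [dc_add_left, dc_smul_left, q1v hd, q2v hd]
  ring

theorem ET (hd : d.Ok S ρ) (p : P) : dc (vE S d ρ μ p) (vT S d p) = 0 :=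
  dot_dirv d.r.t (d.E S ρ μ) d.X p fun j => EX μ hd p j

theorem EW (hd : d.Ok S ρ) (p : P) : dc (vE S d ρ μ p) (vW S d p) = 0 :=
  dot_dirv d.r.w (d.E S ρ μ) d.X p fun j => EX μ hd p j

theorem FT (hd : d.Ok S ρ) (p : P) : dc (vF S d ρ μ p) (vT S d p) = 0 :=
  dot_dirv d.r.t (d.iE S ρ μ) d.X p fun j => FX μ hd p j

theorem FW (hd : d.Ok S ρ) (p : P) : dc (vF S d ρ μ p) (vW S d p) = 0 :=
  dot_dirv d.r.w (d.iE S ρ μ) d.X p fun j => FX μ hd p j

/-- `N = u(w)` -/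
def vN (S : DAlg P κ) (d : TData P κ) (ρ μ : ℝ) (p : P) : Fin 4 → ℂ :=
  vW S d p + (ρ * d.ψw S p) • vF S d ρ μ p
/-- `m` -/
def vm (S : DAlg P κ) (d : TData P κ) (ρ μ : ℝ) (p : P) : Fin 4 → ℂ :=
  vT S d p + (d.a2 S ρ p) • vW S d p + (d.a3 S ρ p) • vF S d ρ μ p
/-- `|m| ν` -/
def vV (S : DAlg P κ) (d : TData P κ) (ρ μ : ℝ) (p : P) : Fin 4 → ℂ :=
  (d.b1 S ρ p) • vT S d p + (d.b2 S ρ p) • vW S d p + (d.b3 S p) • vF S d ρ μ p
/-- `e` -/
def ve (S : DAlg P κ) (d : TData P κ) (ρ μ : ℝ) (p : P) : Fin 4 → ℂ :=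
  (d.c p * d.iv p) • vm S d ρ μ p + (d.s p * d.iv p) • vV S d ρ μ p
/-- derivative of `e` without the factor `h iv` -/
def vJ (S : DAlg P κ) (d : TData P κ) (ρ μ : ℝ) (p : P) : Fin 4 → ℂ :=
  (-d.s p) • vm S d ρ μ p + (d.c p) • vV S d ρ μ p

theorem TT (p : P) : dc (vT S d p) (vT S d p) = d.Ett S p := rfl
theorem TW' (p : P) : dc (vT S d p) (vW S d p) = d.Etw S p := rfl
theorem WT (p : P) : dc (vW S d p) (vT S d p) = d.Etw S p := by rw [dc_comm]; rfl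
theorem WW (p : P) : dc (vW S d p) (vW S d p) = d.Eww S p := rfl

section
variable (hd : d.Ok S ρ) (p : P)
include hd

theorem TF : dc (vT S d p) (vF S d ρ μ p) = 0 := by rw [dc_comm]; exact FT μ hd p
theorem WF : dc (vW S d p) (vF S d ρ μ p) = 0 := by rw [dc_comm]; exact FW μ hd p

theorem NN : dc (vN S d ρ μ p) (vN S d ρ μ p) = d.Gww S ρ p := by
  simp only [vN, dc_add_left, dc_add_right, dc_smul_left, dc_smul_right, WW, WF μ hd, FW μ hd,
    FF μ hd, Gww]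
  ring

theorem Nm (hp : p ∈ d.r.K) : dc (vN S d ρ μ p) (vm S d ρ μ p) = 0 := by
  have h := hd.iGG p hp
  simp only [vN, vm, dc_add_left, dc_add_right, dc_smul_left, dc_smul_right, WW, WT, WF μ hd,
    FW μ hd, FT μ hd, FF μ hd, a2, a3, bt]
  simp only [Gww, Gtw] at h ⊢
  linear_combination (-(d.Etw S p + ρ ^ 2 * (d.ψt S p * d.ψw S p))) * h

theorem mm (hp : p ∈ d.r.K) : dc (vm S d ρ μ p) (vm S d ρ μ p) = d.M2 S ρ p := by
  have h := hd.iGG p hp
  simp only [vm, dc_add_left, dc_add_right, dc_smul_left, dc_smul_right, TT, TW', WW, WT,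
    WF μ hd, FW μ hd, FT μ hd, TF μ hd, FF μ hd, a2, a3, bt, M2]
  simp only [Gww, Gtw, Gtt] at h ⊢
  linear_combination ((d.Etw S p + ρ ^ 2 * (d.ψt S p * d.ψw S p)) ^ 2 * d.iG p) * h

theorem NV : dc (vN S d ρ μ p) (vV S d ρ μ p) = 0 := by
  simp only [vN, vV, dc_add_left, dc_add_right, dc_smul_left, dc_smul_right, WW, WT, WF μ hd,
    FW μ hd, FT μ hd, FF μ hd, b1, b2, b3, dX]
  ring

theorem mV : dc (vm S d ρ μ p) (vV S d ρ μ p) = 0 := by
  simp only [vm, vV, dc_add_left, dc_add_right, dc_smul_left, dc_smul_right, TT, TW', WW, WT,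
    WF μ hd, FW μ hd, FT μ hd, TF μ hd, FF μ hd, a2, a3, bt, b1, b2, b3, dX]
  ring

theorem VV (hp : p ∈ d.r.K) : dc (vV S d ρ μ p) (vV S d ρ μ p) = d.M2 S ρ p := by
  have h := hd.iGG p hp
  have h2 := hd.σσ p hp
  have h1 : dc (vV S d ρ μ p) (vV S d ρ μ p) =
      d.σ p ^ 2 * d.dX S p * (d.Gtt S ρ p * d.Gww S ρ p - d.Gtw S ρ p * d.Gtw S ρ p) := by
    simp only [vV, dc_add_left, dc_add_right, dc_smul_left, dc_smul_right, TT, TW', WW, WT,
      WF μ hd, FW μ hd, FT μ hd, TF μ hd, FF μ hd, b1, b2, b3, dX, Gww, Gtw, Gtt]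
    ring
  have h3 : d.M2 S ρ p * d.Gww S ρ p =
      d.Gtt S ρ p * d.Gww S ρ p - d.Gtw S ρ p * d.Gtw S ρ p := by
    simp only [M2]
    linear_combination (-(d.Gtw S ρ p * d.Gtw S ρ p)) * h
  rw [h1, ← h3]
  linear_combination d.M2 S ρ p * h2

theorem Vm : dc (vV S d ρ μ p) (vm S d ρ μ p) = 0 := by rw [dc_comm]; exact mV μ hd p

theorem Ne (hp : p ∈ d.r.K) : dc (vN S d ρ μ p) (ve S d ρ μ p) = 0 := by
  simp only [ve, dc_add_right, dc_smul_right, Nm μ hd p hp, NV μ hd]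
  ring

theorem NJ (hp : p ∈ d.r.K) : dc (vN S d ρ μ p) (vJ S d ρ μ p) = 0 := by
  simp only [vJ, dc_add_right, dc_smul_right, Nm μ hd p hp, NV μ hd]
  ring

theorem eJ (hp : p ∈ d.r.K) : dc (ve S d ρ μ p) (vJ S d ρ μ p) = 0 := by
  simp only [ve, vJ, dc_add_left, dc_smul_left, dc_add_right, dc_smul_right, mm μ hd p hp,
    VV μ hd p hp, mV μ hd, Vm μ hd]
  ring

theorem ee (hp : p ∈ d.r.K) :
    dc (ve S d ρ μ p) (ve S d ρ μ p) = d.iv p ^ 2 * d.M2 S ρ p := by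
  have h := hd.cs p
  simp only [ve, dc_add_left, dc_smul_left, dc_add_right, dc_smul_right, mm μ hd p hp,
    VV μ hd p hp, mV μ hd, Vm μ hd]
  linear_combination (d.iv p ^ 2 * d.M2 S ρ p) * h

theorem JJ (hp : p ∈ d.r.K) : dc (vJ S d ρ μ p) (vJ S d ρ μ p) = d.M2 S ρ p := by
  have h := hd.cs p
  simp only [vJ, dc_add_left, dc_smul_left, dc_add_right, dc_smul_right, mm μ hd p hp,
    VV μ hd p hp, mV μ hd, Vm μ hd]
  linear_combination (d.M2 S ρ p) * h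

theorem Em : dc (vE S d ρ μ p) (vm S d ρ μ p) = 0 := by
  simp only [vm, dc_add_right, dc_smul_right, ET μ hd, EW μ hd, EF μ hd]; ring

theorem EV : dc (vE S d ρ μ p) (vV S d ρ μ p) = 0 := by
  simp only [vV, dc_add_right, dc_smul_right, ET μ hd, EW μ hd, EF μ hd]; ring

theorem EN : dc (vE S d ρ μ p) (vN S d ρ μ p) = 0 := by
  simp only [vN, dc_add_right, dc_smul_right, EW μ hd, EF μ hd]; ring

theorem Ee : dc (vE S d ρ μ p) (ve S d ρ μ p) = 0 := by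
  simp only [ve, dc_add_right, dc_smul_right, Em μ hd, EV μ hd]; ring

theorem EJ : dc (vE S d ρ μ p) (vJ S d ρ μ p) = 0 := by
  simp only [vJ, dc_add_right, dc_smul_right, Em μ hd, EV μ hd]; ring


/-- decomposition of `D_j X` -/
theorem vX_eq (hp : p ∈ d.r.K) (j : κ) : vX S d j p =
    (S.D j d.r.Ψ p) • vT S d p + (d.r.β j p) • vW S d p := by
  funext a
  have := hd.ray.dec (d.X a) (hd.smX a) j p hp
  simp only [vX, vT, vW, Pi.add_apply, Pi.smul_apply, smul_eq_mul]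
  exact this

theorem Dψ_eq (hp : p ∈ d.r.K) (j : κ) : S.D j d.ψ p =
    S.D j d.r.Ψ p * d.ψt S p + d.r.β j p * d.ψw S p :=
  hd.ray.dec d.ψ hd.smψ j p hp

/-- coefficient of `N` in `L_j` -/
theorem vL_eq (hp : p ∈ d.r.K) (j : κ) : (fun a => d.L S ρ μ j a p) =
    (d.r.β j p + S.D j d.r.Ψ p * d.bt S ρ p) • vN S d ρ μ p
      + (S.D j d.r.Ψ p) • ve S d ρ μ p := by
  have h1 := vX_eq hd p hp j
  have h2 := Dψ_eq hd p hp j
  funext a
  have h1a := congrFun h1 a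
  simp only [vX, vT, vW, Pi.add_apply, Pi.smul_apply, smul_eq_mul] at h1a
  simp only [L, ζ, vN, ve, vm, vV, vT, vW, vF, Pi.add_apply, Pi.smul_apply, smul_eq_mul, h1a, h2,
    e1, e2, e3, cc, ss, a2, a3]
  ring

omit hd in
/-- the leading second derivative -/
theorem vB_eq (j k : κ) : (fun a => d.B S ρ μ j k a p) =
    (S.D j d.r.Ψ p * S.D k d.r.Ψ p * (d.h p * d.iv p)) • vJ S d ρ μ p
      + (-(1 / ρ : ℂ) * (d.ζ S ρ j p * d.ζ S ρ k p)) • vE S d ρ μ p := by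
  funext a
  simp only [B, g1, g2, g3, vJ, vm, vV, vE, vT, vW, vF, Pi.add_apply, Pi.smul_apply, smul_eq_mul]
  ring

/-- vertical component of `L_j` -/
theorem zeta_eq (hp : p ∈ d.r.K) (j : κ) : d.ζ S ρ j p =
    (d.r.β j p + S.D j d.r.Ψ p * d.bt S ρ p) * (ρ * d.ψw S p)
      + S.D j d.r.Ψ p * (d.iv p * (d.c p * d.a3 S ρ p + d.s p * d.b3 S p)) := by
  have h2 := Dψ_eq hd p hp j
  simp only [ζ, h2, e3, cc, ss, a3]
  ring

/-- decomposition of `u_j = D_j X + ρ ψ_j iE` -/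
theorem vu_eq (hp : p ∈ d.r.K) (j : κ) :
    vX S d j p + (ρ * S.D j d.ψ p) • vF S d ρ μ p =
    (d.r.β j p + S.D j d.r.Ψ p * d.bt S ρ p) • vN S d ρ μ p
      + (S.D j d.r.Ψ p) • vm S d ρ μ p := by
  have h1 := vX_eq hd p hp j
  have h2 := Dψ_eq hd p hp j
  rw [h1, h2]
  funext a
  simp only [vN, vm, vT, vW, vF, Pi.add_apply, Pi.smul_apply, smul_eq_mul, a2, a3]
  ring

theorem vu_dc (j k : κ) :
    dc (vX S d j p + (ρ * S.D j d.ψ p) • vF S d ρ μ p)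
      (vX S d k p + (ρ * S.D k d.ψ p) • vF S d ρ μ p) =
    S.met d.X j k p + ρ ^ 2 * (S.D j d.ψ p * S.D k d.ψ p) := by
  have h1 : dc (vX S d j p) (vX S d k p) = S.met d.X j k p := rfl
  have h2 : ∀ j, dc (vX S d j p) (vF S d ρ μ p) = 0 := fun j => by
    rw [dc_comm]; exact FX μ hd p j
  simp only [dc_add_left, dc_smul_left, dc_add_right, dc_smul_right, h1, h2, FX μ hd, FF μ hd]
  ring

theorem LL_K (hp : p ∈ d.r.K) (j k : κ) :
    dc (fun a => d.L S ρ μ j a p) (fun a => d.L S ρ μ k a p) = d.Q S ρ j k p := by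
  have h := vu_dc μ hd p j k
  rw [vu_eq μ hd p hp j, vu_eq μ hd p hp k] at h
  have hNm := Nm μ hd p hp
  have hmN : dc (vm S d ρ μ p) (vN S d ρ μ p) = 0 := by rw [dc_comm]; exact hNm
  have heN : dc (ve S d ρ μ p) (vN S d ρ μ p) = 0 := by rw [dc_comm]; exact Ne μ hd p hp
  simp only [dc_add_left, dc_smul_left, dc_add_right, dc_smul_right, hNm, hmN, NN μ hd,
    mm μ hd p hp] at h
  rw [vL_eq μ hd p hp j, vL_eq μ hd p hp k]
  simp only [dc_add_left, dc_smul_left, dc_add_right, dc_smul_right, Ne μ hd p hp, heN, NN μ hd,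
    ee μ hd p hp]
  simp only [Q]
  linear_combination h

theorem cc_off (hp : p ∉ d.r.K) : d.cc p = 0 := by
  simp only [cc, hd.zc p hp, hd.ziv p hp]; ring

theorem ss_off (hp : p ∉ d.r.K) : d.ss p = 0 := by
  simp only [ss, hd.zs p hp]; ring

theorem zeta_off (hp : p ∉ d.r.K) (j : κ) : d.ζ S ρ j p = ρ * S.D j d.ψ p := by
  simp only [ζ, e3, cc_off hd p hp, ss_off hd p hp]; ring

theorem vL_off (hp : p ∉ d.r.K) (j : κ) : (fun a => d.L S ρ μ j a p) =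
    vX S d j p + (ρ * S.D j d.ψ p) • vF S d ρ μ p := by
  funext a
  simp only [L, zeta_off hd p hp, e1, e2, cc_off hd p hp, ss_off hd p hp, vX, vF, Pi.add_apply,
    Pi.smul_apply, smul_eq_mul]
  ring

theorem LL_off (hp : p ∉ d.r.K) (j k : κ) :
    dc (fun a => d.L S ρ μ j a p) (fun a => d.L S ρ μ k a p) = d.Q S ρ j k p := by
  rw [vL_off μ hd p hp, vL_off μ hd p hp, vu_dc μ hd]
  simp only [Q, hd.ziv p hp]
  ring

/-- **(A)** -/
theorem LL (j k : κ) : dot (d.L S ρ μ j) (d.L S ρ μ k) p = d.Q S ρ j k p := by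
  by_cases hp : p ∈ d.r.K
  · exact LL_K μ hd p hp j k
  · exact LL_off μ hd p hp j k

/-- the area -/
theorem area_K (hp : p ∈ d.r.K) (a b : κ) :
    d.Q S ρ a a p * d.Q S ρ b b p - d.Q S ρ a b p ^ 2 =
    ((d.r.β a p + S.D a d.r.Ψ p * d.bt S ρ p) * S.D b d.r.Ψ p
      - (d.r.β b p + S.D b d.r.Ψ p * d.bt S ρ p) * S.D a d.r.Ψ p) ^ 2
      * (d.Gww S ρ p * (d.iv p ^ 2 * d.M2 S ρ p)) := by
  have heN : dc (ve S d ρ 0 p) (vN S d ρ 0 p) = 0 := by rw [dc_comm]; exact Ne 0 hd p hp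
  rw [← LL_K 0 hd p hp a a, ← LL_K 0 hd p hp b b, ← LL_K 0 hd p hp a b,
    vL_eq 0 hd p hp a, vL_eq 0 hd p hp b]
  simp only [dc_add_left, dc_smul_left, dc_add_right, dc_smul_right, Ne 0 hd p hp, heN, NN 0 hd,
    ee 0 hd p hp]
  ring

/-- **(B)** on `K` -/
theorem gram_K (hρ : ρ ≠ 0) (hp : p ∈ d.r.K) (a b j : κ) :
    gram3 (d.L S ρ μ a) (d.L S ρ μ b) (d.B S ρ μ j j) p =
    (d.Q S ρ a a p * d.Q S ρ b b p - d.Q S ρ a b p ^ 2) *
      (S.D j d.r.Ψ p ^ 4 * d.h p ^ 2 * d.iv p ^ 2 * d.M2 S ρ p + d.ζ S ρ j p ^ 4 / ρ ^ 2) := by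
  have h0 : gram3 (d.L S ρ μ a) (d.L S ρ μ b) (d.B S ρ μ j j) p =
    dg3 (fun i => d.L S ρ μ a i p) (fun i => d.L S ρ μ b i p) (fun i => d.B S ρ μ j j i p) := rfl
  have hNE : dc (vN S d ρ μ p) (vE S d ρ μ p) = 0 := by rw [dc_comm]; exact EN μ hd p
  have heE : dc (ve S d ρ μ p) (vE S d ρ μ p) = 0 := by rw [dc_comm]; exact Ee μ hd p
  have hJE : dc (vJ S d ρ μ p) (vE S d ρ μ p) = 0 := by rw [dc_comm]; exact EJ μ hd p
  rw [h0, vL_eq μ hd p hp, vL_eq μ hd p hp, vB_eq, dg3_eq _ _ _ (Ne μ hd p hp)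
    (by simp only [dc_add_right, dc_smul_right, NJ μ hd p hp, hNE]; ring)
    (by simp only [dc_add_right, dc_smul_right, eJ μ hd p hp, heE]; ring), area_K hd p hp]
  simp only [dc_add_left, dc_smul_left, dc_add_right, dc_smul_right, NN μ hd, ee μ hd p hp,
    JJ μ hd p hp, hJE, EJ μ hd, EE μ hd]
  have hρ' : (ρ : ℂ) ≠ 0 := by exact_mod_cast hρ
  field_simp
  ring

/-- **(B)** off `K` -/
theorem gram_off (hρ : ρ ≠ 0) (hp : p ∉ d.r.K) (a b j : κ) :
    gram3 (d.L S ρ μ a) (d.L S ρ μ b) (d.B S ρ μ j j) p =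
    (d.Q S ρ a a p * d.Q S ρ b b p - d.Q S ρ a b p ^ 2) *
      (S.D j d.r.Ψ p ^ 4 * d.h p ^ 2 * d.iv p ^ 2 * d.M2 S ρ p + d.ζ S ρ j p ^ 4 / ρ ^ 2) := by
  have h0 : gram3 (d.L S ρ μ a) (d.L S ρ μ b) (d.B S ρ μ j j) p =
    dg3 (fun i => d.L S ρ μ a i p) (fun i => d.L S ρ μ b i p) (fun i => d.B S ρ μ j j i p) := rfl
  have hB : (fun i => d.B S ρ μ j j i p) =
      (-(1 / ρ : ℂ) * (d.ζ S ρ j p * d.ζ S ρ j p)) • vE S d ρ μ p := by
    rw [vB_eq, hd.zh p hp]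
    simp
  have hLE : ∀ a, dc (fun i => d.L S ρ μ a i p) (vE S d ρ μ p) = 0 := by
    intro a
    rw [vL_off μ hd p hp, dc_comm, dc_add_right, dc_smul_right, EX μ hd, EF μ hd]
    ring
  rw [h0, hB, ← LL_off μ hd p hp a a, ← LL_off μ hd p hp b b, ← LL_off μ hd p hp a b]
  simp only [dg3, dc_smul_left, dc_smul_right, hLE, EE μ hd, hd.zh p hp]
  have hρ' : (ρ : ℂ) ≠ 0 := by exact_mod_cast hρ
  field_simp
  ring

end

end TData

end Vale.Agent.P205.TW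
end
end

section

/-!
P205, scheme T1W, block FORMULA: the metric of `f`, and perturbation of the Gram determinant.
-/

noncomputable section

namespace Vale.Agent.P205.TW

open Vale.Agent.P205.F
open scoped ContDiff

universe u

variable {P : Type u} {κ : Type}

/-- `u`, `u'` are `O(1)` and `u - u' = O(ε)` -/
structure NE (S : DAlg P κ) {ι : Type*} (μ ε : ι → ℝ) (u u' : ι → P → ℂ) : Prop where
  l : S.FO μ (fun _ => 1) u
  r : S.FO μ (fun _ => 1) u'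
  d : S.FO μ ε (fun i p => u i p - u' i p)

variable {S : DAlg P κ} {ι : Type*} {μ ε : ι → ℝ} {u u' v v' : ι → P → ℂ}

theorem NE.add (h : NE S μ ε u u') (h' : NE S μ ε v v') :
    NE S μ ε (fun i p => u i p + v i p) (fun i p => u' i p + v' i p) :=
  ⟨h.l.add h'.l, h.r.add h'.r, (h.d.add h'.d).congr fun i p => by
    simp only [Pi.add_apply]
    ring⟩

theorem NE.sub (h : NE S μ ε u u') (h' : NE S μ ε v v') :
    NE S μ ε (fun i p => u i p - v i p) (fun i p => u' i p - v' i p) :=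
  ⟨h.l.sub h'.l, h.r.sub h'.r, (h.d.sub h'.d).congr fun i p => by
    simp only [Pi.sub_apply]
    ring⟩

theorem NE.mul (h : NE S μ ε u u') (h' : NE S μ ε v v') :
    NE S μ ε (fun i p => u i p * v i p) (fun i p => u' i p * v' i p) :=
  ⟨fo_mul h.l h'.l, fo_mul h.r h'.r, ((fo_mul' h.d h'.l).add (fo_mul h.r h'.d)).congr
    fun i p => by
      simp only [Pi.add_apply]
      ring⟩

theorem NE.dot {X X' Y Y' : ι → Fin 4 → P → ℂ}
    (hX : ∀ a, NE S μ ε (fun i => X i a) (fun i => X' i a))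
    (hY : ∀ a, NE S μ ε (fun i => Y i a) (fun i => Y' i a)) :
    NE S μ ε (fun i => dot (X i) (Y i)) (fun i => dot (X' i) (Y' i)) := by
  have h := ((((hX 0).mul (hY 0)).add ((hX 1).mul (hY 1))).add ((hX 2).mul (hY 2))).add
    ((hX 3).mul (hY 3))
  refine ⟨h.l.congr fun i p => ?_, h.r.congr fun i p => ?_, h.d.congr fun i p => ?_⟩
  · simp only [Vale.Agent.P205.F.dot, Fin.sum_univ_four]
  · simp only [Vale.Agent.P205.F.dot, Fin.sum_univ_four]
  · simp only [Vale.Agent.P205.F.dot, Fin.sum_univ_four]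

theorem NE.gram3 {X X' Y Y' Z Z' : ι → Fin 4 → P → ℂ}
    (hX : ∀ a, NE S μ ε (fun i => X i a) (fun i => X' i a))
    (hY : ∀ a, NE S μ ε (fun i => Y i a) (fun i => Y' i a))
    (hZ : ∀ a, NE S μ ε (fun i => Z i a) (fun i => Z' i a)) :
    NE S μ ε (fun i => gram3 (X i) (Y i) (Z i)) (fun i => gram3 (X' i) (Y' i) (Z' i)) :=
  (((NE.dot hX hX).mul (((NE.dot hY hY).mul (NE.dot hZ hZ)).sub
    ((NE.dot hY hZ).mul (NE.dot hY hZ)))).sub ((NE.dot hX hY).mul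
      (((NE.dot hX hY).mul (NE.dot hZ hZ)).sub ((NE.dot hY hZ).mul (NE.dot hX hZ))))).add
    ((NE.dot hX hZ).mul (((NE.dot hX hY).mul (NE.dot hY hZ)).sub
      ((NE.dot hY hY).mul (NE.dot hX hZ))))

/-- scaling of the last vector -/
theorem gram3_smul (X Y Z : Fin 4 → P → ℂ) (c : ℂ) (p : P) :
    gram3 X Y (fun a q => c * Z a q) p = c ^ 2 * gram3 X Y Z p := by
  simp only [Vale.Agent.P205.F.gram3, Vale.Agent.P205.F.dot, Fin.sum_univ_four]
  ring

namespace TData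

variable [Fintype κ] {d : ι → TData P κ} {ρ : ℝ} (H : Hyp S d ρ μ ε)
include H

/-- **the induced metric of `f`** -/
theorem formula_met (j k : κ) : S.FO μ ε
    (fun i p => S.met ((d i).f S ρ (μ i)) j k p - (d i).Q S ρ j k p) :=
  (H.metf j k).congr fun i p => by rw [LL (μ i) (H.ok i) p j k]

theorem Hyp.neD (j : κ) (a : Fin 4) :
    NE S μ ε (fun i => S.D j ((d i).f S ρ (μ i) a)) (fun i => (d i).L S ρ (μ i) j a) :=
  ⟨H.foDf j a, H.foL j a, H.Df j a⟩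

theorem Hyp.foB (j k : κ) (a : Fin 4) :
    S.FO μ (fun _ => 1) (fun i => (d i).B S ρ (μ i) j k a) := by
  have g1 : S.FO μ (fun _ => 1) (fun i => (d i).g1 S ρ) :=
    fo_mul (fo_mul H.cls.h H.cls.iv.1) ((fo_mul H.cls.c H.sb1.1).sub H.cls.s)
  have g2 : S.FO μ (fun _ => 1) (fun i => (d i).g2 S ρ) :=
    fo_mul (fo_mul H.cls.h H.cls.iv.1) ((fo_mul H.cls.c H.sb2.1).sub
      (fo_mul H.cls.s H.sa2.1))
  have g3 : S.FO μ (fun _ => 1) (fun i => (d i).g3 S ρ) :=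
    fo_mul (fo_mul H.cls.h H.cls.iv.1) ((fo_mul H.cls.c H.sb3.1).sub
      (fo_mul H.cls.s H.sa3.1))
  have h1 := fo_mul (fo_mul (H.cls.Dr j).1 (H.cls.Dr k).1)
    (((fo_mul g1 (H.sXt a).1).add (fo_mul g2 (H.sXw a).1)).add (fo_mul g3 (H.diE a).1))
  have h2 := fo_mul ((fo_mul (H.foζ j) (H.foζ k)).const_mul (1 / ρ : ℂ)) (H.dE a).1
  exact h1.sub h2

theorem Hyp.neB (j k : κ) (a : Fin 4) :
    NE S μ ε (fun i p => (1 / μ i : ℂ) * S.D k (S.D j ((d i).f S ρ (μ i) a)) p)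
      (fun i => (d i).B S ρ (μ i) j k a) := by
  have h := fo_div H.μ0 (H.DDf j k a)
  have h' : S.FO μ ε (fun i p => (1 / μ i : ℂ) * S.D k (S.D j ((d i).f S ρ (μ i) a)) p
      - (d i).B S ρ (μ i) j k a p) := h.congr fun i p => by
    have : (μ i : ℂ) ≠ 0 := by exact_mod_cast (H.μ0 i).ne'
    field_simp
  refine ⟨?_, H.foB j k a, h'⟩
  exact ((h'.mono_s' H.ε1 fun i => (H.μ0 i).le).add (H.foB j k a)).congr fun i p => by
    simp only [Pi.add_apply]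
    ring

/-- perturbation of the Gram determinant -/
theorem Hyp.neGram (a b j : κ) : ∃ C : ℝ, 0 ≤ C ∧ ∀ i p,
    μ i ^ 2 * ((gram3 ((d i).L S ρ (μ i) a) ((d i).L S ρ (μ i) b)
      ((d i).B S ρ (μ i) j j) p).re - C * ε i) ≤
    (gram3 (S.Dv a ((d i).f S ρ (μ i))) (S.Dv b ((d i).f S ρ (μ i)))
      (S.Dv j (S.Dv j ((d i).f S ρ (μ i)))) p).re := by
  obtain ⟨C, hC, h⟩ := (NE.gram3 (H.neD a) (H.neD b) (H.neB j j)).d.apply
  refine ⟨C, hC, fun i p => ?_⟩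
  have h1 := h i p
  have e : gram3 (S.Dv a ((d i).f S ρ (μ i))) (S.Dv b ((d i).f S ρ (μ i)))
      (S.Dv j (S.Dv j ((d i).f S ρ (μ i)))) p
      = ((μ i ^ 2 : ℝ) : ℂ) * gram3 (fun a_1 => S.D a ((d i).f S ρ (μ i) a_1))
        (fun a => S.D b ((d i).f S ρ (μ i) a))
        (fun a p => (1 / μ i : ℂ) * S.D j (S.D j ((d i).f S ρ (μ i) a)) p) p := by
    rw [gram3_smul]
    have : (μ i : ℂ) ≠ 0 := by exact_mod_cast (H.μ0 i).ne'
    push_cast
    field_simp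
    rfl
  rw [e, Complex.re_ofReal_mul]
  refine mul_le_mul_of_nonneg_left ?_ (by positivity)
  have h2 := (abs_le.1 ((Complex.abs_re_le_norm _).trans h1)).1
  rw [Complex.sub_re] at h2
  linarith

end TData

end Vale.Agent.P205.TW
end
end

section

/-!
P205, scheme T1W, block FORMULA: the nondegeneracy hypotheses and the final statement.
-/

noncomputable section

namespace Vale.Agent.P205.TW

open Vale.Agent.P205.F

universe u

variable {P : Type u} {κ : Type} [Fintype κ] (S : DAlg P κ)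

namespace TData

/-- bounds, lower bounds and nondegeneracy at the point `p` -/
structure PtOk (d : TData P κ) (C c0 c1 cψ τ0 : ℝ) (p : P) : Prop where
  t : ∀ j, ‖d.r.t j p‖ ≤ C
  w : ∀ j, ‖d.r.w j p‖ ≤ C
  DX : ∀ j a, ‖S.D j (d.X a) p‖ ≤ C
  Dψ : ∀ j, ‖S.D j d.ψ p‖ ≤ C
  Dr : ∀ j, ‖S.D j d.r.Ψ p‖ ≤ C
  iG : ‖d.iG p‖ ≤ C
  σ : ‖d.σ p‖ ≤ C
  iv : ‖d.iv p‖ ≤ C
  iv1 : 1 ≤ (d.iv p).re
  det : ∃ a b, c0 ≤ (S.met d.X a a p * S.met d.X b b p - S.met d.X a b p ^ 2).re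
  alt : (p ∈ d.r.K ∧ c1 ≤ ‖d.h p‖) ∨ (1 / 2 ≤ (d.c p).re ∧ ‖d.s p‖ ≤ τ0 * (d.c p).re ∧
    (p ∈ d.r.K → cψ ≤ ‖d.ψt S p‖ + ‖d.ψw S p‖) ∧
    (p ∉ d.r.K → ∃ j, cψ ≤ ‖S.D j d.ψ p‖))

/-- **(C)** pointwise lower bound of the Gram determinant of the leading terms (helper175) -/
def LowerC : Prop := ∀ C c0 cψ ρ : ℝ, 0 < C → 0 < c0 → 0 < cψ → 0 < ρ →
  ∃ τ0 : ℝ, 0 < τ0 ∧ τ0 ≤ 1 ∧ ∀ c1 : ℝ, 0 < c1 → ∃ c : ℝ, 0 < c ∧
    ∀ (d : TData P κ) (μ : ℝ) (p : P), d.Ok S ρ → PtOk S d C c0 c1 cψ τ0 p →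
    ∃ a b j, c ≤ (gram3 (d.L S ρ μ a) (d.L S ρ μ b) (d.B S ρ μ j j) p).re

variable {S}

/-- **FORMULA, second half**: lower bound of the second fundamental form -/
theorem formula_gram (h : LowerC S) (C c0 cψ ρ : ℝ) (hC : 0 < C) (h0 : 0 < c0)
    (hψ : 0 < cψ) (hρ : 0 < ρ) :
    ∃ τ0 : ℝ, 0 < τ0 ∧ τ0 ≤ 1 ∧ ∀ c1 : ℝ, 0 < c1 → ∃ c : ℝ, 0 < c ∧
      ∀ {ι : Type*} (d : ι → TData P κ) (μ ε : ι → ℝ),
      Hyp S d ρ μ ε → (∀ i p, PtOk S (d i) C c0 c1 cψ τ0 p) →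
      ∃ ε0 : ℝ, 0 < ε0 ∧ ∀ i, ε i ≤ ε0 → ∀ p, ∃ a b j, c * μ i ^ 2 ≤
        (gram3 (S.Dv a ((d i).f S ρ (μ i))) (S.Dv b ((d i).f S ρ (μ i)))
          (S.Dv j (S.Dv j ((d i).f S ρ (μ i)))) p).re := by
  obtain ⟨τ0, hτ, hτ1, hL'⟩ := h C c0 cψ ρ hC h0 hψ hρ
  refine ⟨τ0, hτ, hτ1, fun c1 h1 => ?_⟩
  obtain ⟨c, hc, hL⟩ := hL' c1 h1
  refine ⟨c / 2, half_pos hc, fun {ι} d μ ε H hp => ?_⟩
  choose K hK hG using fun a b j => H.neGram a b j
  have hK2 : ∃ K' : ℝ, 0 < K' ∧ ∀ a b j, K a b j ≤ K' := by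
    refine ⟨(∑ a, ∑ b, ∑ j, K a b j) + 1, ?_, fun a b j => ?_⟩
    · have : 0 ≤ ∑ a, ∑ b, ∑ j, K a b j :=
        Finset.sum_nonneg fun a _ => Finset.sum_nonneg fun b _ =>
          Finset.sum_nonneg fun j _ => hK a b j
      linarith
    · have e1 : K a b j ≤ ∑ j, K a b j :=
        Finset.single_le_sum (f := fun j => K a b j) (fun j _ => hK a b j) (Finset.mem_univ j)
      have e2 : ∑ j, K a b j ≤ ∑ b, ∑ j, K a b j :=
        Finset.single_le_sum (f := fun b => ∑ j, K a b j)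
          (fun b _ => Finset.sum_nonneg fun j _ => hK a b j) (Finset.mem_univ b)
      have e3 : ∑ b, ∑ j, K a b j ≤ ∑ a, ∑ b, ∑ j, K a b j :=
        Finset.single_le_sum (f := fun a => ∑ b, ∑ j, K a b j)
          (fun a _ => Finset.sum_nonneg fun b _ => Finset.sum_nonneg fun j _ => hK a b j)
          (Finset.mem_univ a)
      linarith
  obtain ⟨K', hK'0, hK'⟩ := hK2
  refine ⟨c / (2 * K'), by positivity, fun i hi p => ?_⟩
  obtain ⟨a, b, j, hg⟩ := hL (d i) (μ i) p (H.ok i) (hp i p)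
  refine ⟨a, b, j, ?_⟩
  have h3 := hG a b j i p
  have h4 : K a b j * ε i ≤ c / 2 := by
    calc K a b j * ε i ≤ K' * (c / (2 * K')) :=
          mul_le_mul (hK' a b j) hi (H.ε0 i) hK'0.le
      _ = c / 2 := by field_simp
  have h5 : c / 2 ≤ (gram3 ((d i).L S ρ (μ i) a) ((d i).L S ρ (μ i) b)
      ((d i).B S ρ (μ i) j j) p).re - K a b j * ε i := by linarith
  calc c / 2 * μ i ^ 2 = μ i ^ 2 * (c / 2) := mul_comm _ _
    _ ≤ _ := mul_le_mul_of_nonneg_left h5 (by positivity)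
    _ ≤ _ := h3

end TData

end Vale.Agent.P205.TW
end
end

section

noncomputable section

open scoped Manifold ContDiff Topology
open Set Filter

namespace Vale.Agent.P205.TW

end Vale.Agent.P205.TW
end
end

section

/-!
# P205, T1: basic calculus of `DAlg` used in the iteration
-/

open scoped ContDiff

noncomputable section

namespace Vale.Agent.P205.F

namespace It

universe u

variable {P : Type u} {κ : Type} {S : DAlg P κ}

/-! ### smooth functions -/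

lemma sm_smul (c : ℂ) {u : P → ℂ} (hu : S.Sm u) : S.Sm (fun p => c * u p) :=
  S.sm_mul (S.sm_const c) hu

lemma sm_sub {u v : P → ℂ} (hu : S.Sm u) (hv : S.Sm v) : S.Sm (fun p => u p - v p) := by
  have h := S.sm_add hu (sm_smul (-1) hv)
  have e : (u + fun p => (-1) * v p) = fun p => u p - v p := by
    funext p; simp [sub_eq_add_neg]
  rwa [e] at h

lemma D_smul (j : κ) (c : ℂ) {u : P → ℂ} (hu : S.Sm u) :
    S.D j (fun p => c * u p) = fun p => c * S.D j u p := by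
  have h := S.D_mul j (S.sm_const c) hu
  rw [S.D_const] at h
  have e : ((fun _ => c) * u) = fun p => c * u p := rfl
  rw [e] at h
  rw [h]; funext p; simp

lemma D_sub (j : κ) {u v : P → ℂ} (hu : S.Sm u) (hv : S.Sm v) :
    S.D j (fun p => u p - v p) = fun p => S.D j u p - S.D j v p := by
  have h := S.D_add j hu (sm_smul (-1) hv)
  have e : (u + fun p => (-1) * v p) = fun p => u p - v p := by
    funext p; simp [sub_eq_add_neg]
  rw [e, D_smul j _ hv] at h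
  rw [h]; funext p; simp [sub_eq_add_neg]

lemma sm_sum {ι : Type*} (s : Finset ι) {f : ι → P → ℂ} (hf : ∀ i ∈ s, S.Sm (f i)) :
    S.Sm (fun p => ∑ i ∈ s, f i p) := by
  classical
  induction s using Finset.induction_on with
  | empty => simpa using S.sm_const 0
  | insert a s ha ih =>
    have h := S.sm_add (hf a (Finset.mem_insert_self a s))
      (ih fun i hi => hf i (Finset.mem_insert_of_mem hi))
    have e : (f a + fun p => ∑ i ∈ s, f i p) = fun p => ∑ i ∈ insert a s, f i p := by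
      funext p; simp [Finset.sum_insert ha]
    rwa [e] at h

lemma D_sum {ι : Type*} (j : κ) (s : Finset ι) {f : ι → P → ℂ} (hf : ∀ i ∈ s, S.Sm (f i)) :
    S.D j (fun p => ∑ i ∈ s, f i p) = fun p => ∑ i ∈ s, S.D j (f i) p := by
  classical
  induction s using Finset.induction_on with
  | empty =>
    have h := S.D_const j 0
    have e : (fun p : P => ∑ i ∈ (∅ : Finset ι), f i p) = fun _ => (0 : ℂ) := by
      funext p; simp
    rw [e, h]; funext p; simp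
  | insert a s ha ih =>
    have h := S.D_add j (hf a (Finset.mem_insert_self a s))
      (sm_sum s fun i hi => hf i (Finset.mem_insert_of_mem hi))
    have e : (f a + fun p => ∑ i ∈ s, f i p) = fun p => ∑ i ∈ insert a s, f i p := by
      funext p; simp [Finset.sum_insert ha]
    rw [e, ih fun i hi => hf i (Finset.mem_insert_of_mem hi)] at h
    rw [h]; funext p; simp [Finset.sum_insert ha]

lemma sm_dot {X Y : Fin 4 → P → ℂ} (hX : ∀ a, S.Sm (X a)) (hY : ∀ a, S.Sm (Y a)) :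
    S.Sm (dot X Y) :=
  sm_sum Finset.univ fun a _ => S.sm_mul (hX a) (hY a)

lemma sm_met {X : Fin 4 → P → ℂ} (hX : ∀ a, S.Sm (X a)) (j k : κ) : S.Sm (S.met X j k) :=
  sm_dot (fun a => S.sm_D j (hX a)) (fun a => S.sm_D k (hX a))

/-! ### words -/

lemma wd_append (w w' : List κ) (u : P → ℂ) : S.wd (w ++ w') u = S.wd w (S.wd w' u) := by
  induction w with
  | nil => rfl
  | cons j w ih => simp only [List.cons_append, DAlg.wd, ih]

lemma wd_snoc (w : List κ) (j : κ) (u : P → ℂ) : S.wd (w ++ [j]) u = S.wd w (S.D j u) :=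
  wd_append w [j] u

lemma sm_wd (w : List κ) {u : P → ℂ} (hu : S.Sm u) : S.Sm (S.wd w u) := by
  induction w with
  | nil => exact hu
  | cons j w ih => exact S.sm_D j ih

lemma wd_add (w : List κ) {u v : P → ℂ} (hu : S.Sm u) (hv : S.Sm v) :
    S.wd w (u + v) = S.wd w u + S.wd w v := by
  induction w with
  | nil => rfl
  | cons j w ih => simp only [DAlg.wd, ih]; exact S.D_add j (sm_wd w hu) (sm_wd w hv)

lemma wd_smul (w : List κ) (c : ℂ) {u : P → ℂ} (hu : S.Sm u) :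
    S.wd w (fun p => c * u p) = fun p => c * S.wd w u p := by
  induction w with
  | nil => rfl
  | cons j w ih => simp only [DAlg.wd, ih]; exact D_smul j c (sm_wd w hu)

lemma wd_sub (w : List κ) {u v : P → ℂ} (hu : S.Sm u) (hv : S.Sm v) :
    S.wd w (fun p => u p - v p) = fun p => S.wd w u p - S.wd w v p := by
  induction w with
  | nil => rfl
  | cons j w ih => simp only [DAlg.wd, ih]; exact D_sub j (sm_wd w hu) (sm_wd w hv)

/-! ### bounds -/

lemma Bd.mono {μ μ' C C' : ℝ} {k k' : ℕ} {u : P → ℂ} (h : S.Bd μ k C u) (hk : k' ≤ k)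
    (hμ0 : 0 ≤ μ) (hμ : μ ≤ μ') (hC0 : 0 ≤ C) (hC : C ≤ C') : S.Bd μ' k' C' u := by
  intro w hw p
  refine (h w (hw.trans hk) p).trans ?_
  have h1 : μ ^ w.length ≤ μ' ^ w.length := pow_le_pow_left₀ hμ0 hμ _
  have h2 : 0 ≤ μ ^ w.length := pow_nonneg hμ0 _
  calc C * μ ^ w.length ≤ C' * μ ^ w.length := by gcongr
    _ ≤ C' * μ' ^ w.length := by gcongr; exact hC0.trans hC

lemma Bd.monoC {μ C C' : ℝ} {k : ℕ} {u : P → ℂ} (h : S.Bd μ k C u)
    (hμ0 : 0 ≤ μ) (hC : C ≤ C') : S.Bd μ k C' u := by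
  intro w hw p
  refine (h w hw p).trans ?_
  have h2 : 0 ≤ μ ^ w.length := pow_nonneg hμ0 _
  gcongr

lemma Bd.add {μ C C' : ℝ} {k : ℕ} {u v : P → ℂ} (hu : S.Sm u) (hv : S.Sm v)
    (h : S.Bd μ k C u) (h' : S.Bd μ k C' v) : S.Bd μ k (C + C') (fun p => u p + v p) := by
  intro w hw p
  have e : S.wd w (fun p => u p + v p) = S.wd w u + S.wd w v := wd_add w hu hv
  rw [e]
  calc ‖(S.wd w u + S.wd w v) p‖ ≤ ‖S.wd w u p‖ + ‖S.wd w v p‖ := norm_add_le _ _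
    _ ≤ C * μ ^ w.length + C' * μ ^ w.length := add_le_add (h w hw p) (h' w hw p)
    _ = _ := by ring

lemma Bd.sub {μ C C' : ℝ} {k : ℕ} {u v : P → ℂ} (hu : S.Sm u) (hv : S.Sm v)
    (h : S.Bd μ k C u) (h' : S.Bd μ k C' v) : S.Bd μ k (C + C') (fun p => u p - v p) := by
  intro w hw p
  rw [wd_sub w hu hv]
  calc ‖S.wd w u p - S.wd w v p‖ ≤ ‖S.wd w u p‖ + ‖S.wd w v p‖ := norm_sub_le _ _
    _ ≤ C * μ ^ w.length + C' * μ ^ w.length := add_le_add (h w hw p) (h' w hw p)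
    _ = _ := by ring

lemma Bd.smul {μ C : ℝ} {k : ℕ} {u : P → ℂ} (c : ℂ) (hu : S.Sm u)
    (h : S.Bd μ k C u) : S.Bd μ k (‖c‖ * C) (fun p => c * u p) := by
  intro w hw p
  rw [wd_smul w c hu, norm_mul, mul_assoc]
  exact mul_le_mul_of_nonneg_left (h w hw p) (norm_nonneg c)

lemma Bd.neg {μ C : ℝ} {k : ℕ} {u : P → ℂ} (hu : S.Sm u)
    (h : S.Bd μ k C u) : S.Bd μ k C (fun p => - u p) := by
  have := Bd.smul (-1) hu h
  simpa using this

lemma Bd.D {μ C : ℝ} {k : ℕ} {u : P → ℂ} (j : κ) (h : S.Bd μ (k + 1) C u) :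
    S.Bd μ k (C * μ) (S.D j u) := by
  intro w hw p
  rw [← wd_snoc]
  refine (h (w ++ [j]) (by simpa using hw) p).trans (le_of_eq ?_)
  simp [pow_succ]; ring

lemma Bd.mul {μ : ℝ} (hμ : 0 ≤ μ) : ∀ {k : ℕ} {C C' : ℝ} {u v : P → ℂ}, 0 ≤ C → 0 ≤ C' →
    S.Sm u → S.Sm v → S.Bd μ k C u → S.Bd μ k C' v →
    S.Bd μ k (2 ^ k * (C * C')) (fun p => u p * v p) := by
  intro k
  induction k with
  | zero =>
    intro C C' u v hC hC' hu hv h h' w hw p
    obtain rfl : w = [] := List.eq_nil_of_length_eq_zero (by omega)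
    have h1 := h [] (by simp) p
    have h2 := h' [] (by simp) p
    simp only [DAlg.wd, List.length_nil, pow_zero, mul_one] at h1 h2 ⊢
    rw [norm_mul, one_mul]
    exact mul_le_mul h1 h2 (norm_nonneg _) hC
  | succ k ih =>
    intro C C' u v hC hC' hu hv h h' w hw p
    rcases List.eq_nil_or_concat w with rfl | ⟨w', j, rfl⟩
    · have h1 := h [] (by simp) p
      have h2 := h' [] (by simp) p
      simp only [DAlg.wd, List.length_nil, pow_zero, mul_one] at h1 h2 ⊢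
      rw [norm_mul]
      calc ‖u p‖ * ‖v p‖ ≤ C * C' := mul_le_mul h1 h2 (norm_nonneg _) hC
        _ ≤ 2 ^ (k + 1) * (C * C') := by
          have : (1 : ℝ) ≤ 2 ^ (k + 1) := one_le_pow₀ (by norm_num)
          linarith only [mul_nonneg (sub_nonneg.2 this) (sub_nonneg.2 (mul_nonneg hC hC'))]
    · have hw' : w'.length ≤ k := by simpa using hw
      rw [List.concat_eq_append, wd_snoc]
      have e : S.D j (fun p => u p * v p)
          = (fun p => S.D j u p * v p) + fun p => u p * S.D j v p := S.D_mul j hu hv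
      have s1 : S.Sm (fun p => S.D j u p * v p) := S.sm_mul (S.sm_D j hu) hv
      have s2 : S.Sm (fun p => u p * S.D j v p) := S.sm_mul hu (S.sm_D j hv)
      rw [e, wd_add w' s1 s2]
      have b1 := ih (mul_nonneg hC hμ) hC' (S.sm_D j hu) hv (Bd.D j h)
        (Bd.mono h' (Nat.le_succ k) hμ le_rfl hC' le_rfl) w' hw' p
      have b2 := ih hC (mul_nonneg hC' hμ) hu (S.sm_D j hv)
        (Bd.mono h (Nat.le_succ k) hμ le_rfl hC le_rfl) (Bd.D j h') w' hw' p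
      calc ‖(S.wd w' (fun p => S.D j u p * v p) + S.wd w' fun p => u p * S.D j v p) p‖
          ≤ _ := norm_add_le _ _
        _ ≤ _ := add_le_add b1 b2
        _ = _ := by simp [pow_succ]; ring

lemma Bd.sum {ι : Type*} {μ C : ℝ} {k : ℕ} (s : Finset ι) {f : ι → P → ℂ}
    (hs : ∀ i ∈ s, S.Sm (f i)) (hf : ∀ i ∈ s, S.Bd μ k C (f i)) :
    S.Bd μ k (s.card * C) (fun p => ∑ i ∈ s, f i p) := by
  classical
  induction s using Finset.induction_on with
  | empty =>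
    intro w hw p
    have e : (fun p : P => ∑ i ∈ (∅ : Finset ι), f i p) = fun p => (0 : ℂ) * (0 : ℂ) := by
      funext p; simp
    rw [e, wd_smul w 0 (S.sm_const 0)]
    simp
  | insert a s ha ih =>
    have h := Bd.add (hs a (Finset.mem_insert_self a s))
      (sm_sum s fun i hi => hs i (Finset.mem_insert_of_mem hi))
      (hf a (Finset.mem_insert_self a s))
      (ih (fun i hi => hs i (Finset.mem_insert_of_mem hi))
        fun i hi => hf i (Finset.mem_insert_of_mem hi))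
    have e : (fun p => f a p + ∑ i ∈ s, f i p) = fun p => ∑ i ∈ insert a s, f i p := by
      funext p; simp [Finset.sum_insert ha]
    rw [e] at h
    intro w hw p
    refine (h w hw p).trans (le_of_eq ?_)
    rw [Finset.card_insert_of_notMem ha]; push_cast; ring

lemma Bd.dot {μ C C' : ℝ} {k : ℕ} (hμ : 0 ≤ μ) (hC : 0 ≤ C) (hC' : 0 ≤ C')
    {X Y : Fin 4 → P → ℂ} (hX : ∀ a, S.Sm (X a)) (hY : ∀ a, S.Sm (Y a))
    (bX : ∀ a, S.Bd μ k C (X a)) (bY : ∀ a, S.Bd μ k C' (Y a)) :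
    S.Bd μ k (4 * (2 ^ k * (C * C'))) (dot X Y) := by
  have h := Bd.sum (S := S) (Finset.univ : Finset (Fin 4)) (f := fun a p => X a p * Y a p)
    (fun a _ => S.sm_mul (hX a) (hY a))
    (fun a _ => Bd.mul hμ hC hC' (hX a) (hY a) (bX a) (bY a))
  rw [Finset.card_univ, Fintype.card_fin] at h
  exact_mod_cast h

end It

end Vale.Agent.P205.F
end
end

section

/-!
# P205, T1 iteration: numeric helper lemmas, Gram determinants, uniform constants
-/

open scoped ContDiff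

noncomputable section

namespace Vale.Agent.P205.F

namespace It

/-- powers of a number at least one -/
lemma pow_mul_inv_le {z : ℝ} (hz : 1 ≤ z) {a b c : ℕ} (h : a + c ≤ b) :
    z ^ a * (z ^ b)⁻¹ ≤ (z ^ c)⁻¹ := by
  have hz0 : 0 < z := by linarith
  have h1 : z ^ a * z ^ c ≤ z ^ b := by
    rw [← pow_add]; exact pow_le_pow_right₀ hz h
  rw [← div_eq_mul_inv, div_le_iff₀ (by positivity), inv_mul_eq_div, le_div_iff₀ (by positivity)]
  exact h1

lemma inv_pow_le {z : ℝ} (hz : 1 ≤ z) {b c : ℕ} (h : c ≤ b) : (z ^ b)⁻¹ ≤ (z ^ c)⁻¹ := by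
  have := pow_mul_inv_le hz (a := 0) (b := b) (c := c) (by omega)
  simpa using this

lemma inv_pow_le_one {z : ℝ} (hz : 1 ≤ z) (b : ℕ) : (z ^ b)⁻¹ ≤ 1 := by
  have := inv_pow_le hz (b := b) (c := 0) (by omega)
  simpa using this

/-- uniform constants over a finite type -/
lemma unif {α : Type*} [Finite α] {p : α → ℝ → Prop}
    (hm : ∀ a C C', C ≤ C' → p a C → p a C') (h : ∀ a, ∃ C, p a C) :
    ∃ C, 1 ≤ C ∧ ∀ a, p a C := by
  classical
  have := Fintype.ofFinite α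
  choose F hF using h
  refine ⟨1 + ∑ a, |F a|, ?_, fun a => hm a (F a) _ ?_ (hF a)⟩
  · have : 0 ≤ ∑ a, |F a| := Finset.sum_nonneg fun _ _ => abs_nonneg _
    linarith
  · have h1 : |F a| ≤ ∑ b, |F b| :=
      Finset.single_le_sum (f := fun b => |F b|) (fun _ _ => abs_nonneg _) (Finset.mem_univ a)
    have h2 := le_abs_self (F a)
    linarith

/-- a bound for the first constants of a sequence -/
lemma seq_bound (C : ℕ → ℝ) (k : ℕ) : ∃ B, 1 ≤ B ∧ ∀ l ≤ k, C l ≤ B := by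
  obtain ⟨B, hB, h⟩ := unif (α := Fin (k + 1)) (p := fun l B => C l ≤ B)
    (fun a C C' h h' => h'.trans h) (fun a => ⟨_, le_rfl⟩)
  exact ⟨B, hB, fun l hl => h ⟨l, by omega⟩⟩

/-! ### Gram determinants -/

/-- bilinear product of vectors -/
def dt (x y : Fin 4 → ℂ) : ℂ := ∑ i, x i * y i

/-- Gram determinant of vectors -/
def g3 (x y z : Fin 4 → ℂ) : ℂ :=
  dt x x * (dt y y * dt z z - dt y z * dt y z)
    - dt x y * (dt x y * dt z z - dt y z * dt x z)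
    + dt x z * (dt x y * dt y z - dt y y * dt x z)

lemma gram3_eq {P : Type*} (x y z : Fin 4 → P → ℂ) (p : P) :
    gram3 x y z p = g3 (fun a => x a p) (fun a => y a p) (fun a => z a p) := rfl

lemma dt_norm {x y : Fin 4 → ℂ} {R : ℝ} (hR : 0 ≤ R) (hx : ∀ i, ‖x i‖ ≤ R) (hy : ∀ i, ‖y i‖ ≤ R) :
    ‖dt x y‖ ≤ 4 * R ^ 2 := by
  unfold dt
  refine (norm_sum_le _ _).trans ?_
  have : ∀ i ∈ (Finset.univ : Finset (Fin 4)), ‖x i * y i‖ ≤ R * R := fun i _ => by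
    rw [norm_mul]; exact mul_le_mul (hx i) (hy i) (norm_nonneg _) hR
  refine (Finset.sum_le_sum this).trans (le_of_eq ?_)
  simp; ring

lemma dt_sub {x y x' y' : Fin 4 → ℂ} {R e : ℝ} (hR : 0 ≤ R) (he : 0 ≤ e)
    (hy : ∀ i, ‖y i‖ ≤ R) (hx' : ∀ i, ‖x' i‖ ≤ R)
    (hx : ∀ i, ‖x i - x' i‖ ≤ e) (hyy : ∀ i, ‖y i - y' i‖ ≤ e) :
    ‖dt x y - dt x' y'‖ ≤ 8 * (R * e) := by
  unfold dt
  rw [← Finset.sum_sub_distrib]
  refine (norm_sum_le _ _).trans ?_
  have : ∀ i ∈ (Finset.univ : Finset (Fin 4)), ‖x i * y i - x' i * y' i‖ ≤ 2 * (R * e) :=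
    fun i _ => by
      have e1 : x i * y i - x' i * y' i = (x i - x' i) * y i + x' i * (y i - y' i) := by ring
      rw [e1]
      refine (norm_add_le _ _).trans ?_
      rw [norm_mul, norm_mul]
      have h1 : ‖x i - x' i‖ * ‖y i‖ ≤ e * R := mul_le_mul (hx i) (hy i) (norm_nonneg _) he
      have h2 : ‖x' i‖ * ‖y i - y' i‖ ≤ R * e := mul_le_mul (hx' i) (hyy i) (norm_nonneg _) hR
      linarith
  refine (Finset.sum_le_sum this).trans (le_of_eq ?_)
  simp; ring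

lemma triple_sub {a b c a' b' c' : ℂ} {M e : ℝ} (hM : 0 ≤ M)
    (hb : ‖b‖ ≤ M) (hc : ‖c‖ ≤ M) (ha' : ‖a'‖ ≤ M) (hb' : ‖b'‖ ≤ M)
    (ha : ‖a - a'‖ ≤ e) (hbb : ‖b - b'‖ ≤ e) (hcc : ‖c - c'‖ ≤ e) :
    ‖a * b * c - a' * b' * c'‖ ≤ 3 * (M ^ 2 * e) := by
  have he : 0 ≤ e := (norm_nonneg _).trans ha
  have e1 : a * b * c - a' * b' * c' =
      (a - a') * b * c + a' * (b - b') * c + a' * b' * (c - c') := by ring
  rw [e1]
  refine (norm_add_le _ _).trans ?_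
  refine (add_le_add (norm_add_le _ _) le_rfl).trans ?_
  simp only [norm_mul]
  have h1 : ‖a - a'‖ * ‖b‖ * ‖c‖ ≤ e * M * M := by gcongr
  have h2 : ‖a'‖ * ‖b - b'‖ * ‖c‖ ≤ M * e * M := by gcongr
  have h3 : ‖a'‖ * ‖b'‖ * ‖c - c'‖ ≤ M * M * e := by gcongr
  linarith only [h3, h2, h1]

lemma g3_sub {x y z x' y' z' : Fin 4 → ℂ} {R e : ℝ} (hR : 0 ≤ R) (he : 0 ≤ e)
    (hx : ∀ i, ‖x i‖ ≤ R) (hy : ∀ i, ‖y i‖ ≤ R) (hz : ∀ i, ‖z i‖ ≤ R)
    (hx' : ∀ i, ‖x' i‖ ≤ R) (hy' : ∀ i, ‖y' i‖ ≤ R) (hz' : ∀ i, ‖z' i‖ ≤ R)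
    (ex : ∀ i, ‖x i - x' i‖ ≤ e) (ey : ∀ i, ‖y i - y' i‖ ≤ e) (ez : ∀ i, ‖z i - z' i‖ ≤ e) :
    ‖g3 x y z - g3 x' y' z'‖ ≤ 2304 * (R ^ 5 * e) := by
  set M := 4 * R ^ 2 with hM
  set f := 8 * (R * e) with hf
  have hM0 : 0 ≤ M := by positivity
  have nxx := dt_norm hR hx hx
  have nxy := dt_norm hR hx hy
  have nxz := dt_norm hR hx hz
  have nyy := dt_norm hR hy hy
  have nyz := dt_norm hR hy hz
  have nzz := dt_norm hR hz hz
  have nxx' := dt_norm hR hx' hx'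
  have nxy' := dt_norm hR hx' hy'
  have nxz' := dt_norm hR hx' hz'
  have nyy' := dt_norm hR hy' hy'
  have nyz' := dt_norm hR hy' hz'
  have nzz' := dt_norm hR hz' hz'
  have sxx := dt_sub hR he hx hx' ex ex
  have sxy := dt_sub hR he hy hx' ex ey
  have sxz := dt_sub hR he hz hx' ex ez
  have syy := dt_sub hR he hy hy' ey ey
  have syz := dt_sub hR he hz hy' ey ez
  have szz := dt_sub hR he hz hz' ez ez
  have t1 := triple_sub hM0 nyy nzz nxx' nyy' sxx syy szz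
  have t2 := triple_sub hM0 nyz nyz nxx' nyz' sxx syz syz
  have t3 := triple_sub hM0 nxy nzz nxy' nxy' sxy sxy szz
  have t4 := triple_sub hM0 nyz nxz nxy' nyz' sxy syz sxz
  have t5 := triple_sub hM0 nxy nyz nxz' nxy' sxz sxy syz
  have t6 := triple_sub hM0 nyy nxz nxz' nyy' sxz syy sxz
  have key : g3 x y z - g3 x' y' z' =
      (dt x x * dt y y * dt z z - dt x' x' * dt y' y' * dt z' z')
      - (dt x x * dt y z * dt y z - dt x' x' * dt y' z' * dt y' z')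
      - (dt x y * dt x y * dt z z - dt x' y' * dt x' y' * dt z' z')
      + (dt x y * dt y z * dt x z - dt x' y' * dt y' z' * dt x' z')
      + (dt x z * dt x y * dt y z - dt x' z' * dt x' y' * dt y' z')
      - (dt x z * dt y y * dt x z - dt x' z' * dt y' y' * dt x' z') := by
    unfold g3; ring
  rw [key]
  have hfin : ∀ a b c d e' f' : ℂ, ‖a - b - c + d + e' - f'‖ ≤
      ‖a‖ + ‖b‖ + ‖c‖ + ‖d‖ + ‖e'‖ + ‖f'‖ := by
    intro a b c d e' f'
    refine (norm_sub_le _ _).trans (add_le_add ?_ le_rfl)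
    refine (norm_add_le _ _).trans (add_le_add ?_ le_rfl)
    refine (norm_add_le _ _).trans (add_le_add ?_ le_rfl)
    refine (norm_sub_le _ _).trans (add_le_add ?_ le_rfl)
    exact norm_sub_le _ _
  refine (hfin _ _ _ _ _ _).trans ?_
  have tot : 3 * (M ^ 2 * f) * 6 = 2304 * (R ^ 5 * e) := by rw [hM, hf]; ring
  linarith only [t6, t5, t4, t3, t2, t1]

end It

end Vale.Agent.P205.F
end
end

section

/-!
# P205, T1U iteration: the invariants of the iteration, the statements of the two steps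

Level `t` (`t = 5(n+2)`), `z ^ (400 t) = 1/δ`, `δ' = (z ^ (500 t))⁻¹`.
-/

open scoped ContDiff

noncomputable section

namespace Vale.Agent.P205.F

namespace It

universe u

variable {P : Type u} {κ : Type} (S : DAlg P κ)

/-- the invariants of one state `X` of the iteration: scale `μ`, orders at most `N`, size `b` of
the second derivatives, defect `E` relative to `δ G`, distance `e` to the initial map `f` -/
structure Inv (G : κ → κ → P → ℂ) (f : Fin 4 → P → ℂ) (b A : ℝ) (N : ℕ) (δ E μ e : ℝ)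
    (X : Fin 4 → P → ℂ) : Prop where
  sm : ∀ a, S.Sm (X a)
  rl : ∀ a, Rl (X a)
  b1 : ∀ j a, S.Bd μ N A (S.D j (X a))
  b2 : ∀ j k a, S.Bd μ N (A * b) (S.D j (S.D k (X a)))
  bE : ∀ j k, S.Bd μ N E (fun p => G j k p - S.met X j k p - δ * G j k p)
  c0 : ∀ a p, ‖X a p - f a p‖ ≤ e
  c1 : ∀ j a p, ‖S.D j (X a) p - S.D j (f a) p‖ ≤ e
  c2 : ∀ j k a p, ‖S.D j (S.D k (X a)) p - S.D j (S.D k (f a)) p‖ ≤ e * b

/-- the first step, level `t = 10` -/
def First {ι : Type u} (G : κ → κ → P → ℂ) (f : ι → Fin 4 → P → ℂ) (b δ : ι → ℝ) (A : ℝ) :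
    Prop :=
  ∀ N : ℕ, ∃ z0 : ℝ, 1 ≤ z0 ∧ ∀ (i : ι) (z : ℝ), z0 ≤ z → δ i * z ^ (400 * 10) = 1 →
    ∃ X' : Fin 4 → P → ℂ, Inv S G (f i) (b i) A N ((z ^ (500 * 10))⁻¹) ((z ^ (505 * 10))⁻¹)
      (b i * z ^ 4) ((z ^ (100 * 10))⁻¹) X'

/-- the general step at level `t` -/
def Step {ι : Type u} (G : κ → κ → P → ℂ) (f : ι → Fin 4 → P → ℂ) (b : ι → ℝ) (A e0 : ℝ)
    (t : ℕ) : Prop :=
  ∀ N : ℕ, ∃ z0 : ℝ, 1 ≤ z0 ∧ ∀ (i : ι) (z μ e : ℝ) (X : Fin 4 → P → ℂ), z0 ≤ z → b i ≤ μ →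
    μ ≤ b i * z ^ 32 → 0 ≤ e → e + (z ^ (100 * t))⁻¹ ≤ e0 →
    Inv S G (f i) (b i) A (1600 * t + 2) ((z ^ (400 * t))⁻¹) ((z ^ (404 * t))⁻¹) μ e X →
    ∃ X' : Fin 4 → P → ℂ, Inv S G (f i) (b i) A N ((z ^ (500 * t))⁻¹) ((z ^ (505 * t))⁻¹)
      (μ * z ^ 4) (e + (z ^ (100 * t))⁻¹) X' ∧
      ∀ a, S.Bd (μ * z ^ 4) (400 * t) ((z ^ (160 * t))⁻¹) (fun p => X' a p - X a p)

variable {S}

lemma Inv.mono {G : κ → κ → P → ℂ} {f : Fin 4 → P → ℂ} {b A : ℝ} {N N' : ℕ} {δ E E' μ e e' : ℝ}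
    {X : Fin 4 → P → ℂ} (h : Inv S G f b A N δ E μ e X) (hN : N' ≤ N) (hE0 : 0 ≤ E)
    (hE : E ≤ E') (he : e ≤ e') (hb : 0 ≤ b) (hA : 0 ≤ A) (hμ : 0 ≤ μ) :
    Inv S G f b A N' δ E' μ e' X where
  sm := h.sm
  rl := h.rl
  b1 := fun j a => Bd.mono (h.b1 j a) hN hμ le_rfl hA le_rfl
  b2 := fun j k a => Bd.mono (h.b2 j k a) hN hμ le_rfl (mul_nonneg hA hb) le_rfl
  bE := fun j k => Bd.mono (h.bE j k) hN hμ le_rfl hE0 hE
  c0 := fun a p => (h.c0 a p).trans he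
  c1 := fun j a p => (h.c1 j a p).trans he
  c2 := fun j k a p => (h.c2 j k a p).trans (mul_le_mul_of_nonneg_right he hb)

end It

end Vale.Agent.P205.F
end
end

section

/-!
# P205, T1U iteration: bounds for the smoothed map and for the tensor to be added
-/

open scoped ContDiff

noncomputable section

namespace Vale.Agent.P205.F

namespace It

universe u

variable {P : Type u} {κ : Type} {S : DAlg P κ}

/-! ### smoothing -/

lemma sm_gain {m : ℕ} (Sm : S.Smoothing m) (r k : ℕ) : ∃ C, 1 ≤ C ∧ ∀ (θ B : ℝ) (u : P → ℂ),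
    1 ≤ θ → 0 ≤ B → S.Sm u → S.Nb r B u → ∀ w : List κ, w.length ≤ k → ∀ p,
      ‖S.wd w (Sm.T θ u) p‖ ≤ C * B * θ ^ (w.length - r) := by
  obtain ⟨C, hC1, hC⟩ := seq_bound Sm.C (k + r)
  refine ⟨C, hC1, fun θ B u hθ hB hu hN w hw p => ?_⟩
  have h := Sm.gain (k := r) (l := max w.length r) (le_max_right _ _) hθ hu hN w
    (le_max_left _ _) p
  refine h.trans ?_
  have h1 : Sm.C (max w.length r) ≤ C := hC _ (by omega)
  have h2 : max w.length r - r = w.length - r := by omega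
  rw [h2]
  have h3 : 0 ≤ θ ^ (w.length - r) * B := by positivity
  calc Sm.C (max w.length r) * θ ^ (w.length - r) * B
      = Sm.C (max w.length r) * (θ ^ (w.length - r) * B) := by ring
    _ ≤ C * (θ ^ (w.length - r) * B) := by gcongr
    _ = _ := by ring

/-! ### metrics -/

/-- difference of two metrics -/
lemma bd_met_sub {θ C C' c : ℝ} {k : ℕ} {X Y : Fin 4 → P → ℂ} (hθ : 0 ≤ θ) (hC : 0 ≤ C)
    (hC' : 0 ≤ C') (hc : 0 ≤ c)
    (hX : ∀ a, S.Sm (X a)) (hY : ∀ a, S.Sm (Y a)) (h : ∀ j a, S.Bd θ k C (S.D j (X a)))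
    (h' : ∀ j a, S.Bd θ k C' (S.D j (Y a)))
    (hd : ∀ j a, S.Bd θ k c (S.D j (fun p => X a p - Y a p))) (j l : κ) :
    S.Bd θ k (4 * (2 ^ k * (c * C)) + 4 * (2 ^ k * (C' * c)))
      (fun p => S.met X j l p - S.met Y j l p) := by
  have b1 : S.Bd θ k (4 * (2 ^ k * (c * C)))
      (dot (fun a => S.D j (fun p => X a p - Y a p)) (fun a => S.D l (X a))) :=
    Bd.dot hθ hc hC (fun a => S.sm_D j (sm_sub (hX a) (hY a))) (fun a => S.sm_D l (hX a))
      (fun a => hd j a) (fun a => h l a)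
  have b2 : S.Bd θ k (4 * (2 ^ k * (C' * c)))
      (dot (fun a => S.D j (Y a)) (fun a => S.D l (fun p => X a p - Y a p))) :=
    Bd.dot hθ hC' hc (fun a => S.sm_D j (hY a)) (fun a => S.sm_D l (sm_sub (hX a) (hY a)))
      (fun a => h' j a) (fun a => hd l a)
  have b3 := Bd.add (sm_dot (fun a => S.sm_D j (sm_sub (hX a) (hY a)))
    (fun a => S.sm_D l (hX a)))
    (sm_dot (fun a => S.sm_D j (hY a)) (fun a => S.sm_D l (sm_sub (hX a) (hY a)))) b1 b2
  have e : (fun p => dot (fun a => S.D j (fun p => X a p - Y a p)) (fun a => S.D l (X a)) p +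
      dot (fun a => S.D j (Y a)) (fun a => S.D l (fun p => X a p - Y a p)) p) =
      fun p => S.met X j l p - S.met Y j l p := by
    funext p
    simp only [DAlg.met, DAlg.Dv, dot, ← Finset.sum_add_distrib, ← Finset.sum_sub_distrib]
    refine Finset.sum_congr rfl fun a _ => ?_
    rw [D_sub j (hX a) (hY a), D_sub l (hX a) (hY a)]
    ring
  rwa [e] at b3

lemma bd_met {θ C : ℝ} {k : ℕ} {X : Fin 4 → P → ℂ} (hθ : 0 ≤ θ) (hC : 0 ≤ C)
    (hX : ∀ a, S.Sm (X a)) (h : ∀ j a, S.Bd θ k C (S.D j (X a))) (j l : κ) :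
    S.Bd θ k (4 * (2 ^ k * (C * C))) (S.met X j l) :=
  Bd.dot hθ hC hC (fun a => S.sm_D j (hX a)) (fun a => S.sm_D l (hX a)) (fun a => h j a)
    (fun a => h l a)

/-- smooth functions have bounded derivatives -/
lemma sm_nb [Fintype κ] {u : P → ℂ} (hu : S.Sm u) (k : ℕ) : ∃ C, 1 ≤ C ∧ S.Nb k C u := by
  classical
  have hf : {w : List κ | w.length ≤ k}.Finite := List.finite_length_le κ k
  have : Finite {w : List κ // w.length ≤ k} := hf.to_subtype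
  obtain ⟨C, hC, h⟩ := unif (α := {w : List κ // w.length ≤ k})
    (p := fun w C => ∀ p, ‖S.wd w.1 u p‖ ≤ C)
    (fun a C C' h h' p => (h' p).trans h) (fun w => S.bdd (sm_wd w.1 hu))
  exact ⟨C, hC, fun w hw p => h ⟨w, hw⟩ p⟩

lemma sm_bd [Fintype κ] {u : P → ℂ} (hu : S.Sm u) (k : ℕ) : ∃ C, 1 ≤ C ∧ ∀ μ : ℝ, 1 ≤ μ →
    S.Bd μ k C u := by
  obtain ⟨C, hC, h⟩ := sm_nb hu k
  refine ⟨C, hC, fun μ hμ w hw p => (h w hw p).trans ?_⟩
  have : (1 : ℝ) ≤ μ ^ w.length := one_le_pow₀ hμ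
  linarith only [mul_nonneg (sub_nonneg.2 hC) (sub_nonneg.2 this), this]

/-! ### admissible states -/

/-- admissible states at level `t` -/
structure Adm (S : DAlg P κ) {ι : Type u} (G : κ → κ → P → ℂ) (f : ι → Fin 4 → P → ℂ)
    (b : ι → ℝ) (A e0 : ℝ) (t : ℕ) (i : ι) (z μ : ℝ) (X : Fin 4 → P → ℂ) : Prop where
  hb : 1 ≤ b i
  hz : 1 ≤ z
  hμb : b i ≤ μ
  hμ : μ ≤ b i * z ^ 32
  inv : Inv S G (f i) (b i) A (1600 * t + 2) ((z ^ (400 * t))⁻¹) ((z ^ (404 * t))⁻¹) μ e0 X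
  /-- bounds for the map itself -/
  b0 : ∀ a p, ‖X a p‖ ≤ A

section Fam

variable {ι : Type u} {G : κ → κ → P → ℂ} {f : ι → Fin 4 → P → ℂ} {b : ι → ℝ} {A e0 : ℝ}
  {t : ℕ} {i : ι} {z μ : ℝ} {X : Fin 4 → P → ℂ}

/-- the smoothed map -/
def xt {m : ℕ} (Sm : S.Smoothing m) (z μ : ℝ) (X : Fin 4 → P → ℂ) : Fin 4 → P → ℂ :=
  fun a => Sm.T (μ * z) (X a)

lemma Adm.hμ1 (x : Adm S G f b A e0 t i z μ X) : 1 ≤ μ := x.hb.trans x.hμb

lemma Adm.hθ (x : Adm S G f b A e0 t i z μ X) : 1 ≤ μ * z := by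
  have h1 := x.hμ1
  have h2 := x.hz
  linarith only [mul_nonneg (sub_nonneg.2 h1) (sub_nonneg.2 h2), h2, h1]

lemma Adm.sm (x : Adm S G f b A e0 t i z μ X) {m : ℕ} (Sm : S.Smoothing m) (a : Fin 4) :
    S.Sm (xt Sm z μ X a) := Sm.sm x.hθ (x.inv.sm a)

lemma Adm.rl (x : Adm S G f b A e0 t i z μ X) {m : ℕ} (Sm : S.Smoothing m) (a : Fin 4) :
    Rl (xt Sm z μ X a) := Sm.real x.hθ (x.inv.sm a) (x.inv.rl a)

/-- unweighted bounds of order `K + 2` -/
lemma Adm.nb (x : Adm S G f b A e0 t i z μ X) (hA : 1 ≤ A) {K : ℕ} (hK : K ≤ 1600 * t + 2)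
    (a : Fin 4) : S.Nb (K + 2) (A * b i * μ ^ K) (X a) := by
  intro w hw p
  have hμ1 := x.hμ1
  have hb := x.hb
  have h1 : A ≤ A * b i * μ ^ K := by
    have h2 : 1 ≤ μ ^ K := one_le_pow₀ hμ1
    have h3 : A ≤ A * b i := by linarith only [mul_nonneg (sub_nonneg.2 hA) (sub_nonneg.2 hb), hb]
    have h4 : 0 ≤ A * b i := by linarith only [h3, hA]
    linarith only [mul_nonneg (sub_nonneg.2 h2) (sub_nonneg.2 h4), h3]
  rcases List.eq_nil_or_concat w with rfl | ⟨w', l, rfl⟩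
  · exact (x.b0 a p).trans h1
  · rw [List.concat_eq_append, wd_snoc]
    rcases List.eq_nil_or_concat w' with rfl | ⟨w'', j, rfl⟩
    · have := x.inv.b1 l a [] (by simp) p
      simp only [DAlg.wd, List.length_nil, pow_zero, mul_one] at this ⊢
      exact this.trans h1
    · rw [List.concat_eq_append, wd_snoc]
      have hl : w''.length ≤ K := by simpa using hw
      refine (x.inv.b2 j l a w'' (by omega) p).trans ?_
      have h4 : 0 ≤ A * b i := by linarith only [mul_nonneg (sub_nonneg.2 hA) (sub_nonneg.2 hb), hb, hA]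
      exact mul_le_mul_of_nonneg_left (pow_le_pow_right₀ hμ1 hl) h4

/-- unweighted bounds of order one -/
lemma Adm.nb1 (x : Adm S G f b A e0 t i z μ X) (a : Fin 4) : S.Nb 1 A (X a) := by
  intro w hw p
  rcases List.eq_nil_or_concat w with rfl | ⟨w', l, rfl⟩
  · exact x.b0 a p
  · rw [List.concat_eq_append, wd_snoc]
    have hl : w'.length = 0 := by
      have : w'.length + 1 ≤ 1 := by simpa using hw
      omega
    obtain rfl := List.eq_nil_of_length_eq_zero hl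
    simpa [DAlg.wd] using x.inv.b1 l a [] (by simp) p

/-- bounds for the smoothed map, all orders -/
lemma xt_bd {m : ℕ} (Sm : S.Smoothing m) (hA : 1 ≤ A) (k : ℕ) : ∃ C, 1 ≤ C ∧
    ∀ (i : ι) (z μ : ℝ) (X : Fin 4 → P → ℂ), Adm S G f b A e0 t i z μ X →
      (∀ a, S.Bd (μ * z) k C (xt Sm z μ X a)) ∧
      (∀ j a, S.Bd (μ * z) k C (S.D j (xt Sm z μ X a))) ∧
      (∀ j l a, S.Bd (μ * z) k (C * b i) (S.D j (S.D l (xt Sm z μ X a)))) := by
  obtain ⟨C1, hC1, h1⟩ := sm_gain Sm 1 (k + 2)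
  obtain ⟨C2, hC2, h2⟩ := sm_gain Sm 2 (k + 2)
  refine ⟨(C1 + C2) * A, by nlinarith, fun i z μ X x => ?_⟩
  have hθ := x.hθ
  have hb := x.hb
  have hA0 : 0 ≤ A := by linarith
  have hB : 0 ≤ A * b i * μ ^ 0 := by
    rw [pow_zero, mul_one]; exact mul_nonneg hA0 (by linarith)
  have hC : C1 * A ≤ (C1 + C2) * A := by linarith only [mul_nonneg (sub_nonneg.2 hC2) (sub_nonneg.2 hA0), hA]
  have hC0 : 0 ≤ C1 * A := mul_nonneg (by linarith) hA0
  have hCC : 0 ≤ (C1 + C2) * A := mul_nonneg (by linarith) hA0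
  refine ⟨fun a w hw p => ?_, fun j a w hw p => ?_, fun j l a w hw p => ?_⟩
  · refine (h1 _ _ _ hθ hA0 (x.inv.sm a) (x.nb1 a) w (by omega) p).trans ?_
    have e1 : (μ * z) ^ (w.length - 1) ≤ (μ * z) ^ w.length := pow_le_pow_right₀ hθ (by omega)
    exact mul_le_mul hC e1 (by positivity) hCC
  · rw [← wd_snoc]
    refine (h1 _ _ _ hθ hA0 (x.inv.sm a) (x.nb1 a) (w ++ [j]) (by simp; omega) p).trans ?_
    have e1 : (w ++ [j]).length - 1 = w.length := by simp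
    rw [e1]
    exact mul_le_mul_of_nonneg_right hC (by positivity)
  · rw [← wd_snoc, ← wd_snoc]
    refine (h2 _ _ _ hθ hB (x.inv.sm a) (x.nb hA (by omega) a) (w ++ [j] ++ [l])
      (by simp; omega) p).trans ?_
    have e1 : (w ++ [j] ++ [l]).length - 2 = w.length := by simp
    rw [e1]
    refine mul_le_mul_of_nonneg_right ?_ (by positivity)
    rw [pow_zero, mul_one]
    have : 0 ≤ A * b i := mul_nonneg hA0 (by linarith only [hb])
    linarith only [mul_nonneg (sub_nonneg.2 hb) (sub_nonneg.2 hA0), mul_nonneg (sub_nonneg.2 hC1) (sub_nonneg.2 this), hA]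

/-- the smoothed map is close to the map -/
lemma xt_appr (ht : 1 ≤ t) (Sm : S.Smoothing (1200 * t)) (hA : 1 ≤ A) : ∃ C, 1 ≤ C ∧
    ∀ (i : ι) (z μ : ℝ) (X : Fin 4 → P → ℂ), Adm S G f b A e0 t i z μ X → ∀ a,
      S.Bd μ (400 * t + 2) (C * (b i * (z ^ (1200 * t))⁻¹) / μ ^ 2)
        (fun p => X a p - xt Sm z μ X a p) := by
  obtain ⟨C, hC1, hC⟩ := seq_bound Sm.C (400 * t + 2)
  refine ⟨C * A, by linarith only [mul_nonneg (sub_nonneg.2 hA) (sub_nonneg.2 hC1), hC1, hA], fun i z μ X x a w hw p => ?_⟩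
  have hμ1 := x.hμ1
  have hμ0 : 0 < μ := by linarith
  have hz := x.hz
  have hz0 : 0 < z := by linarith
  have hb := x.hb
  have hb0 : 0 < b i := by linarith
  have hA0 : 0 ≤ A := by linarith
  obtain ⟨K, hK⟩ : ∃ K, w.length + 1200 * t = K + 2 := ⟨w.length + 1200 * t - 2, by omega⟩
  have hN := x.nb hA (K := K) (by omega) a
  rw [← hK] at hN
  have h := Sm.appr x.hθ (x.inv.sm a) hN w le_rfl p
  refine h.trans ?_
  have h1 : Sm.C w.length ≤ C := hC _ hw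
  have h3 : (0 : ℝ) ≤ ((μ * z) ^ (1200 * t))⁻¹ * (A * b i * μ ^ K) := by positivity
  calc Sm.C w.length * ((μ * z) ^ (1200 * t))⁻¹ * (A * b i * μ ^ K)
      = Sm.C w.length * (((μ * z) ^ (1200 * t))⁻¹ * (A * b i * μ ^ K)) := by ring
    _ ≤ C * (((μ * z) ^ (1200 * t))⁻¹ * (A * b i * μ ^ K)) := by gcongr
    _ = C * A * (b i * (z ^ (1200 * t))⁻¹) / μ ^ 2 * μ ^ w.length := by
      have e1 : μ ^ w.length * μ ^ (1200 * t) = μ ^ K * μ ^ 2 := by
        rw [← pow_add, ← pow_add, hK]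
      rw [mul_pow]
      field_simp
      linear_combination (-1 : ℝ) * e1

lemma xt_appr' (ht : 1 ≤ t) (Sm : S.Smoothing (1200 * t)) (hA : 1 ≤ A) : ∃ C, 1 ≤ C ∧
    ∀ (i : ι) (z μ : ℝ) (X : Fin 4 → P → ℂ), Adm S G f b A e0 t i z μ X →
      (∀ a, S.Bd μ (400 * t) (C * (z ^ (1200 * t))⁻¹) (fun p => X a p - xt Sm z μ X a p)) ∧
      (∀ j a, S.Bd μ (400 * t) (C * (z ^ (1200 * t))⁻¹)
        (S.D j (fun p => X a p - xt Sm z μ X a p))) ∧
      (∀ j l a, S.Bd μ (400 * t) (C * (z ^ (1200 * t))⁻¹ * b i)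
        (S.D j (S.D l (fun p => X a p - xt Sm z μ X a p)))) := by
  obtain ⟨C, hC1, hC⟩ := xt_appr (G := G) (f := f) (b := b) (e0 := e0) ht Sm hA
  refine ⟨C, hC1, fun i z μ X x => ?_⟩
  have hμ1 := x.hμ1
  have hμ0 : 0 < μ := by linarith
  have hz := x.hz
  have hz0 : 0 < z := by linarith
  have hb := x.hb
  have hb0 : 0 < b i := by linarith
  have hbμ := x.hμb
  have hc0 : 0 ≤ C * (b i * (z ^ (1200 * t))⁻¹) / μ ^ 2 := by positivity
  have h0 := hC i z μ X x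
  have e2 : C * (b i * (z ^ (1200 * t))⁻¹) / μ ^ 2 * μ * μ = C * (z ^ (1200 * t))⁻¹ * b i := by
    field_simp
  have e1 : C * (b i * (z ^ (1200 * t))⁻¹) / μ ^ 2 * μ ≤ C * (z ^ (1200 * t))⁻¹ := by
    have : C * (b i * (z ^ (1200 * t))⁻¹) / μ ^ 2 * μ = C * (z ^ (1200 * t))⁻¹ * (b i / μ) := by
      field_simp
    rw [this]
    have h1 : b i / μ ≤ 1 := by rw [div_le_one hμ0]; exact hbμ
    have h2 : 0 ≤ C * (z ^ (1200 * t))⁻¹ := by positivity
    nlinarith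
  have e0 : C * (b i * (z ^ (1200 * t))⁻¹) / μ ^ 2 ≤ C * (z ^ (1200 * t))⁻¹ := by
    refine le_trans ?_ e1
    linarith only [mul_nonneg (sub_nonneg.2 hbμ) (sub_nonneg.2 hc0), mul_nonneg (sub_nonneg.2 hb) (sub_nonneg.2 hc0)]
  refine ⟨fun a => Bd.mono (h0 a) (by omega) hμ0.le le_rfl hc0 e0, fun j a => ?_,
    fun j l a => ?_⟩
  · exact Bd.mono (Bd.D j (h0 a)) (by omega) hμ0.le le_rfl (by positivity) e1
  · exact Bd.mono (Bd.D j (Bd.D l (h0 a))) (by omega) hμ0.le le_rfl (by positivity) e2.le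

end Fam

end It

end Vale.Agent.P205.F
end
end

section

/-!
# P205, T1U iteration: the tensor to be added
-/

open scoped ContDiff

noncomputable section

namespace Vale.Agent.P205.F

namespace It

universe u

variable {P : Type u} {κ : Type} {S : DAlg P κ}

/-! ### tensors -/

lemma isT_met [Fintype κ] {X : Fin 4 → P → ℂ} (hX : ∀ a, S.Sm (X a)) : S.IsT (S.met X) := by
  refine ⟨fun j k => ?_, fun p c hc k => ?_⟩
  · funext p
    simp only [DAlg.met, DAlg.Dv, dot]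
    exact Finset.sum_congr rfl fun a _ => mul_comm _ _
  · simp only [DAlg.met, DAlg.Dv, dot, Finset.mul_sum]
    rw [Finset.sum_comm]
    refine Finset.sum_eq_zero fun a _ => ?_
    have := hc (X a) (hX a)
    calc ∑ j, c j * (S.D j (X a) p * S.D k (X a) p)
        = (∑ j, c j * S.D j (X a) p) * S.D k (X a) p := by
          rw [Finset.sum_mul]
          exact Finset.sum_congr rfl fun j _ => by ring
      _ = 0 := by rw [this, zero_mul]

lemma isT_lin [Fintype κ] {T T' : κ → κ → P → ℂ} (hT : S.IsT T) (hT' : S.IsT T') (c c' : ℂ) :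
    S.IsT (fun j k p => c * T j k p + c' * T' j k p) := by
  refine ⟨fun j k => ?_, fun p a ha k => ?_⟩
  · funext p
    have h1 := hT.1 j k
    have h2 := hT'.1 j k
    simp only [h1, h2]
  · have h1 := hT.2 p a ha k
    have h2 := hT'.2 p a ha k
    calc ∑ j, a j * (c * T j k p + c' * T' j k p)
        = c * (∑ j, a j * T j k p) + c' * (∑ j, a j * T' j k p) := by
          rw [Finset.mul_sum, Finset.mul_sum, ← Finset.sum_add_distrib]
          exact Finset.sum_congr rfl fun j _ => by ring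
      _ = 0 := by rw [h1, h2]; ring

/-- the tensor `(G - met X - δ' G)/δ` -/
def ten (S : DAlg P κ) (G : κ → κ → P → ℂ) (δ δ' : ℝ) (X : Fin 4 → P → ℂ) (j k : κ) : P → ℂ :=
  fun p => ((δ⁻¹ : ℝ) : ℂ) * (G j k p - S.met X j k p - δ' * G j k p)

lemma ten_isT [Fintype κ] {G : κ → κ → P → ℂ} (hG : S.IsT G) {X : Fin 4 → P → ℂ}
    (hX : ∀ a, S.Sm (X a)) (δ δ' : ℝ) : S.IsT (ten S G δ δ' X) := by
  have h := isT_lin hG (isT_met hX) (((δ⁻¹ : ℝ) : ℂ) * (1 - δ')) (-((δ⁻¹ : ℝ) : ℂ))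
  convert h using 4
  unfold ten
  ring

lemma rl_met {X : Fin 4 → P → ℂ} (hX : ∀ a, S.Sm (X a)) (hr : ∀ a, Rl (X a)) (j k : κ) :
    Rl (S.met X j k) := by
  have hD : ∀ j a, Rl (S.D j (X a)) := by
    intro j a p
    have h1 := S.D_conj j (hX a)
    have h2 : (fun p => (starRingEnd ℂ) (X a p)) = X a := by
      funext q
      exact Complex.conj_eq_iff_im.2 (hr a q)
    rw [h2] at h1
    have h3 := congrFun h1 p
    exact Complex.conj_eq_iff_im.1 h3.symm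
  intro p
  simp only [DAlg.met, DAlg.Dv, dot, Complex.im_sum, Complex.mul_im]
  refine Finset.sum_eq_zero fun a _ => ?_
  rw [hD j a p, hD k a p]; ring

lemma ten_rl {G : κ → κ → P → ℂ} (hG : ∀ j k, Rl (G j k)) {X : Fin 4 → P → ℂ}
    (hX : ∀ a, S.Sm (X a)) (hr : ∀ a, Rl (X a)) (δ δ' : ℝ) (j k : κ) :
    Rl (ten S G δ δ' X j k) := by
  intro p
  have h1 := hG j k p
  have h2 := rl_met hX hr j k p
  simp [ten, Complex.mul_im, h1, h2]

lemma ten_sm {G : κ → κ → P → ℂ} (hG : ∀ j k, S.Sm (G j k)) {X : Fin 4 → P → ℂ}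
    (hX : ∀ a, S.Sm (X a)) (δ δ' : ℝ) (j k : κ) :
    S.Sm (ten S G δ δ' X j k) :=
  sm_smul _ (sm_sub (sm_sub (hG j k) (sm_met hX j k)) (sm_smul _ (hG j k)))

section Fam

variable {ι : Type u} {G : κ → κ → P → ℂ} {f : ι → Fin 4 → P → ℂ} {b : ι → ℝ} {A e0 : ℝ}
  {t : ℕ} {i : ι} {z μ : ℝ} {X : Fin 4 → P → ℂ}

/-- the metric of the smoothed map is close to the metric of the map -/
lemma xt_met (ht : 1 ≤ t) (Sm : S.Smoothing (1200 * t)) (hA : 1 ≤ A) : ∃ C, 1 ≤ C ∧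
    ∀ (i : ι) (z μ : ℝ) (X : Fin 4 → P → ℂ), Adm S G f b A e0 t i z μ X → ∀ j l,
      S.Bd μ (400 * t) (C * (z ^ (1200 * t))⁻¹)
        (fun p => S.met X j l p - S.met (xt Sm z μ X) j l p) := by
  obtain ⟨C, hC1, hC⟩ := xt_appr' (G := G) (f := f) (b := b) (e0 := e0) ht Sm hA
  refine ⟨4 * (2 ^ (400 * t) * (C * A)) + 4 * (2 ^ (400 * t) * ((A + C) * C)), ?_,
    fun i z μ X x j l => ?_⟩
  · have h1 : (1 : ℝ) ≤ 2 ^ (400 * t) := one_le_pow₀ (by norm_num)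
    have h2 : 1 ≤ C * A := by linarith only [mul_nonneg (sub_nonneg.2 hA) (sub_nonneg.2 hC1), hC1, hA]
    have h3 : 0 ≤ (A + C) * C := by positivity
    have h4 : 0 ≤ (2 : ℝ) ^ (400 * t) * ((A + C) * C) := by positivity
    (by_contra nlg; linarith [mul_nonneg (sub_nonneg.2 h3) (sub_nonneg.2 h4), mul_nonneg (sub_nonneg.2 h2) (sub_nonneg.2 h4), mul_nonneg (sub_nonneg.2 h1) (sub_nonneg.2 h3), mul_nonneg (sub_nonneg.2 hC1) (sub_nonneg.2 hC1), mul_nonneg (le_of_lt (sub_pos.2 (not_le.1 nlg))) (sub_nonneg.2 h3), h2, hC1])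
  have hμ1 := x.hμ1
  have hμ0 : 0 < μ := by linarith
  have hz := x.hz
  have hz0 : 0 < z := by linarith
  have hA0 : 0 ≤ A := by linarith
  have hC0 : 0 ≤ C := by linarith
  obtain ⟨-, h1, -⟩ := hC i z μ X x
  set c := C * (z ^ (1200 * t))⁻¹ with hc
  have hc0 : 0 ≤ c := by positivity
  have hcC : c ≤ C := by
    have := inv_pow_le_one hz (1200 * t)
    rw [hc]; linarith only [mul_nonneg (sub_nonneg.2 hC0) (sub_nonneg.2 this)]
  have hX : ∀ j a, S.Bd μ (400 * t) A (S.D j (X a)) := fun j a =>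
    Bd.mono (x.inv.b1 j a) (by omega) hμ0.le le_rfl hA0 le_rfl
  have hY : ∀ j a, S.Bd μ (400 * t) (A + C) (S.D j (xt Sm z μ X a)) := by
    intro j a
    have h2 := Bd.sub (S.sm_D j (x.inv.sm a)) (S.sm_D j (sm_sub (x.inv.sm a) (x.sm Sm a)))
      (hX j a) (h1 j a)
    have e : (fun p => S.D j (X a) p - S.D j (fun p => X a p - xt Sm z μ X a p) p) =
        S.D j (xt Sm z μ X a) := by
      rw [D_sub j (x.inv.sm a) (x.sm Sm a)]
      funext p; ring
    rw [e] at h2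
    exact Bd.monoC h2 hμ0.le (by linarith)
  have h3 := bd_met_sub hμ0.le hA0 (by positivity : 0 ≤ A + C) hc0 x.inv.sm (x.sm Sm)
    hX hY h1 j l
  refine Bd.monoC h3 hμ0.le (le_of_eq ?_)
  rw [hc]; ring

/-- the tensor to be added is close to `G` -/
lemma ten_near [Fintype κ] (ht : 1 ≤ t) (Sm : S.Smoothing (1200 * t)) (hA : 1 ≤ A)
    (hG : ∀ j k, S.Sm (G j k)) : ∃ C, 1 ≤ C ∧
    ∀ (i : ι) (z μ : ℝ) (X : Fin 4 → P → ℂ), Adm S G f b A e0 t i z μ X → ∀ j l,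
      S.Bd μ (400 * t) (C * (z ^ (4 * t))⁻¹)
        (fun p => ten S G ((z ^ (400 * t))⁻¹) ((z ^ (500 * t))⁻¹) (xt Sm z μ X) j l p
          - G j l p) := by
  obtain ⟨C, hC1, hC⟩ := xt_met (G := G) (f := f) (b := b) (e0 := e0) ht Sm hA
  obtain ⟨CG, hCG1, hCG⟩ := unif (α := κ × κ)
    (p := fun x C => ∀ μ : ℝ, 1 ≤ μ → S.Bd μ (400 * t) C (G x.1 x.2))
    (fun a C C' h h' μ hμ => Bd.monoC (h' μ hμ) (by linarith) h)
    (fun x => by
      obtain ⟨C, -, h⟩ := sm_bd (hG x.1 x.2) (400 * t)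
      exact ⟨C, h⟩)
  refine ⟨1 + C + CG, by linarith, fun i z μ X x j l => ?_⟩
  have hμ1 := x.hμ1
  have hμ0 : 0 < μ := by linarith
  have hz := x.hz
  have hz0 : 0 < z := by linarith
  have hC0 : 0 ≤ C := by linarith
  set δ := (z ^ (400 * t))⁻¹ with hδ
  set δ' := (z ^ (500 * t))⁻¹ with hδ'
  have hδi : δ⁻¹ = z ^ (400 * t) := by rw [hδ, inv_inv]
  have s1 : S.Sm (fun p => G j l p - S.met X j l p - δ * G j l p) :=
    sm_sub (sm_sub (hG j l) (sm_met x.inv.sm j l)) (sm_smul _ (hG j l))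
  have s2 : S.Sm (fun p => S.met X j l p - S.met (xt Sm z μ X) j l p) :=
    sm_sub (sm_met x.inv.sm j l) (sm_met (x.sm Sm) j l)
  have s3 : S.Sm (fun p => (δ' : ℂ) * G j l p) := sm_smul _ (hG j l)
  have b1 := Bd.mono (x.inv.bE j l) (by omega : 400 * t ≤ 1600 * t + 2) hμ0.le le_rfl
    (by positivity) le_rfl
  have b2 := hC i z μ X x j l
  have b3 := Bd.smul (δ' : ℂ) (hG j l) (hCG (j, l) μ hμ1)
  have b4 := Bd.sub (S.sm_add s1 s2) s3 (Bd.add s1 s2 b1 b2) b3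
  have b5 := Bd.smul ((δ⁻¹ : ℝ) : ℂ) (sm_sub (S.sm_add s1 s2) s3) b4
  have e : (fun p => ((δ⁻¹ : ℝ) : ℂ) * (((fun p => G j l p - S.met X j l p - δ * G j l p) +
      fun p => S.met X j l p - S.met (xt Sm z μ X) j l p) p - (δ' : ℂ) * G j l p)) =
      fun p => ten S G δ δ' (xt Sm z μ X) j l p - G j l p := by
    funext p
    have hd : ((δ⁻¹ : ℝ) : ℂ) * (δ : ℂ) = 1 := by
      rw [← Complex.ofReal_mul, inv_mul_cancel₀ (by positivity : δ ≠ 0), Complex.ofReal_one]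
    simp only [ten, Pi.add_apply]
    linear_combination (-(G j l p)) * hd
  rw [e] at b5
  refine Bd.monoC b5 hμ0.le ?_
  have n1 : ‖((δ⁻¹ : ℝ) : ℂ)‖ = z ^ (400 * t) := by
    rw [Complex.norm_real, hδi, Real.norm_of_nonneg (by positivity)]
  have n2 : ‖(δ' : ℂ)‖ = (z ^ (500 * t))⁻¹ := by
    rw [Complex.norm_real, hδ', Real.norm_of_nonneg (by positivity)]
  rw [n1, n2]
  have k1 : z ^ (400 * t) * (z ^ (404 * t))⁻¹ ≤ (z ^ (4 * t))⁻¹ := pow_mul_inv_le hz (by omega)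
  have k2 : z ^ (400 * t) * (z ^ (1200 * t))⁻¹ ≤ (z ^ (4 * t))⁻¹ := pow_mul_inv_le hz (by omega)
  have k3 : z ^ (400 * t) * (z ^ (500 * t))⁻¹ ≤ (z ^ (4 * t))⁻¹ := pow_mul_inv_le hz (by omega)
  have m2 : C * (z ^ (400 * t) * (z ^ (1200 * t))⁻¹) ≤ C * (z ^ (4 * t))⁻¹ := by gcongr
  have m3 : CG * (z ^ (400 * t) * (z ^ (500 * t))⁻¹) ≤ CG * (z ^ (4 * t))⁻¹ := by gcongr
  linarith only [m3, m2, k1]

/-- all derivatives of the tensor to be added -/
lemma ten_fo [Fintype κ] (ht : 1 ≤ t) (Sm : S.Smoothing (1200 * t)) (hA : 1 ≤ A)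
    (hG : ∀ j k, S.Sm (G j k)) (k : ℕ) : ∃ C, 1 ≤ C ∧
    ∀ (i : ι) (z μ : ℝ) (X : Fin 4 → P → ℂ), Adm S G f b A e0 t i z μ X → ∀ j l,
      S.Bd (μ * z ^ 2) k C
        (ten S G ((z ^ (400 * t))⁻¹) ((z ^ (500 * t))⁻¹) (xt Sm z μ X) j l) := by
  obtain ⟨C, hC1, hC⟩ := ten_near (G := G) (f := f) (b := b) (e0 := e0) ht Sm hA hG
  obtain ⟨C', hC'1, hC'⟩ := xt_bd (G := G) (f := f) (b := b) (e0 := e0) (t := t) Sm hA k
  obtain ⟨CG, hCG1, hCG⟩ := unif (α := κ × κ)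
    (p := fun x C => ∀ μ : ℝ, 1 ≤ μ → S.Bd μ (k + 400 * t) C (G x.1 x.2))
    (fun a C C' h h' μ hμ => Bd.monoC (h' μ hμ) (by linarith) h)
    (fun x => by
      obtain ⟨C, -, h⟩ := sm_bd (hG x.1 x.2) (k + 400 * t)
      exact ⟨C, h⟩)
  refine ⟨C + 2 * CG + 4 * (2 ^ k * (C' * C')), ?_, fun i z μ X x j l w hw p => ?_⟩
  · have : 0 ≤ (2 : ℝ) ^ k * (C' * C') := by positivity
    linarith
  have hμ1 := x.hμ1
  have hμ0 : 0 < μ := by linarith
  have hz := x.hz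
  have hz0 : 0 < z := by linarith
  have hC0 : 0 ≤ C := by linarith
  have hθ := x.hθ
  have hθ' : 1 ≤ μ * z ^ 2 := by
    have : 1 ≤ z ^ 2 := one_le_pow₀ hz
    (by_contra nlg; linarith only [nlg, mul_nonneg (sub_nonneg.2 hz) (le_of_lt (sub_pos.2 hz0)), mul_pos (sub_pos.2 (not_le.1 nlg)) (sub_pos.2 hz0), mul_nonneg (sq_nonneg (z : ℝ)) (sub_nonneg.2 hθ)])
  have hX4 : 0 ≤ 4 * ((2 : ℝ) ^ k * (C' * C')) := by positivity
  set T := ten S G ((z ^ (400 * t))⁻¹) ((z ^ (500 * t))⁻¹) (xt Sm z μ X) j l with hT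
  have sT : S.Sm T := ten_sm hG (x.sm Sm) _ _ j l
  by_cases hwt : w.length ≤ 400 * t
  · have h1 := hC i z μ X x j l w hwt p
    have h2 := hCG (j, l) μ hμ1 w (by omega) p
    have e : S.wd w T p = S.wd w (fun p => T p - G j l p) p + S.wd w (G j l) p := by
      rw [wd_sub w sT (hG j l)]; ring
    rw [e]
    have h3 : (z ^ (4 * t))⁻¹ ≤ 1 := inv_pow_le_one hz _
    have h4 : C * (z ^ (4 * t))⁻¹ ≤ C := by linarith only [mul_nonneg (sub_nonneg.2 hC0) (sub_nonneg.2 h3)]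
    have h5 : μ ^ w.length ≤ (μ * z ^ 2) ^ w.length := by
      refine pow_le_pow_left₀ hμ0.le ?_ _
      have : 1 ≤ z ^ 2 := one_le_pow₀ hz
      (by_contra nlg; linarith only [nlg, mul_nonneg (sub_nonneg.2 hθ) (sub_nonneg.2 this), mul_pos (sub_pos.2 (not_le.1 nlg)) (sub_pos.2 hz0), mul_nonneg (mul_self_nonneg (1 : ℝ)) (sub_nonneg.2 this)])
    calc ‖S.wd w (fun p => T p - G j l p) p + S.wd w (G j l) p‖
        ≤ ‖S.wd w (fun p => T p - G j l p) p‖ + ‖S.wd w (G j l) p‖ := norm_add_le _ _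
      _ ≤ C * (z ^ (4 * t))⁻¹ * μ ^ w.length + CG * μ ^ w.length := add_le_add h1 h2
      _ ≤ C * μ ^ w.length + CG * μ ^ w.length := by gcongr
      _ = (C + CG) * μ ^ w.length := by ring
      _ ≤ (C + 2 * CG + 4 * (2 ^ k * (C' * C'))) * (μ * z ^ 2) ^ w.length := by
        refine mul_le_mul ?_ h5 (by positivity) (by linarith only [hX4, hCG1, hC1])
        linarith only [hX4, hCG1]
  · have b1 := hCG (j, l) (μ * z) hθ w (by omega) p
    have b2 := bd_met (by linarith : 0 ≤ μ * z) (by linarith : 0 ≤ C') (x.sm Sm)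
      (hC' i z μ X x).2.1 j l w hw p
    have e : S.wd w T p = ((z ^ (400 * t) : ℝ) : ℂ) * ((1 - ((z ^ (500 * t))⁻¹ : ℝ)) *
        S.wd w (G j l) p - S.wd w (S.met (xt Sm z μ X) j l) p) := by
      have e1 : T = fun p => (((z ^ (400 * t))⁻¹⁻¹ : ℝ) : ℂ) *
          ((G j l p - S.met (xt Sm z μ X) j l p) - ((z ^ (500 * t))⁻¹ : ℝ) * G j l p) := by
        rw [hT]; rfl
      rw [e1, wd_smul w _ (sm_sub (sm_sub (hG j l) (sm_met (x.sm Sm) j l))
        (sm_smul _ (hG j l))), wd_sub w (sm_sub (hG j l) (sm_met (x.sm Sm) j l))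
        (sm_smul _ (hG j l)), wd_sub w (hG j l) (sm_met (x.sm Sm) j l),
        wd_smul w _ (hG j l), inv_inv]
      ring
    rw [e, norm_mul]
    have n1 : ‖((z ^ (400 * t) : ℝ) : ℂ)‖ = z ^ (400 * t) := by
      rw [Complex.norm_real, Real.norm_of_nonneg (by positivity)]
    have n2 : ‖(1 - ((z ^ (500 * t))⁻¹ : ℝ) : ℂ)‖ ≤ 2 := by
      have h1 := inv_pow_le_one hz (500 * t)
      have h2 : 0 ≤ (z ^ (500 * t))⁻¹ := by positivity
      rw [← Complex.ofReal_one, ← Complex.ofReal_sub, Complex.norm_real, Real.norm_eq_abs, abs_le]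
      constructor <;> linarith
    rw [n1]
    have n3 : ‖(1 - ((z ^ (500 * t))⁻¹ : ℝ) : ℂ) * S.wd w (G j l) p -
        S.wd w (S.met (xt Sm z μ X) j l) p‖ ≤
        (2 * CG + 4 * (2 ^ k * (C' * C'))) * (μ * z) ^ w.length := by
      refine (norm_sub_le _ _).trans ?_
      rw [norm_mul]
      have : ‖(1 - ((z ^ (500 * t))⁻¹ : ℝ) : ℂ)‖ * ‖S.wd w (G j l) p‖ ≤
          2 * (CG * (μ * z) ^ w.length) := mul_le_mul n2 b1 (norm_nonneg _) (by norm_num)
      linarith only [this, b2]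
    have n4 : z ^ (400 * t) * (μ * z) ^ w.length ≤ (μ * z ^ 2) ^ w.length := by
      have h1 : z ^ (400 * t) ≤ z ^ w.length := pow_le_pow_right₀ hz (by omega)
      calc z ^ (400 * t) * (μ * z) ^ w.length ≤ z ^ w.length * (μ * z) ^ w.length := by gcongr
        _ = (μ * z ^ 2) ^ w.length := by rw [← mul_pow]; ring
    have hK : 0 ≤ 2 * CG + 4 * (2 ^ k * (C' * C')) := by linarith only [hX4, hCG1]
    calc z ^ (400 * t) * ‖(1 - ((z ^ (500 * t))⁻¹ : ℝ) : ℂ) * S.wd w (G j l) p -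
        S.wd w (S.met (xt Sm z μ X) j l) p‖
        ≤ z ^ (400 * t) * ((2 * CG + 4 * (2 ^ k * (C' * C'))) * (μ * z) ^ w.length) := by gcongr
      _ = (2 * CG + 4 * (2 ^ k * (C' * C'))) * (z ^ (400 * t) * (μ * z) ^ w.length) := by ring
      _ ≤ (C + 2 * CG + 4 * (2 ^ k * (C' * C'))) * (μ * z ^ 2) ^ w.length := by
        refine mul_le_mul ?_ n4 (by positivity) (by linarith only [hX4, hCG1, hC1])
        linarith only [hC1]

end Fam

end It

end Vale.Agent.P205.F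
end
end

section

/-!
# P205, T1U iteration: the stage applied to a family of smooth maps
-/

open scoped ContDiff

noncomputable section

namespace Vale.Agent.P205.F

namespace It

universe u

variable {P : Type u} {κ : Type} {S : DAlg P κ}

/-- One stage for a family of smooth maps. -/
theorem core [Fintype κ] {Q : Type} [Fintype Q] (hSt : S.StageF Q) {t : ℕ} (ht : 3 ≤ t)
    {J : Type u} {G : κ → κ → P → ℂ} (hGs : ∀ j k, S.Sm (G j k))
    (z b θ : J → ℝ) (d : J → PData P κ Q) (X : J → Fin 4 → P → ℂ) (c : ℝ) (hc : 0 < c)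
    (hz : ∀ x, 1 ≤ z x) (hb : ∀ x, 1 ≤ b x) (hbθ : ∀ x, b x ≤ θ x)
    (hθ : ∀ x, θ x ≤ b x * z x ^ 34)
    (hd : ∀ x, (d x).Ok S) (hF : PData.FBd S d θ) (hn : ∀ x, (d x).Nondeg S c (b x) (X x))
    (hX : ∀ x a, S.Sm (X x a)) (hr : ∀ x a, Rl (X x a))
    (h1 : ∀ j a, S.FO θ (fun _ => 1) (fun x => S.D j (X x a)))
    (h2 : ∀ j k a, S.FO θ b (fun x => S.D j (S.D k (X x a))))
    (hT : ∀ x, S.IsT (ten S G ((z x ^ (400 * t))⁻¹) ((z x ^ (500 * t))⁻¹) (X x)))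
    (hTr : ∀ x j k, Rl (ten S G ((z x ^ (400 * t))⁻¹) ((z x ^ (500 * t))⁻¹) (X x) j k))
    (hTf : ∀ j k, S.FO θ (fun _ => 1)
      (fun x => ten S G ((z x ^ (400 * t))⁻¹) ((z x ^ (500 * t))⁻¹) (X x) j k))
    (hell : ∀ x a p, p ∈ ((d x).ray a).K →
      c ≤ ((d x).ell a (ten S G ((z x ^ (400 * t))⁻¹) ((z x ^ (500 * t))⁻¹) (X x)) p).re)
    (N : ℕ) :
    ∃ z0 : ℝ, 1 ≤ z0 ∧ ∀ x, z0 ≤ z x → ∃ y : Fin 4 → P → ℂ, (∀ a, S.Sm (y a)) ∧ (∀ a, Rl (y a)) ∧
      (∀ a, S.Bd (θ x * z x ^ 2) N ((z x ^ (170 * t))⁻¹) (y a)) ∧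
      (∀ j a, S.Bd (θ x * z x ^ 2) N ((z x ^ (170 * t))⁻¹) (S.D j (y a))) ∧
      (∀ j k a, S.Bd (θ x * z x ^ 2) N ((z x ^ (170 * t))⁻¹ * b x) (S.D j (S.D k (y a)))) ∧
      (∀ j k, S.Bd (θ x * z x ^ 2) N ((z x ^ (505 * t))⁻¹)
        (fun p => G j k p - S.met (fun a p => X x a p + y a p) j k p
          - ((z x ^ (500 * t))⁻¹ : ℝ) * G j k p)) := by
  have hz0 : ∀ x, 0 < z x := fun x => by linarith [hz x]
  have hb0 : ∀ x, 0 < b x := fun x => by linarith [hb x]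
  have hθ0 : ∀ x, 0 < θ x := fun x => (hb0 x).trans_le (hbθ x)
  obtain ⟨η, hη, y, ys, yr, yb, yE⟩ := hSt (400 * t) J θ b (fun x => θ x * z x)
    (fun x => (z x ^ (200 * t))⁻¹) c d X
    (fun x => ten S G ((z x ^ (400 * t))⁻¹) ((z x ^ (500 * t))⁻¹) (X x)) hc hb hbθ
    (fun x => by linarith only [mul_nonneg (sub_nonneg.2 (hz x)) (le_of_lt (sub_pos.2 (hθ0 x)))]) (fun x => by have := hz0 x; positivity)
    (fun x => inv_pow_le_one (hz x) _) hd hF hn hX hr h1 h2 hT hTr hTf hell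
  obtain ⟨C, hC1, hC⟩ := unif (α := Fin 4)
    (p := fun a C => ∀ i : {i // θ i / (θ i * z i) ≤ η},
      S.Bd (θ i.1 * z i.1) (N + 2) (C * ((z i.1 ^ (200 * t))⁻¹ / b i.1)) (y i.1 a))
    (fun a C C' h h' i => Bd.monoC (h' i) (by have := hθ0 i.1; have := hz0 i.1; positivity)
      (mul_le_mul_of_nonneg_right h (by have := hb0 i.1; have := hz0 i.1; positivity)))
    (fun a => by
      obtain ⟨C, -, h⟩ := (yb a).2 (N + 2)
      exact ⟨C, h⟩)
  obtain ⟨C', hC'1, hC'⟩ := unif (α := κ × κ)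
    (p := fun x C => ∀ i : {i // θ i / (θ i * z i) ≤ η},
      S.Bd (θ i.1 * z i.1) N (C * ((z i.1 ^ (200 * t))⁻¹ * (θ i.1 / (θ i.1 * z i.1)) ^ (400 * t)
        + ((z i.1 ^ (200 * t))⁻¹) ^ 3 * (θ i.1 * z i.1 / b i.1) ^ 2))
        (fun p => S.met (fun a => X i.1 a + y i.1 a) x.1 x.2 p - S.met (X i.1) x.1 x.2 p
          - (((z i.1 ^ (200 * t))⁻¹ : ℝ) : ℂ) ^ 2 *
            ten S G ((z i.1 ^ (400 * t))⁻¹) ((z i.1 ^ (500 * t))⁻¹) (X i.1) x.1 x.2 p))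
    (fun a C C' h h' i => Bd.monoC (h' i) (by have := hθ0 i.1; have := hz0 i.1; positivity)
      (mul_le_mul_of_nonneg_right h
        (by have := hb0 i.1; have := hz0 i.1; have := hθ0 i.1; positivity)))
    (fun x => by
      obtain ⟨C, -, h⟩ := (yE x.1 x.2).2 N
      exact ⟨C, h⟩)
  refine ⟨2 + C + C' + η⁻¹, by have := inv_pos.2 hη; linarith, fun x hx => ?_⟩
  have hηi := inv_pos.2 hη
  have hzx := hz x
  have hzx0 := hz0 x
  have hbx := hb0 x
  have hb1 := hb x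
  have hθx := hθ0 x
  have hmem : θ x / (θ x * z x) ≤ η := by
    have e : θ x / (θ x * z x) = (z x)⁻¹ := by field_simp
    rw [e]
    exact inv_le_of_inv_le₀ hη (by linarith only [hx, hC'1, hC1])
  have hzC : C ≤ z x := by linarith
  have hzC' : C' ≤ z x := by linarith
  have hz2 : 2 ≤ z x := by linarith
  have hC0 : 0 ≤ C := by linarith
  have hC'0 : 0 ≤ C' := by linarith
  set lam := θ x * z x with hlam
  have hlam0 : 0 < lam := by positivity
  have hlamθ : lam ≤ θ x * z x ^ 2 := by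
    rw [hlam, pow_two, ← mul_assoc]
    have : 0 < θ x * z x := by positivity
    linarith only [mul_pos (sub_pos.2 hηi) (sub_pos.2 this), mul_pos (sub_pos.2 hηi) (sub_pos.2 hθx), mul_nonneg (sub_nonneg.2 hx) (le_of_lt (sub_pos.2 this)), mul_nonneg (sub_nonneg.2 hx) (le_of_lt (sub_pos.2 hθx)), mul_nonneg (sub_nonneg.2 hC'1) (le_of_lt (sub_pos.2 this)), mul_nonneg (sub_nonneg.2 hC'1) (le_of_lt (sub_pos.2 hθx)), mul_nonneg (sub_nonneg.2 hC1) (le_of_lt (sub_pos.2 this)), mul_nonneg (sub_nonneg.2 hC1) (le_of_lt (sub_pos.2 hθx)), hθx]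
  have hlb : lam ≤ b x * z x ^ 35 := by
    calc lam ≤ (b x * z x ^ 34) * z x := by
          rw [hlam]; exact mul_le_mul_of_nonneg_right (hθ x) hzx0.le
      _ = _ := by ring
  set ε := (z x ^ (200 * t))⁻¹ with hε
  have hε0 : 0 < ε := by positivity
  have hy := fun a => hC a ⟨x, hmem⟩
  have hE := fun j k => hC' (j, k) ⟨x, hmem⟩
  simp only at hy hE
  refine ⟨y x, ys x, yr x, fun a => ?_, fun j a => ?_, fun j k a => ?_, fun j k => ?_⟩
  · refine Bd.mono (hy a) (by omega) hlam0.le hlamθ (by positivity) ?_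
    have h3 : ε / b x ≤ ε := div_le_self hε0.le hb1
    calc C * (ε / b x) ≤ z x ^ 1 * ε := by
          rw [pow_one]; exact mul_le_mul hzC h3 (by positivity) hzx0.le
      _ ≤ _ := pow_mul_inv_le hzx (by omega)
  · refine Bd.mono (Bd.D j (Bd.mono (hy a) (by omega : N + 1 ≤ N + 2) hlam0.le le_rfl
      (by positivity) le_rfl)) le_rfl hlam0.le hlamθ (by (clear * - hC1 hzx hbx hθx; positivity)) ?_
    have h3 : ε / b x * lam ≤ ε * z x ^ 35 := by
      rw [div_mul_eq_mul_div, div_le_iff₀ hbx]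
      calc ε * lam ≤ ε * (b x * z x ^ 35) := by gcongr
        _ = _ := by ring
    calc C * (ε / b x) * lam = C * (ε / b x * lam) := by ring
      _ ≤ z x * (ε * z x ^ 35) := mul_le_mul hzC h3 (by positivity) hzx0.le
      _ = z x ^ 36 * ε := by ring
      _ ≤ _ := pow_mul_inv_le hzx (by omega)
  · refine Bd.mono (Bd.D j (Bd.D k (hy a))) le_rfl hlam0.le hlamθ (by (clear * - hC1 hzx hbx hθx; positivity)) ?_
    have h3 : ε / b x * lam * lam ≤ ε * z x ^ 70 * b x := by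
      have h4 : lam * lam ≤ (b x * z x ^ 35) * (b x * z x ^ 35) :=
        mul_le_mul hlb hlb hlam0.le (by positivity)
      rw [mul_assoc, div_mul_eq_mul_div, div_le_iff₀ hbx]
      calc ε * (lam * lam) ≤ ε * ((b x * z x ^ 35) * (b x * z x ^ 35)) := by gcongr
        _ = _ := by ring
    calc C * (ε / b x) * lam * lam = C * (ε / b x * lam * lam) := by ring
      _ ≤ z x * (ε * z x ^ 70 * b x) := mul_le_mul hzC h3 (by (clear * - hzx hbx hθx; positivity)) hzx0.le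
      _ = z x ^ 71 * ε * b x := by ring
      _ ≤ _ := by
        gcongr
        exact pow_mul_inv_le hzx (by omega)
  · have h3 := hE j k
    have hn' := Bd.neg (S := S) (sm_sub (sm_sub (sm_met (fun a => S.sm_add (hX x a) (ys x a)) j k)
      (sm_met (hX x) j k)) (sm_smul ((ε : ℂ) ^ 2)
        (ten_sm hGs (hX x) ((z x ^ (400 * t))⁻¹) ((z x ^ (500 * t))⁻¹) j k))) h3
    have e : (fun p => -(S.met (fun a => X x a + y x a) j k p - S.met (X x) j k p
          - (ε : ℂ) ^ 2 * ten S G ((z x ^ (400 * t))⁻¹) ((z x ^ (500 * t))⁻¹) (X x) j k p)) =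
        fun p => G j k p - S.met (fun a p => X x a p + y x a p) j k p
          - ((z x ^ (500 * t))⁻¹ : ℝ) * G j k p := by
      funext p
      have hd : (ε : ℂ) ^ 2 * ((((z x ^ (400 * t))⁻¹)⁻¹ : ℝ) : ℂ) = 1 := by
        rw [← Complex.ofReal_pow, ← Complex.ofReal_mul, hε]
        have : ((z x ^ (200 * t))⁻¹) ^ 2 * ((z x ^ (400 * t))⁻¹)⁻¹ = 1 := by
          rw [inv_inv, inv_pow, ← pow_mul]
          have h5 : 200 * t * 2 = 400 * t := by omega
          rw [h5]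
          exact inv_mul_cancel₀ (by positivity)
        rw [this, Complex.ofReal_one]
      have hmet : S.met (fun a => X x a + y x a) j k p =
        S.met (fun a p => X x a p + y x a p) j k p := rfl
      rw [hmet]
      simp only [ten]
      linear_combination (G j k p - S.met (X x) j k p - ((z x ^ (500 * t))⁻¹ : ℝ) * G j k p) * hd
    rw [e] at hn'
    refine Bd.mono hn' le_rfl hlam0.le hlamθ (by (clear * - hC'1 hzx hθx hbx; positivity)) ?_
    have q1 : (θ x / lam) ^ (400 * t) = (z x ^ (400 * t))⁻¹ := by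
      have : θ x / lam = (z x)⁻¹ := by rw [hlam]; field_simp
      rw [this, inv_pow]
    have q2 : ε * (z x ^ (400 * t))⁻¹ ≤ (z x ^ (600 * t))⁻¹ := by
      rw [hε, ← mul_inv, ← pow_add]
      exact inv_pow_le hzx (by omega)
    have q3 : ε ^ 3 = (z x ^ (600 * t))⁻¹ := by
      rw [hε, inv_pow, ← pow_mul]
      congr 2
      omega
    have q4 : (lam / b x) ^ 2 ≤ z x ^ 70 := by
      have h6 : lam / b x ≤ z x ^ 35 := by
        rw [div_le_iff₀ hbx]; linarith only [hlb]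
      calc (lam / b x) ^ 2 ≤ (z x ^ 35) ^ 2 := pow_le_pow_left₀ (by (clear * - hθx hzx hbx; positivity)) h6 2
        _ = _ := by ring
    have q5 : 1 ≤ z x ^ 70 := one_le_pow₀ hzx
    have q6 : 0 ≤ (z x ^ (600 * t))⁻¹ := by positivity
    calc C' * (ε * (θ x / lam) ^ (400 * t) + ε ^ 3 * (lam / b x) ^ 2)
        ≤ z x * ((z x ^ (600 * t))⁻¹ + (z x ^ (600 * t))⁻¹ * z x ^ 70) := by
          refine mul_le_mul hzC' (add_le_add ?_ ?_) (by (clear * - hzx hθx hbx; positivity)) hzx0.le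
          · rw [q1]; exact q2
          · rw [q3]; exact mul_le_mul_of_nonneg_left q4 q6
      _ ≤ z x * (2 * (z x ^ 70 * (z x ^ (600 * t))⁻¹)) := by
          gcongr
          linarith only [mul_nonneg (sub_nonneg.2 q5) (sub_nonneg.2 q6)]
      _ ≤ z x * (z x * (z x ^ 70 * (z x ^ (600 * t))⁻¹)) := by gcongr
      _ = z x ^ 72 * (z x ^ (600 * t))⁻¹ := by ring
      _ ≤ _ := pow_mul_inv_le hzx (by omega)

end It

end Vale.Agent.P205.F
end
end
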