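import Mathlib

set_option linter.all false

section

/-!
Smoothing in a Euclidean chart (P205, full question), part A.

Constant coefficient word derivatives `ddw b w g`, the predicate `EN b k B g` and the operator
`smo h m = I - (I - P_h) ^ m`, where `P_h` is convolution with a bump function of size `h`.
-/

open MeasureTheory Set Function
open scoped ContDiff Convolution Pointwise

noncomputable section

namespace Vale.Agent.P205.F

section defs

variable {E : Type*} [NormedAddCommGroup E] [NormedSpace ℝ E]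
variable {F : Type*} [NormedAddCommGroup F] [NormedSpace ℝ F]
variable {A : Type*}

/-- derivative in the constant direction `v` -/
def dd (v : E) (g : E → F) : E → F := fun x => fderiv ℝ g x v

/-- iterated derivatives along words in the directions `b a` -/
def ddw (b : A → E) : List A → (E → F) → (E → F)
  | [], g => g
  | a :: w, g => dd (b a) (ddw b w g)

/-- smooth with compact support -/
def Cc (g : E → F) : Prop := ContDiff ℝ ∞ g ∧ HasCompactSupport g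

/-- all word derivatives of order at most `k` are bounded by `B` -/
def EN (b : A → E) (k : ℕ) (B : ℝ) (g : E → F) : Prop :=
  ∀ w : List A, w.length ≤ k → ∀ x, ‖ddw b w g x‖ ≤ B

theorem ddw_append (b : A → E) (w₁ w₂ : List A) (g : E → F) :
    ddw b (w₁ ++ w₂) g = ddw b w₁ (ddw b w₂ g) := by
  induction w₁ with
  | nil => rfl
  | cons a w ih => simp [ddw, ih]

theorem Cc.dd {g : E → F} (hg : Cc g) (v : E) : Cc (dd v g) := by
  refine ⟨?_, ?_⟩
  · have h1 : ContDiff ℝ ∞ (fderiv ℝ g) := hg.1.fderiv_right (m := ∞) (by simp)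
    exact h1.clm_apply contDiff_const
  · exact (hg.2.fderiv_apply ℝ v)

theorem Cc.ddw {g : E → F} (hg : Cc g) (b : A → E) (w : List A) : Cc (ddw b w g) := by
  induction w with
  | nil => exact hg
  | cons a w ih => exact ih.dd _

theorem Cc.add {g g' : E → F} (hg : Cc g) (hg' : Cc g') : Cc (g + g') :=
  ⟨hg.1.add hg'.1, hg.2.add hg'.2⟩

theorem Cc.neg {g : E → F} (hg : Cc g) : Cc (-g) :=
  ⟨hg.1.neg, hg.2.neg⟩

theorem Cc.sub {g g' : E → F} (hg : Cc g) (hg' : Cc g') : Cc (g - g') := by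
  rw [sub_eq_add_neg]
  exact hg.add hg'.neg

theorem Cc.differentiable {g : E → F} (hg : Cc g) : Differentiable ℝ g :=
  hg.1.differentiable (by simp)

theorem dd_add {g g' : E → F} (hg : Cc g) (hg' : Cc g') (v : E) :
    dd v (g + g') = dd v g + dd v g' := by
  funext x
  simp [dd, fderiv_add (hg.differentiable x) (hg'.differentiable x)]

theorem dd_sub {g g' : E → F} (hg : Cc g) (hg' : Cc g') (v : E) :
    dd v (g - g') = dd v g - dd v g' := by
  funext x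
  simp [dd, fderiv_sub (hg.differentiable x) (hg'.differentiable x)]

theorem ddw_add {g g' : E → F} (hg : Cc g) (hg' : Cc g') (b : A → E) (w : List A) :
    ddw b w (g + g') = ddw b w g + ddw b w g' := by
  induction w with
  | nil => rfl
  | cons a w ih => rw [ddw, ih, dd_add (hg.ddw b w) (hg'.ddw b w)]; rfl

theorem ddw_sub {g g' : E → F} (hg : Cc g) (hg' : Cc g') (b : A → E) (w : List A) :
    ddw b w (g - g') = ddw b w g - ddw b w g' := by
  induction w with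
  | nil => rfl
  | cons a w ih => rw [ddw, ih, dd_sub (hg.ddw b w) (hg'.ddw b w)]; rfl

theorem ddw_zero (b : A → E) (w : List A) : ddw b w (0 : E → F) = 0 := by
  induction w with
  | nil => rfl
  | cons a w ih =>
    rw [ddw, ih]
    funext y
    simp [dd]

theorem EN.mono {b : A → E} {k k' : ℕ} {B B' : ℝ} {g : E → F} (h : EN b k B g) (hk : k' ≤ k)
    (hB : B ≤ B') : EN b k' B' g :=
  fun w hw x => (h w (hw.trans hk) x).trans hB

theorem EN.nonneg {b : A → E} {k : ℕ} {B : ℝ} {g : E → F} (h : EN b k B g) : 0 ≤ B :=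
  (norm_nonneg _).trans (h [] (by simp) 0)

theorem EN.add {b : A → E} {k : ℕ} {B B' : ℝ} {g g' : E → F} (hg : Cc g) (hg' : Cc g')
    (h : EN b k B g) (h' : EN b k B' g') : EN b k (B + B') (g + g') := by
  intro w hw x
  rw [ddw_add hg hg']
  exact (norm_add_le _ _).trans (add_le_add (h w hw x) (h' w hw x))

theorem EN.sub {b : A → E} {k : ℕ} {B B' : ℝ} {g g' : E → F} (hg : Cc g) (hg' : Cc g')
    (h : EN b k B g) (h' : EN b k B' g') : EN b k (B + B') (g - g') := by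
  intro w hw x
  rw [ddw_sub hg hg']
  exact (norm_sub_le _ _).trans (add_le_add (h w hw x) (h' w hw x))

theorem EN.ddw {b : A → E} {k : ℕ} {B : ℝ} {g : E → F} (w : List A)
    (h : EN b (k + w.length) B g) : EN b k B (Vale.Agent.P205.F.ddw b w g) := by
  intro w' hw' x
  rw [← ddw_append]
  exact h _ (by simp; omega) x

/-- finitely many words: uniform bounds -/
theorem exists_word_bound [Finite A] (c : List A → ℝ) (l : ℕ) :
    ∃ C : ℝ, 0 ≤ C ∧ ∀ w : List A, w.length ≤ l → c w ≤ C := by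
  have hfin : Set.Finite (c '' {w : List A | w.length ≤ l}) :=
    (List.finite_length_le A l).image c
  obtain ⟨C, hC⟩ := hfin.bddAbove
  refine ⟨max C 0, le_max_right _ _, fun w hw => ?_⟩
  exact (hC ⟨w, hw, rfl⟩).trans (le_max_left _ _)

end defs

section conv

variable {E : Type*} [NormedAddCommGroup E] [NormedSpace ℝ E] [FiniteDimensional ℝ E]
  [MeasurableSpace E] [BorelSpace E] (μ : Measure E) [μ.IsAddHaarMeasure]
variable {A : Type*}

/-- convolution with a real test function -/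
def Kc (ψ : E → ℝ) (g : E → ℂ) : E → ℂ := ψ ⋆[ContinuousLinearMap.lsmul ℝ ℝ, μ] g

theorem Cc.locInt {F : Type*} [NormedAddCommGroup F] [NormedSpace ℝ F] {g : E → F} (hg : Cc g) :
    LocallyIntegrable g μ := hg.1.continuous.locallyIntegrable

theorem Kc_cc {ψ : E → ℝ} {g : E → ℂ} (hψ : Cc ψ) (hg : Cc g) : Cc (Kc μ ψ g) := by
  refine ⟨?_, ?_⟩
  · exact hg.2.contDiff_convolution_right _ (hψ.locInt μ) hg.1
  · exact HasCompactSupport.convolution _ hψ.2 hg.2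

theorem dd_Kc_right {ψ : E → ℝ} {g : E → ℂ} (hψ : Cc ψ) (hg : Cc g) (v : E) :
    dd v (Kc μ ψ g) = Kc μ ψ (dd v g) := by
  funext x
  have h := hg.2.hasFDerivAt_convolution_right (ContinuousLinearMap.lsmul ℝ ℝ) (hψ.locInt μ)
    (hg.1.of_le (by simp)) x
  have h2 := h.fderiv
  simp only [dd, Kc]
  rw [h2, convolution_precompR_apply _ (hψ.locInt μ) (hg.2.fderiv ℝ)
    (hg.1.continuous_fderiv (by simp))]
  rfl

theorem dd_Kc_left {ψ : E → ℝ} {g : E → ℂ} (hψ : Cc ψ) (hg : Cc g) (v : E) :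
    dd v (Kc μ ψ g) = Kc μ (dd v ψ) g := by
  funext x
  have h := hψ.2.hasFDerivAt_convolution_left (ContinuousLinearMap.lsmul ℝ ℝ (E := ℂ))
    (hψ.1.of_le (by simp)) (hg.locInt μ) x
  have h2 := h.fderiv
  simp only [dd, Kc]
  rw [h2]
  have h3 : ConvolutionExistsAt (fderiv ℝ ψ) g x
      ((ContinuousLinearMap.lsmul ℝ ℝ (E := ℂ)).precompL E) μ :=
    HasCompactSupport.convolutionExists_left _ (hψ.2.fderiv ℝ)
      (hψ.1.continuous_fderiv (by simp)) (hg.locInt μ) x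
  rw [convolution_def, convolution_def]
  rw [ContinuousLinearMap.integral_apply h3]
  rfl

theorem ddw_Kc_right {ψ : E → ℝ} {g : E → ℂ} (hψ : Cc ψ) (hg : Cc g) (b : A → E) (w : List A) :
    ddw b w (Kc μ ψ g) = Kc μ ψ (ddw b w g) := by
  induction w with
  | nil => rfl
  | cons a w ih => rw [ddw, ih, dd_Kc_right μ hψ (hg.ddw b w)]; rfl

theorem ddw_Kc_left {ψ : E → ℝ} {g : E → ℂ} (hψ : Cc ψ) (hg : Cc g) (b : A → E) (w : List A) :
    ddw b w (Kc μ ψ g) = Kc μ (ddw b w ψ) g := by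
  induction w with
  | nil => rfl
  | cons a w ih => rw [ddw, ih, dd_Kc_left μ (hψ.ddw b w) hg]; rfl

omit [FiniteDimensional ℝ E] in
theorem Kc_bound {ψ : E → ℝ} {g : E → ℂ} (hψ : Cc ψ) {B : ℝ} (hB : ∀ x, ‖g x‖ ≤ B) (x : E) :
    ‖Kc μ ψ g x‖ ≤ (∫ t, ‖ψ t‖ ∂μ) * B := by
  have hint : Integrable (fun t => ‖ψ t‖) μ := (hψ.1.continuous.integrable_of_hasCompactSupport
    hψ.2).norm
  rw [Kc, convolution_def, ← integral_mul_const]
  refine norm_integral_le_of_norm_le (hint.mul_const B) (Filter.Eventually.of_forall fun t => ?_)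
  simp only [ContinuousLinearMap.lsmul_apply, norm_smul]
  exact mul_le_mul_of_nonneg_left (hB _) (norm_nonneg _)

/-- rescaled test function -/
def sc (h : ℝ) (ψ : E → ℝ) : E → ℝ := fun t => (h ^ Module.finrank ℝ E)⁻¹ * ψ (h⁻¹ • t)

omit [FiniteDimensional ℝ E] [MeasurableSpace E] [BorelSpace E] in
theorem sc_cc {ψ : E → ℝ} (hψ : Cc ψ) {h : ℝ} (hh : 0 < h) : Cc (sc h ψ) := by
  refine ⟨?_, ?_⟩
  · exact contDiff_const.mul (hψ.1.comp (contDiff_const_smul _))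
  · refine HasCompactSupport.mul_left ?_
    exact hψ.2.comp_homeomorph (Homeomorph.smulOfNeZero h⁻¹ (inv_ne_zero hh.ne'))

omit [FiniteDimensional ℝ E] [MeasurableSpace E] [BorelSpace E] in
theorem dd_sc {ψ : E → ℝ} (hψ : Cc ψ) (h : ℝ) (v : E) :
    dd v (sc h ψ) = fun t => h⁻¹ * sc h (dd v ψ) t := by
  funext x
  simp only [dd, sc]
  have h1 : HasFDerivAt (fun t : E => h⁻¹ • t) (h⁻¹ • ContinuousLinearMap.id ℝ E) x :=
    (hasFDerivAt_id x).const_smul h⁻¹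
  have h2 : HasFDerivAt ψ (fderiv ℝ ψ (h⁻¹ • x)) (h⁻¹ • x) :=
    (hψ.differentiable _).hasFDerivAt
  have h3 : HasFDerivAt (fun t => ψ (h⁻¹ • t)) ((fderiv ℝ ψ (h⁻¹ • x)).comp
      (h⁻¹ • ContinuousLinearMap.id ℝ E)) x := h2.comp x h1
  have h4 : HasFDerivAt (sc h ψ) ((h ^ Module.finrank ℝ E)⁻¹ • (fderiv ℝ ψ (h⁻¹ • x)).comp
      (h⁻¹ • ContinuousLinearMap.id ℝ E)) x := h3.const_mul ((h ^ Module.finrank ℝ E)⁻¹)
  rw [h4.fderiv]
  simp
  ring

omit [FiniteDimensional ℝ E] [MeasurableSpace E] [BorelSpace E] in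
theorem ddw_sc {ψ : E → ℝ} (hψ : Cc ψ) {h : ℝ} (hh : 0 < h) (b : A → E) (w : List A) :
    ddw b w (sc h ψ) = fun t => (h⁻¹) ^ w.length * sc h (ddw b w ψ) t := by
  induction w with
  | nil => funext x; simp [ddw]
  | cons a w ih =>
    rw [ddw, ih]
    have h1 : (fun t => (h⁻¹) ^ w.length * sc h (ddw b w ψ) t) =
        (h⁻¹) ^ w.length • sc h (ddw b w ψ) := rfl
    rw [h1]
    funext x
    have h2 : dd (b a) ((h⁻¹) ^ w.length • sc h (ddw b w ψ)) x
        = (h⁻¹) ^ w.length * dd (b a) (sc h (ddw b w ψ)) x := by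
      simp only [dd]
      rw [fderiv_const_smul ((sc_cc (hψ.ddw b w) hh).differentiable x)]
      simp
    rw [h2, dd_sc (hψ.ddw b w)]
    simp only [List.length_cons, pow_succ]
    simp only [ddw]
    ring

theorem integral_norm_sc (ψ : E → ℝ) {h : ℝ} (hh : 0 < h) :
    ∫ t, ‖sc h ψ t‖ ∂μ = ∫ t, ‖ψ t‖ ∂μ := by
  have h1 : ∀ t, ‖sc h ψ t‖ = (h ^ Module.finrank ℝ E)⁻¹ * ‖ψ (h⁻¹ • t)‖ := by
    intro t
    simp only [sc, norm_mul]
    rw [Real.norm_of_nonneg (by positivity)]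
  simp_rw [h1]
  rw [integral_const_mul, Measure.integral_comp_inv_smul μ (fun t => ‖ψ t‖) h,
    abs_of_pos (by positivity)]
  simp only [smul_eq_mul]
  rw [← mul_assoc, inv_mul_cancel₀ (by positivity), one_mul]

theorem integral_sc (ψ : E → ℝ) {h : ℝ} (hh : 0 < h) :
    ∫ t, sc h ψ t ∂μ = ∫ t, ψ t ∂μ := by
  simp only [sc]
  rw [integral_const_mul, Measure.integral_comp_inv_smul μ ψ h, abs_of_pos (by positivity)]
  simp only [smul_eq_mul]
  rw [← mul_assoc, inv_mul_cancel₀ (by positivity), one_mul]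

omit [FiniteDimensional ℝ E] [BorelSpace E] [μ.IsAddHaarMeasure] in
/-- uniform bound for the integrals of the word derivatives of a test function -/
theorem exists_int_bound [Finite A] (b : A → E) (ψ : E → ℝ) (l : ℕ) :
    ∃ C : ℝ, 0 ≤ C ∧ ∀ w : List A, w.length ≤ l → ∫ t, ‖ddw b w ψ t‖ ∂μ ≤ C :=
  exists_word_bound _ l

theorem Kc_gain [Finite A] (b : A → E) {ψ : E → ℝ} (hψ : Cc ψ) (l : ℕ) :
    ∃ C : ℝ, 0 ≤ C ∧ ∀ (k : ℕ) (h B : ℝ) (g : E → ℂ), k ≤ l → 0 < h → h ≤ 1 → Cc g → EN b k B g →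
      EN b l (C * (h⁻¹) ^ (l - k) * B) (Kc μ (sc h ψ) g) := by
  obtain ⟨C, hC0, hC⟩ := exists_int_bound μ b ψ l
  refine ⟨C, hC0, fun k h B g hkl hh hh1 hg hB w hw x => ?_⟩
  have hB0 := hB.nonneg
  have h1h : (1 : ℝ) ≤ h⁻¹ := (one_le_inv₀ hh).2 hh1
  -- split the word
  set n₁ := w.length - k with hn₁
  have hsplit : w = w.take n₁ ++ w.drop n₁ := (List.take_append_drop n₁ w).symm
  have hl1 : (w.take n₁).length = n₁ := by rw [List.length_take]; omega
  have hl2 : (w.drop n₁).length ≤ k := by rw [List.length_drop]; omega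
  rw [hsplit, ddw_append, ddw_Kc_right μ (sc_cc hψ hh) hg,
    ddw_Kc_left μ (sc_cc hψ hh) (hg.ddw b _)]
  have h2 := Kc_bound μ ((sc_cc hψ hh).ddw b (w.take n₁)) (hB (w.drop n₁) hl2) x
  refine h2.trans (mul_le_mul_of_nonneg_right ?_ hB0)
  rw [ddw_sc hψ hh]
  have h3 : ∀ t, ‖(h⁻¹) ^ (w.take n₁).length * sc h (ddw b (w.take n₁) ψ) t‖ =
      (h⁻¹) ^ (w.take n₁).length * ‖sc h (ddw b (w.take n₁) ψ) t‖ := by
    intro t
    rw [norm_mul, Real.norm_of_nonneg (by positivity)]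
  simp_rw [h3]
  rw [integral_const_mul, integral_norm_sc μ _ hh, hl1, mul_comm]
  refine mul_le_mul (hC _ (by rw [hl1]; omega)) (pow_le_pow_right₀ h1h (by omega)) (by positivity)
    hC0

/-- convolution with a probability density does not increase the norms -/
theorem Kc_EN (b : A → E) {ψ : E → ℝ} (hψ : Cc ψ) (h1 : ∫ t, ‖ψ t‖ ∂μ = 1) {h : ℝ} (hh : 0 < h)
    {k : ℕ} {B : ℝ} {g : E → ℂ} (hg : Cc g) (hB : EN b k B g) : EN b k B (Kc μ (sc h ψ) g) := by
  intro w hw x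
  rw [ddw_Kc_right μ (sc_cc hψ hh) hg]
  have h2 := Kc_bound μ (sc_cc hψ hh) (hB w hw) x
  rwa [integral_norm_sc μ ψ hh, h1, one_mul] at h2

/-- first order approximation -/
theorem Kc_appr [Fintype A] (b : Module.Basis A ℝ E) {ψ : E → ℝ} (hψ : Cc ψ) (h0 : ∀ t, 0 ≤ ψ t)
    (h1 : ∫ t, ψ t ∂μ = 1) (hs : support ψ ⊆ Metric.ball 0 1) :
    ∃ C : ℝ, 0 ≤ C ∧ ∀ (k : ℕ) (h B : ℝ) (g : E → ℂ), 0 < h → Cc g → EN b (k + 1) B g →
      EN b k (C * h * B) (g - Kc μ (sc h ψ) g) := by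
  refine ⟨Fintype.card A • ‖(b.equivFunL : E →L[ℝ] A → ℝ)‖, by positivity,
    fun k h B g hh hg hB w hw x => ?_⟩
  set C : ℝ := Fintype.card A • ‖(b.equivFunL : E →L[ℝ] A → ℝ)‖ with hC
  have hC0 : 0 ≤ C := by rw [hC]; positivity
  have hB0 := hB.nonneg
  rw [ddw_sub hg (Kc_cc μ (sc_cc hψ hh) hg), ddw_Kc_right μ (sc_cc hψ hh) hg]
  have hg' : Cc (ddw b w g) := hg.ddw b w
  have hder : ∀ y, ‖fderiv ℝ (ddw b w g) y‖ ≤ C * B := by
    intro y
    have := Module.Basis.opNorm_le b (u := fderiv ℝ (ddw b w g) y) hB0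
      (fun a => hB (a :: w) (by simp; omega) y)
    simpa [hC, nsmul_eq_mul] using this
  have hlip : ∀ y z, ‖ddw b w g z - ddw b w g y‖ ≤ C * B * ‖z - y‖ := fun y z =>
    Convex.norm_image_sub_le_of_norm_fderiv_le (fun y _ => hg'.differentiable y)
      (fun y _ => hder y) convex_univ (mem_univ y) (mem_univ z)
  have hsupp : support (sc h ψ) ⊆ Metric.ball 0 h := by
    intro t ht
    have h2 : ψ (h⁻¹ • t) ≠ 0 := fun h3 => ht (by simp [sc, h3])
    have h3 := hs h2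
    rw [mem_ball_zero_iff, norm_smul, norm_inv, Real.norm_of_nonneg hh.le] at h3
    rw [mem_ball_zero_iff]
    have := (inv_mul_lt_iff₀ hh).1 h3
    simpa using this
  have h5 := dist_convolution_le (μ := μ) (f := sc h ψ) (g := ddw b w g) (x₀ := x)
    (z₀ := ddw b w g x) (ε := C * B * h) (by (clear * - hB0 hh; positivity)) hsupp
    (fun t => mul_nonneg (by positivity) (h0 _)) (by rw [integral_sc μ ψ hh, h1])
    hg'.1.continuous.aestronglyMeasurable
    (fun y hy => by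
      rw [dist_eq_norm]
      refine (hlip x y).trans ?_
      rw [Metric.mem_ball, dist_eq_norm] at hy
      gcongr)
  rw [dist_comm, dist_eq_norm] at h5
  refine h5.trans (le_of_eq (by ring))

/-- the error operator `I - P_h` -/
def Rop (ψ : E → ℝ) (h : ℝ) (g : E → ℂ) : E → ℂ := g - Kc μ (sc h ψ) g

/-- the iterated error operator -/
def RopN (ψ : E → ℝ) (h : ℝ) : ℕ → (E → ℂ) → (E → ℂ)
  | 0, g => g
  | n + 1, g => Rop μ ψ h (RopN ψ h n g)

/-- the smoothing operator of order `m` -/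
def smo (ψ : E → ℝ) (h : ℝ) (m : ℕ) (g : E → ℂ) : E → ℂ := g - RopN μ ψ h m g

theorem Rop_cc {ψ : E → ℝ} (hψ : Cc ψ) {h : ℝ} (hh : 0 < h) {g : E → ℂ} (hg : Cc g) :
    Cc (Rop μ ψ h g) := hg.sub (Kc_cc μ (sc_cc hψ hh) hg)

theorem RopN_cc {ψ : E → ℝ} (hψ : Cc ψ) {h : ℝ} (hh : 0 < h) (m : ℕ) {g : E → ℂ} (hg : Cc g) :
    Cc (RopN μ ψ h m g) := by
  induction m with
  | zero => exact hg
  | succ n ih => exact Rop_cc μ hψ hh ih

theorem smo_cc {ψ : E → ℝ} (hψ : Cc ψ) {h : ℝ} (hh : 0 < h) (m : ℕ) {g : E → ℂ} (hg : Cc g) :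
    Cc (smo μ ψ h m g) := hg.sub (RopN_cc μ hψ hh m hg)

omit [FiniteDimensional ℝ E] [BorelSpace E] [μ.IsAddHaarMeasure] in
theorem smo_zero (ψ : E → ℝ) (h : ℝ) (g : E → ℂ) : smo μ ψ h 0 g = 0 := by
  simp [smo, RopN]

omit [FiniteDimensional ℝ E] [BorelSpace E] [μ.IsAddHaarMeasure] in
theorem smo_succ (ψ : E → ℝ) (h : ℝ) (m : ℕ) (g : E → ℂ) :
    smo μ ψ h (m + 1) g = smo μ ψ h m g + Kc μ (sc h ψ) (RopN μ ψ h m g) := by
  simp only [smo, RopN, Rop]
  abel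

theorem RopN_EN (b : A → E) {ψ : E → ℝ} (hψ : Cc ψ) (h1 : ∫ t, ‖ψ t‖ ∂μ = 1) {h : ℝ} (hh : 0 < h)
    (m : ℕ) {k : ℕ} {B : ℝ} {g : E → ℂ} (hg : Cc g) (hB : EN b k B g) :
    EN b k (2 ^ m * B) (RopN μ ψ h m g) := by
  induction m with
  | zero => simpa [RopN] using hB
  | succ n ih =>
    have h2 := ih.sub (RopN_cc μ hψ hh n hg) (Kc_cc μ (sc_cc hψ hh) (RopN_cc μ hψ hh n hg))
      (Kc_EN μ b hψ h1 hh (RopN_cc μ hψ hh n hg) ih)
    have h3 : (2 : ℝ) ^ (n + 1) * B = 2 ^ n * B + 2 ^ n * B := by ring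
    rw [h3]
    exact h2

/-- gain of derivatives for the smoothing operator -/
theorem smo_gain [Finite A] (b : A → E) {ψ : E → ℝ} (hψ : Cc ψ) (h1 : ∫ t, ‖ψ t‖ ∂μ = 1)
    (m l : ℕ) :
    ∃ C : ℝ, 0 ≤ C ∧ ∀ (k : ℕ) (h B : ℝ) (g : E → ℂ), k ≤ l → 0 < h → h ≤ 1 → Cc g → EN b k B g →
      EN b l (C * (h⁻¹) ^ (l - k) * B) (smo μ ψ h m g) := by
  obtain ⟨C₁, hC₁0, hC₁⟩ := Kc_gain μ b hψ l
  induction m with
  | zero =>
    refine ⟨0, le_rfl, fun k h B g _ _ _ _ _ w _ x => ?_⟩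
    rw [smo_zero, ddw_zero]
    simp
  | succ n ih =>
    obtain ⟨C₂, hC₂0, hC₂⟩ := ih
    refine ⟨C₂ + C₁ * 2 ^ n, by positivity, fun k h B g hkl hh hh1 hg hB => ?_⟩
    rw [smo_succ]
    have h2 := hC₂ k h B g hkl hh hh1 hg hB
    have h3 := hC₁ k h (2 ^ n * B) (RopN μ ψ h n g) hkl hh hh1 (RopN_cc μ hψ hh n hg)
      (RopN_EN μ b hψ h1 hh n hg hB)
    have h4 := h2.add (smo_cc μ hψ hh n hg) (Kc_cc μ (sc_cc hψ hh) (RopN_cc μ hψ hh n hg)) h3
    refine h4.mono le_rfl (le_of_eq (by ring))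

/-- approximation of order `m` -/
theorem smo_appr [Fintype A] (b : Module.Basis A ℝ E) {ψ : E → ℝ} (hψ : Cc ψ)
    (h0 : ∀ t, 0 ≤ ψ t) (h1 : ∫ t, ψ t ∂μ = 1) (hs : support ψ ⊆ Metric.ball 0 1) (m : ℕ) :
    ∃ C : ℝ, 0 ≤ C ∧ ∀ (k : ℕ) (h B : ℝ) (g : E → ℂ), 0 < h → Cc g → EN b (k + m) B g →
      EN b k (C * h ^ m * B) (g - smo μ ψ h m g) := by
  obtain ⟨C₁, hC₁0, hC₁⟩ := Kc_appr μ b hψ h0 h1 hs
  refine ⟨C₁ ^ m, by positivity, fun k h B g hh hg hB => ?_⟩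
  have h2 : g - smo μ ψ h m g = RopN μ ψ h m g := by simp [smo]
  rw [h2]
  have key : ∀ n k, EN b (k + n) B g → EN b k (C₁ ^ n * h ^ n * B) (RopN μ ψ h n g) := by
    intro n
    induction n with
    | zero => intro k hk; simpa [RopN] using hk
    | succ n ih =>
      intro k hk
      have h3 := ih (k + 1) (by rwa [add_right_comm])
      have h4 := hC₁ k h _ _ hh (RopN_cc μ hψ hh n hg) h3
      refine EN.mono h4 le_rfl (le_of_eq (by ring))
  exact key m k hB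

omit [NormedSpace ℝ E] [FiniteDimensional ℝ E] [BorelSpace E] [μ.IsAddHaarMeasure] in
theorem Kc_real (ψ : E → ℝ) {g : E → ℂ} (hg : ∀ x, (g x).im = 0) (x : E) :
    (Kc μ ψ g x).im = 0 := by
  rw [Kc, convolution_def]
  have h1 : ∀ t, (ContinuousLinearMap.lsmul ℝ ℝ) (ψ t) (g (x - t)) =
      ((ψ t * (g (x - t)).re : ℝ) : ℂ) := by
    intro t
    apply Complex.ext
    · simp
    · simp [hg]
  simp_rw [h1]
  have h2 : ∫ t, ((ψ t * (g (x - t)).re : ℝ) : ℂ) ∂μ =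
      ((∫ t, ψ t * (g (x - t)).re ∂μ : ℝ) : ℂ) := integral_ofReal
  rw [h2]
  simp

omit [FiniteDimensional ℝ E] [BorelSpace E] [μ.IsAddHaarMeasure] in
theorem RopN_real (ψ : E → ℝ) (h : ℝ) (m : ℕ) {g : E → ℂ} (hg : ∀ x, (g x).im = 0) (x : E) :
    (RopN μ ψ h m g x).im = 0 := by
  induction m generalizing x with
  | zero => exact hg x
  | succ n ih =>
    have h2 := Kc_real μ (sc h ψ) (g := RopN μ ψ h n g) ih x
    simp only [RopN, Rop, Pi.sub_apply, Complex.sub_im, ih x, h2, sub_zero]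

omit [FiniteDimensional ℝ E] [BorelSpace E] [μ.IsAddHaarMeasure] in
theorem smo_real (ψ : E → ℝ) (h : ℝ) (m : ℕ) {g : E → ℂ} (hg : ∀ x, (g x).im = 0) (x : E) :
    (smo μ ψ h m g x).im = 0 := by
  simp only [smo, Pi.sub_apply, Complex.sub_im, hg x, RopN_real μ ψ h m hg x, sub_zero]

end conv

/-- a bump function as needed -/
theorem exists_bump (E : Type*) [NormedAddCommGroup E] [NormedSpace ℝ E] [FiniteDimensional ℝ E]
    [MeasurableSpace E] [BorelSpace E] (μ : Measure E) [μ.IsAddHaarMeasure] :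
    ∃ ψ : E → ℝ, Cc ψ ∧ (∀ t, 0 ≤ ψ t) ∧ ∫ t, ψ t ∂μ = 1 ∧ ∫ t, ‖ψ t‖ ∂μ = 1 ∧
      support ψ ⊆ Metric.ball 0 1 := by
  let f : ContDiffBump (0 : E) := ⟨1 / 2, 1, by norm_num, by norm_num⟩
  refine ⟨f.normed μ, ⟨f.contDiff_normed, f.hasCompactSupport_normed⟩, f.nonneg_normed, ?_, ?_, ?_⟩
  · exact f.integral_normed
  · have : ∀ t, ‖f.normed μ t‖ = f.normed μ t := fun t => Real.norm_of_nonneg (f.nonneg_normed t)
    simp_rw [this]
    exact f.integral_normed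
  · rw [f.support_normed_eq]

end Vale.Agent.P205.F
end
end

section

/-!
P205, block CHI (1): the zero winding loop `uz κ θ = exp (-2 i arctan (κ cos θ))`, its mean
`vk κ = 2 / √(1 + κ²) - 1` and an explicit periodic primitive `Gz κ θ` of `uz κ θ - vk κ`.
-/

open scoped ContDiff ComplexConjugate
open Complex

namespace Vale.Agent.P205.TW

/-- `√(1 + κ²)` -/
noncomputable def sk (κ : ℝ) : ℝ := Real.sqrt (1 + κ ^ 2)

/-- the mean of the zero winding loop -/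
noncomputable def vk (κ : ℝ) : ℝ := 2 / sk κ - 1

/-- the zero winding loop -/
noncomputable def uz (κ θ : ℝ) : ℂ :=
  (1 - I * ((κ * Real.cos θ : ℝ) : ℂ)) / (1 + I * ((κ * Real.cos θ : ℝ) : ℂ))

/-- the Poisson parameter -/
noncomputable def wk (κ : ℝ) : ℝ := κ / (1 + sk κ)

/-- the periodic primitive of `uz κ θ - vk κ` -/
noncomputable def Gz (κ θ : ℝ) : ℂ :=
  2 / (I * sk κ) * (Complex.log (1 + I * wk κ * Complex.exp (-(I * θ)))
    - Complex.log (1 + I * wk κ * Complex.exp (I * θ)))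

theorem sk_pos (κ : ℝ) : 0 < sk κ := Real.sqrt_pos.2 (by positivity)

theorem sk_sq (κ : ℝ) : sk κ ^ 2 = 1 + κ ^ 2 := Real.sq_sqrt (by positivity)

theorem one_le_sk (κ : ℝ) : 1 ≤ sk κ := by
  have := sk_sq κ
  nlinarith [sk_pos κ, sq_nonneg κ]

theorem wk_eq (κ : ℝ) : wk κ * (1 + sk κ) = κ := by
  have := sk_pos κ
  unfold wk
  field_simp

theorem abs_wk_lt (κ : ℝ) : |wk κ| < 1 := by
  have h1 := sk_pos κ
  have h2 := sk_sq κ
  rw [wk, abs_div, abs_of_pos (by linarith : (0:ℝ) < 1 + sk κ), div_lt_one (by linarith)]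
  rw [abs_lt]
  constructor <;> nlinarith

theorem wk_sq (κ : ℝ) : wk κ ^ 2 * (1 + sk κ) = sk κ - 1 := by
  have h1 := sk_pos κ
  have h2 := sk_sq κ
  unfold wk
  field_simp
  nlinarith

theorem contDiff_sk : ContDiff ℝ ∞ sk := by
  unfold sk
  refine ContDiff.sqrt (by fun_prop) fun x => ?_
  positivity

theorem contDiff_vk : ContDiff ℝ ∞ vk := by
  unfold vk
  exact (contDiff_const.div contDiff_sk fun x => (sk_pos x).ne').sub contDiff_const

theorem contDiff_wk : ContDiff ℝ ∞ wk := by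
  unfold wk
  exact contDiff_id.div (contDiff_const.add contDiff_sk) fun x => by
    have := sk_pos x
    positivity

theorem vk_zero : vk 0 = 1 := by
  simp [vk, sk]
  norm_num

theorem vk_le_one (κ : ℝ) : vk κ ≤ 1 := by
  have h1 := sk_pos κ
  have h2 := one_le_sk κ
  unfold vk
  rw [sub_le_iff_le_add, div_le_iff₀ h1]
  linarith

theorem vk_lt_one {κ : ℝ} (h : κ ≠ 0) : vk κ < 1 := by
  have h1 := sk_pos κ
  have h2 := sk_sq κ
  have h3 : 1 < sk κ := by
    have : 0 < κ ^ 2 := by positivity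
    nlinarith
  unfold vk
  rw [sub_lt_iff_lt_add, div_lt_iff₀ h1]
  linarith

theorem uz_den_ne (κ θ : ℝ) : (1 + I * ((κ * Real.cos θ : ℝ) : ℂ)) ≠ 0 := by
  intro h
  have := congrArg Complex.re h
  simp at this

theorem contDiff_div' {E : Type*} [NormedAddCommGroup E] [NormedSpace ℝ E] {f g : E → ℂ}
    (hf : ContDiff ℝ ∞ f) (hg : ContDiff ℝ ∞ g) (h0 : ∀ x, g x ≠ 0) :
    ContDiff ℝ ∞ (fun x => f x / g x) := by
  simp only [div_eq_mul_inv]
  exact hf.mul (hg.inv h0)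

theorem contDiff_uz : ContDiff ℝ ∞ (fun p : ℝ × ℝ => uz p.1 p.2) := by
  have h0 : ContDiff ℝ ∞ (fun p : ℝ × ℝ => ((p.1 * Real.cos p.2 : ℝ) : ℂ)) :=
    Complex.ofRealCLM.contDiff.comp (contDiff_fst.mul (Real.contDiff_cos.comp contDiff_snd))
  have h1 : ContDiff ℝ ∞ (fun p : ℝ × ℝ => 1 - I * ((p.1 * Real.cos p.2 : ℝ) : ℂ)) :=
    contDiff_const.sub (contDiff_const.mul h0)
  have h2 : ContDiff ℝ ∞ (fun p : ℝ × ℝ => 1 + I * ((p.1 * Real.cos p.2 : ℝ) : ℂ)) :=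
    contDiff_const.add (contDiff_const.mul h0)
  exact contDiff_div' h1 h2 fun p => uz_den_ne p.1 p.2

theorem slit_aux {w : ℝ} (hw : |w| < 1) {z : ℂ} (hz : ‖z‖ = 1) :
    1 + I * (w : ℂ) * z ∈ Complex.slitPlane := by
  left
  have h1 : ‖I * (w : ℂ) * z‖ < 1 := by
    rw [norm_mul, norm_mul, hz, Complex.norm_I, Complex.norm_real, Real.norm_eq_abs]
    linarith
  have h2 := Complex.abs_re_le_norm (I * (w : ℂ) * z)
  have h3 : -1 < (I * (w : ℂ) * z).re := by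
    have := abs_lt.1 (lt_of_le_of_lt h2 h1)
    exact this.1
  rw [Complex.add_re, Complex.one_re]
  linarith

theorem norm_exp_I (θ : ℝ) : ‖Complex.exp (I * (θ : ℂ))‖ = 1 := by
  rw [mul_comm]
  exact Complex.norm_exp_ofReal_mul_I θ

theorem norm_exp_neg_I (θ : ℝ) : ‖Complex.exp (-(I * (θ : ℂ)))‖ = 1 := by
  have := norm_exp_I (-θ)
  rwa [Complex.ofReal_neg, mul_neg] at this

theorem contDiff_Gz : ContDiff ℝ ∞ (fun p : ℝ × ℝ => Gz p.1 p.2) := by
  unfold Gz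
  have hw : ContDiff ℝ ∞ (fun p : ℝ × ℝ => ((wk p.1 : ℝ) : ℂ)) :=
    Complex.ofRealCLM.contDiff.comp (contDiff_wk.comp contDiff_fst)
  have hs : ContDiff ℝ ∞ (fun p : ℝ × ℝ => ((sk p.1 : ℝ) : ℂ)) :=
    Complex.ofRealCLM.contDiff.comp (contDiff_sk.comp contDiff_fst)
  have ht : ContDiff ℝ ∞ (fun p : ℝ × ℝ => ((p.2 : ℝ) : ℂ)) :=
    Complex.ofRealCLM.contDiff.comp contDiff_snd
  refine ContDiff.mul ?_ ?_
  · have h1 : ContDiff ℝ ∞ (fun p : ℝ × ℝ => I * ((sk p.1 : ℝ) : ℂ)) := contDiff_const.mul hs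
    have h2 : ContDiff ℝ ∞ (fun _ : ℝ × ℝ => (2 : ℂ)) := contDiff_const
    exact contDiff_div' h2 h1 fun p =>
      mul_ne_zero Complex.I_ne_zero (Complex.ofReal_ne_zero.2 (sk_pos p.1).ne')
  · refine ContDiff.sub ?_ ?_
    · rw [contDiff_iff_contDiffAt]
      intro p
      have h1 : ContDiffAt ℝ ∞ (fun p : ℝ × ℝ => 1 + I * (wk p.1 : ℂ) *
          Complex.exp (-(I * (p.2 : ℂ)))) p := by
        refine contDiffAt_const.add (ContDiffAt.mul (contDiffAt_const.mul hw.contDiffAt) ?_)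
        exact ((contDiff_const.mul ht).neg.cexp).contDiffAt
      exact ((Complex.contDiffAt_log (n := ∞)
        (slit_aux (abs_wk_lt p.1) (norm_exp_neg_I p.2))).restrict_scalars ℝ).comp p h1
    · rw [contDiff_iff_contDiffAt]
      intro p
      have h1 : ContDiffAt ℝ ∞ (fun p : ℝ × ℝ => 1 + I * (wk p.1 : ℂ) *
          Complex.exp (I * (p.2 : ℂ))) p := by
        refine contDiffAt_const.add (ContDiffAt.mul (contDiffAt_const.mul hw.contDiffAt) ?_)
        exact ((contDiff_const.mul ht).cexp).contDiffAt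
      exact ((Complex.contDiffAt_log (n := ∞)
        (slit_aux (abs_wk_lt p.1) (norm_exp_I p.2))).restrict_scalars ℝ).comp p h1

theorem exp_per (θ : ℝ) : Complex.exp (I * ((θ + 2 * Real.pi : ℝ) : ℂ)) =
    Complex.exp (I * (θ : ℂ)) := by
  rw [show I * ((θ + 2 * Real.pi : ℝ) : ℂ) = I * (θ : ℂ) + 2 * Real.pi * I by
    push_cast; ring, Complex.exp_periodic]

theorem Gz_periodic (κ θ : ℝ) : Gz κ (θ + 2 * Real.pi) = Gz κ θ := by
  unfold Gz
  rw [Complex.exp_neg, exp_per, ← Complex.exp_neg]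

theorem uz_sub_vk (κ θ : ℝ) : uz κ θ - vk κ =
    2 / (sk κ : ℂ) * (-(I * wk κ * Complex.exp (-(I * θ))) /
        (1 + I * wk κ * Complex.exp (-(I * θ)))
      + -(I * wk κ * Complex.exp (I * θ)) / (1 + I * wk κ * Complex.exp (I * θ))) := by
  have e1 : Complex.exp (-(I * θ)) = (Complex.exp (I * θ))⁻¹ := Complex.exp_neg _
  have hne : Complex.exp (I * (θ : ℂ)) ≠ 0 := Complex.exp_ne_zero _
  have hcos : ((Real.cos θ : ℝ) : ℂ) =
      (Complex.exp (I * θ) + (Complex.exp (I * θ))⁻¹) / 2 := by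
    rw [Complex.ofReal_cos, Complex.cos, ← e1]
    congr 2
    · rw [mul_comm]
    · rw [neg_mul, mul_comm]
  have h1 : 1 + I * (wk κ : ℂ) * (Complex.exp (I * θ))⁻¹ ≠ 0 := by
    rw [← e1]
    exact Complex.slitPlane_ne_zero (slit_aux (abs_wk_lt κ) (norm_exp_neg_I θ))
  have h2 : 1 + I * (wk κ : ℂ) * (Complex.exp (I * θ)) ≠ 0 :=
    Complex.slitPlane_ne_zero (slit_aux (abs_wk_lt κ) (norm_exp_I θ))
  have h3 : (1 + I * ((κ * Real.cos θ : ℝ) : ℂ)) ≠ 0 := uz_den_ne κ θ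
  have hs : (sk κ : ℂ) ≠ 0 := Complex.ofReal_ne_zero.2 (sk_pos κ).ne'
  have hk : (κ : ℂ) = wk κ * (1 + sk κ) := by
    rw [← Complex.ofReal_one, ← Complex.ofReal_add, ← Complex.ofReal_mul, wk_eq]
  have hw2 : (wk κ : ℂ) ^ 2 * (1 + sk κ) = sk κ - 1 := by
    exact_mod_cast congrArg (fun x : ℝ => (x : ℂ)) (wk_sq κ)
  unfold uz vk
  rw [e1]
  rw [Complex.ofReal_mul, hcos] at h3 ⊢
  generalize Complex.exp (I * (θ : ℂ)) = E at *
  push_cast
  rw [hk] at h3 ⊢
  generalize (wk κ : ℂ) = w at *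
  generalize (sk κ : ℂ) = s at *
  have hE2 : E + I * w ≠ 0 := by
    intro h
    apply h1
    field_simp
    linear_combination h
  have hI : I ^ 2 = -1 := Complex.I_sq
  have h3' : 2 * E + I * (w * (1 + s)) * (E ^ 2 + 1) ≠ 0 := by
    intro h
    apply h3
    field_simp
    linear_combination h
  have key : 2 * E + I * (w * (1 + s)) * (E ^ 2 + 1) =
      (1 + s) * (E + I * w) * (1 + I * w * E) := by
    linear_combination E * hw2 - E * w ^ 2 * (1 + s) * hI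
  rw [key] at h3'
  have hs1 : (1 + s) ≠ 0 := fun h => h3' (by rw [h]; ring)
  have h2' : 1 + I * w * E ≠ 0 := h2
  have hden : 1 + I * (w * (1 + s) * ((E + E⁻¹) / 2)) =
      (1 + s) * (E + I * w) * (1 + I * w * E) / (2 * E) := by
    rw [← key]
    field_simp
  have hnum : 1 - I * (w * (1 + s) * ((E + E⁻¹) / 2)) =
      (4 * E - (1 + s) * (E + I * w) * (1 + I * w * E)) / (2 * E) := by
    rw [← key]
    field_simp
    ring
  rw [hden, hnum]
  have hd3 : 1 + I * w * E⁻¹ = (E + I * w) / E := by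
    field_simp
  rw [hd3]
  have g1 : ∀ Q : ℂ, Q ≠ 0 → (4 * E - Q) / (2 * E) / (Q / (2 * E)) - (2 / s - 1) =
      (4 * E * s - 2 * Q) / (s * Q) := by
    intro Q hQ
    field_simp
    ring
  have g2 : ∀ a b : ℂ, a ≠ 0 → b ≠ 0 →
      2 / s * (-(I * w * E⁻¹) / (a / E) + -(I * w * E) / b) =
      - (2 * (I * w) * (b + E * a)) / (s * (a * b)) := by
    intro a b ha hb
    field_simp
    ring
  rw [g1 _ h3', g2 _ _ hE2 h2', div_eq_div_iff (mul_ne_zero hs h3')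
    (mul_ne_zero hs (mul_ne_zero hE2 h2'))]
  linear_combination (-2 * s * (E + I * w) * (1 + I * w * E) * E) * hw2 +
    (2 * s * (E + I * w) * (1 + I * w * E) * E * (1 + s) * w ^ 2) * hI

theorem hasDerivAt_exp_I (θ : ℝ) : HasDerivAt (fun t : ℝ => Complex.exp (I * (t : ℂ)))
    (I * Complex.exp (I * (θ : ℂ))) θ := by
  have h1 : HasDerivAt (fun t : ℝ => I * (t : ℂ)) (I * 1) θ :=
    (hasDerivAt_id θ).ofReal_comp.const_mul I
  have h2 := h1.cexp
  rw [mul_one, mul_comm] at h2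
  exact h2

theorem hasDerivAt_exp_neg_I (θ : ℝ) : HasDerivAt (fun t : ℝ => Complex.exp (-(I * (t : ℂ))))
    (-I * Complex.exp (-(I * (θ : ℂ)))) θ := by
  have h1 : HasDerivAt (fun t : ℝ => -(I * (t : ℂ))) (-(I * 1)) θ :=
    ((hasDerivAt_id θ).ofReal_comp.const_mul I).neg
  have h2 := h1.cexp
  rw [mul_one, mul_comm] at h2
  exact h2

/-- `Gz κ` is a primitive of `uz κ - vk κ` -/
theorem hasDerivAt_Gz (κ θ : ℝ) : HasDerivAt (Gz κ) (uz κ θ - vk κ) θ := by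
  have a1 : HasDerivAt (fun t : ℝ => 1 + I * wk κ * Complex.exp (-(I * (t : ℂ))))
      (I * wk κ * (-I * Complex.exp (-(I * (θ : ℂ))))) θ :=
    ((hasDerivAt_exp_neg_I θ).const_mul _).const_add 1
  have a2 : HasDerivAt (fun t : ℝ => 1 + I * wk κ * Complex.exp (I * (t : ℂ)))
      (I * wk κ * (I * Complex.exp (I * (θ : ℂ)))) θ :=
    ((hasDerivAt_exp_I θ).const_mul _).const_add 1
  have b1 := (HasDerivAt.clog_real a1 (slit_aux (abs_wk_lt κ) (norm_exp_neg_I θ)))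
  have b2 := (HasDerivAt.clog_real a2 (slit_aux (abs_wk_lt κ) (norm_exp_I θ)))
  have c1 := (b1.sub b2).const_mul (2 / (I * sk κ))
  refine c1.congr_deriv ?_
  rw [uz_sub_vk]
  have h1 : 1 + I * (wk κ : ℂ) * Complex.exp (-(I * θ)) ≠ 0 :=
    Complex.slitPlane_ne_zero (slit_aux (abs_wk_lt κ) (norm_exp_neg_I θ))
  have h2 : 1 + I * (wk κ : ℂ) * (Complex.exp (I * θ)) ≠ 0 :=
    Complex.slitPlane_ne_zero (slit_aux (abs_wk_lt κ) (norm_exp_I θ))
  have hs : (sk κ : ℂ) ≠ 0 := Complex.ofReal_ne_zero.2 (sk_pos κ).ne'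
  have hI := Complex.I_ne_zero
  field_simp
  ring

end Vale.Agent.P205.TW
end

section

/-!
P205, block CHI (2): the full winding (Moebius) loop
`EM v θ = (exp (i θ) + v) / (1 + v exp (i θ)) = exp (i Mv v θ)` of mean `v`, its angle `Mv v` and
its periodic primitive `GM v`.
-/

open scoped ContDiff ComplexConjugate
open Complex

namespace Vale.Agent.P205.TW

/-- the zero winding loop is `exp (-2 i arctan (κ cos θ))` -/
theorem uz_eq_exp (κ θ : ℝ) :
    uz κ θ = Complex.exp (I * ((-(2 * Real.arctan (κ * Real.cos θ)) : ℝ) : ℂ)) := by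
  set q : ℝ := κ * Real.cos θ with hq
  have h1 : 0 < Real.sqrt (1 + q ^ 2) := Real.sqrt_pos.2 (by positivity)
  have h2 : Real.sqrt (1 + q ^ 2) ^ 2 = 1 + q ^ 2 := Real.sq_sqrt (by positivity)
  have hc := Real.cos_arctan q
  have hs := Real.sin_arctan q
  have e1 : Complex.exp (I * ((-(2 * Real.arctan q) : ℝ) : ℂ)) =
      (((Real.cos (Real.arctan q) : ℝ) : ℂ) - ((Real.sin (Real.arctan q) : ℝ) : ℂ) * I) ^ 2 := by
    rw [show I * ((-(2 * Real.arctan q) : ℝ) : ℂ) =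
      ((2 : ℕ) : ℂ) * (-((Real.arctan q : ℝ) : ℂ) * I) by push_cast; ring, Complex.exp_nat_mul]
    congr 1
    rw [Complex.exp_mul_I, Complex.cos_neg, Complex.sin_neg]
    push_cast
    ring
  have hden := uz_den_ne κ θ
  rw [← hq] at hden
  unfold uz
  rw [← hq, e1, hc, hs, div_eq_iff hden]
  have h3 : ((Real.sqrt (1 + q ^ 2) : ℝ) : ℂ) ≠ 0 := Complex.ofReal_ne_zero.2 h1.ne'
  have h4 : ((Real.sqrt (1 + q ^ 2) : ℝ) : ℂ) ^ 2 = 1 + (q : ℂ) ^ 2 := by
    rw [← Complex.ofReal_pow, h2]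
    push_cast
    ring
  push_cast
  generalize ((Real.sqrt (1 + q ^ 2) : ℝ) : ℂ) = R at *
  field_simp
  linear_combination (1 - I * (q : ℂ)) * h4 + (1 - I * (q : ℂ)) * (q : ℂ) ^ 2 * Complex.I_sq

/-- the angle of the full winding loop -/
noncomputable def Mv (v θ : ℝ) : ℝ :=
  θ - 2 * Real.arctan (v * Real.sin θ / (1 + v * Real.cos θ))

/-- the full winding loop -/
noncomputable def EM (v θ : ℝ) : ℂ :=
  (Complex.exp (I * θ) + v) / (1 + v * Complex.exp (I * θ))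

/-- the periodic primitive of `EM v θ - v` -/
noncomputable def GM (v θ : ℝ) : ℂ :=
  (1 - v ^ 2) / (I * v) * Complex.log (1 + v * Complex.exp (I * θ))

theorem slit_aux' {v : ℝ} (hv : |v| < 1) {z : ℂ} (hz : ‖z‖ = 1) :
    1 + (v : ℂ) * z ∈ Complex.slitPlane := by
  left
  have h1 : ‖(v : ℂ) * z‖ < 1 := by
    rw [norm_mul, hz, Complex.norm_real, Real.norm_eq_abs]
    linarith
  have h2 := Complex.abs_re_le_norm ((v : ℂ) * z)
  have h3 : -1 < ((v : ℂ) * z).re := (abs_lt.1 (lt_of_le_of_lt h2 h1)).1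
  rw [Complex.add_re, Complex.one_re]
  linarith

theorem one_add_pos {v : ℝ} (hv : |v| < 1) (θ : ℝ) : 0 < 1 + v * Real.cos θ := by
  have h1 := Real.abs_cos_le_one θ
  have h2 : |v * Real.cos θ| < 1 := by
    rw [abs_mul]
    have := abs_nonneg v
    nlinarith [abs_nonneg (Real.cos θ)]
  linarith [(abs_lt.1 h2).1]

theorem exp_I_eq (θ : ℝ) : Complex.exp (I * (θ : ℂ)) =
    ((Real.cos θ : ℝ) : ℂ) + ((Real.sin θ : ℝ) : ℂ) * I := by
  rw [mul_comm, Complex.exp_mul_I, Complex.ofReal_cos, Complex.ofReal_sin]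

theorem EM_alg {c s y R v : ℂ} (h4 : R ^ 2 = 1 + y ^ 2) (hyc : y * (1 + v * c) = v * s)
    (hcs : c ^ 2 + s ^ 2 = 1) (h3 : R ≠ 0) :
    c + s * I + v = (c + s * I) * (1 / R - y / R * I) ^ 2 * (1 + v * (c + s * I)) := by
  field_simp
  linear_combination (c + s * I + v) * h4 + ((1 + y ^ 2) * (c + s * I) * I +
    (c + s * I) * (1 - y * I) ^ 2 * I) * hyc + (-(1 + y ^ 2) * v) * hcs +
    ((1 + y ^ 2) * v * s ^ 2 + (c + s * I) * (1 + v * c) * (1 - y * I) * y ^ 2) * Complex.I_sq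

theorem EM_eq_exp {v : ℝ} (hv : |v| < 1) (θ : ℝ) :
    EM v θ = Complex.exp (I * ((Mv v θ : ℝ) : ℂ)) := by
  have hpos := one_add_pos hv θ
  set y : ℝ := v * Real.sin θ / (1 + v * Real.cos θ) with hy
  have h1 : 0 < Real.sqrt (1 + y ^ 2) := Real.sqrt_pos.2 (by positivity)
  have h2 : Real.sqrt (1 + y ^ 2) ^ 2 = 1 + y ^ 2 := Real.sq_sqrt (by positivity)
  have hc := Real.cos_arctan y
  have hs := Real.sin_arctan y
  have e1 : Complex.exp (I * ((Mv v θ : ℝ) : ℂ)) = Complex.exp (I * (θ : ℂ)) *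
      (((Real.cos (Real.arctan y) : ℝ) : ℂ) - ((Real.sin (Real.arctan y) : ℝ) : ℂ) * I) ^ 2 := by
    rw [Mv, ← hy, show I * ((θ - 2 * Real.arctan y : ℝ) : ℂ) = I * (θ : ℂ) +
      ((2 : ℕ) : ℂ) * (-((Real.arctan y : ℝ) : ℂ) * I) by push_cast; ring,
      Complex.exp_add, Complex.exp_nat_mul]
    congr 2
    rw [Complex.exp_mul_I, Complex.cos_neg, Complex.sin_neg]
    push_cast
    ring
  have hden : 1 + (v : ℂ) * Complex.exp (I * θ) ≠ 0 :=
    Complex.slitPlane_ne_zero (slit_aux' hv (norm_exp_I θ))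
  have h3 : ((Real.sqrt (1 + y ^ 2) : ℝ) : ℂ) ≠ 0 := Complex.ofReal_ne_zero.2 h1.ne'
  have h4 : ((Real.sqrt (1 + y ^ 2) : ℝ) : ℂ) ^ 2 = 1 + (y : ℂ) ^ 2 := by
    rw [← Complex.ofReal_pow, h2]
    push_cast
    ring
  have hyc : (y : ℂ) * (1 + v * ((Real.cos θ : ℝ) : ℂ)) = v * ((Real.sin θ : ℝ) : ℂ) := by
    have : y * (1 + v * Real.cos θ) = v * Real.sin θ := by
      rw [hy]
      field_simp
    exact_mod_cast congrArg (fun x : ℝ => (x : ℂ)) this
  have hcs : ((Real.cos θ : ℝ) : ℂ) ^ 2 + ((Real.sin θ : ℝ) : ℂ) ^ 2 = 1 := by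
    exact_mod_cast congrArg (fun x : ℝ => (x : ℂ)) (Real.cos_sq_add_sin_sq θ)
  unfold EM
  rw [div_eq_iff hden, e1, hc, hs, exp_I_eq, Complex.ofReal_div, Complex.ofReal_div,
    Complex.ofReal_one]
  exact EM_alg h4 hyc hcs h3

theorem Mv_neg (v θ : ℝ) : Mv v (-θ) = -Mv v θ := by
  unfold Mv
  rw [Real.sin_neg, Real.cos_neg, mul_neg, neg_div, Real.arctan_neg]
  ring

theorem Mv_zero (v : ℝ) : Mv v 0 = 0 := by
  simp [Mv]

theorem Mv_add (v θ : ℝ) : Mv v (θ + 2 * Real.pi) = Mv v θ + 2 * Real.pi := by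
  unfold Mv
  rw [Real.sin_add_two_pi, Real.cos_add_two_pi]
  ring

theorem GM_periodic (v θ : ℝ) : GM v (θ + 2 * Real.pi) = GM v θ := by
  unfold GM
  rw [exp_per]

theorem conj_exp_I (θ : ℝ) : conj (Complex.exp (I * (θ : ℂ))) =
    Complex.exp (I * ((-θ : ℝ) : ℂ)) := by
  rw [← Complex.exp_conj, map_mul, Complex.conj_I, Complex.conj_ofReal, Complex.ofReal_neg,
    neg_mul, mul_neg]

theorem GM_neg {v : ℝ} (hv : |v| < 1) (θ : ℝ) : GM v (-θ) = -conj (GM v θ) := by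
  have hsl := slit_aux' hv (norm_exp_I θ)
  unfold GM
  rw [map_mul, ← Complex.log_conj _ (Complex.slitPlane_arg_ne_pi hsl), map_div₀, map_mul,
    Complex.conj_I, map_add, map_one, map_mul, conj_exp_I, Complex.conj_ofReal, map_sub, map_pow,
    Complex.conj_ofReal, map_one, neg_mul, div_neg, neg_mul, neg_neg]

theorem hasDerivAt_GM {v : ℝ} (hv : |v| < 1) (hv0 : v ≠ 0) (θ : ℝ) :
    HasDerivAt (GM v) (EM v θ - v) θ := by
  have a2 : HasDerivAt (fun t : ℝ => 1 + (v : ℂ) * Complex.exp (I * (t : ℂ)))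
      ((v : ℂ) * (I * Complex.exp (I * (θ : ℂ)))) θ :=
    ((hasDerivAt_exp_I θ).const_mul _).const_add 1
  have b2 := (HasDerivAt.clog_real a2 (slit_aux' hv (norm_exp_I θ)))
  have c1 := b2.const_mul ((1 - (v : ℂ) ^ 2) / (I * v))
  refine c1.congr_deriv ?_
  have h2 : 1 + (v : ℂ) * (Complex.exp (I * θ)) ≠ 0 :=
    Complex.slitPlane_ne_zero (slit_aux' hv (norm_exp_I θ))
  have hI := Complex.I_ne_zero
  have hvc : (v : ℂ) ≠ 0 := Complex.ofReal_ne_zero.2 hv0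
  unfold EM
  field_simp
  ring

theorem hasDerivAt_Mv {v : ℝ} (hv : |v| < 1) (θ : ℝ) :
    HasDerivAt (Mv v) ((1 - v ^ 2) / (1 + 2 * v * Real.cos θ + v ^ 2)) θ := by
  have hpos := one_add_pos hv θ
  have h1 : HasDerivAt (fun t => v * Real.sin t) (v * Real.cos θ) θ :=
    (Real.hasDerivAt_sin θ).const_mul v
  have h2 : HasDerivAt (fun t => 1 + v * Real.cos t) (v * (-Real.sin θ)) θ :=
    ((Real.hasDerivAt_cos θ).const_mul v).const_add 1
  have h3 := ((h1.div h2 hpos.ne').arctan.const_mul 2)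
  have h4 := (hasDerivAt_id θ).sub h3
  refine h4.congr_deriv ?_
  have hcs := Real.cos_sq_add_sin_sq θ
  have hd : 0 < 1 + 2 * v * Real.cos θ + v ^ 2 := by
    have : 1 + 2 * v * Real.cos θ + v ^ 2 = (1 + v * Real.cos θ) ^ 2 +
        (v * Real.sin θ) ^ 2 := by
      linear_combination (-v ^ 2) * hcs
    rw [this]
    positivity
  have hd2 : 1 + (v * Real.sin θ / (1 + v * Real.cos θ)) ^ 2 =
      (1 + 2 * v * Real.cos θ + v ^ 2) / (1 + v * Real.cos θ) ^ 2 := by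
    field_simp
    linear_combination v ^ 2 * hcs
  have hp' := hpos.ne'
  have hd' := hd.ne'
  simp only [Pi.div_apply]
  rw [hd2]
  field_simp
  linear_combination (-2 * v ^ 2) * hcs

theorem Mv_deriv_pos {v : ℝ} (hv : |v| < 1) (θ : ℝ) :
    (1 - v ^ 2) / (1 + |v|) ^ 2 ≤ (1 - v ^ 2) / (1 + 2 * v * Real.cos θ + v ^ 2) := by
  have hcs := Real.cos_sq_add_sin_sq θ
  have hpos := one_add_pos hv θ
  have hd : 0 < 1 + 2 * v * Real.cos θ + v ^ 2 := by
    have : 1 + 2 * v * Real.cos θ + v ^ 2 = (1 + v * Real.cos θ) ^ 2 +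
        (v * Real.sin θ) ^ 2 := by
      linear_combination (-v ^ 2) * hcs
    rw [this]
    positivity
  have h1 : 0 ≤ 1 - v ^ 2 := by
    have := abs_lt.1 hv
    nlinarith
  refine div_le_div_of_nonneg_left h1 hd ?_
  have h2 : v * Real.cos θ ≤ |v| := by
    refine (le_abs_self _).trans ?_
    rw [abs_mul]
    exact mul_le_of_le_one_right (abs_nonneg _) (Real.abs_cos_le_one θ)
  linarith only [sq_abs v, h2]

theorem contDiff_Mv {v : ℝ} (hv : |v| < 1) : ContDiff ℝ ∞ (Mv v) := by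
  unfold Mv
  refine contDiff_id.sub (contDiff_const.mul ?_)
  refine Real.contDiff_arctan.comp ?_
  exact (contDiff_const.mul Real.contDiff_sin).div
    (contDiff_const.add (contDiff_const.mul Real.contDiff_cos)) fun x => (one_add_pos hv x).ne'

end Vale.Agent.P205.TW
end

section

/-!
P205, block CHI (3): uniform bounds.

`Reg a Φ`: `Φ (x, θ)` is smooth, `2π`-periodic in `θ` for `θ < 0`, `2π`-periodic up to the
constant `a` for `θ > 1`, and constant in `x` for `x < 0` and for `x > 3`.  For such a function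
with `a = 0` all derivatives of order `k` of `x ↦ Φ (x, μ (x - 1))` are `≤ C_k μ^k` (`μ ≥ 1`).
-/

open scoped ContDiff Topology

namespace Vale.Agent.P205.TW

section

variable {E : Type*} [NormedAddCommGroup E] [NormedSpace ℝ E]

/-- regular two-scale functions -/
structure Reg (a : E) (Φ : ℝ × ℝ → E) : Prop where
  smooth : ContDiff ℝ ∞ Φ
  perL : ∀ x θ : ℝ, θ < 0 → Φ (x, θ + -(2 * Real.pi)) = Φ (x, θ)
  perR : ∀ x θ : ℝ, 1 < θ → Φ (x, θ + 2 * Real.pi) = Φ (x, θ) + a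
  cstL : ∀ x d θ : ℝ, x < 0 → x + d < 0 → Φ (x + d, θ) = Φ (x, θ)
  cstR : ∀ x d θ : ℝ, 3 < x → 3 < x + d → Φ (x + d, θ) = Φ (x, θ)

/-- derivative in the first variable -/
noncomputable def d1 (Φ : ℝ × ℝ → E) (p : ℝ × ℝ) : E := fderiv ℝ Φ p (1, 0)

/-- derivative in the second variable -/
noncomputable def d2 (Φ : ℝ × ℝ → E) (p : ℝ × ℝ) : E := fderiv ℝ Φ p (0, 1)

theorem fderiv_shift {Φ : ℝ × ℝ → E} {p d : ℝ × ℝ} {a : E}
    (h : ∀ᶠ q in 𝓝 p, Φ (q + d) = Φ q + a) : fderiv ℝ Φ (p + d) = fderiv ℝ Φ p := by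
  rw [← fderiv_comp_add_right]
  have h1 : (fun x => Φ (x + d)) =ᶠ[𝓝 p] fun q => Φ q + a := h
  rw [h1.fderiv_eq]
  exact fderiv_add_const a

theorem contDiff_fderiv_apply' {Φ : ℝ × ℝ → E} (h : ContDiff ℝ ∞ Φ) (v : ℝ × ℝ) :
    ContDiff ℝ ∞ (fun p => fderiv ℝ Φ p v) :=
  (contDiff_infty_iff_fderiv.1 h).2.clm_apply contDiff_const

theorem Reg.fderiv {a : E} {Φ : ℝ × ℝ → E} (h : Reg a Φ) (v : ℝ × ℝ) :
    Reg (0 : E) (fun p => fderiv ℝ Φ p v) := by
  refine ⟨contDiff_fderiv_apply' h.smooth v, ?_, ?_, ?_, ?_⟩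
  · intro x θ hθ
    have e : ∀ᶠ q : ℝ × ℝ in 𝓝 (x, θ), Φ (q + (0, -(2 * Real.pi))) = Φ q + 0 := by
      have h1 : ∀ᶠ q : ℝ × ℝ in 𝓝 (x, θ), q.2 < 0 :=
        continuous_snd.continuousAt.eventually_lt continuousAt_const hθ
      filter_upwards [h1] with q hq
      rw [add_zero, ← h.perL q.1 q.2 hq]
      congr 1
      ext <;> simp
    have := fderiv_shift e
    simp only [Prod.mk_add_mk, add_zero] at this
    rw [this]
  · intro x θ hθ
    have e : ∀ᶠ q : ℝ × ℝ in 𝓝 (x, θ), Φ (q + (0, 2 * Real.pi)) = Φ q + a := by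
      have h1 : ∀ᶠ q : ℝ × ℝ in 𝓝 (x, θ), 1 < q.2 :=
        continuousAt_const.eventually_lt continuous_snd.continuousAt hθ
      filter_upwards [h1] with q hq
      rw [← h.perR q.1 q.2 hq]
      congr 1
      ext <;> simp
    have := fderiv_shift e
    simp only [Prod.mk_add_mk, add_zero] at this
    rw [this, add_zero]
  · intro x d θ hx hd
    have e : ∀ᶠ q : ℝ × ℝ in 𝓝 (x, θ), Φ (q + (d, 0)) = Φ q + 0 := by
      have h1 : ∀ᶠ q : ℝ × ℝ in 𝓝 (x, θ), q.1 < 0 :=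
        continuous_fst.continuousAt.eventually_lt continuousAt_const hx
      have h2 : ∀ᶠ q : ℝ × ℝ in 𝓝 (x, θ), q.1 + d < 0 :=
        (continuous_fst.add continuous_const).continuousAt.eventually_lt continuousAt_const hd
      filter_upwards [h1, h2] with q hq hq2
      rw [add_zero, ← h.cstL q.1 d q.2 hq hq2]
      congr 1
      ext <;> simp
    have := fderiv_shift e
    simp only [Prod.mk_add_mk, add_zero] at this
    rw [this]
  · intro x d θ hx hd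
    have e : ∀ᶠ q : ℝ × ℝ in 𝓝 (x, θ), Φ (q + (d, 0)) = Φ q + 0 := by
      have h1 : ∀ᶠ q : ℝ × ℝ in 𝓝 (x, θ), 3 < q.1 :=
        continuousAt_const.eventually_lt continuous_fst.continuousAt hx
      have h2 : ∀ᶠ q : ℝ × ℝ in 𝓝 (x, θ), 3 < q.1 + d :=
        continuousAt_const.eventually_lt (continuous_fst.add continuous_const).continuousAt hd
      filter_upwards [h1, h2] with q hq hq2
      rw [add_zero, ← h.cstR q.1 d q.2 hq hq2]
      congr 1
      ext <;> simp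
    have := fderiv_shift e
    simp only [Prod.mk_add_mk, add_zero] at this
    rw [this]

theorem Reg.d1 {a : E} {Φ : ℝ × ℝ → E} (h : Reg a Φ) : Reg (0 : E) (d1 Φ) := h.fderiv _

theorem Reg.d2 {a : E} {Φ : ℝ × ℝ → E} (h : Reg a Φ) : Reg (0 : E) (d2 Φ) := h.fderiv _

/-- a regular function is bounded -/
theorem Reg.bounded {Φ : ℝ × ℝ → E} (h : Reg (0 : E) Φ) : ∃ C : ℝ, ∀ p, ‖Φ p‖ ≤ C := by
  have hpi := Real.pi_pos
  have hcomp : IsCompact (Set.Icc (-1 : ℝ) 4 ×ˢ Set.Icc (-(2 * Real.pi)) (1 + 2 * Real.pi)) :=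
    isCompact_Icc.prod isCompact_Icc
  obtain ⟨C, hC⟩ := hcomp.exists_bound_of_continuousOn h.smooth.continuous.continuousOn
  have hnegm : ∀ (m : ℕ) (x θ : ℝ), x ∈ Set.Icc (-1 : ℝ) 4 → -(2 * Real.pi) * (m + 1) ≤ θ →
      θ ≤ 1 + 2 * Real.pi → ‖Φ (x, θ)‖ ≤ C := by
    intro m
    induction m with
    | zero =>
      intro x θ hx h1 h2
      refine hC _ ⟨hx, ?_, h2⟩
      simpa using h1
    | succ m ih =>
      intro x θ hx h1 h2
      rcases le_or_gt (-(2 * Real.pi) * (m + 1)) θ with h3 | h3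
      · exact ih x θ hx h3 h2
      · have h4 : θ + 2 * Real.pi < 0 ∨ 0 ≤ θ + 2 * Real.pi := lt_or_ge _ _
        rcases h4 with h4 | h4
        · have h5 := h.perL x (θ + 2 * Real.pi) h4
          rw [add_neg_cancel_right] at h5
          rw [h5]
          refine ih x _ hx ?_ (by linarith)
          push_cast at h1
          linarith
        · refine hC _ ⟨hx, ?_, h2⟩
          simp only
          linarith
  have hneg : ∀ (x θ : ℝ), x ∈ Set.Icc (-1 : ℝ) 4 → θ ≤ 1 + 2 * Real.pi → ‖Φ (x, θ)‖ ≤ C := by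
    intro x θ hx h2
    obtain ⟨m, hm⟩ := exists_nat_ge (-θ / (2 * Real.pi))
    refine hnegm m x θ hx ?_ h2
    rw [div_le_iff₀ (by positivity)] at hm
    linarith only [hm, hpi]
  have hposm : ∀ (m : ℕ) (x θ : ℝ), x ∈ Set.Icc (-1 : ℝ) 4 → θ ≤ 1 + 2 * Real.pi * (m + 1) →
      ‖Φ (x, θ)‖ ≤ C := by
    intro m
    induction m with
    | zero =>
      intro x θ hx h1
      exact hneg x θ hx (by simpa using h1)
    | succ m ih =>
      intro x θ hx h1
      rcases le_or_gt θ (1 + 2 * Real.pi) with h3 | h3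
      · exact hneg x θ hx h3
      · have h5 := h.perR x (θ - 2 * Real.pi) (by linarith)
        rw [sub_add_cancel, add_zero] at h5
        rw [h5]
        refine ih x _ hx ?_
        push_cast at h1
        linarith
  have hall : ∀ (x θ : ℝ), x ∈ Set.Icc (-1 : ℝ) 4 → ‖Φ (x, θ)‖ ≤ C := by
    intro x θ hx
    obtain ⟨m, hm⟩ := exists_nat_ge (θ / (2 * Real.pi))
    refine hposm m x θ hx ?_
    rw [div_le_iff₀ (by positivity)] at hm
    linarith only [hm, hpi]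
  refine ⟨C, fun p => ?_⟩
  obtain ⟨x, θ⟩ := p
  rcases lt_or_ge x 0 with hx | hx
  · have h1 := h.cstL x (-1 - x) θ hx (by linarith)
    rw [← h1, show x + (-1 - x) = -1 by ring]
    exact hall _ _ ⟨le_rfl, by norm_num⟩
  · rcases le_or_gt x 3 with hx3 | hx3
    · exact hall _ _ ⟨by linarith, by linarith⟩
    · have h1 := h.cstR x (4 - x) θ hx3 (by linarith)
      rw [← h1, show x + (4 - x) = 4 by ring]
      exact hall _ _ ⟨by norm_num, le_rfl⟩

/-- the two-scale curve -/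
theorem hasDerivAt_twoScale {Φ : ℝ × ℝ → E} (h : ContDiff ℝ ∞ Φ) (μ x : ℝ) :
    HasDerivAt (fun x => Φ (x, μ * (x - 1))) (d1 Φ (x, μ * (x - 1)) + μ • d2 Φ (x, μ * (x - 1)))
      x := by
  have h1 : HasFDerivAt Φ (fderiv ℝ Φ (x, μ * (x - 1))) (x, μ * (x - 1)) :=
    (h.differentiable (by simp)).differentiableAt.hasFDerivAt
  have h2 : HasDerivAt (fun x : ℝ => (x, μ * (x - 1))) (1, μ * 1) x :=
    (hasDerivAt_id x).prodMk (((hasDerivAt_id x).sub_const 1).const_mul μ)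
  have h3 := h1.comp_hasDerivAt x h2
  refine h3.congr_deriv ?_
  rw [mul_one, d1, d2, ← map_smul, ← map_add]
  congr 1
  ext <;> simp

theorem contDiff_twoScale {Φ : ℝ × ℝ → E} (h : ContDiff ℝ ∞ Φ) (μ : ℝ) :
    ContDiff ℝ ∞ (fun x => Φ (x, μ * (x - 1))) :=
  h.comp (contDiff_id.prodMk (contDiff_const.mul (contDiff_id.sub contDiff_const)))

/-- uniform bounds of the two-scale curve -/
theorem Reg.bound (k : ℕ) : ∀ {Φ : ℝ × ℝ → E}, Reg (0 : E) Φ → ∃ C : ℝ, 0 ≤ C ∧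
    ∀ μ : ℝ, 1 ≤ μ → ∀ x : ℝ, ‖iteratedDeriv k (fun x => Φ (x, μ * (x - 1))) x‖ ≤ C * μ ^ k := by
  induction k with
  | zero =>
    intro Φ h
    obtain ⟨C, hC⟩ := h.bounded
    refine ⟨C, (norm_nonneg _).trans (hC (0, 0)), fun μ _ x => ?_⟩
    simpa using hC _
  | succ k ih =>
    intro Φ h
    obtain ⟨C1, h1, hC1⟩ := ih h.d1
    obtain ⟨C2, h2, hC2⟩ := ih h.d2
    refine ⟨C1 + C2, by positivity, fun μ hμ x => ?_⟩
    have e : deriv (fun x => Φ (x, μ * (x - 1))) =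
        (fun x => TW.d1 Φ (x, μ * (x - 1))) + μ • (fun x => TW.d2 Φ (x, μ * (x - 1))) := by
      funext y
      exact (hasDerivAt_twoScale h.smooth μ y).deriv
    have s1 := contDiff_twoScale h.d1.smooth μ
    have s2 := contDiff_twoScale h.d2.smooth μ
    have s3 : ContDiff ℝ ∞ (μ • fun x => TW.d2 Φ (x, μ * (x - 1))) := s2.const_smul μ
    rw [iteratedDeriv_succ', e, iteratedDeriv_add (s1.contDiffAt.of_le (by exact_mod_cast le_top))
      (s3.contDiffAt.of_le (by exact_mod_cast le_top)),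
      iteratedDeriv_const_smul (s2.contDiffAt.of_le (by exact_mod_cast le_top)) μ]
    refine (norm_add_le _ _).trans ?_
    rw [norm_smul, Real.norm_of_nonneg (by linarith : (0:ℝ) ≤ μ)]
    have b1 := hC1 μ hμ x
    have b2 := hC2 μ hμ x
    have hk : (0:ℝ) ≤ μ ^ k := by positivity
    calc _ ≤ C1 * μ ^ k + μ * (C2 * μ ^ k) :=
          add_le_add b1 (mul_le_mul_of_nonneg_left b2 (by linarith))
      _ ≤ C1 * μ ^ k * μ + μ * (C2 * μ ^ k) := by
          have : C1 * μ ^ k * 1 ≤ C1 * μ ^ k * μ :=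
            mul_le_mul_of_nonneg_left hμ (by positivity)
          linarith
      _ = (C1 + C2) * μ ^ (k + 1) := by ring

/-- smooth, with bounds `B k * μ ^ k` for the `k`-th derivative -/
def FBd (B : ℕ → ℝ) (μ : ℝ) (f : ℝ → E) : Prop :=
  ContDiff ℝ ∞ f ∧ ∀ k x, ‖iteratedDeriv k f x‖ ≤ B k * μ ^ k

theorem Reg.FBd {Φ : ℝ × ℝ → E} (h : Reg (0 : E) Φ) : ∃ B : ℕ → ℝ, ∀ μ : ℝ, 1 ≤ μ →
    FBd B μ (fun x => Φ (x, μ * (x - 1))) := by
  choose B _ hB2 using fun k => Reg.bound k h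
  exact ⟨B, fun μ hμ => ⟨contDiff_twoScale h.smooth μ, fun k x => hB2 k μ hμ x⟩⟩

theorem FBd.mono {B B' : ℕ → ℝ} {μ : ℝ} {f : ℝ → E} (h : TW.FBd B μ f) (hμ : 0 ≤ μ)
    (hB : ∀ k, B k ≤ B' k) : TW.FBd B' μ f :=
  ⟨h.1, fun k x => (h.2 k x).trans (mul_le_mul_of_nonneg_right (hB k) (by positivity))⟩

theorem FBd.reflect {B : ℕ → ℝ} {μ : ℝ} {f : ℝ → E} (h : TW.FBd B μ f) :
    TW.FBd B μ (fun x => f (3 - x)) := by
  refine ⟨h.1.comp (contDiff_const.sub contDiff_id), fun k x => ?_⟩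
  rw [iteratedDeriv_comp_const_sub]
  simp only
  rw [norm_smul, norm_pow, norm_neg, norm_one, one_pow, one_mul]
  exact h.2 k _

theorem FBd.neg {B : ℕ → ℝ} {μ : ℝ} {f : ℝ → E} (h : TW.FBd B μ f) :
    TW.FBd B μ (fun x => -f x) := by
  refine ⟨h.1.neg, fun k x => ?_⟩
  rw [iteratedDeriv_fun_neg, norm_neg]
  exact h.2 k _

theorem FBd.add {B B' : ℕ → ℝ} {μ : ℝ} {f g : ℝ → E} (h : TW.FBd B μ f)
    (h' : TW.FBd B' μ g) : TW.FBd (fun k => B k + B' k) μ (fun x => f x + g x) := by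
  refine ⟨h.1.add h'.1, fun k x => ?_⟩
  rw [iteratedDeriv_fun_add (h.1.contDiffAt.of_le (by exact_mod_cast le_top))
    (h'.1.contDiffAt.of_le (by exact_mod_cast le_top)), add_mul]
  exact (norm_add_le _ _).trans (add_le_add (h.2 k x) (h'.2 k x))

/-- glue two functions at `c` -/
noncomputable def glue (c : ℝ) (f g : ℝ → E) (x : ℝ) : E := if x ≤ c then f x else g x

omit [NormedAddCommGroup E] [NormedSpace ℝ E] in
theorem glue_left {c a b : ℝ} {f g : ℝ → E} (hac : a < c)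
    (h : ∀ x, a < x → x < b → f x = g x) {x : ℝ} (hx : x < b) : glue c f g =ᶠ[𝓝 x] f := by
  filter_upwards [isOpen_Iio.mem_nhds hx] with y hy
  unfold glue
  split_ifs with h1
  · rfl
  · exact (h y (by linarith) hy).symm

omit [NormedAddCommGroup E] [NormedSpace ℝ E] in
theorem glue_right {c a b : ℝ} {f g : ℝ → E} (hcb : c < b)
    (h : ∀ x, a < x → x < b → f x = g x) {x : ℝ} (hx : a < x) : glue c f g =ᶠ[𝓝 x] g := by
  filter_upwards [isOpen_Ioi.mem_nhds hx] with y hy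
  unfold glue
  split_ifs with h1
  · exact h y hy (by linarith)
  · rfl

theorem glue_FBd {c a b : ℝ} {f g : ℝ → E} (hac : a < c) (hcb : c < b)
    (h : ∀ x, a < x → x < b → f x = g x) {B : ℕ → ℝ} {μ : ℝ} (hf : TW.FBd B μ f)
    (hg : TW.FBd B μ g) : TW.FBd B μ (glue c f g) := by
  refine ⟨contDiff_iff_contDiffAt.2 fun x => ?_, fun k x => ?_⟩
  · rcases lt_or_ge x b with hx | hx
    · exact hf.1.contDiffAt.congr_of_eventuallyEq (glue_left hac h hx)
    · exact hg.1.contDiffAt.congr_of_eventuallyEq (glue_right hcb h (by linarith))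
  · rcases lt_or_ge x b with hx | hx
    · rw [(glue_left hac h hx).iteratedDeriv_eq]
      exact hf.2 k x
    · rw [(glue_right hcb h (by linarith : a < x)).iteratedDeriv_eq]
      exact hg.2 k x

end

end Vale.Agent.P205.TW
end

section

/-!
P205, block CHI (4): the junction.  On the left half line the angle is
`PP κ₀ (x, θ) = -2 arctan (κ(x) cos θ)` for `θ ≤ 0` and `Mv v₀ θ + 2π` for `θ ≥ 1`,
with `v₀ = vk κ₀`; in between it is increasing.
-/

open scoped ContDiff Topology ComplexConjugate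
open Complex

namespace Vale.Agent.P205.TW

/-- the cut off amplitude -/
noncomputable def kf (κ₀ x : ℝ) : ℝ :=
  κ₀ * (Real.smoothTransition (5 * (x - 3 / 5)) * Real.smoothTransition (5 * (12 / 5 - x)))

theorem contDiff_st : ContDiff ℝ ∞ Real.smoothTransition := by
  have := Real.smoothTransition.contDiff (n := ⊤)
  exact this

theorem contDiff_kf (κ₀ : ℝ) : ContDiff ℝ ∞ (kf κ₀) := by
  unfold kf
  refine contDiff_const.mul (ContDiff.mul ?_ ?_)
  · exact contDiff_st.comp (contDiff_const.mul (contDiff_id.sub contDiff_const))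
  · exact contDiff_st.comp (contDiff_const.mul (contDiff_const.sub contDiff_id))

theorem kf_eq {κ₀ x : ℝ} (h1 : 4 / 5 ≤ x) (h2 : x ≤ 11 / 5) : kf κ₀ x = κ₀ := by
  unfold kf
  rw [Real.smoothTransition.one_of_one_le (by linarith only [h1]),
    Real.smoothTransition.one_of_one_le (by linarith only [h2]), mul_one, mul_one]

theorem kf_zero {κ₀ x : ℝ} (h : x ≤ 3 / 5 ∨ 12 / 5 ≤ x) : kf κ₀ x = 0 := by
  unfold kf
  rcases h with h | h
  · rw [Real.smoothTransition.zero_of_nonpos (by linarith [h] : 5 * (x - 3 / 5) ≤ 0), zero_mul,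
      mul_zero]
  · rw [Real.smoothTransition.zero_of_nonpos (by linarith : 5 * (12 / 5 - x) ≤ 0), mul_zero,
      mul_zero]

theorem kf_refl (κ₀ x : ℝ) : kf κ₀ (3 - x) = kf κ₀ x := by
  unfold kf
  rw [show 5 * (3 - x - 3 / 5) = 5 * (12 / 5 - x) by ring,
    show 5 * (12 / 5 - (3 - x)) = 5 * (x - 3 / 5) by ring]
  ring

theorem kf_nonneg {κ₀ : ℝ} (h : 0 ≤ κ₀) (x : ℝ) : 0 ≤ kf κ₀ x :=
  mul_nonneg h (mul_nonneg (Real.smoothTransition.nonneg _) (Real.smoothTransition.nonneg _))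

theorem kf_le {κ₀ : ℝ} (h : 0 ≤ κ₀) (x : ℝ) : kf κ₀ x ≤ κ₀ :=
  mul_le_of_le_one_right h (mul_le_one₀ (Real.smoothTransition.le_one _)
    (Real.smoothTransition.nonneg _) (Real.smoothTransition.le_one _))

/-- the angle, left half -/
noncomputable def PP (κ₀ : ℝ) (p : ℝ × ℝ) : ℝ :=
  (1 - Real.smoothTransition p.2) * (-(2 * Real.arctan (kf κ₀ p.1 * Real.cos p.2))) +
    Real.smoothTransition p.2 * (Mv (vk κ₀) p.2 + 2 * Real.pi)

theorem PP_left {κ₀ x θ : ℝ} (h : θ ≤ 0) :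
    PP κ₀ (x, θ) = -(2 * Real.arctan (kf κ₀ x * Real.cos θ)) := by
  unfold PP
  simp only
  rw [Real.smoothTransition.zero_of_nonpos h]
  ring

theorem PP_right {κ₀ x θ : ℝ} (h : 1 ≤ θ) :
    PP κ₀ (x, θ) = Mv (vk κ₀) θ + 2 * Real.pi := by
  unfold PP
  simp only
  rw [Real.smoothTransition.one_of_one_le h]
  ring

/-- parameters: `0 < κ₀ ≤ 1/4` -/
structure Adm (κ₀ : ℝ) : Prop where
  pos : 0 < κ₀
  le : κ₀ ≤ 1 / 4

theorem Adm.kf_sq {κ₀ : ℝ} (h : Adm κ₀) (x : ℝ) : kf κ₀ x ^ 2 ≤ κ₀ ^ 2 := by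
  have h1 := kf_nonneg h.pos.le x
  have h2 := kf_le h.pos.le x
  exact pow_le_pow_left₀ h1 h2 2

theorem vk_ge {κ : ℝ} : 1 - κ ^ 2 ≤ vk κ := by
  have h1 := sk_pos κ
  have h2 := sk_sq κ
  have h3 := one_le_sk κ
  unfold vk
  rw [le_sub_iff_add_le, le_div_iff₀ h1]
  linarith only [mul_nonneg (sub_nonneg.2 h3) (sq_nonneg κ), mul_nonneg (sub_nonneg.2 h3) (sub_nonneg.2 h3), h2]

theorem Adm.vk₀_pos {κ₀ : ℝ} (h : Adm κ₀) : 0 < vk κ₀ := by
  have h2 := h.pos
  have h3 := h.le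
  have h4 := vk_ge (κ := κ₀)
  nlinarith

theorem Adm.vk₀_abs {κ₀ : ℝ} (h : Adm κ₀) : |vk κ₀| < 1 := by
  rw [abs_of_pos h.vk₀_pos]
  exact vk_lt_one h.pos.ne'

theorem cos_sub_two_pi' (θ : ℝ) : Real.cos (θ + -(2 * Real.pi)) = Real.cos θ := by
  rw [← sub_eq_add_neg, Real.cos_sub_two_pi]

theorem contDiff_PP {κ₀ : ℝ} (h : Adm κ₀) : ContDiff ℝ ∞ (PP κ₀) := by
  unfold PP
  have h1 : ContDiff ℝ ∞ (fun p : ℝ × ℝ => Real.smoothTransition p.2) :=
    contDiff_st.comp contDiff_snd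
  have h2 : ContDiff ℝ ∞ (fun p : ℝ × ℝ => kf κ₀ p.1 * Real.cos p.2) :=
    ((contDiff_kf κ₀).comp contDiff_fst).mul (Real.contDiff_cos.comp contDiff_snd)
  have h3 : ContDiff ℝ ∞ (fun p : ℝ × ℝ => Mv (vk κ₀) p.2) :=
    (contDiff_Mv h.vk₀_abs).comp contDiff_snd
  exact ((contDiff_const.sub h1).mul (contDiff_const.mul (Real.contDiff_arctan.comp h2)).neg).add
    (h1.mul (h3.add contDiff_const))

theorem reg_PP {κ₀ : ℝ} (h : Adm κ₀) : Reg (2 * Real.pi) (PP κ₀) := by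
  refine ⟨contDiff_PP h, fun x θ hθ => ?_, fun x θ hθ => ?_, fun x d θ hx hd => ?_,
    fun x d θ hx hd => ?_⟩
  · have hpi := Real.pi_pos
    rw [PP_left (by linarith), PP_left hθ.le, cos_sub_two_pi']
  · have hpi := Real.pi_pos
    rw [PP_right (by linarith), PP_right hθ.le, Mv_add]
  · unfold PP
    simp only
    rw [kf_zero (x := x) (Or.inl (by linarith)), kf_zero (x := x + d) (Or.inl (by linarith))]
  · unfold PP
    simp only
    rw [kf_zero (x := x) (Or.inr (by linarith)), kf_zero (x := x + d) (Or.inr (by linarith))]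

/-- a `2π`-periodic function of the angle -/
theorem Reg.comp_per {E F : Type*} [NormedAddCommGroup E] [NormedSpace ℝ E]
    [NormedAddCommGroup F] [NormedSpace ℝ F] {a : E} {Φ : ℝ × ℝ → E}
    (h : Reg a Φ) {g : E → F} (hg : ContDiff ℝ ∞ g) (hp : ∀ t, g (t + a) = g t) :
    Reg (0 : F) (fun p => g (Φ p)) := by
  refine ⟨hg.comp h.smooth, fun x θ hθ => ?_, fun x θ hθ => ?_, fun x d θ hx hd => ?_,
    fun x d θ hx hd => ?_⟩
  · rw [h.perL x θ hθ]
  · rw [h.perR x θ hθ, hp, add_zero]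
  · rw [h.cstL x d θ hx hd]
  · rw [h.cstR x d θ hx hd]

theorem reg_cos {κ₀ : ℝ} (h : Adm κ₀) : Reg (0 : ℝ) (fun p => Real.cos (PP κ₀ p)) :=
  (reg_PP h).comp_per Real.contDiff_cos Real.cos_add_two_pi

theorem reg_sin {κ₀ : ℝ} (h : Adm κ₀) : Reg (0 : ℝ) (fun p => Real.sin (PP κ₀ p)) :=
  (reg_PP h).comp_per Real.contDiff_sin Real.sin_add_two_pi

/-- the loop at `κ₀` -/
noncomputable def EK (κ₀ t : ℝ) : ℂ := Complex.exp (I * ((PP κ₀ (1, t) : ℝ) : ℂ))

theorem kf_one (κ₀ : ℝ) : kf κ₀ 1 = κ₀ := kf_eq (by norm_num) (by norm_num)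

theorem EK_left {κ₀ t : ℝ} (ht : t ≤ 0) : EK κ₀ t = uz κ₀ t := by
  rw [EK, PP_left ht, uz_eq_exp, kf_one]

theorem EK_right {κ₀ t : ℝ} (h : Adm κ₀) (ht : 1 ≤ t) : EK κ₀ t = EM (vk κ₀) t := by
  rw [EK, PP_right ht, EM_eq_exp h.vk₀_abs]
  rw [show I * ((Mv (vk κ₀) t + 2 * Real.pi : ℝ) : ℂ) = I * ((Mv (vk κ₀) t : ℝ) : ℂ) +
    2 * Real.pi * I by push_cast; ring, Complex.exp_periodic]

theorem contDiff_EK {κ₀ : ℝ} (h : Adm κ₀) : ContDiff ℝ ∞ (EK κ₀) := by
  unfold EK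
  have h1 : ContDiff ℝ ∞ (fun t : ℝ => PP κ₀ (1, t)) :=
    (contDiff_PP h).comp (contDiff_const.prodMk contDiff_id)
  exact (contDiff_const.mul (Complex.ofRealCLM.contDiff.comp h1)).cexp

theorem contDiff_uz1 (κ : ℝ) : ContDiff ℝ ∞ (uz κ) :=
  contDiff_uz.comp (contDiff_const.prodMk contDiff_id)

/-- correction of the primitive -/
noncomputable def KK (κ₀ θ : ℝ) : ℂ := ∫ t in (0 : ℝ)..θ, (EK κ₀ t - uz κ₀ t)

theorem hasDerivAt_KK {κ₀ : ℝ} (h : Adm κ₀) (θ : ℝ) :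
    HasDerivAt (KK κ₀) (EK κ₀ θ - uz κ₀ θ) θ := by
  have hc : Continuous (fun t => EK κ₀ t - uz κ₀ t) :=
    (contDiff_EK h).continuous.sub (contDiff_uz1 κ₀).continuous
  exact intervalIntegral.integral_hasDerivAt_right (hc.intervalIntegrable _ _)
    (hc.stronglyMeasurableAtFilter _ _) hc.continuousAt

theorem contDiff_KK {κ₀ : ℝ} (h : Adm κ₀) : ContDiff ℝ ∞ (KK κ₀) := by
  rw [contDiff_infty_iff_deriv]
  refine ⟨fun θ => (hasDerivAt_KK h θ).differentiableAt, ?_⟩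
  have e : deriv (KK κ₀) = fun θ => EK κ₀ θ - uz κ₀ θ := by
    funext θ
    exact (hasDerivAt_KK h θ).deriv
  rw [e]
  exact (contDiff_EK h).sub (contDiff_uz1 κ₀)

theorem KK_left {κ₀ θ : ℝ} (hθ : θ ≤ 0) : KK κ₀ θ = 0 := by
  unfold KK
  rw [intervalIntegral.integral_congr (g := fun _ => (0 : ℂ))]
  · simp
  · intro t ht
    rw [Set.uIcc_of_ge hθ] at ht
    simp only
    rw [EK_left ht.2, sub_self]

/-- the constant in `Gz κ₀ θ + KK κ₀ θ = cK κ₀ + GM v₀ θ`, `θ ≥ 1` -/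
noncomputable def cK (κ₀ : ℝ) : ℂ := Gz κ₀ 1 + KK κ₀ 1 - GM (vk κ₀) 1

theorem KK_right {κ₀ θ : ℝ} (h : Adm κ₀) (hθ : 1 ≤ θ) :
    Gz κ₀ θ + KK κ₀ θ = cK κ₀ + GM (vk κ₀) θ := by
  have hd : ∀ x, 1 ≤ x → HasDerivAt (fun t => Gz κ₀ t + KK κ₀ t - GM (vk κ₀) t) 0 x := by
    intro x hx
    have h1 := ((hasDerivAt_Gz κ₀ x).add (hasDerivAt_KK h x)).sub
      (hasDerivAt_GM h.vk₀_abs h.vk₀_pos.ne' x)
    refine h1.congr_deriv ?_
    rw [EK_right h hx]
    ring
  have h2 := constant_of_has_deriv_right_zero (f := fun t => Gz κ₀ t + KK κ₀ t - GM (vk κ₀) t)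
    (a := 1) (b := θ) (fun x hx => (hd x hx.1).continuousAt.continuousWithinAt)
    (fun x hx => (hd x hx.1).hasDerivWithinAt) θ ⟨hθ, le_rfl⟩
  unfold cK
  rw [← h2]
  ring

theorem KK_per {κ₀ θ : ℝ} (h : Adm κ₀) (hθ : 1 ≤ θ) : KK κ₀ (θ + 2 * Real.pi) = KK κ₀ θ := by
  have h1 := KK_right h hθ
  have h2 := KK_right (θ := θ + 2 * Real.pi) h (by linarith [Real.pi_pos])
  rw [Gz_periodic, GM_periodic] at h2
  linear_combination h2 - h1

/-- the primitive, left half -/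
noncomputable def GLf (κ₀ : ℝ) (p : ℝ × ℝ) : ℂ := Gz (kf κ₀ p.1) p.2 + KK κ₀ p.2

theorem reg_GLf {κ₀ : ℝ} (h : Adm κ₀) : Reg (0 : ℂ) (GLf κ₀) := by
  unfold GLf
  have hpi := Real.pi_pos
  refine ⟨?_, fun x θ hθ => ?_, fun x θ hθ => ?_, fun x d θ hx hd => ?_,
    fun x d θ hx hd => ?_⟩
  · have h1 : ContDiff ℝ ∞ (fun p : ℝ × ℝ => KK κ₀ p.2) := (contDiff_KK h).comp contDiff_snd
    have h2 : ContDiff ℝ ∞ (fun p : ℝ × ℝ => (kf κ₀ p.1, p.2)) :=
      ((contDiff_kf κ₀).comp contDiff_fst).prodMk contDiff_snd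
    have h3 : ContDiff ℝ ∞ (fun p : ℝ × ℝ => Gz (kf κ₀ p.1) p.2) :=
      ContDiff.comp (g := fun p : ℝ × ℝ => Gz p.1 p.2) (f := fun p : ℝ × ℝ => (kf κ₀ p.1, p.2))
        contDiff_Gz h2
    exact h3.add h1
  · simp only
    rw [KK_left (by linarith), KK_left hθ.le, ← Gz_periodic _ (θ + -(2 * Real.pi)),
      neg_add_cancel_right]
  · simp only
    rw [KK_per h hθ.le, Gz_periodic, add_zero]
  · simp only
    rw [kf_zero (x := x) (Or.inl (by linarith)), kf_zero (x := x + d) (Or.inl (by linarith))]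
  · simp only
    rw [kf_zero (x := x) (Or.inr (by linarith)), kf_zero (x := x + d) (Or.inr (by linarith))]

/-- the mean as a function of `x` -/
noncomputable def VV (κ₀ x : ℝ) : ℝ := vk (kf κ₀ x)

theorem contDiff_VV (κ₀ : ℝ) : ContDiff ℝ ∞ (VV κ₀) := contDiff_vk.comp (contDiff_kf κ₀)

/-- real primitives, left half: cosine part -/
noncomputable def CL (κ₀ : ℝ) (p : ℝ × ℝ) : ℝ := (GLf κ₀ p).re

/-- real primitives, left half: sine part -/
noncomputable def SLi (κ₀ : ℝ) (p : ℝ × ℝ) : ℝ := (GLf κ₀ p).im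

theorem reg_CL {κ₀ : ℝ} (h : Adm κ₀) : Reg (0 : ℝ) (CL κ₀) :=
  (reg_GLf h).comp_per Complex.reCLM.contDiff fun t => by simp

theorem reg_SLi {κ₀ : ℝ} (h : Adm κ₀) : Reg (0 : ℝ) (SLi κ₀) :=
  (reg_GLf h).comp_per Complex.imCLM.contDiff fun t => by simp

end Vale.Agent.P205.TW
end

section

/-!
P205, block CHI (5): slices, derivative identities and non-degeneracy on the left half line.
-/

open scoped ContDiff Topology ComplexConjugate
open Complex

namespace Vale.Agent.P205.TW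

section slices

variable {E : Type*} [NormedAddCommGroup E] [NormedSpace ℝ E]

theorem hasDerivAt_slice2 {Φ : ℝ × ℝ → E} (h : ContDiff ℝ ∞ Φ) (x θ : ℝ) :
    HasDerivAt (fun t => Φ (x, t)) (d2 Φ (x, θ)) θ := by
  have h1 : HasFDerivAt Φ (fderiv ℝ Φ (x, θ)) (x, θ) :=
    (h.differentiable (by simp)).differentiableAt.hasFDerivAt
  exact h1.comp_hasDerivAt θ ((hasDerivAt_const θ x).prodMk (hasDerivAt_id θ))

theorem hasDerivAt_slice1 {Φ : ℝ × ℝ → E} (h : ContDiff ℝ ∞ Φ) (x θ : ℝ) :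
    HasDerivAt (fun t => Φ (t, θ)) (d1 Φ (x, θ)) x := by
  have h1 : HasFDerivAt Φ (fderiv ℝ Φ (x, θ)) (x, θ) :=
    (h.differentiable (by simp)).differentiableAt.hasFDerivAt
  exact h1.comp_hasDerivAt x ((hasDerivAt_id x).prodMk (hasDerivAt_const x θ))

theorem d1_eq_zero {Φ : ℝ × ℝ → E} (h : ContDiff ℝ ∞ Φ) {x θ : ℝ} {a : E}
    (hc : ∀ᶠ t in 𝓝 x, Φ (t, θ) = a) : d1 Φ (x, θ) = 0 := by
  have h1 := hasDerivAt_slice1 h x θ
  have h2 : HasDerivAt (fun t => Φ (t, θ)) 0 x :=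
    (hasDerivAt_const x a).congr_of_eventuallyEq hc
  exact h1.unique h2

end slices

theorem kf_event {κ₀ x : ℝ} (h1 : 4 / 5 < x) (h2 : x < 11 / 5) : ∀ᶠ t in 𝓝 x, kf κ₀ t = κ₀ := by
  filter_upwards [isOpen_Ioo.mem_nhds ⟨h1, h2⟩] with t ht
  exact kf_eq ht.1.le ht.2.le

section left

variable {κ₀ : ℝ}

theorem exp_PP_left {x θ : ℝ} (hθ : θ ≤ 0) :
    Complex.exp (I * ((PP κ₀ (x, θ) : ℝ) : ℂ)) = uz (kf κ₀ x) θ := by
  rw [PP_left hθ, uz_eq_exp]

theorem exp_PP_mid {x θ : ℝ} (h1 : 4 / 5 ≤ x) (h2 : x ≤ 11 / 5) :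
    Complex.exp (I * ((PP κ₀ (x, θ) : ℝ) : ℂ)) = EK κ₀ θ := by
  unfold EK PP
  simp only
  rw [kf_eq h1 h2, kf_one]

theorem exp_I_re (t : ℝ) : (Complex.exp (I * (t : ℂ))).re = Real.cos t := by
  rw [exp_I_eq, Complex.add_re, Complex.re_ofReal_mul, Complex.I_re, mul_zero, add_zero,
    Complex.ofReal_re]

theorem exp_I_im (t : ℝ) : (Complex.exp (I * (t : ℂ))).im = Real.sin t := by
  rw [exp_I_eq, Complex.add_im, Complex.im_ofReal_mul, Complex.I_im, mul_one, Complex.ofReal_im,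
    zero_add]

/-- the fast derivative of the primitive -/
theorem d2_GLf (h : Adm κ₀) {x θ : ℝ} (hx : θ ≤ 0 ∨ (4 / 5 ≤ x ∧ x ≤ 11 / 5)) :
    d2 (GLf κ₀) (x, θ) = Complex.exp (I * ((PP κ₀ (x, θ) : ℝ) : ℂ)) - (VV κ₀ x : ℂ) := by
  have h1 := hasDerivAt_slice2 (reg_GLf h).smooth x θ
  have h2 : HasDerivAt (fun t => GLf κ₀ (x, t))
      (uz (kf κ₀ x) θ - vk (kf κ₀ x) + (EK κ₀ θ - uz κ₀ θ)) θ :=
    (hasDerivAt_Gz (kf κ₀ x) θ).add (hasDerivAt_KK h θ)
  rw [h1.unique h2]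
  rcases hx with hx | ⟨hx1, hx2⟩
  · rw [EK_left hx, exp_PP_left hx, VV]
    ring
  · rw [exp_PP_mid hx1 hx2, VV, kf_eq hx1 hx2]
    ring

theorem d2_CL (h : Adm κ₀) {x θ : ℝ} (hx : θ ≤ 0 ∨ (4 / 5 ≤ x ∧ x ≤ 11 / 5)) :
    d2 (CL κ₀) (x, θ) = Real.cos (PP κ₀ (x, θ)) - VV κ₀ x := by
  have h1 := hasDerivAt_slice2 (reg_CL h).smooth x θ
  have h2 := hasDerivAt_slice2 (reg_GLf h).smooth x θ
  rw [d2_GLf h hx] at h2
  have h3 : HasDerivAt (fun t => (GLf κ₀ (x, t)).re)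
      (Complex.exp (I * ((PP κ₀ (x, θ) : ℝ) : ℂ)) - (VV κ₀ x : ℂ)).re θ :=
    (Complex.reCLM.hasFDerivAt.comp_hasDerivAt θ h2)
  have h5 : d2 (CL κ₀) (x, θ) =
      (Complex.exp (I * ((PP κ₀ (x, θ) : ℝ) : ℂ)) - (VV κ₀ x : ℂ)).re := h1.unique h3
  rw [h5, Complex.sub_re, exp_I_re, Complex.ofReal_re]

theorem d2_SLi (h : Adm κ₀) {x θ : ℝ} (hx : θ ≤ 0 ∨ (4 / 5 ≤ x ∧ x ≤ 11 / 5)) :
    d2 (SLi κ₀) (x, θ) = Real.sin (PP κ₀ (x, θ)) := by
  have h1 := hasDerivAt_slice2 (reg_SLi h).smooth x θ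
  have h2 := hasDerivAt_slice2 (reg_GLf h).smooth x θ
  rw [d2_GLf h hx] at h2
  have h3 : HasDerivAt (fun t => (GLf κ₀ (x, t)).im)
      (Complex.exp (I * ((PP κ₀ (x, θ) : ℝ) : ℂ)) - (VV κ₀ x : ℂ)).im θ :=
    (Complex.imCLM.hasFDerivAt.comp_hasDerivAt θ h2)
  have h5 : d2 (SLi κ₀) (x, θ) =
      (Complex.exp (I * ((PP κ₀ (x, θ) : ℝ) : ℂ)) - (VV κ₀ x : ℂ)).im := h1.unique h3
  rw [h5, Complex.sub_im, exp_I_im, Complex.ofReal_im, sub_zero]

/-- slow derivatives vanish where the amplitude is locally constant -/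
theorem d1_PP (h : Adm κ₀) {x θ a : ℝ} (hx : ∀ᶠ t in 𝓝 x, kf κ₀ t = a) :
    d1 (PP κ₀) (x, θ) = 0 := by
  refine d1_eq_zero (contDiff_PP h) (a := PP κ₀ (x, θ)) ?_
  have h0 := hx.self_of_nhds
  filter_upwards [hx] with t ht
  unfold PP
  simp only
  rw [ht, h0]

theorem d1_CL (h : Adm κ₀) {x θ a : ℝ} (hx : ∀ᶠ t in 𝓝 x, kf κ₀ t = a) :
    d1 (CL κ₀) (x, θ) = 0 := by
  refine d1_eq_zero (reg_CL h).smooth (a := CL κ₀ (x, θ)) ?_
  have h0 := hx.self_of_nhds
  filter_upwards [hx] with t ht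
  unfold CL GLf
  simp only
  rw [ht, h0]

theorem d1_SLi (h : Adm κ₀) {x θ a : ℝ} (hx : ∀ᶠ t in 𝓝 x, kf κ₀ t = a) :
    d1 (SLi κ₀) (x, θ) = 0 := by
  refine d1_eq_zero (reg_SLi h).smooth (a := SLi κ₀ (x, θ)) ?_
  have h0 := hx.self_of_nhds
  filter_upwards [hx] with t ht
  unfold SLi GLf
  simp only
  rw [ht, h0]

theorem Gz_at_zero (θ : ℝ) : Gz 0 θ = 0 := by
  unfold Gz wk
  simp

theorem PP_off {x θ : ℝ} (hθ : θ ≤ 0) (hx : x ≤ 3 / 5 ∨ 12 / 5 ≤ x) : PP κ₀ (x, θ) = 0 := by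
  rw [PP_left hθ, kf_zero hx]
  simp

theorem GLf_off {x θ : ℝ} (hθ : θ ≤ 0) (hx : x ≤ 3 / 5 ∨ 12 / 5 ≤ x) : GLf κ₀ (x, θ) = 0 := by
  unfold GLf
  simp only
  rw [kf_zero hx, Gz_at_zero, KK_left hθ, add_zero]

/-! ### non-degeneracy -/

theorem Mv_mono (h : Adm κ₀) : Monotone (Mv (vk κ₀)) := by
  refine monotone_of_deriv_nonneg (fun x => (hasDerivAt_Mv h.vk₀_abs x).differentiableAt) ?_
  intro x
  rw [(hasDerivAt_Mv h.vk₀_abs x).deriv]
  refine le_trans ?_ (Mv_deriv_pos h.vk₀_abs x)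
  have h3 := abs_lt.1 h.vk₀_abs
  have h4 : 0 < 1 - vk κ₀ ^ 2 := by nlinarith
  positivity

/-- the angle is increasing for `θ > 0` at full amplitude -/
theorem d2_PP_pos (h : Adm κ₀) {x θ : ℝ} (hθ : 0 < θ) (h1 : 4 / 5 ≤ x) (h2 : x ≤ 11 / 5) :
    0 < d2 (PP κ₀) (x, θ) := by
  have e1 := hasDerivAt_slice2 (contDiff_PP h) x θ
  have hst : HasDerivAt Real.smoothTransition (deriv Real.smoothTransition θ) θ :=
    (contDiff_st.differentiable (by simp)).differentiableAt.hasDerivAt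
  have hst0 : 0 ≤ deriv Real.smoothTransition θ := Real.smoothTransition.monotone.deriv_nonneg
  have hq : HasDerivAt (fun t => κ₀ * Real.cos t) (κ₀ * (-Real.sin θ)) θ :=
    (Real.hasDerivAt_cos θ).const_mul κ₀
  have hA : HasDerivAt (fun t => -(2 * Real.arctan (κ₀ * Real.cos t)))
      (-(2 * (1 / (1 + (κ₀ * Real.cos θ) ^ 2) * (κ₀ * (-Real.sin θ))))) θ :=
    (hq.arctan.const_mul 2).neg
  have hM := (hasDerivAt_Mv h.vk₀_abs θ).add_const (2 * Real.pi)
  have e2 := ((hst.const_sub 1).mul hA).add (hst.mul hM)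
  have e3 : (fun t => PP κ₀ (x, t)) =
      ((fun t => 1 - Real.smoothTransition t) * (fun t => -(2 * Real.arctan (κ₀ * Real.cos t)))) +
      (Real.smoothTransition * fun t => Mv (vk κ₀) t + 2 * Real.pi) := by
    funext t
    simp only [PP, Pi.add_apply, Pi.mul_apply, kf_eq h1 h2]
  rw [e3] at e1
  rw [e1.unique e2]
  have hMpos : 0 < (1 - vk κ₀ ^ 2) / (1 + 2 * vk κ₀ * Real.cos θ + vk κ₀ ^ 2) := by
    refine lt_of_lt_of_le ?_ (Mv_deriv_pos h.vk₀_abs θ)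
    have h3 := abs_lt.1 h.vk₀_abs
    have h4 : 0 < 1 - vk κ₀ ^ 2 := by nlinarith
    positivity
  have hspos := Real.smoothTransition.pos_of_pos hθ
  have hsle := Real.smoothTransition.le_one θ
  rcases lt_or_ge θ 1 with hθ1 | hθ1
  · have hsin : 0 < Real.sin θ := Real.sin_pos_of_pos_of_lt_pi hθ (by
      have := Real.pi_gt_three
      linarith only [this, hθ1, hθ])
    have hcos : 0 ≤ Real.cos θ := Real.cos_nonneg_of_neg_pi_div_two_le_of_le
      (by linarith [Real.pi_pos]) (by linarith only [Real.pi_gt_three, hθ1, hθ])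
    have hMmono : 0 ≤ Mv (vk κ₀) θ := by
      rw [← Mv_zero (vk κ₀)]
      exact Mv_mono h hθ.le
    have harc : 0 ≤ Real.arctan (κ₀ * Real.cos θ) :=
      Real.arctan_nonneg.2 (mul_nonneg h.pos.le hcos)
    have p1 : 0 ≤ -(2 * (1 / (1 + (κ₀ * Real.cos θ) ^ 2) * (κ₀ * (-Real.sin θ)))) := by
      have : 0 ≤ 1 / (1 + (κ₀ * Real.cos θ) ^ 2) * (κ₀ * Real.sin θ) :=
        mul_nonneg (by positivity) (mul_nonneg h.pos.le hsin.le)
      linarith only [this]
    have hpi := Real.pi_pos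
    have t1 : 0 ≤ (1 - Real.smoothTransition θ) *
        -(2 * (1 / (1 + (κ₀ * Real.cos θ) ^ 2) * (κ₀ * (-Real.sin θ)))) :=
      mul_nonneg (by linarith) p1
    have t2 : 0 ≤ deriv Real.smoothTransition θ * (2 * Real.arctan (κ₀ * Real.cos θ)) :=
      mul_nonneg hst0 (by linarith only [harc])
    have t3 : 0 ≤ deriv Real.smoothTransition θ * (Mv (vk κ₀) θ + 2 * Real.pi) :=
      mul_nonneg hst0 (by linarith)
    have t4 := mul_pos hspos hMpos
    linarith only [t4, t3, t2, t1]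
  · have hst1 : deriv Real.smoothTransition θ = 0 := by
      refine IsLocalMax.deriv_eq_zero (Filter.Eventually.of_forall fun y => ?_)
      rw [Real.smoothTransition.one_of_one_le hθ1]
      exact Real.smoothTransition.le_one y
    have hs1 := Real.smoothTransition.one_of_one_le hθ1
    rw [hst1, hs1]
    simpa using hMpos

theorem d2_PP_right (h : Adm κ₀) {x θ : ℝ} (hθ : 1 < θ) :
    d2 (PP κ₀) (x, θ) = (1 - vk κ₀ ^ 2) / (1 + 2 * vk κ₀ * Real.cos θ + vk κ₀ ^ 2) := by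
  have e1 := hasDerivAt_slice2 (contDiff_PP h) x θ
  have e2 := (hasDerivAt_Mv h.vk₀_abs θ).add_const (2 * Real.pi)
  have e3 : (fun t => PP κ₀ (x, t)) =ᶠ[𝓝 θ] fun t => Mv (vk κ₀) t + 2 * Real.pi := by
    filter_upwards [isOpen_Ioi.mem_nhds hθ] with t ht
    exact PP_right (le_of_lt ht)
  exact e1.unique (e2.congr_of_eventuallyEq e3)

theorem PP_slice {x θ : ℝ} (h1 : 4 / 5 ≤ x) (h2 : x ≤ 11 / 5) : PP κ₀ (x, θ) = PP κ₀ (1, θ) := by
  unfold PP
  simp only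
  rw [kf_eq h1 h2, kf_one]

theorem d2_PP_slice (h : Adm κ₀) {x θ : ℝ} (h1 : 4 / 5 ≤ x) (h2 : x ≤ 11 / 5) :
    d2 (PP κ₀) (x, θ) = d2 (PP κ₀) (1, θ) := by
  have e1 := hasDerivAt_slice2 (contDiff_PP h) x θ
  have e2 := hasDerivAt_slice2 (contDiff_PP h) 1 θ
  have e3 : (fun t => PP κ₀ (x, t)) = fun t => PP κ₀ (1, t) := by
    funext t
    exact PP_slice h1 h2
  rw [e3] at e1
  exact e1.unique e2

/-- uniform positivity away from the start of the winding -/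
theorem exists_c1 (h : Adm κ₀) {η : ℝ} (hη : 0 < η) : ∃ c₁ : ℝ, 0 < c₁ ∧
    ∀ x θ : ℝ, 4 / 5 ≤ x → x ≤ 11 / 5 → η ≤ θ → c₁ ≤ d2 (PP κ₀) (x, θ) := by
  have hcont : Continuous (fun t : ℝ => d2 (PP κ₀) (1, t)) :=
    (reg_PP h).d2.smooth.continuous.comp (continuous_const.prodMk continuous_id)
  have h3 := abs_lt.1 h.vk₀_abs
  have h4 : 0 < 1 - vk κ₀ ^ 2 := by nlinarith
  have hM : 0 < (1 - vk κ₀ ^ 2) / (1 + |vk κ₀|) ^ 2 := by positivity
  obtain ⟨t₀, ht₀, hmin⟩ := (isCompact_Icc (a := min η 1) (b := 1)).exists_isMinOn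
    ⟨1, min_le_right _ _, le_rfl⟩ hcont.continuousOn
  have hpos : 0 < d2 (PP κ₀) (1, t₀) :=
    d2_PP_pos h (lt_of_lt_of_le (lt_min hη one_pos) ht₀.1) (by norm_num) (by norm_num)
  refine ⟨min (d2 (PP κ₀) (1, t₀)) ((1 - vk κ₀ ^ 2) / (1 + |vk κ₀|) ^ 2), lt_min hpos hM,
    fun x θ h1 h2 hθ => ?_⟩
  rw [d2_PP_slice h h1 h2]
  rcases le_or_gt θ 1 with h5 | h5
  · exact (min_le_left _ _).trans (hmin ⟨(min_le_left _ _).trans hθ, h5⟩)
  · rw [d2_PP_right h h5]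
    exact (min_le_right _ _).trans (Mv_deriv_pos h.vk₀_abs θ)

theorem cos_two_arctan (q : ℝ) : Real.cos (-(2 * Real.arctan q)) = (1 - q ^ 2) / (1 + q ^ 2) := by
  rw [Real.cos_neg, Real.cos_two_mul, Real.cos_sq_arctan]
  have : (1 + q ^ 2) ≠ 0 := by positivity
  field_simp
  ring

theorem sin_two_arctan (q : ℝ) : Real.sin (-(2 * Real.arctan q)) = -(2 * q) / (1 + q ^ 2) := by
  have h1 : 0 < Real.sqrt (1 + q ^ 2) := Real.sqrt_pos.2 (by positivity)
  have h2 : Real.sqrt (1 + q ^ 2) ^ 2 = 1 + q ^ 2 := Real.sq_sqrt (by positivity)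
  rw [Real.sin_neg, Real.sin_two_mul, Real.cos_arctan, Real.sin_arctan]
  have e : 2 * (q / Real.sqrt (1 + q ^ 2)) * (1 / Real.sqrt (1 + q ^ 2)) =
      2 * q / Real.sqrt (1 + q ^ 2) ^ 2 := by
    field_simp
  rw [e, h2, neg_div]

/-- the zero winding part stays near the axis -/
theorem near_axis {τ₀ q : ℝ} (h : Adm κ₀) (hτ : 3 * κ₀ ≤ τ₀) (hq : |q| ≤ κ₀) :
    1 / 2 < (1 - q ^ 2) / (1 + q ^ 2) ∧
      |-(2 * q) / (1 + q ^ 2)| < τ₀ * ((1 - q ^ 2) / (1 + q ^ 2)) := by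
  have h1 := h.pos
  have h2 := h.le
  have hp : 0 < 1 + q ^ 2 := by positivity
  have hq2 : q ^ 2 ≤ 1 / 16 := by
    rw [← sq_abs]
    nlinarith [abs_nonneg q]
  constructor
  · rw [lt_div_iff₀ hp]
    linarith
  · rw [abs_div, abs_neg, abs_mul, abs_two, abs_of_pos hp, mul_div_assoc', div_lt_div_iff_of_pos_right hp]
    nlinarith [abs_nonneg q]

theorem near_left {τ₀ : ℝ} (h : Adm κ₀) (hτ : 3 * κ₀ ≤ τ₀) {x θ : ℝ} (hθ : θ ≤ 0) :
    1 / 2 < Real.cos (PP κ₀ (x, θ)) ∧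
      |Real.sin (PP κ₀ (x, θ))| < τ₀ * Real.cos (PP κ₀ (x, θ)) := by
  rw [PP_left hθ, cos_two_arctan, sin_two_arctan]
  refine near_axis h hτ ?_
  rw [abs_mul, abs_of_nonneg (kf_nonneg h.pos.le x)]
  exact (mul_le_of_le_one_right (kf_nonneg h.pos.le x) (Real.abs_cos_le_one θ)).trans
    (kf_le h.pos.le x)

theorem exists_eta {τ₀ : ℝ} (h : Adm κ₀) (hτ : 3 * κ₀ ≤ τ₀) : ∃ η : ℝ, 0 < η ∧ η ≤ 1 / 2 ∧
    ∀ x θ : ℝ, 4 / 5 ≤ x → x ≤ 11 / 5 → θ ≤ η → 1 / 2 < Real.cos (PP κ₀ (x, θ)) ∧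
      |Real.sin (PP κ₀ (x, θ))| < τ₀ * Real.cos (PP κ₀ (x, θ)) := by
  have hc : Continuous (fun t : ℝ => PP κ₀ (1, t)) :=
    (contDiff_PP h).continuous.comp (continuous_const.prodMk continuous_id)
  have h0 := near_left (x := 1) h hτ (le_refl (0 : ℝ))
  have e1 : ∀ᶠ t in 𝓝 (0 : ℝ), 1 / 2 < Real.cos (PP κ₀ (1, t)) :=
    continuousAt_const.eventually_lt (Real.continuous_cos.comp hc).continuousAt h0.1
  have e2 : ∀ᶠ t in 𝓝 (0 : ℝ), |Real.sin (PP κ₀ (1, t))| < τ₀ * Real.cos (PP κ₀ (1, t)) :=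
    (Real.continuous_sin.comp hc).abs.continuousAt.eventually_lt
      (continuous_const.mul (Real.continuous_cos.comp hc)).continuousAt h0.2
  obtain ⟨η, hη, hb⟩ := Metric.eventually_nhds_iff.1 (e1.and e2)
  refine ⟨min (η / 2) (1 / 2), lt_min (by linarith) (by norm_num), min_le_right _ _,
    fun x θ h1 h2 h3 => ?_⟩
  rcases le_or_gt θ 0 with h4 | h4
  · exact near_left h hτ h4
  · rw [PP_slice h1 h2]
    refine hb ?_
    rw [Real.dist_eq, sub_zero, abs_of_pos h4]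
    have := h3.trans (min_le_left _ _)
    linarith only [this, h4]

end left

end Vale.Agent.P205.TW
end

section

/-!
P205, block CHI (6): the profile theorem in one variable.
-/

open scoped ContDiff Topology ComplexConjugate
open Complex

namespace Vale.Agent.P205.TW

/-- The one-dimensional profile of the scheme T1W.  All functions are functions of the phase
`x = r ∈ ℝ`; the collar is `3/5 ≤ x ≤ 12/5`, the full winding zone is `1 ≤ x ≤ 2`; the frequency is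
`μ = 2 π n`, `n ≥ 1`.
`V` is the mean of the loop (it does not depend on `n`), `c = cos χ`, `s = sin χ`,
`h = μ⁻¹ dχ/dx`; `C`, `Sn` are the primitives of `μ (c - V)` and of `μ s` up to the
slow errors `eC`, `eS`. -/
structure Profile (τ₀ : ℝ) where
  /-- mean -/
  V : ℝ → ℝ
  /-- cosine of the angle -/
  c : ℕ → ℝ → ℝ
  /-- sine of the angle -/
  s : ℕ → ℝ → ℝ
  /-- derivative of the angle with respect to the fast phase -/
  h : ℕ → ℝ → ℝ
  /-- first primitive -/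
  C : ℕ → ℝ → ℝ
  /-- second primitive -/
  Sn : ℕ → ℝ → ℝ
  /-- error of the first primitive -/
  eC : ℕ → ℝ → ℝ
  /-- error of the second primitive -/
  eS : ℕ → ℝ → ℝ
  /-- bounds -/
  B : ℕ → ℝ
  /-- lower bound of the winding speed -/
  c₁ : ℝ
  V_smooth : ContDiff ℝ ∞ V
  V_pos : ∀ x, 15 / 16 ≤ V x
  V_ge : ∀ x, 1 - τ₀ ≤ V x
  V_le : ∀ x, V x ≤ 1
  V_off : ∀ x, (x < 3 / 5 ∨ 12 / 5 < x) → V x = 1
  c₁_pos : 0 < c₁
  c_bd : ∀ n : ℕ, 1 ≤ n → FBd B (2 * Real.pi * n) (c n)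
  s_bd : ∀ n : ℕ, 1 ≤ n → FBd B (2 * Real.pi * n) (s n)
  h_bd : ∀ n : ℕ, 1 ≤ n → FBd B (2 * Real.pi * n) (h n)
  C_bd : ∀ n : ℕ, 1 ≤ n → FBd B (2 * Real.pi * n) (C n)
  Sn_bd : ∀ n : ℕ, 1 ≤ n → FBd B (2 * Real.pi * n) (Sn n)
  eC_bd : ∀ n : ℕ, 1 ≤ n → FBd B (2 * Real.pi * n) (eC n)
  eS_bd : ∀ n : ℕ, 1 ≤ n → FBd B (2 * Real.pi * n) (eS n)
  circ : ∀ n x, c n x ^ 2 + s n x ^ 2 = 1
  c_deriv : ∀ n : ℕ, 1 ≤ n → ∀ x, HasDerivAt (c n) (-(2 * Real.pi * n * (s n x * h n x))) x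
  s_deriv : ∀ n : ℕ, 1 ≤ n → ∀ x, HasDerivAt (s n) (2 * Real.pi * n * (c n x * h n x)) x
  C_deriv : ∀ n : ℕ, 1 ≤ n → ∀ x,
    HasDerivAt (C n) (2 * Real.pi * n * (c n x - V x) + eC n x) x
  Sn_deriv : ∀ n : ℕ, 1 ≤ n → ∀ x, HasDerivAt (Sn n) (2 * Real.pi * n * s n x + eS n x) x
  c_off : ∀ n : ℕ, 1 ≤ n → ∀ x, (x < 3 / 5 ∨ 12 / 5 < x) → c n x = 1
  s_off : ∀ n : ℕ, 1 ≤ n → ∀ x, (x < 3 / 5 ∨ 12 / 5 < x) → s n x = 0
  h_off : ∀ n : ℕ, 1 ≤ n → ∀ x, (x < 3 / 5 ∨ 12 / 5 < x) → h n x = 0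
  C_off : ∀ n : ℕ, 1 ≤ n → ∀ x, (x < 3 / 5 ∨ 12 / 5 < x) → C n x = 0
  Sn_off : ∀ n : ℕ, 1 ≤ n → ∀ x, (x < 3 / 5 ∨ 12 / 5 < x) → Sn n x = 0
  nondeg : ∀ n : ℕ, 1 ≤ n → ∀ x, (1 ≤ x ∧ x ≤ 2 ∧ c₁ ≤ h n x) ∨
    ((x < 11 / 10 ∨ 19 / 10 < x) ∧ 1 / 2 ≤ c n x ∧ |s n x| ≤ τ₀ * c n x)

section bd

variable {E : Type*} [NormedAddCommGroup E] [NormedSpace ℝ E]

theorem FBd.nonneg {B : ℕ → ℝ} {μ : ℝ} {f : ℝ → E} (h : TW.FBd B μ f) (hμ : 0 < μ) (k : ℕ) :
    0 ≤ B k := by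
  have h1 := (norm_nonneg _).trans (h.2 k 0)
  exact nonneg_of_mul_nonneg_left h1 (by positivity)

theorem glue_FBd' {c a b : ℝ} {f g : ℝ → E} (hac : a < c) (hcb : c < b)
    (h : ∀ x, a < x → x < b → f x = g x) {B B' : ℕ → ℝ} {μ : ℝ} (hμ : 0 < μ)
    (hf : TW.FBd B μ f) (hg : TW.FBd B' μ g) : TW.FBd (fun k => B k + B' k) μ (glue c f g) :=
  glue_FBd hac hcb h (hf.mono hμ.le fun k => le_add_of_nonneg_right (hg.nonneg hμ k))
    (hg.mono hμ.le fun k => le_add_of_nonneg_left (hf.nonneg hμ k))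

end bd

/-- the offset cut off -/
noncomputable def ct (x : ℝ) : ℝ := Real.smoothTransition (4 * (x - 21 / 10))

theorem contDiff_ct : ContDiff ℝ ∞ ct :=
  contDiff_st.comp (contDiff_const.mul (contDiff_id.sub contDiff_const))

theorem ct_left {x : ℝ} (h : x ≤ 21 / 10) : ct x = 0 :=
  Real.smoothTransition.zero_of_nonpos (by linarith only [h])

theorem ct_right {x : ℝ} (h : 47 / 20 ≤ x) : ct x = 1 :=
  Real.smoothTransition.one_of_one_le (by linarith only [h])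

/-- a slow function, constant off `[0,3]` -/
theorem reg_slow {f : ℝ → ℝ} (hf : ContDiff ℝ ∞ f) (hL : ∀ x y, x < 0 → y < 0 → f y = f x)
    (hR : ∀ x y, 3 < x → 3 < y → f y = f x) : Reg (0 : ℝ) (fun p : ℝ × ℝ => f p.1) :=
  ⟨hf.comp contDiff_fst, fun _ _ _ => rfl, fun _ _ _ => by simp,
    fun x d _ hx hd => hL x (x + d) hx hd, fun x d _ hx hd => hR x (x + d) hx hd⟩

theorem reg_ct (a : ℝ) : Reg (0 : ℝ) (fun p : ℝ × ℝ => a * ct p.1) :=
  reg_slow (f := fun x => a * ct x) (contDiff_const.mul contDiff_ct)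
    (fun x y hx hy => by rw [ct_left (by linarith), ct_left (by linarith)])
    (fun x y hx hy => by rw [ct_right (by linarith), ct_right (by linarith)])

section main

variable {κ₀ : ℝ}

/-- left angle speed -/
noncomputable def hLx (κ₀ μ x : ℝ) : ℝ :=
  d2 (PP κ₀) (x, μ * (x - 1)) + μ⁻¹ * d1 (PP κ₀) (x, μ * (x - 1))

theorem hasDerivAt_aL (h : Adm κ₀) {μ : ℝ} (hμ : μ ≠ 0) (x : ℝ) :
    HasDerivAt (fun x => PP κ₀ (x, μ * (x - 1))) (μ * hLx κ₀ μ x) x := by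
  refine (hasDerivAt_twoScale (contDiff_PP h) μ x).congr_deriv ?_
  unfold hLx
  rw [smul_eq_mul]
  field_simp
  ring

theorem exists_hLx_bd (h : Adm κ₀) : ∃ B : ℕ → ℝ, ∀ μ : ℝ, 1 ≤ μ → FBd B μ (hLx κ₀ μ) := by
  obtain ⟨B1, h1⟩ := (reg_PP h).d1.FBd
  obtain ⟨B2, h2⟩ := (reg_PP h).d2.FBd
  refine ⟨fun k => B2 k + B1 k, fun μ hμ => ?_⟩
  have h3 : FBd B1 μ (fun x => μ⁻¹ * d1 (PP κ₀) (x, μ * (x - 1))) := by
    refine ⟨contDiff_const.mul (h1 μ hμ).1, fun k x => ?_⟩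
    rw [iteratedDeriv_const_mul_field, norm_mul, Real.norm_of_nonneg (by positivity)]
    have h4 := (h1 μ hμ).2 k x
    have h5 : μ⁻¹ ≤ 1 := inv_le_one_of_one_le₀ hμ
    calc _ ≤ 1 * ‖iteratedDeriv k (fun x => d1 (PP κ₀) (x, μ * (x - 1))) x‖ :=
          mul_le_mul_of_nonneg_right h5 (norm_nonneg _)
      _ ≤ _ := by rw [one_mul]; exact h4
  exact (h2 μ hμ).add h3

theorem Mv_nat_sub (v θ : ℝ) (n : ℕ) :
    Mv v (2 * Real.pi * n - θ) = 2 * Real.pi * n - Mv v θ := by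
  induction n with
  | zero => simp [Mv_neg]
  | succ n ih =>
    have e : 2 * Real.pi * ((n + 1 : ℕ) : ℝ) - θ = (2 * Real.pi * n - θ) + 2 * Real.pi := by
      push_cast
      ring
    rw [e, Mv_add, ih]
    push_cast
    ring

theorem GM_nat_sub {v : ℝ} (hv : |v| < 1) (θ : ℝ) (n : ℕ) :
    GM v (2 * Real.pi * n - θ) = -conj (GM v θ) := by
  induction n with
  | zero => simp [GM_neg hv]
  | succ n ih =>
    have e : 2 * Real.pi * ((n + 1 : ℕ) : ℝ) - θ = (2 * Real.pi * n - θ) + 2 * Real.pi := by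
      push_cast
      ring
    rw [e, GM_periodic, ih]

theorem mid_phase {n : ℕ} (hn : 1 ≤ n) {x : ℝ} (h1 : 5 / 4 < x) (h2 : x < 7 / 4) :
    1 < 2 * Real.pi * n * (x - 1) ∧ 1 < 2 * Real.pi * n * (3 - x - 1) ∧
      2 * Real.pi * n * (3 - x - 1) = 2 * Real.pi * n - 2 * Real.pi * n * (x - 1) := by
  have hpi := Real.pi_gt_three
  have hn' : (1 : ℝ) ≤ n := by exact_mod_cast hn
  have h3 : 6 ≤ 2 * Real.pi * n := by nlinarith
  refine ⟨by nlinarith, by nlinarith, by ring⟩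

theorem mid_angle {n : ℕ} (hn : 1 ≤ n) {x : ℝ} (h1 : 5 / 4 < x) (h2 : x < 7 / 4) :
    PP κ₀ (3 - x, 2 * Real.pi * n * (3 - x - 1)) =
      ((n + 2 : ℕ) : ℝ) * (2 * Real.pi) - PP κ₀ (x, 2 * Real.pi * n * (x - 1)) := by
  obtain ⟨p1, p2, p3⟩ := mid_phase hn h1 h2
  rw [PP_right p2.le, PP_right p1.le, p3, Mv_nat_sub]
  push_cast
  ring

theorem mid_cos {n : ℕ} (hn : 1 ≤ n) {x : ℝ} (h1 : 5 / 4 < x) (h2 : x < 7 / 4) :
    Real.cos (PP κ₀ (x, 2 * Real.pi * n * (x - 1))) =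
      Real.cos (PP κ₀ (3 - x, 2 * Real.pi * n * (3 - x - 1))) := by
  rw [mid_angle hn h1 h2, Real.cos_nat_mul_two_pi_sub]

theorem mid_sin {n : ℕ} (hn : 1 ≤ n) {x : ℝ} (h1 : 5 / 4 < x) (h2 : x < 7 / 4) :
    Real.sin (PP κ₀ (x, 2 * Real.pi * n * (x - 1))) =
      -Real.sin (PP κ₀ (3 - x, 2 * Real.pi * n * (3 - x - 1))) := by
  rw [mid_angle hn h1 h2, Real.sin_nat_mul_two_pi_sub, neg_neg]

theorem hLx_mid (h : Adm κ₀) {μ x : ℝ} (h1 : 4 / 5 < x) (h2 : x < 11 / 5) :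
    hLx κ₀ μ x = d2 (PP κ₀) (1, μ * (x - 1)) := by
  unfold hLx
  rw [d1_PP h (kf_event h1 h2), mul_zero, add_zero, d2_PP_slice h h1.le h2.le]

theorem mid_h (h : Adm κ₀) {n : ℕ} (hn : 1 ≤ n) {x : ℝ} (h1 : 5 / 4 < x) (h2 : x < 7 / 4) :
    hLx κ₀ (2 * Real.pi * n) x = hLx κ₀ (2 * Real.pi * n) (3 - x) := by
  obtain ⟨p1, p2, p3⟩ := mid_phase hn h1 h2
  rw [hLx_mid h (by linarith only [h1]) (by linarith only [h2]), hLx_mid h (by linarith) (by linarith only [h1]),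
    d2_PP_right h p1, d2_PP_right h p2, p3]
  have e : 2 * Real.pi * n - 2 * Real.pi * n * (x - 1) =
      (n : ℝ) * (2 * Real.pi) - 2 * Real.pi * n * (x - 1) := by ring
  rw [e, Real.cos_nat_mul_two_pi_sub]

/-- the offset -/
noncomputable def oC (κ₀ : ℝ) : ℝ := 2 * (cK κ₀).re

theorem mid_GLf (h : Adm κ₀) {x θ : ℝ} (hθ : 1 ≤ θ) (h1 : 4 / 5 ≤ x) (h2 : x ≤ 11 / 5) :
    GLf κ₀ (x, θ) = cK κ₀ + GM (vk κ₀) θ := by
  unfold GLf
  simp only
  rw [kf_eq h1 h2, KK_right h hθ]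

theorem mid_C (h : Adm κ₀) {n : ℕ} (hn : 1 ≤ n) {x : ℝ} (h1 : 5 / 4 < x) (h2 : x < 7 / 4) :
    CL κ₀ (x, 2 * Real.pi * n * (x - 1)) =
      oC κ₀ - CL κ₀ (3 - x, 2 * Real.pi * n * (3 - x - 1)) := by
  obtain ⟨p1, p2, p3⟩ := mid_phase hn h1 h2
  unfold CL oC
  rw [mid_GLf h p1.le (by linarith only [h1]) (by linarith only [h2]), mid_GLf h p2.le (by linarith only [h2]) (by linarith only [h1]),
    p3, GM_nat_sub h.vk₀_abs]
  simp only [Complex.add_re, Complex.neg_re, Complex.conj_re]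
  ring

theorem mid_S (h : Adm κ₀) {n : ℕ} (hn : 1 ≤ n) {x : ℝ} (h1 : 5 / 4 < x) (h2 : x < 7 / 4) :
    SLi κ₀ (x, 2 * Real.pi * n * (x - 1)) =
      SLi κ₀ (3 - x, 2 * Real.pi * n * (3 - x - 1)) := by
  obtain ⟨p1, p2, p3⟩ := mid_phase hn h1 h2
  unfold SLi
  rw [mid_GLf h p1.le (by linarith only [h1]) (by linarith only [h2]), mid_GLf h p2.le (by linarith only [h2]) (by linarith only [h1]),
    p3, GM_nat_sub h.vk₀_abs]
  simp only [Complex.add_im, Complex.neg_im, Complex.conj_im]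
  ring

/-! ### the glued functions -/

variable (κ₀)

/-- frequency -/
noncomputable def mun (n : ℕ) : ℝ := 2 * Real.pi * n

theorem one_le_mun {n : ℕ} (hn : 1 ≤ n) : 1 ≤ mun n := by
  have hpi := Real.pi_gt_three
  have hn' : (1 : ℝ) ≤ n := by exact_mod_cast hn
  unfold mun
  linarith only [mul_nonneg (le_of_lt (sub_pos.2 hpi)) (sub_nonneg.2 hn'), hn', hpi]

/-- cosine -/
noncomputable def pc (n : ℕ) : ℝ → ℝ :=
  glue (3 / 2) (fun x => Real.cos (PP κ₀ (x, mun n * (x - 1))))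
    (fun x => Real.cos (PP κ₀ (3 - x, mun n * (3 - x - 1))))

/-- sine -/
noncomputable def ps (n : ℕ) : ℝ → ℝ :=
  glue (3 / 2) (fun x => Real.sin (PP κ₀ (x, mun n * (x - 1))))
    (fun x => -Real.sin (PP κ₀ (3 - x, mun n * (3 - x - 1))))

/-- speed -/
noncomputable def ph (n : ℕ) : ℝ → ℝ :=
  glue (3 / 2) (fun x => hLx κ₀ (mun n) x) (fun x => hLx κ₀ (mun n) (3 - x))

/-- first primitive before the cut off -/
noncomputable def pC0 (n : ℕ) : ℝ → ℝ :=
  glue (3 / 2) (fun x => CL κ₀ (x, mun n * (x - 1)))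
    (fun x => oC κ₀ - CL κ₀ (3 - x, mun n * (3 - x - 1)))

/-- first primitive -/
noncomputable def pC (n : ℕ) (x : ℝ) : ℝ := pC0 κ₀ n x + -(oC κ₀ * ct x)

/-- second primitive -/
noncomputable def pS (n : ℕ) : ℝ → ℝ :=
  glue (3 / 2) (fun x => SLi κ₀ (x, mun n * (x - 1)))
    (fun x => SLi κ₀ (3 - x, mun n * (3 - x - 1)))

/-- error of the first primitive before the cut off -/
noncomputable def peC0 (n : ℕ) : ℝ → ℝ :=
  glue (3 / 2) (fun x => d1 (CL κ₀) (x, mun n * (x - 1)))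
    (fun x => d1 (CL κ₀) (3 - x, mun n * (3 - x - 1)))

/-- error of the first primitive -/
noncomputable def peC (n : ℕ) (x : ℝ) : ℝ :=
  peC0 κ₀ n x + -(d1 (fun p : ℝ × ℝ => oC κ₀ * ct p.1) (x, mun n * (x - 1)))

/-- error of the second primitive -/
noncomputable def peS (n : ℕ) : ℝ → ℝ :=
  glue (3 / 2) (fun x => d1 (SLi κ₀) (x, mun n * (x - 1)))
    (fun x => -d1 (SLi κ₀) (3 - x, mun n * (3 - x - 1)))

variable {κ₀}

theorem d1_CL_mid (h : Adm κ₀) {x θ : ℝ} (h1 : 4 / 5 < x) (h2 : x < 11 / 5) :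
    d1 (CL κ₀) (x, θ) = 0 := d1_CL h (kf_event h1 h2)

theorem d1_SLi_mid (h : Adm κ₀) {x θ : ℝ} (h1 : 4 / 5 < x) (h2 : x < 11 / 5) :
    d1 (SLi κ₀) (x, θ) = 0 := d1_SLi h (kf_event h1 h2)

section gl

theorem glue_hasDerivAt {c a b d x : ℝ} {f g : ℝ → ℝ} (hac : a < c) (hcb : c < b)
    (h : ∀ x, a < x → x < b → f x = g x) (h1 : x < b → HasDerivAt f d x)
    (h2 : a < x → HasDerivAt g d x) : HasDerivAt (glue c f g) d x := by
  rcases lt_or_ge x b with hx | hx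
  · exact (h1 hx).congr_of_eventuallyEq (glue_left hac h hx)
  · exact (h2 (by linarith)).congr_of_eventuallyEq (glue_right hcb h (by linarith))

theorem hac : (5 / 4 : ℝ) < 3 / 2 := by norm_num

theorem hcb : (3 / 2 : ℝ) < 7 / 4 := by norm_num

variable {n : ℕ} {x : ℝ}

theorem pc_mid (hn : 1 ≤ n) : ∀ x, 5 / 4 < x → x < 7 / 4 →
    Real.cos (PP κ₀ (x, mun n * (x - 1))) =
      Real.cos (PP κ₀ (3 - x, mun n * (3 - x - 1))) := fun _ h1 h2 => mid_cos hn h1 h2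

theorem ps_mid (hn : 1 ≤ n) : ∀ x, 5 / 4 < x → x < 7 / 4 →
    Real.sin (PP κ₀ (x, mun n * (x - 1))) =
      -Real.sin (PP κ₀ (3 - x, mun n * (3 - x - 1))) := fun _ h1 h2 => mid_sin hn h1 h2

theorem ph_mid (h : Adm κ₀) (hn : 1 ≤ n) : ∀ x, 5 / 4 < x → x < 7 / 4 →
    hLx κ₀ (mun n) x = hLx κ₀ (mun n) (3 - x) := fun _ h1 h2 => mid_h h hn h1 h2

theorem pC_mid (h : Adm κ₀) (hn : 1 ≤ n) : ∀ x, 5 / 4 < x → x < 7 / 4 →
    CL κ₀ (x, mun n * (x - 1)) = oC κ₀ - CL κ₀ (3 - x, mun n * (3 - x - 1)) :=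
  fun _ h1 h2 => mid_C h hn h1 h2

theorem pS_mid (h : Adm κ₀) (hn : 1 ≤ n) : ∀ x, 5 / 4 < x → x < 7 / 4 →
    SLi κ₀ (x, mun n * (x - 1)) = SLi κ₀ (3 - x, mun n * (3 - x - 1)) :=
  fun _ h1 h2 => mid_S h hn h1 h2

theorem peC_mid (h : Adm κ₀) : ∀ x, 5 / 4 < x → x < 7 / 4 →
    d1 (CL κ₀) (x, mun n * (x - 1)) = d1 (CL κ₀) (3 - x, mun n * (3 - x - 1)) :=
  fun x h1 h2 => by
    rw [d1_CL_mid h (by linarith only [h1]) (by linarith only [h2]), d1_CL_mid h (by linarith) (by linarith only [h1])]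

theorem peS_mid (h : Adm κ₀) : ∀ x, 5 / 4 < x → x < 7 / 4 →
    d1 (SLi κ₀) (x, mun n * (x - 1)) = -d1 (SLi κ₀) (3 - x, mun n * (3 - x - 1)) :=
  fun x h1 h2 => by
    rw [d1_SLi_mid h (by linarith only [h1]) (by linarith only [h2]), d1_SLi_mid h (by linarith) (by linarith),
      neg_zero]

/-! values -/

theorem pc_L (hn : 1 ≤ n) (hx : x < 7 / 4) :
    pc κ₀ n x = Real.cos (PP κ₀ (x, mun n * (x - 1))) :=
  (glue_left hac (pc_mid hn) hx).eq_of_nhds

theorem pc_R (hn : 1 ≤ n) (hx : 5 / 4 < x) :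
    pc κ₀ n x = Real.cos (PP κ₀ (3 - x, mun n * (3 - x - 1))) :=
  (glue_right hcb (pc_mid hn) hx).eq_of_nhds

theorem ps_L (hn : 1 ≤ n) (hx : x < 7 / 4) :
    ps κ₀ n x = Real.sin (PP κ₀ (x, mun n * (x - 1))) :=
  (glue_left hac (ps_mid hn) hx).eq_of_nhds

theorem ps_R (hn : 1 ≤ n) (hx : 5 / 4 < x) :
    ps κ₀ n x = -Real.sin (PP κ₀ (3 - x, mun n * (3 - x - 1))) :=
  (glue_right hcb (ps_mid hn) hx).eq_of_nhds

theorem ph_L (h : Adm κ₀) (hn : 1 ≤ n) (hx : x < 7 / 4) : ph κ₀ n x = hLx κ₀ (mun n) x :=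
  (glue_left hac (ph_mid h hn) hx).eq_of_nhds

theorem ph_R (h : Adm κ₀) (hn : 1 ≤ n) (hx : 5 / 4 < x) :
    ph κ₀ n x = hLx κ₀ (mun n) (3 - x) :=
  (glue_right hcb (ph_mid h hn) hx).eq_of_nhds

theorem pC0_L (h : Adm κ₀) (hn : 1 ≤ n) (hx : x < 7 / 4) :
    pC0 κ₀ n x = CL κ₀ (x, mun n * (x - 1)) :=
  (glue_left hac (pC_mid h hn) hx).eq_of_nhds

theorem pC0_R (h : Adm κ₀) (hn : 1 ≤ n) (hx : 5 / 4 < x) :
    pC0 κ₀ n x = oC κ₀ - CL κ₀ (3 - x, mun n * (3 - x - 1)) :=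
  (glue_right hcb (pC_mid h hn) hx).eq_of_nhds

theorem pS_L (h : Adm κ₀) (hn : 1 ≤ n) (hx : x < 7 / 4) :
    pS κ₀ n x = SLi κ₀ (x, mun n * (x - 1)) :=
  (glue_left hac (pS_mid h hn) hx).eq_of_nhds

theorem pS_R (h : Adm κ₀) (hn : 1 ≤ n) (hx : 5 / 4 < x) :
    pS κ₀ n x = SLi κ₀ (3 - x, mun n * (3 - x - 1)) :=
  (glue_right hcb (pS_mid h hn) hx).eq_of_nhds

theorem peC0_L (h : Adm κ₀) (hx : x < 7 / 4) :
    peC0 κ₀ n x = d1 (CL κ₀) (x, mun n * (x - 1)) :=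
  (glue_left hac (peC_mid h) hx).eq_of_nhds

theorem peC0_R (h : Adm κ₀) (hx : 5 / 4 < x) :
    peC0 κ₀ n x = d1 (CL κ₀) (3 - x, mun n * (3 - x - 1)) :=
  (glue_right hcb (peC_mid h) hx).eq_of_nhds

theorem peS_L (h : Adm κ₀) (hx : x < 7 / 4) :
    peS κ₀ n x = d1 (SLi κ₀) (x, mun n * (x - 1)) :=
  (glue_left hac (peS_mid h) hx).eq_of_nhds

theorem peS_R (h : Adm κ₀) (hx : 5 / 4 < x) :
    peS κ₀ n x = -d1 (SLi κ₀) (3 - x, mun n * (3 - x - 1)) :=
  (glue_right hcb (peS_mid h) hx).eq_of_nhds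

/-! derivatives -/

theorem hasDerivAt_refl {f : ℝ → ℝ} {d x : ℝ} (h : HasDerivAt f d (3 - x)) :
    HasDerivAt (fun y => f (3 - y)) (-d) x := by
  have h1 : HasDerivAt (fun y : ℝ => 3 - y) (-1) x := (hasDerivAt_id x).const_sub 3
  have h2 := HasDerivAt.comp x h h1
  rw [mul_neg_one] at h2
  exact h2

theorem pc_deriv (h : Adm κ₀) (hn : 1 ≤ n) (x : ℝ) :
    HasDerivAt (pc κ₀ n) (-(mun n * (ps κ₀ n x * ph κ₀ n x))) x := by
  have hμ : mun n ≠ 0 := by linarith [one_le_mun hn]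
  refine glue_hasDerivAt hac hcb (pc_mid hn) (fun hx => ?_) (fun hx => ?_)
  · rw [ps_L hn hx, ph_L h hn hx]
    refine (hasDerivAt_aL h hμ x).cos.congr_deriv ?_
    ring
  · rw [ps_R hn hx, ph_R h hn hx]
    refine (hasDerivAt_refl (hasDerivAt_aL h hμ (3 - x)).cos).congr_deriv ?_
    ring

theorem ps_deriv (h : Adm κ₀) (hn : 1 ≤ n) (x : ℝ) :
    HasDerivAt (ps κ₀ n) (mun n * (pc κ₀ n x * ph κ₀ n x)) x := by
  have hμ : mun n ≠ 0 := by linarith [one_le_mun hn]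
  refine glue_hasDerivAt hac hcb (ps_mid hn) (fun hx => ?_) (fun hx => ?_)
  · rw [pc_L hn hx, ph_L h hn hx]
    refine (hasDerivAt_aL h hμ x).sin.congr_deriv ?_
    ring
  · rw [pc_R hn hx, ph_R h hn hx]
    refine (hasDerivAt_refl (hasDerivAt_aL h hμ (3 - x)).sin).neg.congr_deriv ?_
    ring

theorem left_cond (hn : 1 ≤ n) (hx : x < 7 / 4) :
    mun n * (x - 1) ≤ 0 ∨ (4 / 5 ≤ x ∧ x ≤ 11 / 5) := by
  have h1 := one_le_mun hn
  rcases le_or_gt x 1 with h2 | h2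
  · left
    linarith only [mul_nonneg (sub_nonneg.2 h1) (sub_nonneg.2 h2), h2]
  · right
    constructor <;> linarith

theorem VV_refl (x : ℝ) : VV κ₀ (3 - x) = VV κ₀ x := by
  unfold VV
  rw [kf_refl]

theorem CLx_deriv (h : Adm κ₀) (hn : 1 ≤ n) (hx : x < 7 / 4) :
    HasDerivAt (fun x => CL κ₀ (x, mun n * (x - 1)))
      (mun n * (Real.cos (PP κ₀ (x, mun n * (x - 1))) - VV κ₀ x) +
        d1 (CL κ₀) (x, mun n * (x - 1))) x := by
  refine (hasDerivAt_twoScale (reg_CL h).smooth (mun n) x).congr_deriv ?_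
  rw [d2_CL h (left_cond hn hx), smul_eq_mul]
  ring

theorem SLx_deriv (h : Adm κ₀) (hn : 1 ≤ n) (hx : x < 7 / 4) :
    HasDerivAt (fun x => SLi κ₀ (x, mun n * (x - 1)))
      (mun n * Real.sin (PP κ₀ (x, mun n * (x - 1))) +
        d1 (SLi κ₀) (x, mun n * (x - 1))) x := by
  refine (hasDerivAt_twoScale (reg_SLi h).smooth (mun n) x).congr_deriv ?_
  rw [d2_SLi h (left_cond hn hx), smul_eq_mul]
  ring

theorem pC0_deriv (h : Adm κ₀) (hn : 1 ≤ n) (x : ℝ) :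
    HasDerivAt (pC0 κ₀ n) (mun n * (pc κ₀ n x - VV κ₀ x) + peC0 κ₀ n x) x := by
  refine glue_hasDerivAt hac hcb (pC_mid h hn) (fun hx => ?_) (fun hx => ?_)
  · rw [pc_L hn hx, peC0_L h hx]
    exact CLx_deriv h hn hx
  · rw [pc_R hn hx, peC0_R h hx, ← VV_refl x]
    refine ((hasDerivAt_refl (CLx_deriv h hn (x := 3 - x) (by linarith only [hx]))).const_sub
      (oC κ₀)).congr_deriv ?_
    ring

theorem pS_deriv (h : Adm κ₀) (hn : 1 ≤ n) (x : ℝ) :
    HasDerivAt (pS κ₀ n) (mun n * ps κ₀ n x + peS κ₀ n x) x := by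
  refine glue_hasDerivAt hac hcb (pS_mid h hn) (fun hx => ?_) (fun hx => ?_)
  · rw [ps_L hn hx, peS_L h hx]
    exact SLx_deriv h hn hx
  · rw [ps_R hn hx, peS_R h hx]
    refine (hasDerivAt_refl (SLx_deriv h hn (x := 3 - x) (by linarith only [hx]))).congr_deriv ?_
    ring

theorem pC_deriv (h : Adm κ₀) (hn : 1 ≤ n) (x : ℝ) :
    HasDerivAt (pC κ₀ n) (mun n * (pc κ₀ n x - VV κ₀ x) + peC κ₀ n x) x := by
  have h1 := hasDerivAt_slice1 (reg_ct (oC κ₀)).smooth x (mun n * (x - 1))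
  refine ((pC0_deriv h hn x).add h1.neg).congr_deriv ?_
  unfold peC
  ring

end gl

end main

end Vale.Agent.P205.TW
end

section

/-!
P205, block CHI (7): existence of the profile.
-/

open scoped ContDiff Topology ComplexConjugate
open Complex

namespace Vale.Agent.P205.TW

variable {κ₀ : ℝ} {n : ℕ} {x : ℝ}

/-! ### off values -/

theorem mun_pos (hn : 1 ≤ n) : 0 < mun n := by linarith [one_le_mun hn]

theorem off_phase (hn : 1 ≤ n) (hx : x < 1) : mun n * (x - 1) ≤ 0 := by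
  linarith only [mul_pos (sub_pos.2 hx) (sub_pos.2 (mun_pos hn))]

theorem CL_off {x θ : ℝ} (hθ : θ ≤ 0) (hx : x ≤ 3 / 5 ∨ 12 / 5 ≤ x) : CL κ₀ (x, θ) = 0 := by
  unfold CL
  rw [GLf_off hθ hx, Complex.zero_re]

theorem SLi_off {x θ : ℝ} (hθ : θ ≤ 0) (hx : x ≤ 3 / 5 ∨ 12 / 5 ≤ x) : SLi κ₀ (x, θ) = 0 := by
  unfold SLi
  rw [GLf_off hθ hx, Complex.zero_im]

theorem pc_off (hn : 1 ≤ n) (hx : x < 3 / 5 ∨ 12 / 5 < x) : pc κ₀ n x = 1 := by
  rcases hx with hx | hx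
  · rw [pc_L hn (by linarith only [hx]), PP_off (off_phase hn (by linarith)) (Or.inl (by linarith)),
      Real.cos_zero]
  · rw [pc_R hn (by linarith), PP_off (off_phase hn (by linarith)) (Or.inl (by linarith)),
      Real.cos_zero]

theorem ps_off (hn : 1 ≤ n) (hx : x < 3 / 5 ∨ 12 / 5 < x) : ps κ₀ n x = 0 := by
  rcases hx with hx | hx
  · rw [ps_L hn (by linarith only [hx]), PP_off (off_phase hn (by linarith)) (Or.inl (by linarith)),
      Real.sin_zero]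
  · rw [ps_R hn (by linarith), PP_off (off_phase hn (by linarith)) (Or.inl (by linarith)),
      Real.sin_zero, neg_zero]

theorem hLx_off (h : Adm κ₀) (hn : 1 ≤ n) (hx : x < 3 / 5) : hLx κ₀ (mun n) x = 0 := by
  have h1 := hasDerivAt_aL h (mun_pos hn).ne' x
  have h2 : (fun x => PP κ₀ (x, mun n * (x - 1))) =ᶠ[𝓝 x] fun _ => 0 := by
    filter_upwards [isOpen_Iio.mem_nhds hx] with y hy
    have hy' : y < 3 / 5 := hy
    exact PP_off (off_phase hn (by linarith)) (Or.inl (by linarith))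
  have h3 := h1.unique ((hasDerivAt_const x (0 : ℝ)).congr_of_eventuallyEq h2)
  rcases mul_eq_zero.1 h3 with h4 | h4
  · exact absurd h4 (mun_pos hn).ne'
  · exact h4

theorem ph_off (h : Adm κ₀) (hn : 1 ≤ n) (hx : x < 3 / 5 ∨ 12 / 5 < x) : ph κ₀ n x = 0 := by
  rcases hx with hx | hx
  · rw [ph_L h hn (by linarith), hLx_off h hn hx]
  · rw [ph_R h hn (by linarith), hLx_off h hn (by linarith)]

theorem pC_off (h : Adm κ₀) (hn : 1 ≤ n) (hx : x < 3 / 5 ∨ 12 / 5 < x) : pC κ₀ n x = 0 := by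
  unfold pC
  rcases hx with hx | hx
  · rw [pC0_L h hn (by linarith), CL_off (off_phase hn (by linarith)) (Or.inl (by linarith)),
      ct_left (by linarith)]
    ring
  · rw [pC0_R h hn (by linarith), CL_off (off_phase hn (by linarith)) (Or.inl (by linarith)),
      ct_right (by linarith)]
    ring

theorem pS_off (h : Adm κ₀) (hn : 1 ≤ n) (hx : x < 3 / 5 ∨ 12 / 5 < x) : pS κ₀ n x = 0 := by
  rcases hx with hx | hx
  · rw [pS_L h hn (by linarith only [hx]), SLi_off (off_phase hn (by linarith)) (Or.inl (by linarith))]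
  · rw [pS_R h hn (by linarith), SLi_off (off_phase hn (by linarith)) (Or.inl (by linarith))]

/-! ### bounds -/

theorem pc_bd (h : Adm κ₀) : ∃ B : ℕ → ℝ, ∀ n, 1 ≤ n → FBd B (mun n) (pc κ₀ n) := by
  obtain ⟨B, hB⟩ := (reg_cos h).FBd
  exact ⟨B, fun n hn => glue_FBd hac hcb (pc_mid hn) (hB _ (one_le_mun hn))
    (hB _ (one_le_mun hn)).reflect⟩

theorem ps_bd (h : Adm κ₀) : ∃ B : ℕ → ℝ, ∀ n, 1 ≤ n → FBd B (mun n) (ps κ₀ n) := by
  obtain ⟨B, hB⟩ := (reg_sin h).FBd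
  exact ⟨B, fun n hn => glue_FBd hac hcb (ps_mid hn) (hB _ (one_le_mun hn))
    (hB _ (one_le_mun hn)).reflect.neg⟩

theorem ph_bd (h : Adm κ₀) : ∃ B : ℕ → ℝ, ∀ n, 1 ≤ n → FBd B (mun n) (ph κ₀ n) := by
  obtain ⟨B, hB⟩ := exists_hLx_bd h
  exact ⟨B, fun n hn => glue_FBd hac hcb (ph_mid h hn) (hB _ (one_le_mun hn))
    (hB _ (one_le_mun hn)).reflect⟩

theorem pS_bd (h : Adm κ₀) : ∃ B : ℕ → ℝ, ∀ n, 1 ≤ n → FBd B (mun n) (pS κ₀ n) := by
  obtain ⟨B, hB⟩ := (reg_SLi h).FBd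
  exact ⟨B, fun n hn => glue_FBd hac hcb (pS_mid h hn) (hB _ (one_le_mun hn))
    (hB _ (one_le_mun hn)).reflect⟩

theorem peS_bd (h : Adm κ₀) : ∃ B : ℕ → ℝ, ∀ n, 1 ≤ n → FBd B (mun n) (peS κ₀ n) := by
  obtain ⟨B, hB⟩ := (reg_SLi h).d1.FBd
  exact ⟨B, fun n hn => glue_FBd hac hcb (peS_mid h) (hB _ (one_le_mun hn))
    (hB _ (one_le_mun hn)).reflect.neg⟩

theorem peC_bd (h : Adm κ₀) : ∃ B : ℕ → ℝ, ∀ n, 1 ≤ n → FBd B (mun n) (peC κ₀ n) := by
  obtain ⟨B, hB⟩ := (reg_CL h).d1.FBd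
  obtain ⟨B', hB'⟩ := (reg_ct (oC κ₀)).d1.FBd
  exact ⟨fun k => B k + B' k, fun n hn => (glue_FBd hac hcb (peC_mid h)
    (hB _ (one_le_mun hn)) (hB _ (one_le_mun hn)).reflect).add (hB' _ (one_le_mun hn)).neg⟩

theorem reg_const (a : ℝ) : Reg (0 : ℝ) (fun _ : ℝ × ℝ => a) :=
  ⟨contDiff_const, fun _ _ _ => rfl, fun _ _ _ => by simp, fun _ _ _ _ _ => rfl,
    fun _ _ _ _ _ => rfl⟩

theorem pC_bd (h : Adm κ₀) : ∃ B : ℕ → ℝ, ∀ n, 1 ≤ n → FBd B (mun n) (pC κ₀ n) := by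
  obtain ⟨B, hB⟩ := (reg_CL h).FBd
  obtain ⟨B', hB'⟩ := (reg_ct (oC κ₀)).FBd
  obtain ⟨B1, hB1⟩ := (reg_const (oC κ₀)).FBd
  refine ⟨fun k => (B k + (B1 k + B k)) + B' k, fun n hn => ?_⟩
  have h1 := one_le_mun hn
  have h2 : FBd (fun k => B1 k + B k) (mun n)
      (fun x => oC κ₀ - CL κ₀ (3 - x, mun n * (3 - x - 1))) := by
    have h3 := (hB1 _ h1).add (hB _ h1).reflect.neg
    simpa only [sub_eq_add_neg] using h3
  exact (glue_FBd' hac hcb (pC_mid h hn) (mun_pos hn) (hB _ h1) h2).add (hB' _ h1).neg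

/-! ### non-degeneracy -/

theorem nondeg_left {τ₀ η c₁ : ℝ} (h : Adm κ₀) (hτ : 3 * κ₀ ≤ τ₀) (hη' : η ≤ 1 / 2)
    (hη : ∀ x θ : ℝ, 4 / 5 ≤ x → x ≤ 11 / 5 → θ ≤ η → 1 / 2 < Real.cos (PP κ₀ (x, θ)) ∧
      |Real.sin (PP κ₀ (x, θ))| < τ₀ * Real.cos (PP κ₀ (x, θ)))
    (hc : ∀ x θ : ℝ, 4 / 5 ≤ x → x ≤ 11 / 5 → η ≤ θ → c₁ ≤ d2 (PP κ₀) (x, θ))
    (hn : 1 ≤ n) (hx : x ≤ 3 / 2) :
    (1 ≤ x ∧ x ≤ 3 / 2 ∧ c₁ ≤ hLx κ₀ (mun n) x) ∨
    (x < 11 / 10 ∧ 1 / 2 ≤ Real.cos (PP κ₀ (x, mun n * (x - 1))) ∧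
      |Real.sin (PP κ₀ (x, mun n * (x - 1)))| ≤ τ₀ * Real.cos (PP κ₀ (x, mun n * (x - 1)))) := by
  have hμ := mun_pos hn
  rcases le_or_gt x 1 with h1 | h1
  · right
    obtain ⟨e1, e2⟩ := near_left (x := x) h hτ (by linarith only [mul_nonneg (le_of_lt (sub_pos.2 hμ)) (sub_nonneg.2 h1)] : mun n * (x - 1) ≤ 0)
    exact ⟨by linarith only [h1], e1.le, e2.le⟩
  · rcases le_or_gt (mun n * (x - 1)) η with h2 | h2
    · right
      obtain ⟨e1, e2⟩ := hη x _ (by linarith) (by linarith) h2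
      refine ⟨?_, e1.le, e2.le⟩
      have hpi := Real.pi_gt_three
      have hn' : (1 : ℝ) ≤ n := by exact_mod_cast hn
      have h6 : 6 ≤ mun n := by
        unfold mun
        nlinarith
      nlinarith
    · left
      refine ⟨h1.le, hx, ?_⟩
      rw [hLx_mid h (by linarith) (by linarith)]
      exact hc 1 _ (by norm_num) (by norm_num) h2.le

theorem exists_profile {τ₀ : ℝ} (hτ₀ : 0 < τ₀) : Nonempty (Profile τ₀) := by
  set κ₀ : ℝ := min (τ₀ / 4) (1 / 4) with hκ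
  have hpos : 0 < κ₀ := lt_min (by linarith) (by norm_num)
  have hle : κ₀ ≤ 1 / 4 := min_le_right _ _
  have hle' : κ₀ ≤ τ₀ / 4 := min_le_left _ _
  have h : Adm κ₀ := ⟨hpos, hle⟩
  have hτ : 3 * κ₀ ≤ τ₀ := by linarith
  obtain ⟨η, hη0, hη', hη⟩ := exists_eta h hτ
  obtain ⟨c₁, hc₁, hc⟩ := exists_c1 h hη0
  obtain ⟨B1, hB1⟩ := pc_bd h
  obtain ⟨B2, hB2⟩ := ps_bd h
  obtain ⟨B3, hB3⟩ := ph_bd h
  obtain ⟨B4, hB4⟩ := pC_bd h
  obtain ⟨B5, hB5⟩ := pS_bd h
  obtain ⟨B6, hB6⟩ := peC_bd h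
  obtain ⟨B7, hB7⟩ := peS_bd h
  have n1 : ∀ k, 0 ≤ B1 k := (hB1 1 le_rfl).nonneg (mun_pos le_rfl)
  have n2 : ∀ k, 0 ≤ B2 k := (hB2 1 le_rfl).nonneg (mun_pos le_rfl)
  have n3 : ∀ k, 0 ≤ B3 k := (hB3 1 le_rfl).nonneg (mun_pos le_rfl)
  have n4 : ∀ k, 0 ≤ B4 k := (hB4 1 le_rfl).nonneg (mun_pos le_rfl)
  have n5 : ∀ k, 0 ≤ B5 k := (hB5 1 le_rfl).nonneg (mun_pos le_rfl)
  have n6 : ∀ k, 0 ≤ B6 k := (hB6 1 le_rfl).nonneg (mun_pos le_rfl)
  have n7 : ∀ k, 0 ≤ B7 k := (hB7 1 le_rfl).nonneg (mun_pos le_rfl)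
  have hV : ∀ x, 1 - κ₀ ^ 2 ≤ VV κ₀ x := fun x => by
    have h1 := h.kf_sq x
    have h2 := vk_ge (κ := kf κ₀ x)
    unfold VV
    linarith
  refine ⟨{
    V := VV κ₀
    c := pc κ₀
    s := ps κ₀
    h := ph κ₀
    C := pC κ₀
    Sn := pS κ₀
    eC := peC κ₀
    eS := peS κ₀
    B := fun k => B1 k + B2 k + B3 k + B4 k + B5 k + B6 k + B7 k
    c₁ := c₁
    V_smooth := contDiff_VV κ₀
    V_pos := fun x => by
      have := hV x
      (by_contra nlg; linarith only [nlg, mul_nonneg (sub_nonneg.2 hη') (sub_nonneg.2 this), mul_nonneg (le_of_lt (sub_pos.2 hη0)) (sub_nonneg.2 this), mul_nonneg (sub_nonneg.2 hle) (sub_nonneg.2 hη'), mul_nonneg (sub_nonneg.2 hle) (le_of_lt (sub_pos.2 hη0)), mul_nonneg (le_of_lt (sub_pos.2 hpos)) (sub_nonneg.2 hle), mul_nonneg (le_of_lt (sub_pos.2 (not_le.1 nlg))) (sub_nonneg.2 hη'), mul_pos (sub_pos.2 (not_le.1 nlg)) (sub_pos.2 hη0)])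
    V_ge := fun x => by
      have := hV x
      nlinarith
    V_le := fun x => vk_le_one _
    V_off := fun x hx => by
      unfold VV
      rw [kf_zero (by rcases hx with hx | hx
                      · left; linarith
                      · right; linarith), vk_zero]
    c₁_pos := hc₁
    c_bd := fun n hn => (hB1 n hn).mono (mun_pos hn).le fun k => by
      linarith [n1 k, n2 k, n3 k, n4 k, n5 k, n6 k, n7 k]
    s_bd := fun n hn => (hB2 n hn).mono (mun_pos hn).le fun k => by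
      linarith [n1 k, n2 k, n3 k, n4 k, n5 k, n6 k, n7 k]
    h_bd := fun n hn => (hB3 n hn).mono (mun_pos hn).le fun k => by
      linarith [n1 k, n2 k, n3 k, n4 k, n5 k, n6 k, n7 k]
    C_bd := fun n hn => (hB4 n hn).mono (mun_pos hn).le fun k => by
      linarith [n1 k, n2 k, n3 k, n4 k, n5 k, n6 k, n7 k]
    Sn_bd := fun n hn => (hB5 n hn).mono (mun_pos hn).le fun k => by
      linarith [n1 k, n2 k, n3 k, n4 k, n5 k, n6 k, n7 k]
    eC_bd := fun n hn => (hB6 n hn).mono (mun_pos hn).le fun k => by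
      linarith [n1 k, n2 k, n3 k, n4 k, n5 k, n6 k, n7 k]
    eS_bd := fun n hn => (hB7 n hn).mono (mun_pos hn).le fun k => by
      linarith [n1 k, n2 k, n3 k, n4 k, n5 k, n6 k, n7 k]
    circ := fun n x => by
      unfold pc ps glue
      split_ifs
      · exact Real.cos_sq_add_sin_sq _
      · rw [neg_sq]
        exact Real.cos_sq_add_sin_sq _
    c_deriv := fun n hn x => pc_deriv h hn x
    s_deriv := fun n hn x => ps_deriv h hn x
    C_deriv := fun n hn x => pC_deriv h hn x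
    Sn_deriv := fun n hn x => pS_deriv h hn x
    c_off := fun n hn x hx => pc_off hn hx
    s_off := fun n hn x hx => ps_off hn hx
    h_off := fun n hn x hx => ph_off h hn hx
    C_off := fun n hn x hx => pC_off h hn hx
    Sn_off := fun n hn x hx => pS_off h hn hx
    nondeg := ?_ }⟩
  intro n hn x
  rcases le_or_gt x (3 / 2) with hx | hx
  · rcases nondeg_left h hτ hη' hη hc hn hx with ⟨e1, e2, e3⟩ | ⟨e1, e2, e3⟩
    · left
      rw [ph_L h hn (by linarith)]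
      exact ⟨e1, by linarith, e3⟩
    · right
      rw [pc_L hn (by linarith), ps_L hn (by linarith only [e1, hle, hpos])]
      exact ⟨Or.inl e1, e2, e3⟩
  · rcases nondeg_left (x := 3 - x) h hτ hη' hη hc hn (by linarith) with
      ⟨e1, e2, e3⟩ | ⟨e1, e2, e3⟩
    · left
      rw [ph_R h hn (by linarith)]
      exact ⟨by linarith only [hx, hle, hpos], by linarith, e3⟩
    · right
      rw [pc_R hn (by linarith only [e1, hle, hpos]), ps_R hn (by linarith only [e1, hle, hpos]), abs_neg]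
      exact ⟨Or.inr (by linarith only [e1]), e2, e3⟩

end Vale.Agent.P205.TW
end

section

/-!
Block TOP of P205: odd functions on a closed manifold with an involution can be made regular away
from the fixed points (with the Sard type statement as a hypothesis).
-/

open scoped Manifold ContDiff Topology RealInnerProductSpace
open Set Filter MeasureTheory Module

noncomputable section

namespace Vale.Agent.P205.Top

section Closed

variable {V W : Type*} [NormedAddCommGroup V] [NormedSpace ℝ V] [FiniteDimensional ℝ V]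
  [NormedAddCommGroup W] [NormedSpace ℝ W] [FiniteDimensional ℝ W]
  {H : Type*} [TopologicalSpace H] (I : ModelWithCorners ℝ V H) [I.Boundaryless]
  {N : Type*} [TopologicalSpace N] [ChartedSpace H N] [IsManifold I ∞ N]
  [CompactSpace N] [T2Space N]

omit [FiniteDimensional ℝ V] [I.Boundaryless] [CompactSpace N] [T2Space N]
  [IsManifold I ∞ N] in
/-- the differential of an involution is injective. -/
theorem inj_mfderiv_invol {τ : N → N} (hτ : ContMDiff I I ∞ τ) (hττ : ∀ p, τ (τ p) = p) (p : N) :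
    Function.Injective (mfderiv I I τ p) := by
  have h1 : MDifferentiableAt I I τ p := (hτ p).mdifferentiableAt (by simp)
  have h2 : MDifferentiableAt I I τ (τ p) := (hτ (τ p)).mdifferentiableAt (by simp)
  have h : mfderiv I I (τ ∘ τ) p = (mfderiv I I τ (τ p)).comp (mfderiv I I τ p) :=
    mfderiv_comp p h2 h1
  have hid : τ ∘ τ = id := funext hττ
  have h3 : ∀ v : V, (mfderiv I I (τ ∘ τ) p : V →L[ℝ] V) v = v := by
    intro v
    rw [hid, mfderiv_id]
    rfl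
  intro v w hvw
  have h4 : (mfderiv I I (τ ∘ τ) p : V →L[ℝ] V) v = (mfderiv I I (τ ∘ τ) p : V →L[ℝ] V) w := by
    rw [h]
    change mfderiv I I τ (τ p) (mfderiv I I τ p v) = mfderiv I I τ (τ p) (mfderiv I I τ p w)
    rw [hvw]
  exact (h3 v).symm.trans (h4.trans (h3 w))

omit [FiniteDimensional ℝ V] [FiniteDimensional ℝ W] [I.Boundaryless] [CompactSpace N]
  [T2Space N] [IsManifold I ∞ N] in
/-- regularity of an odd function at `τ p` gives regularity at `p`. -/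
theorem inj_of_odd {τ : N → N} (hτ : ContMDiff I I ∞ τ) (hττ : ∀ p, τ (τ p) = p) {F : N → W}
    (hF : ContMDiff I 𝓘(ℝ, W) ∞ F) (hodd : ∀ p, F (τ p) = - F p) {p : N}
    (h : Function.Injective (mfderiv I 𝓘(ℝ, W) F (τ p))) :
    Function.Injective (mfderiv I 𝓘(ℝ, W) F p) := by
  have h1 : MDifferentiableAt I I τ p := (hτ p).mdifferentiableAt (by simp)
  have h2 : MDifferentiableAt I 𝓘(ℝ, W) F (τ p) := (hF (τ p)).mdifferentiableAt (by simp)
  have hc : mfderiv I 𝓘(ℝ, W) (F ∘ τ) p = (mfderiv I 𝓘(ℝ, W) F (τ p)).comp (mfderiv I I τ p) :=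
    mfderiv_comp p h2 h1
  have he : F ∘ τ = -F := funext hodd
  have h3 : ∀ v : V, (mfderiv I 𝓘(ℝ, W) (F ∘ τ) p : V →L[ℝ] W) v =
      - (mfderiv I 𝓘(ℝ, W) F p : V →L[ℝ] W) v := by
    intro v
    rw [he, mfderiv_neg]
    rfl
  intro v w hvw
  apply inj_mfderiv_invol I hτ hττ p
  apply h
  have h4 : (mfderiv I 𝓘(ℝ, W) (F ∘ τ) p : V →L[ℝ] W) v =
      (mfderiv I 𝓘(ℝ, W) (F ∘ τ) p : V →L[ℝ] W) w :=
    (h3 v).trans ((congrArg (fun x : W => -x) hvw).trans (h3 w).symm)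
  rw [hc] at h4
  exact h4

/-- the hypothesis: for small `c` the zeros of `G + χ c` are regular where `χ > 0`. -/
def SmallReg (W : Type*) [NormedAddCommGroup W] [NormedSpace ℝ W] (N : Type*) [TopologicalSpace N]
    [ChartedSpace H N] : Prop :=
  ∀ G : N → W, ContMDiff I 𝓘(ℝ, W) ∞ G → ∀ χ : N → ℝ, ContMDiff I 𝓘(ℝ, ℝ) ∞ χ →
    (∀ p, 0 ≤ χ p) → ∀ ε : ℝ, 0 < ε → ∃ c : W, ‖c‖ < ε ∧ ∀ p, G p + χ p • c = 0 →
      (0 < χ p ∨ Function.Injective (mfderiv I 𝓘(ℝ, W) G p)) →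
      Function.Injective (mfderiv I 𝓘(ℝ, W) (fun q => G q + χ q • c) p)

/-- the bump functions used. -/
structure GoodBump (τ : N → N) (O : Set N) (χ : N → ℝ) : Prop where
  sm : ContMDiff I 𝓘(ℝ, ℝ) ∞ χ
  nonneg : ∀ p, 0 ≤ χ p
  le_one : ∀ p, χ p ≤ 1
  sub : tsupport χ ⊆ O
  disj : ∀ p ∈ tsupport χ, τ p ∉ tsupport χ

omit [CompactSpace N] [I.Boundaryless] in
theorem exists_goodBump {τ : N → N} (hτ : Continuous τ) {O : Set N} (hO : IsOpen O) {p : N}
    (hp : p ∈ O) (hfix : τ p ≠ p) : ∃ χ : N → ℝ, GoodBump I τ O χ ∧ 0 < χ p := by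
  obtain ⟨A, B, hA, hB, hpA, hpB, hAB⟩ := t2_separation hfix.symm
  have hU : O ∩ A ∩ τ ⁻¹' B ∈ 𝓝 p :=
    ((hO.inter hA).inter (hB.preimage hτ)).mem_nhds ⟨⟨hp, hpA⟩, hpB⟩
  obtain ⟨f, -, hf⟩ := (SmoothBumpFunction.nhds_basis_tsupport (I := I) p).mem_iff.1 hU
  refine ⟨f, ⟨f.contMDiff, fun q => f.nonneg, fun q => f.le_one, fun q hq => (hf hq).1.1, ?_⟩, ?_⟩
  · intro q hq hq'
    exact Set.disjoint_left.1 hAB (hf hq').1.2 (hf hq).2
  · rw [f.eq_one]; exact one_pos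

omit [FiniteDimensional ℝ V] [FiniteDimensional ℝ W] [I.Boundaryless] [CompactSpace N]
  [T2Space N] [IsManifold I ∞ N] in
/-- the inductive step. -/
theorem odd_step (hS : SmallReg I W N) {τ : N → N}
    (hτ : ContMDiff I I ∞ τ) (hττ : ∀ p, τ (τ p) = p) {O : Set N}
    (hOτ : ∀ p ∈ O, τ p ∈ O) {G : N → W}
    (hG : ContMDiff I 𝓘(ℝ, W) ∞ G) (hodd : ∀ p, G (τ p) = - G p)
    {χ : N → ℝ} (hχ : GoodBump I τ O χ) {S : Set N} (hSτ : ∀ p ∈ S, τ p ∈ S)
    (hreg : ∀ p ∈ S, G p = 0 → Function.Injective (mfderiv I 𝓘(ℝ, W) G p)) {ε : ℝ} (hε : 0 < ε) :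
    ∃ η : N → W, ContMDiff I 𝓘(ℝ, W) ∞ η ∧ (∀ p, η (τ p) = - η p) ∧ (∀ p, ‖η p‖ < ε) ∧
      tsupport η ⊆ O ∧ ∀ p, (p ∈ S ∨ 0 < χ p ∨ 0 < χ (τ p)) → G p + η p = 0 →
        Function.Injective (mfderiv I 𝓘(ℝ, W) (fun q => G q + η q) p) := by
  obtain ⟨c, hc, hreg'⟩ := hS G hG χ hχ.sm hχ.nonneg ε hε
  have hηs : ContMDiff I 𝓘(ℝ, W) ∞ (fun p => (χ p - χ (τ p)) • c) :=
    (hχ.sm.sub (hχ.sm.comp hτ)).smul contMDiff_const
  have hηodd : ∀ p, (χ (τ p) - χ (τ (τ p))) • c = - ((χ p - χ (τ p)) • c) := by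
    intro p
    rw [hττ, ← neg_smul, neg_sub]
  refine ⟨fun p => (χ p - χ (τ p)) • c, hηs, hηodd, ?_, ?_, ?_⟩
  · intro p
    have h1 : |χ p - χ (τ p)| ≤ 1 := by
      rw [abs_le]
      constructor
      · linarith [hχ.nonneg p, hχ.le_one (τ p)]
      · linarith [hχ.nonneg (τ p), hχ.le_one p]
    rw [norm_smul, Real.norm_eq_abs]
    calc |χ p - χ (τ p)| * ‖c‖ ≤ 1 * ‖c‖ := mul_le_mul_of_nonneg_right h1 (norm_nonneg _)
      _ < ε := by rw [one_mul]; exact hc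
  · have hK : IsClosed (tsupport χ ∪ τ ⁻¹' tsupport χ) :=
      (isClosed_tsupport χ).union ((isClosed_tsupport χ).preimage hτ.continuous)
    refine (closure_minimal ?_ hK).trans ?_
    · intro p hp
      by_contra hcon
      rw [mem_union, not_or] at hcon
      apply hp
      have e1 : χ p = 0 := image_eq_zero_of_notMem_tsupport hcon.1
      have e2 : χ (τ p) = 0 := image_eq_zero_of_notMem_tsupport hcon.2
      change (χ p - χ (τ p)) • c = 0
      rw [e1, e2, sub_zero, zero_smul]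
    · rintro p (hp | hp)
      · exact hχ.sub hp
      · rw [← hττ p]
        exact hOτ _ (hχ.sub hp)
  · -- regularity
    have hFodd : ∀ p, (fun q => G q + (χ q - χ (τ q)) • c) (τ p) =
        - (fun q => G q + (χ q - χ (τ q)) • c) p := by
      intro p
      change G (τ p) + (χ (τ p) - χ (τ (τ p))) • c = - (G p + (χ p - χ (τ p)) • c)
      rw [hηodd, hodd]
      abel
    have hFs : ContMDiff I 𝓘(ℝ, W) ∞ (fun q => G q + (χ q - χ (τ q)) • c) := hG.add hηs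
    -- the case `τ p ∉ tsupport χ`
    have key : ∀ p, τ p ∉ tsupport χ → (p ∈ S ∨ 0 < χ p ∨ 0 < χ (τ p)) →
        G p + (χ p - χ (τ p)) • c = 0 →
        Function.Injective (mfderiv I 𝓘(ℝ, W) (fun q => G q + (χ q - χ (τ q)) • c) p) := by
      intro p hp hD h0
      have e2 : χ (τ p) = 0 := image_eq_zero_of_notMem_tsupport hp
      have hev : (fun q => G q + (χ q - χ (τ q)) • c) =ᶠ[𝓝 p] fun q => G q + χ q • c := by
        have : ∀ᶠ q in 𝓝 p, τ q ∉ tsupport χ :=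
          hτ.continuous.continuousAt.eventually
            ((isClosed_tsupport χ).isOpen_compl.mem_nhds hp)
        filter_upwards [this] with q hq
        rw [image_eq_zero_of_notMem_tsupport hq, sub_zero]
      rw [e2, sub_zero] at h0
      have hinj : Function.Injective (mfderiv I 𝓘(ℝ, W) (fun q => G q + χ q • c) p) := by
        apply hreg' p h0
        rcases (hχ.nonneg p).lt_or_eq with h | h
        · exact Or.inl h
        · right
          rw [← h, zero_smul, add_zero] at h0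
          rcases hD with h5 | h5 | h5
          · exact hreg p h5 h0
          · rw [← h] at h5; exact absurd h5 (lt_irrefl _)
          · rw [e2] at h5; exact absurd h5 (lt_irrefl _)
      intro v w hvw
      apply hinj
      have e := hev.mfderiv_eq (I := I) (I' := 𝓘(ℝ, W))
      have e1 : ∀ v : V, (mfderiv I 𝓘(ℝ, W) (fun q => G q + (χ q - χ (τ q)) • c) p : V →L[ℝ] W) v =
          (mfderiv I 𝓘(ℝ, W) (fun q => G q + χ q • c) p : V →L[ℝ] W) v := by
        intro v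
        exact congrArg (fun L : V →L[ℝ] W => L v) e
      exact (e1 v).symm.trans (hvw.trans (e1 w))
    intro p hD h0
    change G p + (χ p - χ (τ p)) • c = 0 at h0
    by_cases hp : τ p ∈ tsupport χ
    · have hp' : τ (τ p) ∉ tsupport χ := hχ.disj _ hp
      apply inj_of_odd I hτ hττ hFs hFodd
      apply key (τ p) hp'
      · rcases hD with h | h | h
        · exact Or.inl (hSτ p h)
        · right; right; rwa [hττ]
        · right; left; exact h
      · have h6 : G (τ p) + (χ (τ p) - χ (τ (τ p))) • c = - (G p + (χ p - χ (τ p)) • c) :=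
          hFodd p
        rw [h0, neg_zero] at h6
        exact h6
    · exact key p hp hD h0

omit [FiniteDimensional ℝ V] [I.Boundaryless] [CompactSpace N] [T2Space N]
  [IsManifold I ∞ N] [FiniteDimensional ℝ W] in
/-- `SmallReg` from the almost everywhere statement. -/
theorem smallReg_of_ae [MeasurableSpace W] [BorelSpace W] (μ : Measure W) [μ.IsAddHaarMeasure]
    (h : ∀ G : N → W, ContMDiff I 𝓘(ℝ, W) ∞ G → ∀ χ : N → ℝ, ContMDiff I 𝓘(ℝ, ℝ) ∞ χ →
      (∀ p, 0 ≤ χ p) → ∀ᵐ c ∂μ, ∀ p, G p + χ p • c = 0 →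
        (0 < χ p ∨ Function.Injective (mfderiv I 𝓘(ℝ, W) G p)) →
        Function.Injective (mfderiv I 𝓘(ℝ, W) (fun q => G q + χ q • c) p)) : SmallReg I W N := by
  intro G hG χ hχ h0 ε hε
  have h1 := h G hG χ hχ h0
  by_contra hcon
  push Not at hcon
  have h2 : Metric.ball (0 : W) ε ⊆ {c | ¬ ∀ p, G p + χ p • c = 0 →
        (0 < χ p ∨ Function.Injective (mfderiv I 𝓘(ℝ, W) G p)) →
        Function.Injective (mfderiv I 𝓘(ℝ, W) (fun q => G q + χ q • c) p)} := by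
    intro c hc h3
    obtain ⟨p, hp1, hp2, hp3⟩ := hcon c (by simpa using hc)
    exact hp3 (h3 p hp1 hp2)
  have h3 : μ (Metric.ball (0 : W) ε) = 0 := measure_mono_null h2 h1
  exact (Metric.measure_ball_pos μ (0 : W) hε).ne' h3

omit [FiniteDimensional ℝ W] [I.Boundaryless] [CompactSpace N] in
/-- C2 with the hypothesis `SmallReg`. -/
theorem odd_perturb_of (hS : SmallReg I W N) {τ : N → N}
    (hτ : ContMDiff I I ∞ τ) (hττ : ∀ p, τ (τ p) = p) {G : N → W}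
    (hG : ContMDiff I 𝓘(ℝ, W) ∞ G) (hodd : ∀ p, G (τ p) = - G p)
    {D O : Set N} (hD : IsCompact D) (hO : IsOpen O) (hDO : D ⊆ O) (hfix : ∀ p ∈ O, τ p ≠ p)
    (hOτ : ∀ p ∈ O, τ p ∈ O) :
    ∃ D' : Set N, IsOpen D' ∧ D ⊆ D' ∧ D' ⊆ O ∧ ∀ m : ℝ, 0 < m →
      ∃ η : N → W, ContMDiff I 𝓘(ℝ, W) ∞ η ∧ (∀ p, η (τ p) = - η p) ∧ (∀ p, ‖η p‖ < m) ∧
        tsupport η ⊆ O ∧ ∀ p ∈ D', G p + η p = 0 →
        Function.Injective (mfderiv I 𝓘(ℝ, W) (fun q => G q + η q) p) := by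
  classical
  have hex : ∀ p ∈ D, ∃ χ : N → ℝ, GoodBump I τ O χ ∧ 0 < χ p := fun p hp =>
    exists_goodBump I hτ.continuous hO (hDO hp) (hfix p (hDO hp))
  choose! χ hχ hχp using hex
  obtain ⟨t, htD, htc⟩ := hD.elim_nhds_subcover (fun p => {q | 0 < χ p q}) fun p hp =>
    (isOpen_lt continuous_const (hχ p hp).sm.continuous).mem_nhds (hχp p hp)
  refine ⟨⋃ k ∈ t, {q | 0 < χ k q ∨ 0 < χ k (τ q)}, ?_, ?_, ?_, ?_⟩
  · refine isOpen_biUnion fun k hk => ?_
    have hc := (hχ k (htD k hk)).sm.continuous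
    exact (isOpen_lt continuous_const hc).union
      (isOpen_lt continuous_const (hc.comp hτ.continuous))
  · intro q hq
    have := htc hq
    rw [mem_iUnion₂] at this ⊢
    obtain ⟨k, hk, h⟩ := this
    exact ⟨k, hk, Or.inl h⟩
  · intro q hq
    rw [mem_iUnion₂] at hq
    obtain ⟨k, hk, h | h⟩ := hq
    · exact (hχ k (htD k hk)).sub (subset_tsupport _ h.ne')
    · rw [← hττ q]
      exact hOτ _ ((hχ k (htD k hk)).sub (subset_tsupport _ h.ne'))
  · -- induction over the finite set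
    have main : ∀ s : Finset N, s ⊆ t → ∀ m : ℝ, 0 < m →
        ∃ η : N → W, ContMDiff I 𝓘(ℝ, W) ∞ η ∧ (∀ p, η (τ p) = - η p) ∧ (∀ p, ‖η p‖ < m) ∧
          tsupport η ⊆ O ∧ ∀ p ∈ ⋃ k ∈ s, {q | 0 < χ k q ∨ 0 < χ k (τ q)}, G p + η p = 0 →
          Function.Injective (mfderiv I 𝓘(ℝ, W) (fun q => G q + η q) p) := by
      intro s
      induction s using Finset.induction_on with
      | empty =>
        intro _ m hm
        refine ⟨fun _ => 0, contMDiff_const, fun _ => by simp, fun _ => by simpa using hm, ?_, ?_⟩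
        · have : tsupport (fun _ : N => (0 : W)) = ∅ := by
            rw [tsupport_eq_empty_iff]; rfl
          rw [this]; exact empty_subset _
        · intro p hp
          simp at hp
      | insert k s hks ih =>
        intro hs m hm
        have hk : k ∈ t := hs (Finset.mem_insert_self k s)
        obtain ⟨η0, h1, h2, h3, h4, h5⟩ := ih (fun x hx => hs (Finset.mem_insert_of_mem hx))
          (m / 2) (half_pos hm)
        have hG0 : ContMDiff I 𝓘(ℝ, W) ∞ (fun q => G q + η0 q) := hG.add h1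
        have hG0odd : ∀ p, G (τ p) + η0 (τ p) = -(G p + η0 p) := by
          intro p; rw [hodd, h2, neg_add]
        obtain ⟨η1, k1, k2, k3, k4, k5⟩ := odd_step I hS hτ hττ hOτ hG0 hG0odd
          (hχ k (htD k hk)) (S := ⋃ k ∈ s, {q | 0 < χ k q ∨ 0 < χ k (τ q)})
          (by
            intro p hp
            rw [mem_iUnion₂] at hp ⊢
            obtain ⟨j, hj, h⟩ := hp
            refine ⟨j, hj, ?_⟩
            rw [mem_ofPred_eq] at h ⊢
            rw [hττ]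
            exact h.symm) h5 (half_pos hm)
        refine ⟨fun q => η0 q + η1 q, h1.add k1, ?_, ?_, ?_, ?_⟩
        · intro p
          change η0 (τ p) + η1 (τ p) = -(η0 p + η1 p)
          rw [h2, k2, neg_add]
        · intro p
          calc ‖η0 p + η1 p‖ ≤ ‖η0 p‖ + ‖η1 p‖ := norm_add_le _ _
            _ < m / 2 + m / 2 := add_lt_add (h3 p) (k3 p)
            _ = m := add_halves m
        · refine (closure_minimal ?_ ((isClosed_tsupport η0).union (isClosed_tsupport η1))).trans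
            (union_subset h4 k4)
          intro p hp
          by_contra hcon
          rw [mem_union, not_or] at hcon
          apply hp
          change η0 p + η1 p = 0
          rw [image_eq_zero_of_notMem_tsupport hcon.1, image_eq_zero_of_notMem_tsupport hcon.2,
            add_zero]
        · intro p hp h0
          rw [mem_iUnion₂] at hp
          obtain ⟨j, hj, h⟩ := hp
          have h0' : (G p + η0 p) + η1 p = 0 := by rw [add_assoc]; exact h0
          have := k5 p (by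
            rw [Finset.mem_insert] at hj
            rcases hj with rfl | hj
            · exact Or.inr h
            · left
              rw [mem_iUnion₂]
              exact ⟨j, hj, h⟩) h0'
          have e : (fun q => G q + (η0 q + η1 q)) = fun q => (G q + η0 q) + η1 q := by
            funext q; rw [add_assoc]
          rw [e]
          exact this
    exact main t (Finset.Subset.refl t)

end Closed

end Vale.Agent.P205.Top
end
end

section

/-!
Block TOP of P205: equal dimensional Sard on an open subset of a compact manifold.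
-/

open scoped Manifold ContDiff Topology RealInnerProductSpace
open Set Filter MeasureTheory Module

noncomputable section

namespace Vale.Agent.P205.Top

section Lin

variable {V W : Type*} [NormedAddCommGroup V] [NormedSpace ℝ V] [FiniteDimensional ℝ V]
  [NormedAddCommGroup W] [NormedSpace ℝ W] [FiniteDimensional ℝ W]

/-- equal dimensional Sard on an open subset of a linear space -/
theorem sard_lin [MeasurableSpace W] [BorelSpace W] (μ : Measure W) [μ.IsAddHaarMeasure]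
    (hd : finrank ℝ V = finrank ℝ W) {U : Set V} (hU : IsOpen U) {g : V → W}
    (hg : ContDiffOn ℝ 1 g U) :
    ∀ᵐ c ∂μ, ∀ z ∈ U, g z = c → Function.Injective (fderiv ℝ g z) := by
  set T : V ≃L[ℝ] W := ContinuousLinearEquiv.ofFinrankEq hd with hT
  set f : W → W := fun w => g (T.symm w) with hf
  set s : Set W := T.symm ⁻¹' U with hs
  have hso : IsOpen s := hU.preimage T.symm.continuous
  have hfd : ∀ w ∈ s, HasFDerivAt f ((fderiv ℝ g (T.symm w)).comp (T.symm : W →L[ℝ] V)) w := by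
    intro w hw
    have h1 : ContDiffAt ℝ 1 g (T.symm w) := hg.contDiffAt (hU.mem_nhds hw)
    exact (h1.differentiableAt one_ne_zero).hasFDerivAt.comp w T.symm.hasFDerivAt
  set s0 : Set W := {w ∈ s | ((fderiv ℝ g (T.symm w)).comp (T.symm : W →L[ℝ] V)).det = 0} with hs0
  have hnull : μ (f '' s0) = 0 := by
    refine addHaar_image_eq_zero_of_det_fderivWithin_eq_zero μ
      (f' := fun w => (fderiv ℝ g (T.symm w)).comp (T.symm : W →L[ℝ] V)) ?_ ?_
    · intro w hw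
      exact (hfd w hw.1).hasFDerivWithinAt
    · intro w hw
      exact hw.2
  have h2 : ∀ᵐ c ∂μ, c ∉ f '' s0 := measure_eq_zero_iff_ae_notMem.1 hnull
  filter_upwards [h2] with c hc z hz hgz
  have hzs : T z ∈ s := by simpa [hs] using hz
  have hfz : f (T z) = c := by simpa [hf] using hgz
  have hdet : ((fderiv ℝ g (T.symm (T z))).comp (T.symm : W →L[ℝ] V)).det ≠ 0 := fun h =>
    hc ⟨T z, ⟨hzs, h⟩, hfz⟩
  have hinj : Function.Injective ((fderiv ℝ g (T.symm (T z))).comp (T.symm : W →L[ℝ] V)) := by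
    have := ((fderiv ℝ g (T.symm (T z))).comp
      (T.symm : W →L[ℝ] V)).toContinuousLinearEquivOfDetNeZero hdet
    have h3 : Function.Injective (((fderiv ℝ g (T.symm (T z))).comp
      (T.symm : W →L[ℝ] V)).toContinuousLinearEquivOfDetNeZero hdet) :=
        ContinuousLinearEquiv.injective _
    exact h3
  rw [T.symm_apply_apply] at hinj
  intro u v huv
  have h4 := @hinj (T u) (T v) (by simpa using huv)
  exact T.injective h4

end Lin

section Mfd

variable {V W : Type*} [NormedAddCommGroup V] [NormedSpace ℝ V]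
  [NormedAddCommGroup W] [NormedSpace ℝ W]
  {H : Type*} [TopologicalSpace H] (I : ModelWithCorners ℝ V H) [I.Boundaryless]
  {N : Type*} [TopologicalSpace N] [ChartedSpace H N] [IsManifold I ∞ N]

/-- the derivative in a chart -/
theorem mfderiv_inj_of_chart {f : N → W} {x p : N} (hp : p ∈ (extChartAt I x).source)
    (hf : MDifferentiableAt I 𝓘(ℝ, W) f p)
    (hi : Function.Injective
      (fderiv ℝ (f ∘ (extChartAt I x).symm) (extChartAt I x p))) :
    Function.Injective (mfderiv I 𝓘(ℝ, W) f p) := by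
  set φ := extChartAt I x with hφ
  have hp' : p ∈ (chartAt H x).source := by rwa [extChartAt_source] at hp
  have hpt : φ p ∈ φ.target := φ.map_source hp
  have hs : φ.symm (φ p) = p := φ.left_inv hp
  have hφd : MDifferentiableAt I 𝓘(ℝ, V) φ p :=
    (contMDiffAt_extChartAt' (n := ∞) hp').mdifferentiableAt (by simp)
  have hφsd : MDifferentiableAt 𝓘(ℝ, V) I φ.symm (φ p) := by
    have h1 : ContMDiffOn 𝓘(ℝ, V) I ∞ φ.symm φ.target := contMDiffOn_extChartAt_symm x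
    have h2 : φ.target ∈ 𝓝 (φ p) := (isOpen_extChartAt_target x).mem_nhds hpt
    exact (h1.contMDiffAt h2).mdifferentiableAt (by simp)
  have hf' : MDifferentiableAt I 𝓘(ℝ, W) f (φ.symm (φ p)) := by rw [hs]; exact hf
  have hg : MDifferentiableAt 𝓘(ℝ, V) 𝓘(ℝ, W) (f ∘ φ.symm) (φ p) := hf'.comp _ hφsd
  have hφ0 : p ∈ (extChartAt I x).source := hp
  have h1 : mfderiv I 𝓘(ℝ, W) ((f ∘ φ.symm) ∘ φ) p = mfderiv I 𝓘(ℝ, W) f p := by
    refine Filter.EventuallyEq.mfderiv_eq ?_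
    filter_upwards [(isOpen_extChartAt_source (I := I) x).mem_nhds hφ0] with q hq
    simp only [Function.comp_apply, hφ, (extChartAt I x).left_inv hq]
  have h2 := mfderiv_comp p hg hφd
  rw [h1, mfderiv_eq_fderiv] at h2
  rw [h2]
  have h3 : Function.Injective (mfderiv I 𝓘(ℝ, V) φ p) :=
    (isInvertible_mfderiv_extChartAt hp).injective
  exact fun u v huv => h3 (hi huv)

end Mfd

section Closed

variable {V W : Type*} [NormedAddCommGroup V] [NormedSpace ℝ V] [FiniteDimensional ℝ V]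
  [NormedAddCommGroup W] [NormedSpace ℝ W] [FiniteDimensional ℝ W]
  {H : Type*} [TopologicalSpace H] (I : ModelWithCorners ℝ V H) [I.Boundaryless]
  {N : Type*} [TopologicalSpace N] [ChartedSpace H N] [IsManifold I ∞ N]
  [CompactSpace N] [T2Space N]

/-- S: Sard, equal dimensions, on an open subset of a compact manifold -/
theorem sard [MeasurableSpace W] [BorelSpace W] (μ : Measure W) [μ.IsAddHaarMeasure]
    (hd : finrank ℝ V = finrank ℝ W) {O : Set N} (hO : IsOpen O) {G : N → W}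
    (hG : ContMDiffOn I 𝓘(ℝ, W) ∞ G O) :
    ∀ᵐ c ∂μ, ∀ p ∈ O, G p = c → Function.Injective (mfderiv I 𝓘(ℝ, W) G p) := by
  obtain ⟨t, -, ht⟩ := isCompact_univ.elim_nhds_subcover (fun x : N => (extChartAt I x).source)
    (fun x _ => extChartAt_source_mem_nhds x)
  have h1 : ∀ x : N, ∀ᵐ c ∂μ, ∀ z ∈ (extChartAt I x).target ∩ (extChartAt I x).symm ⁻¹' O,
      (G ∘ (extChartAt I x).symm) z = c →
        Function.Injective (fderiv ℝ (G ∘ (extChartAt I x).symm) z) := by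
    intro x
    refine sard_lin μ hd ?_ ?_
    · exact (continuousOn_extChartAt_symm x).isOpen_inter_preimage (isOpen_extChartAt_target x) hO
    · rw [← contMDiffOn_iff_contDiffOn]
      have h2 : ContMDiffOn 𝓘(ℝ, V) I ∞ (extChartAt I x).symm (extChartAt I x).target :=
        contMDiffOn_extChartAt_symm x
      exact (hG.comp (h2.mono inter_subset_left) (fun z hz => hz.2)).of_le (by simp)
  have h3 : ∀ᵐ c ∂μ, ∀ x ∈ t, ∀ z ∈ (extChartAt I x).target ∩ (extChartAt I x).symm ⁻¹' O,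
      (G ∘ (extChartAt I x).symm) z = c →
        Function.Injective (fderiv ℝ (G ∘ (extChartAt I x).symm) z) :=
    (ae_ball_iff t.countable_toSet).2 fun x _ => h1 x
  filter_upwards [h3] with c hc p hp hGp
  obtain ⟨x, hx, hpx⟩ := mem_iUnion₂.1 (ht (mem_univ p))
  have hs : (extChartAt I x).symm (extChartAt I x p) = p := (extChartAt I x).left_inv hpx
  refine mfderiv_inj_of_chart I hpx ?_ (hc x hx (extChartAt I x p) ⟨?_, ?_⟩ ?_)
  · exact (hG.contMDiffAt (hO.mem_nhds hp)).mdifferentiableAt (by simp)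
  · exact (extChartAt I x).map_source hpx
  · rw [mem_preimage, hs]
    exact hp
  · rw [Function.comp_apply, hs]
    exact hGp

omit [FiniteDimensional ℝ V] [FiniteDimensional ℝ W] [IsManifold I ∞ N] [CompactSpace N]
  [T2Space N] in
/-- the derivative in the preferred chart -/
theorem mfderiv_eq_chart {f : N → W} {p : N} (hf : MDifferentiableAt I 𝓘(ℝ, W) f p) :
    mfderiv I 𝓘(ℝ, W) f p = fderiv ℝ (f ∘ (extChartAt I p).symm) (extChartAt I p p) := by
  rw [hf.mfderiv, I.range_eq_univ, fderivWithin_univ]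
  rfl

omit [FiniteDimensional ℝ V] [FiniteDimensional ℝ W] [IsManifold I ∞ N] [CompactSpace N]
  [T2Space N] in
theorem differentiableAt_chart {f : N → W} {p : N} (hf : MDifferentiableAt I 𝓘(ℝ, W) f p) :
    DifferentiableAt ℝ (f ∘ (extChartAt I p).symm) (extChartAt I p p) := by
  have h := hf.differentiableWithinAt_writtenInExtChartAt
  rw [I.range_eq_univ, differentiableWithinAt_univ] at h
  exact h

/-- S2: the ratio trick. `χ ≥ 0`; for almost every `c` all zeros of `G + χ c` in `{χ > 0}` are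
regular, and regular zeros of `G` on `{χ = 0}` remain regular. -/
theorem sard_add [MeasurableSpace W] [BorelSpace W] (μ : Measure W) [μ.IsAddHaarMeasure]
    (hd : finrank ℝ V = finrank ℝ W) {G : N → W} (hG : ContMDiff I 𝓘(ℝ, W) ∞ G)
    {χ : N → ℝ} (hχ : ContMDiff I 𝓘(ℝ, ℝ) ∞ χ) (h0 : ∀ p, 0 ≤ χ p) :
    ∀ᵐ c ∂μ, ∀ p, G p + χ p • c = 0 →
      (0 < χ p ∨ Function.Injective (mfderiv I 𝓘(ℝ, W) G p)) →
      Function.Injective (mfderiv I 𝓘(ℝ, W) (fun q => G q + χ q • c) p) := by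
  set O : Set N := {p | 0 < χ p} with hO
  have hOo : IsOpen O := isOpen_lt continuous_const hχ.continuous
  have hG' : ContMDiffOn I 𝓘(ℝ, W) ∞ (fun p => -((χ p)⁻¹ • G p)) O := by
    intro p hp
    have h1 : ContMDiffAt I 𝓘(ℝ, ℝ) ∞ (fun p => (χ p)⁻¹) p := by
      have h2 : ContDiffAt ℝ ∞ (fun t : ℝ => t⁻¹) (χ p) := contDiffAt_inv ℝ (ne_of_gt hp)
      exact h2.contMDiffAt.comp p (hχ p)
    exact ((h1.smul (hG p)).neg).contMDiffWithinAt
  filter_upwards [sard I μ hd hOo hG'] with c hc p hp hor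
  have hGd : MDifferentiableAt I 𝓘(ℝ, W) G p := (hG p).mdifferentiableAt (by simp)
  have hχd : MDifferentiableAt I 𝓘(ℝ, ℝ) χ p := (hχ p).mdifferentiableAt (by simp)
  have hsd : MDifferentiableAt I 𝓘(ℝ, W) (fun q => G q + χ q • c) p :=
    ((hG p).add ((hχ p).smul contMDiffAt_const)).mdifferentiableAt (by simp)
  have g1 := differentiableAt_chart I hGd
  have g2 : DifferentiableAt ℝ (χ ∘ (extChartAt I p).symm) (extChartAt I p p) :=
    differentiableAt_chart I hχd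
  have hpp : (extChartAt I p).symm (extChartAt I p p) = p := extChartAt_to_inv p
  have e1 : fderiv ℝ ((fun q => G q + χ q • c) ∘ (extChartAt I p).symm) (extChartAt I p p) =
      fderiv ℝ (G ∘ (extChartAt I p).symm) (extChartAt I p p) +
        (fderiv ℝ (χ ∘ (extChartAt I p).symm) (extChartAt I p p)).smulRight c := by
    exact (g1.hasFDerivAt.add (g2.hasFDerivAt.smul_const c)).fderiv
  rw [mfderiv_eq_chart I hsd, e1]
  by_cases hχp : 0 < χ p
  · have hinj := hc p hχp (by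
      have h5 : G p = -(χ p • c) := eq_neg_of_add_eq_zero_left hp
      simp only [h5, smul_neg, neg_neg]
      rw [smul_smul, inv_mul_cancel₀ (ne_of_gt hχp), one_smul])
    have hrd : MDifferentiableAt I 𝓘(ℝ, W) (fun p => -((χ p)⁻¹ • G p)) p :=
      (hG'.contMDiffAt (hOo.mem_nhds hχp)).mdifferentiableAt (by simp)
    rw [mfderiv_eq_chart I hrd] at hinj
    set z := extChartAt I p p with hz
    set gG : V → W := G ∘ (extChartAt I p).symm with hgG
    set gχ : V → ℝ := χ ∘ (extChartAt I p).symm with hgχ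
    have hgχz : gχ z = χ p := by simp only [hgχ, Function.comp_apply, hpp]
    have hgGz : gG z = G p := by simp only [hgG, Function.comp_apply, hpp]
    have hne : gχ z ≠ 0 := by rw [hgχz]; exact ne_of_gt hχp
    have e2 : HasFDerivAt (fun y => -((gχ y)⁻¹ • gG y))
        (-((gχ z)⁻¹ • fderiv ℝ gG z +
          ((-(gχ z ^ 2)⁻¹) • fderiv ℝ gχ z).smulRight (gG z))) z := by
      have h6 : HasFDerivAt (fun y => (gχ y)⁻¹) ((-(gχ z ^ 2)⁻¹) • fderiv ℝ gχ z) z :=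
        (hasDerivAt_inv hne).comp_hasFDerivAt z g2.hasFDerivAt
      exact (h6.smul g1.hasFDerivAt).neg
    have e3 : fderiv ℝ ((fun p => -((χ p)⁻¹ • G p)) ∘ (extChartAt I p).symm) z = _ := e2.fderiv
    rw [e3] at hinj
    have h5 : gG z = -(gχ z • c) := by
      rw [hgGz, hgχz]
      exact eq_neg_of_add_eq_zero_left hp
    intro u v huv
    apply hinj
    have h7 : ∀ u : V, (-((gχ z)⁻¹ • fderiv ℝ gG z +
          ((-(gχ z ^ 2)⁻¹) • fderiv ℝ gχ z).smulRight (gG z))) u =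
        (-(gχ z)⁻¹) • (fderiv ℝ gG z + (fderiv ℝ gχ z).smulRight c) u := by
      intro u
      simp only [neg_apply, add_apply, smul_apply,
        ContinuousLinearMap.smulRight_apply, h5, smul_neg,
        smul_add, smul_smul, neg_smul, neg_mul, neg_neg, neg_add, smul_eq_mul]
      have h8 : (gχ z ^ 2)⁻¹ * (fderiv ℝ gχ z) u * gχ z = (gχ z)⁻¹ * (fderiv ℝ gχ z) u := by
        field_simp
      rw [h8]
    exact (h7 u).trans ((congrArg (fun w : W => (-(gχ z)⁻¹) • w) huv).trans (h7 v).symm)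
  · have hχ0 : χ p = 0 := le_antisymm (not_lt.1 hχp) (h0 p)
    have hinj := hor.resolve_left hχp
    rw [mfderiv_eq_chart I hGd] at hinj
    have hmin : fderiv ℝ (χ ∘ (extChartAt I p).symm) (extChartAt I p p) = 0 := by
      refine IsLocalMin.fderiv_eq_zero ?_
      refine Filter.Eventually.of_forall fun y => ?_
      simp only [Function.comp_apply, hpp, hχ0]
      exact h0 _
    rw [hmin]
    have h9 : (0 : V →L[ℝ] ℝ).smulRight c = 0 := by
      ext u
      simp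
    rw [h9, add_zero]
    exact hinj

end Closed

end Vale.Agent.P205.Top
end
end

section

/-!
Block TOP of P205: odd functions can be made regular away from the fixed points (C2).
-/

open scoped Manifold ContDiff Topology RealInnerProductSpace
open Set Filter MeasureTheory Module

noncomputable section

namespace Vale.Agent.P205.Top

section Closed

variable {V W : Type*} [NormedAddCommGroup V] [NormedSpace ℝ V] [FiniteDimensional ℝ V]
  [NormedAddCommGroup W] [NormedSpace ℝ W] [FiniteDimensional ℝ W]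
  {H : Type*} [TopologicalSpace H] (I : ModelWithCorners ℝ V H) [I.Boundaryless]
  {N : Type*} [TopologicalSpace N] [ChartedSpace H N] [IsManifold I ∞ N]
  [CompactSpace N] [T2Space N]

/-- C2: odd functions can be made regular away from the fixed points -/
theorem odd_perturb (hd : finrank ℝ V = finrank ℝ W) {τ : N → N}
    (hτ : ContMDiff I I ∞ τ) (hττ : ∀ p, τ (τ p) = p) {G : N → W}
    (hG : ContMDiff I 𝓘(ℝ, W) ∞ G) (hodd : ∀ p, G (τ p) = - G p)
    {D O : Set N} (hD : IsCompact D) (hO : IsOpen O) (hDO : D ⊆ O) (hfix : ∀ p ∈ O, τ p ≠ p)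
    (hOτ : ∀ p ∈ O, τ p ∈ O) :
    ∃ D' : Set N, IsOpen D' ∧ D ⊆ D' ∧ D' ⊆ O ∧ ∀ m : ℝ, 0 < m →
      ∃ η : N → W, ContMDiff I 𝓘(ℝ, W) ∞ η ∧ (∀ p, η (τ p) = - η p) ∧ (∀ p, ‖η p‖ < m) ∧
        tsupport η ⊆ O ∧ ∀ p ∈ D', G p + η p = 0 →
        Function.Injective (mfderiv I 𝓘(ℝ, W) (fun q => G q + η q) p) := by
  let _ : MeasurableSpace W := borel W
  have _ : BorelSpace W := ⟨rfl⟩
  exact odd_perturb_of I (smallReg_of_ae I Measure.addHaar
    fun G hG χ hχ h0 => sard_add I Measure.addHaar hd hG hχ h0) hτ hττ hG hodd hD hO hDO hfix hOτ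

end Closed

end Vale.Agent.P205.Top
end
end

section

/-!
Block H of TOP (P205): the kink.

`w = (|z|^(2j) - b², 2 b Y, -2 b X) / D`, `v = (2 b Y, X² - Y² + b², 2 X Y)`, `D = |z|^(2j) + b²`,
`X + i Y = z ^ j`, `b` a bump function; `w` is a unit vector orthogonal to `v`. `W` is obtained by
integration of `w` in the real direction, with a compensation.
-/

open scoped Manifold ContDiff Topology RealInnerProductSpace Convolution
open Set Filter MeasureTheory Module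

noncomputable section

namespace Vale.Agent.P205.Top

namespace Kink

/-! ### Tail integrals -/

/-- the tail integral of a compactly supported smooth function depending on a parameter -/
def tl (θ : ℝ × ℝ → ℝ) (t : ℝ) (v : ℝ) : ℝ := ∫ s in Ioi t, θ (s, v)

theorem tl_eq_convolution (θ : ℝ × ℝ → ℝ) (t : ℝ) (v : ℝ) :
    tl θ t v = ((Iio (0 : ℝ)).indicator (fun _ => (1 : ℝ)) ⋆[ContinuousLinearMap.mul ℝ ℝ, volume]
      (fun s => θ (s, v))) t := by
  rw [tl, convolution_def]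
  rw [← integral_indicator measurableSet_Ioi]
  rw [← integral_sub_left_eq_self (fun s => (Ioi t).indicator (fun s => θ (s, v)) s) volume t]
  congr 1
  ext s
  by_cases hs : s < 0
  · have h1 : t - s ∈ Ioi t := by simp only [mem_Ioi]; linarith
    have h2 : s ∈ Iio (0 : ℝ) := hs
    rw [Set.indicator_of_mem h1, Set.indicator_of_mem h2]
    simp
  · have h1 : t - s ∉ Ioi t := by simp only [mem_Ioi]; linarith
    have h2 : s ∉ Iio (0 : ℝ) := hs
    rw [Set.indicator_of_notMem h1, Set.indicator_of_notMem h2]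
    simp

theorem contDiff_tl {θ : ℝ × ℝ → ℝ} (hθ : ContDiff ℝ ∞ θ) {a b : ℝ}
    (hab : ∀ s v, s ∉ Icc a b → θ (s, v) = 0) :
    ContDiff ℝ ∞ fun q : ℝ × ℝ => tl θ q.1 q.2 := by
  have hf : LocallyIntegrable ((Iio (0 : ℝ)).indicator (fun _ => (1 : ℝ))) volume := by
    apply LocallyIntegrable.indicator _ measurableSet_Iio
    exact locallyIntegrable_const 1
  have h := contDiffOn_convolution_right_with_param (𝕜 := ℝ) (n := ⊤) (μ := volume)
    (f := (Iio (0 : ℝ)).indicator (fun _ => (1 : ℝ)))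
    (ContinuousLinearMap.mul ℝ ℝ) (g := fun (v : ℝ) (s : ℝ) => θ (s, v)) (s := univ)
    (k := Icc a b) isOpen_univ isCompact_Icc (fun v s _ hs => hab s v hs) hf
    (by
      rw [univ_prod_univ, contDiffOn_univ]
      exact hθ.comp (contDiff_snd.prodMk contDiff_fst))
  rw [univ_prod_univ, contDiffOn_univ] at h
  have h2 := h.comp (contDiff_snd.prodMk contDiff_fst : ContDiff ℝ ∞ fun q : ℝ × ℝ => (q.2, q.1))
  convert h2 using 2 with q
  exact tl_eq_convolution θ q.1 q.2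

theorem integrable_of_supp {θ : ℝ × ℝ → ℝ} (hθ : Continuous θ) {a b : ℝ}
    (hab : ∀ s v, s ∉ Icc a b → θ (s, v) = 0) (v : ℝ) : Integrable (fun s => θ (s, v)) := by
  have hc : Continuous fun s => θ (s, v) := hθ.comp (continuous_id.prodMk continuous_const)
  apply hc.integrable_of_hasCompactSupport
  exact HasCompactSupport.intro isCompact_Icc (fun s hs => hab s v hs)

theorem hasDerivAt_tl {θ : ℝ × ℝ → ℝ} (hθ : Continuous θ) {a b : ℝ}
    (hab : ∀ s v, s ∉ Icc a b → θ (s, v) = 0) (t : ℝ) (v : ℝ) :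
    HasDerivAt (fun s => tl θ s v) (-θ (t, v)) t := by
  have hc : Continuous fun s => θ (s, v) := hθ.comp (continuous_id.prodMk continuous_const)
  have hint : Integrable (fun s => θ (s, v)) := integrable_of_supp hθ hab v
  have h1 : ∀ s, tl θ s v = (∫ r, θ (r, v)) - ∫ r in Iic s, θ (r, v) := by
    intro s
    have := integral_add_compl (s := Iic s) measurableSet_Iic hint
    rw [compl_Iic] at this
    rw [tl]
    linarith
  have h2 : ∀ s, ∫ r in Iic s, θ (r, v) = (∫ r in Iic t, θ (r, v)) + ∫ r in t..s, θ (r, v) := by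
    intro s
    have := intervalIntegral.integral_Iic_sub_Iic (a := t) (b := s) (μ := volume)
      hint.integrableOn hint.integrableOn
    linarith
  have h3 : (fun s => tl θ s v) = fun s => ((∫ r, θ (r, v)) - (∫ r in Iic t, θ (r, v)))
      - ∫ r in t..s, θ (r, v) := by
    ext s
    rw [h1, h2]
    ring
  rw [h3]
  have h4 : HasDerivAt (fun s => ∫ r in t..s, θ (r, v)) (θ (t, v)) t := by
    apply intervalIntegral.integral_hasDerivAt_right
    · exact hc.intervalIntegrable _ _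
    · exact hc.stronglyMeasurableAtFilter _ _
    · exact hc.continuousAt
  exact (h4.const_sub _).congr_deriv (by ring)

/-- below the support the tail integral is the full integral -/
theorem tl_low {θ : ℝ × ℝ → ℝ} {a b : ℝ} (hab : ∀ s v, s ∉ Icc a b → θ (s, v) = 0) {t : ℝ}
    (ht : t < a) (v : ℝ) : tl θ t v = ∫ s, θ (s, v) := by
  unfold tl
  rw [← integral_indicator measurableSet_Ioi]
  congr 1
  ext s
  by_cases hs : s ∈ Ioi t
  · rw [indicator_of_mem hs]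
  · rw [indicator_of_notMem hs, hab]
    intro h
    exact hs (lt_of_lt_of_le ht h.1)

/-- above the support the tail integral vanishes -/
theorem tl_high {θ : ℝ × ℝ → ℝ} {a b : ℝ} (hab : ∀ s v, s ∉ Icc a b → θ (s, v) = 0) {t : ℝ}
    (ht : b ≤ t) (v : ℝ) : tl θ t v = 0 := by
  unfold tl
  rw [setIntegral_congr_fun (g := fun _ => (0 : ℝ)) measurableSet_Ioi]
  · simp
  · intro s hs
    exact hab s v fun h => absurd (lt_of_le_of_lt ht hs) (not_lt.2 h.2)

/-! ### The compensation -/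

/-- the bump used for the compensation -/
def cb : ContDiffBump (20 : ℝ) := ⟨10, 15, by norm_num, by norm_num⟩

/-- the compensation function -/
def cc (x : ℝ) : ℝ := cb.normed volume x

theorem cc_smooth : ContDiff ℝ ∞ cc := cb.contDiff_normed

theorem cc_int : ∫ x, cc x = 1 := cb.integral_normed

theorem cc_nonneg (x : ℝ) : 0 ≤ cc x := cb.nonneg_normed x

theorem cc_le (x : ℝ) : cc x ≤ 1 / 20 := by
  have h := cb.normed_le_div_measure_closedBall_rIn (μ := volume) x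
  have h1 : (volume : Measure ℝ).real (Metric.closedBall 20 cb.rIn) = 20 := by
    rw [Real.volume_real_closedBall (by show (0 : ℝ) ≤ 10; norm_num)]
    show 2 * (10 : ℝ) = 20
    norm_num
  rw [h1] at h
  exact h

theorem cc_supp {x : ℝ} (hx : x ∉ Ioo (5 : ℝ) 35) : cc x = 0 := by
  have h := cb.support_normed_eq (μ := volume)
  by_contra h1
  have h2 : x ∈ Function.support (cb.normed volume) := h1
  rw [h, Real.ball_eq_Ioo] at h2
  apply hx
  have h3 : cb.rOut = 15 := rfl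
  rw [h3] at h2
  constructor
  · linarith [h2.1]
  · linarith [h2.2]

/-- the compensated primitive -/
theorem exists_prim {θ : ℝ × ℝ → ℝ} (hθ : ContDiff ℝ ∞ θ)
    (hs : ∀ s v, s ∉ Icc (-1 : ℝ) 1 → θ (s, v) = 0) (hy : ∀ s v, 1 ≤ |v| → θ (s, v) = 0)
    (hb : ∀ p, |θ p| ≤ 2) :
    ∃ (A : ℝ × ℝ → ℝ) (Δ : ℝ → ℝ), ContDiff ℝ ∞ A ∧
      (∀ x y, HasDerivAt (fun s => A (s, y)) (θ (x, y) - cc x * Δ y) x) ∧
      (∀ x y, 36 ≤ |x| ∨ 1 ≤ |y| → A (x, y) = 0) ∧ ∀ y, |Δ y| ≤ 4 := by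
  set Δ : ℝ → ℝ := fun y => ∫ s, θ (s, y) with hΔ
  have hΔs : ContDiff ℝ ∞ Δ := by
    have h1 : Δ = fun y => tl θ (-2) y := by
      funext y
      exact (tl_low hs (by norm_num) y).symm
    rw [h1]
    exact (contDiff_tl hθ hs).comp (contDiff_const.prodMk contDiff_id)
  set G : ℝ × ℝ → ℝ := fun p => θ p - cc p.1 * Δ p.2 with hG
  have hGs : ContDiff ℝ ∞ G :=
    hθ.sub ((cc_smooth.comp contDiff_fst).mul (hΔs.comp contDiff_snd))
  have hGab : ∀ s v, s ∉ Icc (-1 : ℝ) 35 → G (s, v) = 0 := by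
    intro s v h
    have h1 : θ (s, v) = 0 := hs s v fun h' => h ⟨h'.1, by linarith [h'.2]⟩
    have h2 : cc s = 0 := cc_supp fun h' => h ⟨by linarith [h'.1], h'.2.le⟩
    simp only [hG, h1, h2]
    ring
  have hGint : ∀ y, ∫ s, G (s, y) = 0 := by
    intro y
    have h1 : (fun s => G (s, y)) = fun s => θ (s, y) - cc s * Δ y := rfl
    rw [h1, integral_sub (integrable_of_supp hθ.continuous hs y), integral_mul_const, cc_int]
    · simp only [hΔ]
      ring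
    · apply Integrable.mul_const
      exact cb.integrable_normed
  refine ⟨fun p => -tl G p.1 p.2, Δ, (contDiff_tl hGs hGab).neg, ?_, ?_, ?_⟩
  · intro x y
    have h := (hasDerivAt_tl hGs.continuous hGab x y).neg
    rw [neg_neg] at h
    exact h
  · rintro x y (h | h)
    · rcases le_total 0 x with hx | hx
      · rw [abs_of_nonneg hx] at h
        show -tl G x y = 0
        rw [tl_high hGab (by linarith) y, neg_zero]
      · rw [abs_of_nonpos hx] at h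
        show -tl G x y = 0
        rw [tl_low hGab (by linarith) y, hGint, neg_zero]
    · have h1 : Δ y = 0 := by
        simp only [hΔ]
        rw [show (fun s => θ (s, y)) = fun _ => 0 from funext fun s => hy s y h]
        simp
      have h2 : ∀ s, G (s, y) = 0 := by
        intro s
        simp only [hG, hy s y h, h1]
        ring
      show -tl G x y = 0
      unfold tl
      simp [h2]
  · intro y
    simp only [hΔ]
    have h1 : ∫ s, θ (s, y) = ∫ s in Icc (-1 : ℝ) 1, θ (s, y) :=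
      (setIntegral_eq_integral_of_forall_compl_eq_zero fun s h => hs s y h).symm
    rw [h1, ← Real.norm_eq_abs]
    refine (norm_setIntegral_le_of_norm_le_const (C := 2) (by simp) fun s _ => hb (s, y)).trans ?_
    rw [Real.volume_real_Icc]
    norm_num

/-! ### The fields `w`, `v` -/

/-- the bump in the definition of `w`, `v` -/
def bb : ContDiffBump (0 : ℂ) := ⟨1 / 2, 1, by norm_num, by norm_num⟩

theorem bb_zero : bb 0 = 1 := bb.one_of_mem_closedBall (by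
  rw [Metric.mem_closedBall, dist_self]
  show (0 : ℝ) ≤ 1 / 2
  norm_num)

theorem bb_out {z : ℂ} (hz : 1 ≤ ‖z‖) : bb z = 0 := bb.zero_of_le_dist (by
  rw [dist_zero_right]
  exact hz)

section

variable (j : ℕ)

/-- `|z| ^ (2 j)` -/
def nq (z : ℂ) : ℝ := (z ^ j).re ^ 2 + (z ^ j).im ^ 2

def dn (z : ℂ) : ℝ := nq j z + bb z ^ 2

def w1 (z : ℂ) : ℝ := (nq j z - bb z ^ 2) / dn j z
def w2 (z : ℂ) : ℝ := 2 * bb z * (z ^ j).im / dn j z
def w3 (z : ℂ) : ℝ := -(2 * bb z * (z ^ j).re) / dn j z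
def v1 (z : ℂ) : ℝ := 2 * bb z * (z ^ j).im
def v2 (z : ℂ) : ℝ := (z ^ j).re ^ 2 - (z ^ j).im ^ 2 + bb z ^ 2
def v3 (z : ℂ) : ℝ := 2 * (z ^ j).re * (z ^ j).im

theorem nq_nonneg (z : ℂ) : 0 ≤ nq j z := by
  unfold nq
  positivity

theorem nq_pos {z : ℂ} (hz : z ≠ 0) : 0 < nq j z := by
  rcases (nq_nonneg j z).lt_or_eq with h | h
  · exact h
  · exfalso
    have h1 : (z ^ j).re ^ 2 + (z ^ j).im ^ 2 = 0 := h.symm
    have h2 : (z ^ j).re = 0 := by nlinarith [sq_nonneg (z ^ j).re, sq_nonneg (z ^ j).im]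
    have h3 : (z ^ j).im = 0 := by nlinarith [sq_nonneg (z ^ j).re, sq_nonneg (z ^ j).im]
    exact pow_ne_zero j hz (Complex.ext h2 h3)

theorem dn_pos (z : ℂ) : 0 < dn j z := by
  unfold dn
  by_cases hz : z = 0
  · subst hz
    rw [bb_zero]
    have := nq_nonneg j (0 : ℂ)
    linarith
  · have := nq_pos j hz
    have := sq_nonneg (bb z)
    linarith

theorem re_smooth : ContDiff ℝ ∞ fun z : ℂ => (z ^ j).re :=
  Complex.reCLM.contDiff.comp (contDiff_id.pow j)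

theorem im_smooth : ContDiff ℝ ∞ fun z : ℂ => (z ^ j).im :=
  Complex.imCLM.contDiff.comp (contDiff_id.pow j)

theorem bb_smooth : ContDiff ℝ ∞ fun z : ℂ => bb z := bb.contDiff

theorem nq_smooth : ContDiff ℝ ∞ (nq j) := ((re_smooth j).pow 2).add ((im_smooth j).pow 2)

theorem dn_smooth : ContDiff ℝ ∞ (dn j) := (nq_smooth j).add (bb_smooth.pow 2)

theorem w1_smooth : ContDiff ℝ ∞ (w1 j) :=
  ((nq_smooth j).sub (bb_smooth.pow 2)).div (dn_smooth j) fun z => (dn_pos j z).ne'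

theorem w2_smooth : ContDiff ℝ ∞ (w2 j) :=
  ((contDiff_const.mul bb_smooth).mul (im_smooth j)).div (dn_smooth j) fun z => (dn_pos j z).ne'

theorem w3_smooth : ContDiff ℝ ∞ (w3 j) :=
  ((contDiff_const.mul bb_smooth).mul (re_smooth j)).neg.div (dn_smooth j)
    fun z => (dn_pos j z).ne'

theorem v1_smooth : ContDiff ℝ ∞ (v1 j) := (contDiff_const.mul bb_smooth).mul (im_smooth j)

theorem v2_smooth : ContDiff ℝ ∞ (v2 j) :=
  (((re_smooth j).pow 2).sub ((im_smooth j).pow 2)).add (bb_smooth.pow 2)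

theorem v3_smooth : ContDiff ℝ ∞ (v3 j) := (contDiff_const.mul (re_smooth j)).mul (im_smooth j)

theorem w_norm (z : ℂ) : w1 j z ^ 2 + w2 j z ^ 2 + w3 j z ^ 2 = 1 := by
  have h := (dn_pos j z).ne'
  have h1 : dn j z = (z ^ j).re ^ 2 + (z ^ j).im ^ 2 + bb z ^ 2 := rfl
  unfold w1 w2 w3 nq
  field_simp
  rw [h1]
  ring

theorem w_orth (z : ℂ) : w1 j z * v1 j z + w2 j z * v2 j z + w3 j z * v3 j z = 0 := by
  have h := (dn_pos j z).ne'
  unfold w1 w2 w3 v1 v2 v3 nq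
  field_simp
  ring

theorem v_norm (z : ℂ) : v1 j z ^ 2 + v2 j z ^ 2 + v3 j z ^ 2 = dn j z ^ 2 := by
  unfold v1 v2 v3 dn nq
  ring

theorem w1_out {z : ℂ} (hz : 1 ≤ ‖z‖) : w1 j z = 1 := by
  have h0 : z ≠ 0 := by
    rintro rfl
    rw [norm_zero] at hz
    linarith
  unfold w1 dn
  rw [bb_out hz]
  have := (nq_pos j h0).ne'
  rw [zero_pow two_ne_zero, sub_zero, add_zero, div_self this]

theorem w2_out {z : ℂ} (hz : 1 ≤ ‖z‖) : w2 j z = 0 := by
  unfold w2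
  rw [bb_out hz]
  simp

theorem w3_out {z : ℂ} (hz : 1 ≤ ‖z‖) : w3 j z = 0 := by
  unfold w3
  rw [bb_out hz]
  simp

theorem v1_out {z : ℂ} (hz : 1 ≤ ‖z‖) : v1 j z = 0 := by
  unfold v1
  rw [bb_out hz]
  simp

theorem v23_out {z : ℂ} (hz : 1 ≤ ‖z‖) : (⟨v2 j z, v3 j z⟩ : ℂ) = z ^ (2 * j) := by
  unfold v2 v3
  rw [bb_out hz, mul_comm 2 j, pow_mul, sq (z ^ j)]
  apply Complex.ext
  · rw [Complex.mul_re]
    ring
  · rw [Complex.mul_im]
    ring

theorem w_bound (z : ℂ) : |w1 j z - 1| ≤ 2 ∧ |w2 j z| ≤ 2 ∧ |w3 j z| ≤ 2 := by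
  have h := w_norm j z
  have h1 := sq_nonneg (w1 j z)
  have h2 := sq_nonneg (w2 j z)
  have h3 := sq_nonneg (w3 j z)
  refine ⟨?_, ?_, ?_⟩
  · have : |w1 j z| ≤ 1 := abs_le_one_iff_mul_self_le_one.2 (by linarith only [h3, h2, h])
    rw [abs_le] at this ⊢
    constructor <;> linarith [this.1, this.2]
  · have : |w2 j z| ≤ 1 := abs_le_one_iff_mul_self_le_one.2 (by linarith only [h3, h1, h])
    linarith
  · have : |w3 j z| ≤ 1 := abs_le_one_iff_mul_self_le_one.2 (by linarith only [h2, h1, h])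
    linarith

end

/-- points of the plane -/
def mkc (p : ℝ × ℝ) : ℂ := Complex.equivRealProdCLM.symm p

theorem mkc_smooth : ContDiff ℝ ∞ mkc := Complex.equivRealProdCLM.symm.contDiff

theorem mkc_re (p : ℝ × ℝ) : (mkc p).re = p.1 := rfl

theorem mkc_im (p : ℝ × ℝ) : (mkc p).im = p.2 := rfl

theorem mkc_norm1 {p : ℝ × ℝ} (h : 1 ≤ |p.1|) : 1 ≤ ‖mkc p‖ :=
  h.trans ((mkc_re p) ▸ Complex.abs_re_le_norm (mkc p))

theorem mkc_norm2 {p : ℝ × ℝ} (h : 1 ≤ |p.2|) : 1 ≤ ‖mkc p‖ :=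
  h.trans ((mkc_im p) ▸ Complex.abs_im_le_norm (mkc p))

theorem abs_of_notMem {s : ℝ} (h : s ∉ Icc (-1 : ℝ) 1) : 1 ≤ |s| := by
  by_contra h1
  rw [not_le, abs_lt] at h1
  exact h ⟨h1.1.le, h1.2.le⟩

theorem hasDerivAt_mkc {a b : ℝ → ℝ} {a' b' x : ℝ} (ha : HasDerivAt a a' x)
    (hb : HasDerivAt b b' x) : HasDerivAt (fun s => mkc (a s, b s)) (mkc (a', b')) x :=
  Complex.equivRealProdCLM.symm.toContinuousLinearMap.hasFDerivAt.comp_hasDerivAt x
    (ha.prodMk hb)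

end Kink

open Kink in
/-- H -/
theorem exists_kink (j : ℕ) : ∃ (R : ℝ) (W ζ : ℂ → ℂ × ℂ), 0 < R ∧ ContDiff ℝ ∞ W ∧
    ContDiff ℝ ∞ ζ ∧ (∀ z, R ≤ ‖z‖ → W z = (z, 0)) ∧ (∀ z, R ≤ ‖z‖ → ζ z = (0, z ^ (2 * j))) ∧
    (∀ z, Function.Injective (fderiv ℝ W z)) ∧ ∀ z u, fderiv ℝ W z u ≠ ζ z := by
  obtain ⟨A1, Δ1, hA1, hd1, hz1, hΔ1⟩ := exists_prim (θ := fun p => w1 j (mkc p) - 1)
    (((w1_smooth j).comp mkc_smooth).sub contDiff_const)
    (fun s v h => by rw [w1_out j (mkc_norm1 (abs_of_notMem h)), sub_self])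
    (fun s v h => by rw [w1_out j (mkc_norm2 h), sub_self]) (fun p => (w_bound j (mkc p)).1)
  obtain ⟨A2, Δ2, hA2, hd2, hz2, -⟩ := exists_prim (θ := fun p => w2 j (mkc p))
    ((w2_smooth j).comp mkc_smooth)
    (fun s v h => w2_out j (mkc_norm1 (abs_of_notMem h)))
    (fun s v h => w2_out j (mkc_norm2 h)) (fun p => (w_bound j (mkc p)).2.1)
  obtain ⟨A3, Δ3, hA3, hd3, hz3, -⟩ := exists_prim (θ := fun p => w3 j (mkc p))
    ((w3_smooth j).comp mkc_smooth)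
    (fun s v h => w3_out j (mkc_norm1 (abs_of_notMem h)))
    (fun s v h => w3_out j (mkc_norm2 h)) (fun p => (w_bound j (mkc p)).2.2)
  have hri : ContDiff ℝ ∞ fun z : ℂ => (z.re, z.im) := Complex.equivRealProdCLM.contDiff
  set W : ℂ → ℂ × ℂ := fun z => (mkc (z.re + A1 (z.re, z.im), z.im),
    mkc (A2 (z.re, z.im), A3 (z.re, z.im))) with hW
  have hWs : ContDiff ℝ ∞ W := by
    refine (mkc_smooth.comp (ContDiff.prodMk ?_ ?_)).prodMk
      (mkc_smooth.comp ((hA2.comp hri).prodMk (hA3.comp hri)))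
    · exact Complex.reCLM.contDiff.add (hA1.comp hri)
    · exact Complex.imCLM.contDiff
  have hWd : ∀ z, HasFDerivAt W (fderiv ℝ W z) z := fun z =>
    (hWs.differentiable (by simp) z).hasFDerivAt
  -- imaginary part of the first component
  have him : ∀ z u, (fderiv ℝ W z u).1.im = u.im := by
    intro z u
    have h1 : HasFDerivAt (fun z => (W z).1.im)
        ((Complex.imCLM.comp (ContinuousLinearMap.fst ℝ ℂ ℂ)).comp (fderiv ℝ W z)) z :=
      (Complex.imCLM.comp (ContinuousLinearMap.fst ℝ ℂ ℂ)).hasFDerivAt.comp z (hWd z)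
    have h2 : HasFDerivAt (fun z => (W z).1.im) Complex.imCLM z := Complex.imCLM.hasFDerivAt
    have h3 := h1.unique h2
    exact congrArg (fun L : ℂ →L[ℝ] ℝ => L u) h3
  -- derivative in the real direction
  have hre : ∀ z, fderiv ℝ W z 1 =
      (mkc (1 + (w1 j z - 1 - cc z.re * Δ1 z.im), 0),
        mkc (w2 j z - cc z.re * Δ2 z.im, w3 j z - cc z.re * Δ3 z.im)) := by
    intro z
    have h0 : mkc (z.re, z.im) = z := rfl
    have hγ : HasDerivAt (fun s : ℝ => mkc (s, z.im)) 1 z.re := by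
      have := hasDerivAt_mkc (hasDerivAt_id z.re) (hasDerivAt_const z.re z.im)
      exact this
    have h1 : HasDerivAt (fun s : ℝ => W (mkc (s, z.im))) (fderiv ℝ W z 1) z.re := by
      have h2 : HasFDerivAt W (fderiv ℝ W z) (mkc (z.re, z.im)) := by
        rw [h0]
        exact hWd z
      exact h2.comp_hasDerivAt z.re hγ
    have h2 : HasDerivAt (fun s : ℝ => W (mkc (s, z.im)))
        (mkc (1 + (w1 j z - 1 - cc z.re * Δ1 z.im), 0),
        mkc (w2 j z - cc z.re * Δ2 z.im, w3 j z - cc z.re * Δ3 z.im)) z.re := by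
      refine HasDerivAt.prodMk (hasDerivAt_mkc ?_ ?_) (hasDerivAt_mkc ?_ ?_)
      · exact (hasDerivAt_id z.re).add (hd1 z.re z.im)
      · exact hasDerivAt_const z.re z.im
      · exact hd2 z.re z.im
      · exact hd3 z.re z.im
    exact h1.unique h2
  -- `u` with zero imaginary part
  have hu : ∀ z u, u.im = 0 → fderiv ℝ W z u = u.re • fderiv ℝ W z 1 := by
    intro z u h
    have : u = u.re • (1 : ℂ) := by
      apply Complex.ext
      · simp
      · simp [h]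
    conv_lhs => rw [this]
    exact map_smul _ _ _
  -- the key: no multiple of the derivative is `ζ`
  have key : ∀ z (t e : ℝ), t • fderiv ℝ W z 1 = e • (mkc (v1 j z, 0), mkc (v2 j z, v3 j z)) →
      t = 0 ∧ e = 0 := by
    intro z t e h
    rw [hre] at h
    have e1 : t * (1 + (w1 j z - 1 - cc z.re * Δ1 z.im)) = e * v1 j z := by
      have := congrArg (fun q : ℂ × ℂ => q.1.re) h
      simpa [mkc_re] using this
    have e2 : t * (w2 j z - cc z.re * Δ2 z.im) = e * v2 j z := by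
      have := congrArg (fun q : ℂ × ℂ => q.2.re) h
      simpa [mkc_re] using this
    have e3 : t * (w3 j z - cc z.re * Δ3 z.im) = e * v3 j z := by
      have := congrArg (fun q : ℂ × ℂ => q.2.im) h
      simpa [mkc_im] using this
    have hdn := dn_pos j z
    have hv := v_norm j z
    have hfin : t = 0 → e = 0 := by
      intro ht
      rw [ht, zero_mul] at e1 e2 e3
      by_contra he
      have f1 : v1 j z = 0 := by
        rcases mul_eq_zero.1 e1.symm with h' | h'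
        · exact absurd h' he
        · exact h'
      have f2 : v2 j z = 0 := by
        rcases mul_eq_zero.1 e2.symm with h' | h'
        · exact absurd h' he
        · exact h'
      have f3 : v3 j z = 0 := by
        rcases mul_eq_zero.1 e3.symm with h' | h'
        · exact absurd h' he
        · exact h'
      rw [f1, f2, f3] at hv
      have : 0 < dn j z ^ 2 := by positivity
      norm_num at hv
      rw [← hv] at this
      exact lt_irrefl _ this
    have ht : t = 0 := by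
      by_cases hc : cc z.re = 0
      · rw [hc] at e1 e2 e3
        have h1 := w_norm j z
        have h2 := w_orth j z
        have h3 : t * (w1 j z ^ 2 + w2 j z ^ 2 + w3 j z ^ 2) =
            e * (w1 j z * v1 j z + w2 j z * v2 j z + w3 j z * v3 j z) := by
          linear_combination w1 j z * e1 + w2 j z * e2 + w3 j z * e3
        rw [h1, h2] at h3
        simpa using h3
      · have hx : z.re ∈ Ioo (5 : ℝ) 35 := by
          by_contra h'
          exact hc (cc_supp h')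
        have hz : 1 ≤ ‖z‖ := by
          have := Complex.abs_re_le_norm z
          have h5 : 5 < z.re := hx.1
          have := le_abs_self z.re
          linarith
        rw [w1_out j hz, v1_out j hz, mul_zero] at e1
        have h4 : |cc z.re * Δ1 z.im| ≤ 1 / 5 := by
          rw [abs_mul, abs_of_nonneg (cc_nonneg _)]
          calc cc z.re * |Δ1 z.im| ≤ (1 / 20) * 4 :=
                mul_le_mul (cc_le _) (hΔ1 _) (abs_nonneg _) (by norm_num)
            _ = 1 / 5 := by norm_num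
        have h5 := (abs_le.1 h4).2
        rcases mul_eq_zero.1 e1 with h' | h'
        · exact h'
        · exfalso
          linarith
    exact ⟨ht, hfin ht⟩
  refine ⟨50, W, fun z => (mkc (v1 j z, 0), mkc (v2 j z, v3 j z)), by norm_num, hWs, ?_, ?_, ?_,
    ?_, ?_⟩
  · exact (mkc_smooth.comp ((v1_smooth j).prodMk contDiff_const)).prodMk
      (mkc_smooth.comp ((v2_smooth j).prodMk (v3_smooth j)))
  · intro z hz
    have h : 36 ≤ |z.re| ∨ 1 ≤ |z.im| := by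
      by_contra h'
      rw [not_or, not_le, not_le] at h'
      have := Complex.norm_le_abs_re_add_abs_im z
      linarith [h'.1, h'.2]
    simp only [hW]
    rw [hz1 _ _ h, hz2 _ _ h, hz3 _ _ h, add_zero]
    rfl
  · intro z hz
    have hz' : 1 ≤ ‖z‖ := by linarith
    show (mkc (v1 j z, 0), mkc (v2 j z, v3 j z)) = (0, z ^ (2 * j))
    rw [v1_out j hz', ← v23_out j hz']
    rfl
  · intro z
    rw [injective_iff_map_eq_zero]
    intro u h
    have h1 : u.im = 0 := by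
      rw [← him z u, h]
      rfl
    rw [hu z u h1] at h
    have h2 := (key z u.re 0 (by rw [h, zero_smul])).1
    exact Complex.ext h2 h1
  · intro z u h
    have h1 : u.im = 0 := by
      rw [← him z u, h]
      rfl
    rw [hu z u h1] at h
    have h2 := (key z u.re 1 (by rw [h, one_smul])).2
    exact one_ne_zero h2

end Vale.Agent.P205.Top
end
end
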