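import Mathlib

set_option linter.all false

section

/-!
Generic members of a linear family have isolated zeros (equal dimensional Sard).
-/

open MeasureTheory Set Filter Module
open scoped Topology ContDiff

namespace Vale.Agent.P205.TW

variable {E F Op : Type*}
  [NormedAddCommGroup E] [NormedSpace ℝ E] [FiniteDimensional ℝ E]
  [NormedAddCommGroup F] [NormedSpace ℝ F] [FiniteDimensional ℝ F]
  [NormedAddCommGroup Op] [NormedSpace ℝ Op] [FiniteDimensional ℝ Op]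

/-- equal dimensional Sard together with the inverse function theorem: for almost every value `B`
the solutions of `f z = B` in the open set `s` are isolated -/
theorem ae_isolated_of_contDiffOn [MeasurableSpace Op] [BorelSpace Op] (μ : Measure Op)
    [μ.IsAddHaarMeasure] {s : Set Op} (hs : IsOpen s) {f : Op → Op} (hf : ContDiffOn ℝ 1 f s) :
    ∀ᵐ B ∂μ, ∀ z ∈ s, f z = B → ∀ᶠ y in 𝓝 z, f y = B → y = z := by
  set s0 : Set Op := {z ∈ s | (fderiv ℝ f z).det = 0} with hs0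
  have hnull : μ (f '' s0) = 0 := by
    refine addHaar_image_eq_zero_of_det_fderivWithin_eq_zero μ (f' := fun z => fderiv ℝ f z) ?_ ?_
    · intro z hz
      have h1 : ContDiffAt ℝ 1 f z := hf.contDiffAt (hs.mem_nhds hz.1)
      exact (h1.differentiableAt one_ne_zero).hasFDerivAt.hasFDerivWithinAt
    · intro z hz
      exact hz.2
  have h2 : ∀ᵐ B ∂μ, B ∉ f '' s0 := measure_eq_zero_iff_ae_notMem.1 hnull
  filter_upwards [h2] with B hB z hz hfz
  have hdet : (fderiv ℝ f z).det ≠ 0 := fun h => hB ⟨z, ⟨hz, h⟩, hfz⟩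
  have h1 : ContDiffAt ℝ 1 f z := hf.contDiffAt (hs.mem_nhds hz)
  have hstrict : HasStrictFDerivAt f (fderiv ℝ f z) z := h1.hasStrictFDerivAt one_ne_zero
  set e : Op ≃L[ℝ] Op := (fderiv ℝ f z).toContinuousLinearEquivOfDetNeZero hdet with he
  have hstrict' : HasStrictFDerivAt f (e : Op →L[ℝ] Op) z := by
    have : (e : Op →L[ℝ] Op) = fderiv ℝ f z := by
      ext v
      simp [he]
    rw [this]
    exact hstrict
  set φ := hstrict'.toOpenPartialHomeomorph f with hφ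
  have hz' : z ∈ φ.source := hstrict'.mem_toOpenPartialHomeomorph_source
  filter_upwards [φ.open_source.mem_nhds hz'] with y hy hfy
  have hc : ∀ w, φ w = f w := fun w => rfl
  exact φ.injOn hy hz' (by rw [hc, hc, hfy, hfz])

/-- local version near `x0` of `ae_isolated` -/
theorem ae_isolated_local [MeasurableSpace Op] [BorelSpace Op] (μ : Measure Op)
    [μ.IsAddHaarMeasure] (hdim : finrank ℝ F = finrank ℝ E) {V : Set E} (hV : IsOpen V)
    (L : E → (Op →L[ℝ] F)) (hL : ContDiffOn ℝ 1 L V) (x0 : E) (hx0 : x0 ∈ V)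
    (hs : Function.Surjective (L x0)) :
    ∃ V' ∈ 𝓝 x0, ∀ᵐ B ∂μ, ∀ x ∈ V', L x B = 0 → ∀ᶠ y in 𝓝 x, L y B = 0 → y = x := by
  classical
  -- right inverse of `L x0`
  obtain ⟨R, hR⟩ := (L x0 : Op →ₗ[ℝ] F).exists_rightInverse_of_surjective
    (LinearMap.range_eq_top.2 hs)
  set R0 : F →L[ℝ] Op := LinearMap.toContinuousLinearMap R with hR0
  have hLR : ∀ y, L x0 (R0 y) = y := by
    intro y
    have := congrArg (fun g => g y) hR
    simpa [hR0] using this
  set A : E → (F →L[ℝ] F) := fun x => (L x).comp R0 with hA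
  have hA0 : A x0 = 1 := by
    ext y
    simp [hA, hLR]
  have hAc : ContDiffOn ℝ 1 A V := by
    have : ContDiff ℝ 1 (fun T : Op →L[ℝ] F => T.comp R0) :=
      (ContinuousLinearMap.compL ℝ F Op F).flip R0 |>.contDiff
    exact this.comp_contDiffOn hL
  -- the open set where `A x` is invertible
  have hAcont : ContinuousAt A x0 := (hAc.continuousOn.continuousAt (hV.mem_nhds hx0))
  have hunit : ∀ᶠ x in 𝓝 x0, IsUnit (A x) := by
    have h1 : {T : F →L[ℝ] F | IsUnit T} ∈ 𝓝 (A x0) :=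
      Units.isOpen.mem_nhds (by simp [hA0])
    exact hAcont h1
  obtain ⟨V', hV'sub, hV'o, hx0'⟩ := mem_nhds_iff.1
    (Filter.inter_mem (hV.mem_nhds hx0) hunit)
  set K0 : Submodule ℝ Op := LinearMap.ker (L x0 : Op →ₗ[ℝ] F) with hK0
  have hfin : finrank ℝ (E × K0) = finrank ℝ Op := by
    have h1 : finrank ℝ F + finrank ℝ K0 = finrank ℝ Op := by
      have h2 := LinearMap.finrank_range_add_finrank_ker (L x0 : Op →ₗ[ℝ] F)
      rwa [LinearMap.range_eq_top.2 hs, finrank_top] at h2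
    rw [Module.finrank_prod]
    omega
  set T : (E × K0) ≃L[ℝ] Op := ContinuousLinearEquiv.ofFinrankEq hfin with hT
  set h : E × K0 → Op := fun z =>
    (z.2 : Op) - R0 (Ring.inverse (A z.1) (L z.1 (z.2 : Op))) with hh
  have hhc : ContDiffOn ℝ 1 h (V' ×ˢ univ) := by
    intro z hz
    have hzV : z.1 ∈ V ∧ IsUnit (A z.1) := hV'sub hz.1
    have h1 : ContDiffAt ℝ 1 (fun z : E × K0 => L z.1) z :=
      (hL.contDiffAt (hV.mem_nhds hzV.1)).comp z contDiffAt_fst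
    have h2 : ContDiffAt ℝ 1 (fun z : E × K0 => (z.2 : Op)) z :=
      (K0.subtypeL.contDiff.contDiffAt).comp z contDiffAt_snd
    have h3 : ContDiffAt ℝ 1 (fun z : E × K0 => A z.1) z :=
      (hAc.contDiffAt (hV.mem_nhds hzV.1)).comp z contDiffAt_fst
    obtain ⟨u, hu⟩ := hzV.2
    have h4 : ContDiffAt ℝ 1 (fun z : E × K0 => Ring.inverse (A z.1)) z := by
      have h5 : ContDiffAt ℝ 1 (Ring.inverse : (F →L[ℝ] F) → (F →L[ℝ] F)) (A z.1) := by
        rw [← hu]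
        exact contDiffAt_ringInverse ℝ u
      exact h5.comp z h3
    have h6 : ContDiffAt ℝ 1 (fun z : E × K0 => L z.1 (z.2 : Op)) z := h1.clm_apply h2
    have h7 : ContDiffAt ℝ 1 (fun z : E × K0 => Ring.inverse (A z.1) (L z.1 (z.2 : Op))) z :=
      h4.clm_apply h6
    have h8 : ContDiffAt ℝ 1
        (fun z : E × K0 => R0 (Ring.inverse (A z.1) (L z.1 (z.2 : Op)))) z :=
      R0.contDiff.contDiffAt.comp z h7
    exact (h2.sub h8).contDiffWithinAt
  -- main identity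
  have key : ∀ B : Op, ∃ C : K0, ∀ x ∈ V', L x B = 0 → h (x, C) = B := by
    intro B
    have hC : B - R0 (L x0 B) ∈ K0 := by
      rw [hK0, LinearMap.mem_ker]
      simp [hLR]
    refine ⟨⟨B - R0 (L x0 B), hC⟩, fun x hx hLB => ?_⟩
    have hu : IsUnit (A x) := (hV'sub hx).2
    have h1 : L x (B - R0 (L x0 B)) = - A x (L x0 B) := by
      rw [map_sub, hLB]
      simp [hA]
    have h2 : Ring.inverse (A x) (L x (B - R0 (L x0 B))) = - L x0 B := by
      rw [h1, map_neg]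
      have h3 : Ring.inverse (A x) * A x = 1 := Ring.inverse_mul_cancel _ hu
      have h4 := congrArg (fun g : F →L[ℝ] F => g (L x0 B)) h3
      simpa using h4
    simp only [hh]
    rw [h2]
    simp
  have key2 : ∀ x ∈ V', ∀ C : K0, L x (h (x, C)) = 0 := by
    intro x hx C
    have hu : IsUnit (A x) := (hV'sub hx).2
    have h3 : A x * Ring.inverse (A x) = 1 := Ring.mul_inverse_cancel _ hu
    have h4 := congrArg (fun g : F →L[ℝ] F => g (L x (C : Op))) h3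
    have h5 : L x (R0 (Ring.inverse (A x) (L x (C : Op)))) = L x (C : Op) := by
      simpa [hA] using h4
    simp only [hh]
    rw [map_sub, h5, sub_self]
  -- transport to `Op`
  set s : Set Op := T.symm ⁻¹' (V' ×ˢ univ) with hsdef
  have hso : IsOpen s := (hV'o.prod isOpen_univ).preimage T.symm.continuous
  set f : Op → Op := fun z => h (T.symm z) with hf
  have hfc : ContDiffOn ℝ 1 f s :=
    hhc.comp T.symm.contDiff.contDiffOn (fun z hz => hz)
  refine ⟨V', hV'o.mem_nhds hx0', ?_⟩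
  filter_upwards [ae_isolated_of_contDiffOn μ hso hfc] with B hB x hx hLB
  obtain ⟨C, hC⟩ := key B
  have hz : T (x, C) ∈ s := by
    simp [hsdef, hx]
  have hfz : f (T (x, C)) = B := by
    simp only [hf, ContinuousLinearEquiv.symm_apply_apply]
    exact hC x hx hLB
  have h1 := hB (T (x, C)) hz hfz
  have hcont : Tendsto (fun y : E => T (y, C)) (𝓝 x) (𝓝 (T (x, C))) :=
    (T.continuous.comp (by fun_prop : Continuous fun y : E => (y, C))).tendsto x
  filter_upwards [hcont.eventually h1, hV'o.mem_nhds hx] with y hy hyV hLy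
  have h2 : f (T (y, C)) = B := by
    simp only [hf, ContinuousLinearEquiv.symm_apply_apply]
    exact hC y hyV hLy
  have h3 := hy h2
  have h4 := T.injective h3
  exact (Prod.ext_iff.1 h4).1

/-- **generic members have isolated zeros** -/
theorem ae_isolated [MeasurableSpace Op] [BorelSpace Op] (μ : Measure Op)
    [μ.IsAddHaarMeasure] (hdim : finrank ℝ F = finrank ℝ E) {V : Set E} (hV : IsOpen V)
    (L : E → (Op →L[ℝ] F)) (hL : ContDiffOn ℝ 1 L V)
    (hs : ∀ x ∈ V, Function.Surjective (L x)) :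
    ∀ᵐ B ∂μ, ∀ x ∈ V, L x B = 0 → ∀ᶠ y in 𝓝 x, L y B = 0 → y = x := by
  choose! V' hV' hae using fun x0 hx0 => ae_isolated_local μ hdim hV L hL x0 hx0 (hs x0 hx0)
  obtain ⟨t, htV, htc, hcov⟩ := TopologicalSpace.countable_cover_nhdsWithin
    (f := V') (s := V) (fun x hx => mem_nhdsWithin_of_mem_nhds (hV' x hx))
  have h1 : ∀ᵐ B ∂μ, ∀ x0 ∈ t, ∀ x ∈ V' x0, L x B = 0 → ∀ᶠ y in 𝓝 x, L y B = 0 → y = x :=
    (ae_ball_iff htc).2 fun x0 hx0 => hae x0 (htV hx0)
  filter_upwards [h1] with B hB x hx hLB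
  obtain ⟨x0, hx0, hxx⟩ := mem_iUnion₂.1 (hcov hx)
  exact hB x0 hx0 x hxx hLB

end Vale.Agent.P205.TW
end

section

/-!
Pointwise real algebra for the pieces of T1 (P205): Gram determinants in `ℝ⁴` and the nine
integer directions.
-/

namespace Vale.Agent.P205.PC

/-- the inner product of `ℝ⁴` -/
def dR (x y : Fin 4 → ℝ) : ℝ := ∑ i, x i * y i

/-- the Gram determinant of three vectors -/
def gR (x y z : Fin 4 → ℝ) : ℝ :=
  dR x x * (dR y y * dR z z - dR y z * dR y z)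
    - dR x y * (dR x y * dR z z - dR y z * dR x z)
    + dR x z * (dR x y * dR y z - dR y y * dR x z)

/-- a `3 × 3` minor -/
def mi (i j k : Fin 4) (x y z : Fin 4 → ℝ) : ℝ :=
  x i * (y j * z k - y k * z j) - x j * (y i * z k - y k * z i) + x k * (y i * z j - y j * z i)

/-- the four minors -/
def M (m : Fin 4) (x y z : Fin 4 → ℝ) : ℝ :=
  match m with
  | 0 => mi 1 2 3 x y z
  | 1 => mi 0 2 3 x y z
  | 2 => mi 0 1 3 x y z
  | 3 => mi 0 1 2 x y z

theorem gR_eq (x y z : Fin 4 → ℝ) : gR x y z = ∑ m, M m x y z ^ 2 := by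
  simp only [gR, dR, M, mi, Fin.sum_univ_four]
  ring

theorem M_fst (m : Fin 4) (x y : Fin 4 → ℝ) : M m x y x = 0 := by
  fin_cases m <;> simp only [M, mi] <;> ring

theorem M_snd (m : Fin 4) (x y : Fin 4 → ℝ) : M m x y y = 0 := by
  fin_cases m <;> simp only [M, mi] <;> ring

theorem M_add (m : Fin 4) (x y z z' : Fin 4 → ℝ) : M m x y (z + z') = M m x y z + M m x y z' := by
  fin_cases m <;> simp only [M, mi, Pi.add_apply] <;> ring

theorem M_smul (m : Fin 4) (x y z : Fin 4 → ℝ) (c : ℝ) : M m x y (c • z) = c * M m x y z := by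
  fin_cases m <;> simp only [M, mi, Pi.smul_apply, smul_eq_mul] <;> ring

theorem M_comb (m : Fin 4) (x y z : Fin 4 → ℝ) (a b c d : ℝ) :
    M m (a • x + b • y) (c • x + d • y) z = (a * d - b * c) * M m x y z := by
  fin_cases m <;> simp only [M, mi, Pi.add_apply, Pi.smul_apply, smul_eq_mul] <;> ring

theorem gR_nonneg (x y z : Fin 4 → ℝ) : 0 ≤ gR x y z := by
  rw [gR_eq]; positivity

theorem gR_comb (x y z : Fin 4 → ℝ) (a b c d : ℝ) :
    gR (a • x + b • y) (c • x + d • y) z = (a * d - b * c) ^ 2 * gR x y z := by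
  rw [gR_eq, gR_eq, Finset.mul_sum]
  refine Finset.sum_congr rfl fun m _ => ?_
  rw [M_comb]; ring

theorem abs_M_le_of_gR {x y z : Fin 4 → ℝ} {σ : ℝ} (hσ : 0 ≤ σ) (h : gR x y z ≤ σ ^ 2)
    (m : Fin 4) : |M m x y z| ≤ σ := by
  rw [gR_eq] at h
  have h1 : M m x y z ^ 2 ≤ σ ^ 2 :=
    (Finset.single_le_sum (f := fun m => M m x y z ^ 2) (fun i _ => sq_nonneg _)
      (Finset.mem_univ m)).trans h
  exact abs_le_of_sq_le_sq h1 hσ

theorem gR_le_of_abs_M {x y z : Fin 4 → ℝ} {σ : ℝ} (h : ∀ m, |M m x y z| ≤ σ) :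
    gR x y z ≤ 4 * σ ^ 2 := by
  rw [gR_eq]
  have : ∀ m ∈ (Finset.univ : Finset (Fin 4)), M m x y z ^ 2 ≤ σ ^ 2 := fun m _ => by
    have := h m
    have h0 := abs_nonneg (M m x y z)
    rw [← sq_abs]
    exact pow_le_pow_left₀ h0 this 2
  have h2 := Finset.sum_le_card_nsmul Finset.univ _ _ this
  simpa using h2

/-- crude bound of a minor -/
theorem abs_M_le {x y z : Fin 4 → ℝ} {a b c : ℝ} (hx : ∀ i, |x i| ≤ a) (hy : ∀ i, |y i| ≤ b)
    (hz : ∀ i, |z i| ≤ c) (m : Fin 4) : |M m x y z| ≤ 6 * (a * b * c) := by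
  have ha : 0 ≤ a := (abs_nonneg _).trans (hx 0)
  have hb : 0 ≤ b := (abs_nonneg _).trans (hy 0)
  have hc : 0 ≤ c := (abs_nonneg _).trans (hz 0)
  have key : ∀ i j k, |x i * y j * z k| ≤ a * b * c := fun i j k => by
    rw [abs_mul, abs_mul]
    exact mul_le_mul (mul_le_mul (hx i) (hy j) (abs_nonneg _) ha) (hz k) (abs_nonneg _)
      (mul_nonneg ha hb)
  have hm : ∀ i j k, |mi i j k x y z| ≤ 6 * (a * b * c) := fun i j k => by
    have e : mi i j k x y z = x i * y j * z k - x i * y k * z j - x j * y i * z k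
      + x j * y k * z i + x k * y i * z j - x k * y j * z i := by simp only [mi]; ring
    rw [e]
    have h1 := abs_le.mp (key i j k)
    have h2 := abs_le.mp (key i k j)
    have h3 := abs_le.mp (key j i k)
    have h4 := abs_le.mp (key j k i)
    have h5 := abs_le.mp (key k i j)
    have h6 := abs_le.mp (key k j i)
    rw [abs_le]
    constructor <;> linarith [h1.1, h1.2, h2.1, h2.2, h3.1, h3.2, h4.1, h4.2, h5.1, h5.2, h6.1,
      h6.2]
  fin_cases m <;> exact hm _ _ _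

/-! ### the nine directions -/

/-- the nine covectors, in three triples -/
def dz : Fin 3 → Fin 3 → Fin 2 → ℤ :=
  ![![![1, 0], ![1, 2], ![1, -2]], ![![0, 1], ![2, 1], ![2, -1]],
    ![![1, 1], ![-1, 3], ![3, -1]]]

/-- the nine covectors, real -/
noncomputable def dl (τ r : Fin 3) (i : Fin 2) : ℝ := (dz τ r i : ℝ)

/-- coefficient functionals of the triples -/
noncomputable def lc : Fin 3 → Fin 3 → Fin 2 → Fin 2 → ℝ :=
  ![![![![1, 0], ![0, -1 / 4]], ![![0, 1 / 8], ![1 / 8, 1 / 8]], ![![0, -1 / 8], ![-1 / 8, 1 / 8]]],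
    ![![![-1 / 4, 0], ![0, 1]], ![![1 / 8, 1 / 8], ![1 / 8, 0]], ![![1 / 8, -1 / 8], ![-1 / 8, 0]]],
    ![![![3 / 16, 5 / 16], ![5 / 16, 3 / 16]], ![![-1 / 32, -1 / 32], ![-1 / 32, 3 / 32]],
      ![![3 / 32, -1 / 32], ![-1 / 32, -1 / 32]]]]

/-- coefficient of the `r`-th covector of the triple `τ` in `T` -/
noncomputable def lam (τ r : Fin 3) (T : Fin 2 → Fin 2 → ℝ) : ℝ := ∑ i, ∑ j, lc τ r i j * T i j

theorem lam_dec (τ : Fin 3) (T : Fin 2 → Fin 2 → ℝ) (hT : T 1 0 = T 0 1) (i j : Fin 2) :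
    T i j = ∑ r, lam τ r T * (dl τ r i * dl τ r j) := by
  fin_cases τ <;> fin_cases i <;> fin_cases j <;>
    simp [lam, lc, dl, dz, Fin.sum_univ_three, Fin.sum_univ_two, hT] <;> ring

theorem lam_ge (τ r : Fin 3) (T : Fin 2 → Fin 2 → ℝ)
    (h : ∀ i j, |T i j - (if i = j then 1 else 0)| ≤ 1 / 100) : 1 / 20 ≤ lam τ r T := by
  have h00 := abs_le.mp (h 0 0)
  have h01 := abs_le.mp (h 0 1)
  have h10 := abs_le.mp (h 1 0)
  have h11 := abs_le.mp (h 1 1)
  simp only [if_true, Fin.zero_eq_one_iff, Fin.one_eq_zero_iff] at h00 h01 h10 h11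
  norm_num at h00 h01 h10 h11
  fin_cases τ <;> fin_cases r <;>
    simp [lam, lc, Fin.sum_univ_two] <;> linarith [h00.1, h00.2, h01.1, h01.2, h10.1, h10.2,
      h11.1, h11.2]

theorem dl_sq (τ r : Fin 3) : 1 ≤ dl τ r 0 ^ 2 + dl τ r 1 ^ 2 := by
  fin_cases τ <;> fin_cases r <;> simp [dl, dz]

theorem dl_abs (τ r : Fin 3) (i : Fin 2) : |dl τ r i| ≤ 3 := by
  fin_cases τ <;> fin_cases r <;> fin_cases i <;> simp [dl, dz] <;> norm_num

/-- three directions, one of each triple, determine a binary quadratic form -/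
theorem three_dir (r : Fin 3 → Fin 3) (a b c σ : ℝ)
    (h : ∀ τ, |dl τ (r τ) 1 ^ 2 * a - dl τ (r τ) 0 * dl τ (r τ) 1 * b
      + dl τ (r τ) 0 ^ 2 * c| ≤ σ) : |a| ≤ 11 * σ ∧ |b| ≤ 11 * σ ∧ |c| ≤ 11 * σ := by
  have h0 := abs_le.mp (h 0)
  have h1 := abs_le.mp (h 1)
  have h2 := abs_le.mp (h 2)
  simp only [abs_le]
  generalize r 0 = r0 at h0
  generalize r 1 = r1 at h1
  generalize r 2 = r2 at h2
  clear h r
  fin_cases r0 <;> fin_cases r1 <;> fin_cases r2 <;>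
    simp [dl, dz] at h0 h1 h2 <;> norm_num at h0 h1 h2 <;>
    obtain ⟨h0a, h0b⟩ := h0 <;> obtain ⟨h1a, h1b⟩ := h1 <;> obtain ⟨h2a, h2b⟩ := h2 <;>
    refine ⟨⟨?_, ?_⟩, ⟨?_, ?_⟩, ⟨?_, ?_⟩⟩ <;> linarith

/-- the second derivative along the kernel direction of the covector `ℓ` -/
def vv (Y : Fin 2 → Fin 2 → Fin 4 → ℝ) (l : Fin 2 → ℝ) : Fin 4 → ℝ :=
  l 1 ^ 2 • Y 0 0 - (l 0 * l 1) • (Y 0 1 + Y 1 0) + l 0 ^ 2 • Y 1 1

theorem M_vv (m : Fin 4) (x y : Fin 4 → ℝ) (Y : Fin 2 → Fin 2 → Fin 4 → ℝ) (l : Fin 2 → ℝ) :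
    M m x y (vv Y l) = l 1 ^ 2 * M m x y (Y 0 0)
      - l 0 * l 1 * (M m x y (Y 0 1) + M m x y (Y 1 0)) + l 0 ^ 2 * M m x y (Y 1 1) := by
  rw [vv, sub_eq_add_neg, ← neg_smul, M_add, M_add, M_smul, M_smul, M_smul, M_add]
  ring

theorem key_M {x y : Fin 4 → ℝ} {Y : Fin 2 → Fin 2 → Fin 4 → ℝ} (hY : Y 1 0 = Y 0 1)
    {σ : ℝ} (hσ : 0 ≤ σ) (r : Fin 3 → Fin 3)
    (h : ∀ τ, gR x y (vv Y (dl τ (r τ))) ≤ σ ^ 2) (m : Fin 4) (a b : Fin 2) :
    |M m x y (Y a b)| ≤ 11 * σ := by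
  have h1 : ∀ τ, |dl τ (r τ) 1 ^ 2 * M m x y (Y 0 0)
      - dl τ (r τ) 0 * dl τ (r τ) 1 * (M m x y (Y 0 1) + M m x y (Y 1 0))
      + dl τ (r τ) 0 ^ 2 * M m x y (Y 1 1)| ≤ σ := fun τ => by
    rw [← M_vv]
    exact abs_M_le_of_gR hσ (h τ) m
  obtain ⟨h00, h01, h11⟩ := three_dir r _ _ _ σ h1
  have h01' : |M m x y (Y 0 1)| ≤ 11 * σ := by
    rw [hY] at h01
    have e : M m x y (Y 0 1) + M m x y (Y 0 1) = 2 * M m x y (Y 0 1) := by ring
    rw [e, abs_mul, abs_two] at h01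
    have := abs_nonneg (M m x y (Y 0 1))
    linarith
  fin_cases a <;> fin_cases b
  · exact h00
  · exact h01'
  · show |M m x y (Y 1 0)| ≤ 11 * σ
    rw [hY]; exact h01'
  · exact h11

theorem key_gR {x y : Fin 4 → ℝ} {Y : Fin 2 → Fin 2 → Fin 4 → ℝ} (hY : Y 1 0 = Y 0 1)
    {σ B : ℝ} (hσ : 0 ≤ σ) (r : Fin 3 → Fin 3)
    (h : ∀ τ, gR x y (vv Y (dl τ (r τ))) ≤ σ ^ 2)
    {A : Fin 2 → Fin 2 → ℝ} {α β a b c d : ℝ} (hA : ∀ i j, |A i j| ≤ B ^ 2)
    (ha : |a| ≤ B) (hb : |b| ≤ B) (hc : |c| ≤ B) (hd : |d| ≤ B) :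
    gR (a • x + b • y) (c • x + d • y) ((∑ i, ∑ j, A i j • Y i j) + (α • x + β • y)) ≤
      30976 * B ^ 8 * σ ^ 2 := by
  have hB : 0 ≤ B := (abs_nonneg _).trans ha
  rw [gR_comb]
  have h1 : ∀ m, |M m x y ((∑ i, ∑ j, A i j • Y i j) + (α • x + β • y))| ≤ 44 * B ^ 2 * σ := by
    intro m
    rw [M_add, M_add, M_smul, M_smul, M_fst, M_snd, mul_zero, mul_zero, add_zero, add_zero]
    simp only [Fin.sum_univ_two, M_add, M_smul]
    have hh : ∀ i j, |A i j * M m x y (Y i j)| ≤ B ^ 2 * (11 * σ) := fun i j => by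
      rw [abs_mul]
      exact mul_le_mul (hA i j) (key_M hY hσ r h m i j) (abs_nonneg _) (sq_nonneg B)
    have h00 := abs_le.mp (hh 0 0)
    have h01 := abs_le.mp (hh 0 1)
    have h10 := abs_le.mp (hh 1 0)
    have h11 := abs_le.mp (hh 1 1)
    rw [abs_le]
    constructor <;> linarith [h00.1, h00.2, h01.1, h01.2, h10.1, h10.2, h11.1, h11.2]
  have h2 := gR_le_of_abs_M h1
  have h3 : (a * d - b * c) ^ 2 ≤ (2 * B ^ 2) ^ 2 := by
    rw [← sq_abs (a * d - b * c)]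
    refine pow_le_pow_left₀ (abs_nonneg _) ?_ 2
    have e1 : |a * d| ≤ B * B := by
      rw [abs_mul]; exact mul_le_mul ha hd (abs_nonneg _) hB
    have e2 : |b * c| ≤ B * B := by
      rw [abs_mul]; exact mul_le_mul hb hc (abs_nonneg _) hB
    calc |a * d - b * c| ≤ |a * d| + |b * c| := abs_sub _ _
      _ ≤ 2 * B ^ 2 := by linarith only [e2, e1]
  calc (a * d - b * c) ^ 2 * gR x y ((∑ i, ∑ j, A i j • Y i j) + (α • x + β • y))
      ≤ (2 * B ^ 2) ^ 2 * (4 * (44 * B ^ 2 * σ) ^ 2) :=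
        mul_le_mul h3 h2 (gR_nonneg _ _ _) (by positivity)
    _ = 30976 * B ^ 8 * σ ^ 2 := by ring

/-- perturbation of the covector -/
theorem abs_M_vv_sub {x y : Fin 4 → ℝ} {Y : Fin 2 → Fin 2 → Fin 4 → ℝ} {l n : Fin 2 → ℝ}
    {e C : ℝ} (he : 0 ≤ e) (he1 : e ≤ 1) (hl : ∀ i, |l i| ≤ 3) (hn : ∀ i, |n i - l i| ≤ e)
    (m : Fin 4) (hC : ∀ a b, |M m x y (Y a b)| ≤ C) :
    |M m x y (vv Y n) - M m x y (vv Y l)| ≤ 28 * (e * C) := by
  have hC0 : 0 ≤ C := (abs_nonneg _).trans (hC 0 0)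
  have key : ∀ i j, |n i * n j - l i * l j| ≤ 7 * e := fun i j => by
    have e1 : n i * n j - l i * l j = (n i - l i) * (n j - l j) + (n i - l i) * l j
      + l i * (n j - l j) := by ring
    rw [e1]
    have a1 : |(n i - l i) * (n j - l j)| ≤ e * 1 := by
      rw [abs_mul]
      exact mul_le_mul (hn i) ((hn j).trans he1) (abs_nonneg _) he
    have a2 : |(n i - l i) * l j| ≤ e * 3 := by
      rw [abs_mul]; exact mul_le_mul (hn i) (hl j) (abs_nonneg _) he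
    have a3 : |l i * (n j - l j)| ≤ 3 * e := by
      rw [abs_mul]; exact mul_le_mul (hl i) (hn j) (abs_nonneg _) (by norm_num)
    have b1 := abs_add_three ((n i - l i) * (n j - l j)) ((n i - l i) * l j) (l i * (n j - l j))
    linarith
  rw [M_vv, M_vv]
  have e2 : n 1 ^ 2 * M m x y (Y 0 0) - n 0 * n 1 * (M m x y (Y 0 1) + M m x y (Y 1 0))
      + n 0 ^ 2 * M m x y (Y 1 1) - (l 1 ^ 2 * M m x y (Y 0 0)
      - l 0 * l 1 * (M m x y (Y 0 1) + M m x y (Y 1 0)) + l 0 ^ 2 * M m x y (Y 1 1)) =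
      (n 1 * n 1 - l 1 * l 1) * M m x y (Y 0 0) - (n 0 * n 1 - l 0 * l 1) * M m x y (Y 0 1)
        - (n 0 * n 1 - l 0 * l 1) * M m x y (Y 1 0)
        + (n 0 * n 0 - l 0 * l 0) * M m x y (Y 1 1) := by ring
  rw [e2]
  have hh : ∀ i j a b, |(n i * n j - l i * l j) * M m x y (Y a b)| ≤ 7 * e * C :=
    fun i j a b => by
      rw [abs_mul]
      exact mul_le_mul (key i j) (hC a b) (abs_nonneg _) (by positivity)
  have h1 := abs_le.mp (hh 1 1 0 0)
  have h2 := abs_le.mp (hh 0 1 0 1)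
  have h3 := abs_le.mp (hh 0 1 1 0)
  have h4 := abs_le.mp (hh 0 0 1 1)
  rw [abs_le]
  constructor <;> linarith [h1.1, h1.2, h2.1, h2.2, h3.1, h3.2, h4.1, h4.2]

/-- stability of the lower bound under a perturbation of the covector -/
theorem gR_vv_stable {x y : Fin 4 → ℝ} {Y : Fin 2 → Fin 2 → Fin 4 → ℝ} {l n : Fin 2 → ℝ}
    {e C s : ℝ} (he : 0 ≤ e) (he1 : e ≤ 1) (hl : ∀ i, |l i| ≤ 3) (hn : ∀ i, |n i - l i| ≤ e)
    (hC : ∀ m a b, |M m x y (Y a b)| ≤ C) (hs : 0 ≤ s) (hg : s ^ 2 ≤ gR x y (vv Y l))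
    (hsm : 112 * (e * C) ≤ s) : s ^ 2 / 16 ≤ gR x y (vv Y n) := by
  rw [gR_eq] at hg
  have h1 : ∃ m, s / 2 ≤ |M m x y (vv Y l)| := by
    by_contra hc
    push Not at hc
    have h2 : ∀ m ∈ (Finset.univ : Finset (Fin 4)), M m x y (vv Y l) ^ 2 ≤ s ^ 2 / 4 ∧
        (M m x y (vv Y l) ^ 2 < s ^ 2 / 4) := fun m _ => by
      have h3 := hc m
      have h4 := abs_nonneg (M m x y (vv Y l))
      rw [← sq_abs]
      constructor <;> nlinarith
    have h5 : ∑ m, M m x y (vv Y l) ^ 2 < ∑ _m : Fin 4, s ^ 2 / 4 :=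
      Finset.sum_lt_sum (fun m hm => (h2 m hm).1) ⟨0, Finset.mem_univ _, (h2 0 (Finset.mem_univ _)).2⟩
    simp at h5
    linarith
  obtain ⟨m, hm⟩ := h1
  have h2 := abs_M_vv_sub he he1 hl hn m (hC m)
  have h3 : s / 4 ≤ |M m x y (vv Y n)| := by
    have h4 : |M m x y (vv Y l)| - |M m x y (vv Y n) - M m x y (vv Y l)| ≤
        |M m x y (vv Y n)| := by
      have h5 := abs_sub_abs_le_abs_sub (M m x y (vv Y l)) (M m x y (vv Y n))
      rw [abs_sub_comm] at h5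
      linarith
    linarith
  rw [gR_eq]
  have h6 : (s / 4) ^ 2 ≤ M m x y (vv Y n) ^ 2 := by
    rw [← sq_abs (M m x y (vv Y n))]
    exact pow_le_pow_left₀ (by positivity) h3 2
  calc s ^ 2 / 16 = (s / 4) ^ 2 := by ring
    _ ≤ M m x y (vv Y n) ^ 2 := h6
    _ ≤ _ := Finset.single_le_sum (f := fun m => M m x y (vv Y n) ^ 2)
        (fun i _ => sq_nonneg _) (Finset.mem_univ m)

end Vale.Agent.P205.PC
end

section

/-!
Block TOP of P205 (every closed surface has an immersion into four space with a unit normal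
field): definitions.
-/

open scoped Manifold ContDiff Topology RealInnerProductSpace
open Set Filter MeasureTheory Module

noncomputable section

namespace Vale.Agent.P205.Top

/-- Euclidean four space -/
abbrev R4 : Type := EuclideanSpace ℝ (Fin 4)

section

variable {E : Type*} [NormedAddCommGroup E] [NormedSpace ℝ E]
  {M : Type*} [TopologicalSpace M] [ChartedSpace E M]

/-- an immersion into `ℝ⁴` -/
structure Imm (F : M → R4) : Prop where
  sm : ContMDiff 𝓘(ℝ, E) 𝓘(ℝ, R4) ∞ F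
  inj : ∀ p, Function.Injective (mfderiv 𝓘(ℝ, E) 𝓘(ℝ, R4) F p)

/-- a smooth normal field along `F` -/
structure Nor (F ξ : M → R4) : Prop where
  sm : ContMDiff 𝓘(ℝ, E) 𝓘(ℝ, R4) ∞ ξ
  orth : ∀ p (v : TangentSpace 𝓘(ℝ, E) p), ⟪ξ p, mfderiv 𝓘(ℝ, E) 𝓘(ℝ, R4) F p v⟫ = 0

end

/-- `z ^ w` for `w ≥ 0`, `(conj z) ^ (-w)` for `w < 0` -/
def zp (w : ℤ) (z : ℂ) : ℂ := if 0 ≤ w then z ^ w.toNat else (starRingEnd ℂ z) ^ (-w).toNat

end Vale.Agent.P205.Top
end
end

section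

/-!
Block D2 of TOP: an immersion can be made affine near a given point.
-/

open scoped Manifold ContDiff Topology RealInnerProductSpace
open Set Filter MeasureTheory Module

noncomputable section

namespace Vale.Agent.P205.Top

section Euclid

variable {E G : Type*} [NormedAddCommGroup E] [NormedSpace ℝ E] [FiniteDimensional ℝ E]
  [NormedAddCommGroup G] [NormedSpace ℝ G]

theorem flat_euclid {f : E → G} {U : Set E} (hU : IsOpen U) {x0 : E} (hx0 : x0 ∈ U)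
    (hf : ContDiffOn ℝ ∞ f U) (hinj : ∀ x ∈ U, Function.Injective (fderiv ℝ f x)) :
    ∃ (g : E → G) (r : ℝ), 0 < r ∧ Metric.closedBall x0 r ⊆ U ∧ ContDiffOn ℝ ∞ g U ∧
      (∀ x, x ∉ Metric.closedBall x0 r → g x = f x) ∧
      (∀ᶠ x in 𝓝 x0, g x = f x0 + fderiv ℝ f x0 (x - x0)) ∧
      ∀ x ∈ U, Function.Injective (fderiv ℝ g x) := by
  set A := fderiv ℝ f x0 with hA
  have hAinj : Function.Injective A := hinj x0 hx0
  have hfd : ∀ x ∈ U, HasFDerivAt f (fderiv ℝ f x) x := fun x hx =>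
    ((hf.contDiffAt (hU.mem_nhds hx)).differentiableAt (by simp)).hasFDerivAt
  obtain ⟨δ, hδ, hball⟩ := Metric.isOpen_iff.1
    (ContinuousLinearMap.isOpen_injective (𝕜 := ℝ) (E := E) (F := G)) A hAinj
  let χ0 : ContDiffBump (0 : E) := ⟨1 / 2, 1, by norm_num, by norm_num⟩
  have hχ0 : ContDiff ℝ 1 χ0 := χ0.contDiff
  obtain ⟨C0, hC0⟩ := (hχ0.continuous_fderiv (by norm_num)).bounded_above_of_compact_support
    (χ0.hasCompactSupport.fderiv (𝕜 := ℝ))
  have hC0' : 0 ≤ C0 := le_trans (norm_nonneg _) (hC0 0)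
  set ε := δ / (C0 + 3) with hε
  have hε0 : 0 < ε := by positivity
  have e1 : ∀ᶠ x in 𝓝 x0, ‖fderiv ℝ f x - A‖ < ε := by
    have hc : ContinuousAt (fderiv ℝ f) x0 :=
      ((hf.contDiffAt (hU.mem_nhds hx0)).fderiv_right (m := 0) (by simp)).continuousAt
    have := hc.eventually (Metric.ball_mem_nhds _ hε0)
    filter_upwards [this] with x hx
    simpa [dist_eq_norm] using hx
  have e2 : ∀ᶠ x in 𝓝 x0, ‖f x - f x0 - A (x - x0)‖ ≤ ε * ‖x - x0‖ :=
    (hfd x0 hx0).isLittleO.def hε0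
  obtain ⟨r, hr, hrb⟩ := Metric.eventually_nhds_iff_ball.1
    ((e1.and e2).and (hU.eventually_mem hx0))
  set ρ := r / 2 with hρ
  have hρ0 : 0 < ρ := by positivity
  have hsub : ∀ x ∈ Metric.closedBall x0 ρ, x ∈ Metric.ball x0 r := fun x hx =>
    Metric.closedBall_subset_ball (by rw [hρ]; linarith) hx
  let χ : E → ℝ := fun x => χ0 (ρ⁻¹ • (x - x0))
  have hχs : ContDiff ℝ ∞ χ := χ0.contDiff.comp ((contDiff_id.sub contDiff_const).const_smul _)
  have hχ1 : ∀ x, |χ x| ≤ 1 := fun x => by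
    rw [abs_of_nonneg (χ0.nonneg' _)]; exact χ0.le_one
  have hχd : ∀ x, HasFDerivAt χ (ρ⁻¹ • fderiv ℝ χ0 (ρ⁻¹ • (x - x0))) x := by
    intro x
    have h1 : HasFDerivAt (fun x : E => ρ⁻¹ • (x - x0)) (ρ⁻¹ • ContinuousLinearMap.id ℝ E) x :=
      ((hasFDerivAt_id x).sub_const x0).const_smul _
    have h2 : HasFDerivAt χ0 (fderiv ℝ χ0 (ρ⁻¹ • (x - x0))) (ρ⁻¹ • (x - x0)) :=
      (hχ0.differentiable (by norm_num) _).hasFDerivAt
    have h3 := h2.comp x h1
    have h4 : (fderiv ℝ χ0 (ρ⁻¹ • (x - x0))).comp (ρ⁻¹ • ContinuousLinearMap.id ℝ E) =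
        ρ⁻¹ • fderiv ℝ χ0 (ρ⁻¹ • (x - x0)) := by
      ext v
      simp
    rw [h4] at h3
    exact h3
  let h : E → G := fun x => f x0 + A (x - x0) - f x
  have hhd : ∀ x ∈ U, HasFDerivAt h (A - fderiv ℝ f x) x := by
    intro x hx
    have h1 : HasFDerivAt (fun x : E => A (x - x0)) A x := by
      have := A.hasFDerivAt.comp x ((hasFDerivAt_id x).sub_const x0)
      rw [ContinuousLinearMap.comp_id] at this
      exact this
    exact (h1.const_add (f x0)).sub (hfd x hx)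
  let g : E → G := fun x => f x + χ x • h x
  have hhs : ContDiffOn ℝ ∞ h U :=
    (contDiffOn_const.add (A.contDiff.comp_contDiffOn (contDiffOn_id.sub contDiffOn_const))).sub hf
  have hout : ∀ x, x ∉ Metric.closedBall x0 ρ → g x = f x := by
    intro x hx
    have : χ x = 0 := by
      apply χ0.zero_of_le_dist
      rw [dist_zero_right, norm_smul, norm_inv, Real.norm_of_nonneg hρ0.le]
      rw [Metric.mem_closedBall, not_le, dist_eq_norm] at hx
      show 1 ≤ _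
      rw [inv_mul_eq_div, one_le_div hρ0]
      exact hx.le
    simp only [g, this, zero_smul, add_zero]
  refine ⟨g, ρ, hρ0, ?_, ?_, hout, ?_, ?_⟩
  · intro x hx
    exact (hrb x (hsub x hx)).2
  · exact hf.add (hχs.contDiffOn.smul hhs)
  · have : ∀ᶠ x in 𝓝 x0, ‖x - x0‖ < ρ / 2 := by
      have := Metric.ball_mem_nhds x0 (half_pos hρ0)
      filter_upwards [this] with x hx
      simpa [dist_eq_norm] using hx
    filter_upwards [this] with x hx
    have h1 : χ x = 1 := by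
      apply χ0.one_of_mem_closedBall
      rw [Metric.mem_closedBall, dist_zero_right, norm_smul, norm_inv, Real.norm_of_nonneg hρ0.le]
      show _ ≤ 1 / 2
      rw [inv_mul_eq_div, div_le_iff₀ hρ0]
      linarith
    simp only [g, h, h1, one_smul]
    abel
  · intro x hx
    by_cases hxb : x ∈ Metric.closedBall x0 ρ
    · have hxr := (hrb x (hsub x hxb)).1
      have hgd : HasFDerivAt g (fderiv ℝ f x + (χ x • (A - fderiv ℝ f x) +
          (ρ⁻¹ • fderiv ℝ χ0 (ρ⁻¹ • (x - x0))).smulRight (h x))) x :=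
        (hfd x hx).add ((hχd x).smul (hhd x hx))
      rw [hgd.fderiv]
      apply hball
      rw [Metric.mem_ball, dist_eq_norm]
      have hxρ : ‖x - x0‖ ≤ ρ := by simpa [dist_eq_norm] using hxb
      have hh : ‖h x‖ ≤ ε * ρ := by
        have : h x = -(f x - f x0 - A (x - x0)) := by simp only [h]; abel
        rw [this, norm_neg]
        exact le_trans hxr.2 (mul_le_mul_of_nonneg_left hxρ hε0.le)
      have hd : ‖(ρ⁻¹ • fderiv ℝ χ0 (ρ⁻¹ • (x - x0))).smulRight (h x)‖ ≤ C0 * ε := by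
        rw [ContinuousLinearMap.norm_smulRight_apply, norm_smul, norm_inv,
          Real.norm_of_nonneg hρ0.le]
        have := mul_le_mul (hC0 (ρ⁻¹ • (x - x0))) hh (norm_nonneg _) hC0'
        calc ρ⁻¹ * ‖fderiv ℝ χ0 (ρ⁻¹ • (x - x0))‖ * ‖h x‖
            = ρ⁻¹ * (‖fderiv ℝ χ0 (ρ⁻¹ • (x - x0))‖ * ‖h x‖) := by ring
          _ ≤ ρ⁻¹ * (C0 * (ε * ρ)) := mul_le_mul_of_nonneg_left this (inv_nonneg.2 hρ0.le)
          _ = C0 * ε := by field_simp
      have h2 : ‖χ x • (A - fderiv ℝ f x)‖ ≤ ε := by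
        rw [norm_smul, Real.norm_eq_abs, norm_sub_rev]
        calc |χ x| * ‖fderiv ℝ f x - A‖ ≤ 1 * ε :=
              mul_le_mul (hχ1 x) hxr.1.le (norm_nonneg _) (by norm_num)
          _ = ε := one_mul _
      calc ‖fderiv ℝ f x + (χ x • (A - fderiv ℝ f x) +
          (ρ⁻¹ • fderiv ℝ χ0 (ρ⁻¹ • (x - x0))).smulRight (h x)) - A‖
          = ‖(fderiv ℝ f x - A) + χ x • (A - fderiv ℝ f x) +
          (ρ⁻¹ • fderiv ℝ χ0 (ρ⁻¹ • (x - x0))).smulRight (h x)‖ := by congr 1; abel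
        _ ≤ ‖fderiv ℝ f x - A‖ + ‖χ x • (A - fderiv ℝ f x)‖ +
          ‖(ρ⁻¹ • fderiv ℝ χ0 (ρ⁻¹ • (x - x0))).smulRight (h x)‖ := norm_add₃_le
        _ < ε + ε + C0 * ε := by linarith [hxr.1]
        _ ≤ δ := by
          rw [hε]
          have : δ / (C0 + 3) + δ / (C0 + 3) + C0 * (δ / (C0 + 3)) = δ * ((C0 + 2) / (C0 + 3)) := by
            field_simp; ring
          rw [this]
          have h3 : (C0 + 2) / (C0 + 3) ≤ 1 := by rw [div_le_one (by positivity)]; linarith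
          linarith only [mul_nonneg (le_of_lt (sub_pos.2 hδ)) (sub_nonneg.2 h3)]
    · have : g =ᶠ[𝓝 x] f := by
        filter_upwards [Metric.isClosed_closedBall.isOpen_compl.mem_nhds hxb] with y hy
        exact hout y hy
      rw [this.fderiv_eq]
      exact hinj x hx

end Euclid

section Surface

variable {E : Type*} [NormedAddCommGroup E] [NormedSpace ℝ E] [FiniteDimensional ℝ E]
  {M : Type*} [TopologicalSpace M] [ChartedSpace E M] [IsManifold 𝓘(ℝ, E) ∞ M]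

variable [CompactSpace M] [T2Space M]

/-- D2: an immersion can be made affine near a given point -/
theorem exists_flat {F : M → R4} (hF : Imm (E := E) F) (p0 : M) :
    ∃ F' : M → R4, Imm (E := E) F' ∧ ∃ A : E →L[ℝ] R4, Function.Injective A ∧
      ∀ᶠ p in 𝓝 p0, F' p = F' p0 + A (extChartAt 𝓘(ℝ, E) p0 p - extChartAt 𝓘(ℝ, E) p0 p0) := by
  classical
  set φ := extChartAt 𝓘(ℝ, E) p0 with hφ
  let f : E → R4 := F ∘ φ.symm
  have hU : IsOpen φ.target := isOpen_extChartAt_target p0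
  have hS : IsOpen φ.source := isOpen_extChartAt_source p0
  have hx0 : φ p0 ∈ φ.target := mem_extChartAt_target p0
  have hsymm : ContMDiffOn 𝓘(ℝ, E) 𝓘(ℝ, E) ∞ φ.symm φ.target := contMDiffOn_extChartAt_symm p0
  have hfM : ContMDiffOn 𝓘(ℝ, E) 𝓘(ℝ, R4) ∞ f φ.target :=
    hF.sm.comp_contMDiffOn hsymm
  have hf : ContDiffOn ℝ ∞ f φ.target := hfM.contDiffOn
  have hinj : ∀ x ∈ φ.target, Function.Injective (fderiv ℝ f x) := by
    intro x hx
    have h1 : MDifferentiableAt 𝓘(ℝ, E) 𝓘(ℝ, R4) F (φ.symm x) :=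
      hF.sm.mdifferentiableAt (by simp)
    have h2 : MDifferentiableAt 𝓘(ℝ, E) 𝓘(ℝ, E) φ.symm x :=
      (hsymm.contMDiffAt (hU.mem_nhds hx)).mdifferentiableAt (by simp)
    have h3 : mfderiv 𝓘(ℝ, E) 𝓘(ℝ, R4) f x =
        (mfderiv 𝓘(ℝ, E) 𝓘(ℝ, R4) F (φ.symm x)).comp (mfderiv 𝓘(ℝ, E) 𝓘(ℝ, E) φ.symm x) :=
      mfderiv_comp x h1 h2
    rw [← mfderiv_eq_fderiv, h3]
    have h4 := isInvertible_mfderivWithin_extChartAt_symm (I := 𝓘(ℝ, E)) (x := p0) hx
    rw [modelWithCornersSelf_coe, range_id, mfderivWithin_univ] at h4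
    exact (hF.inj _).comp h4.injective
  obtain ⟨g, r, hr, hrU, hg, hout, hnear, hginj⟩ := flat_euclid hU hx0 hf hinj
  let K : Set M := φ.symm '' Metric.closedBall (φ p0) r
  have hK : IsCompact K :=
    (isCompact_closedBall (φ p0) r).image_of_continuousOn (hsymm.continuousOn.mono hrU)
  have hKS : K ⊆ φ.source := by
    rintro _ ⟨x, hx, rfl⟩
    exact φ.map_target (hrU hx)
  let F' : M → R4 := fun p => if p ∈ φ.source then g (φ p) else F p
  have hF'S : ∀ p ∈ φ.source, F' =ᶠ[𝓝 p] g ∘ φ := by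
    intro p hp
    filter_upwards [hS.mem_nhds hp] with q hq
    simp only [F', if_pos hq, Function.comp]
  have hF'K : ∀ p ∉ K, F' =ᶠ[𝓝 p] F := by
    intro p hp
    filter_upwards [hK.isClosed.isOpen_compl.mem_nhds hp] with q hq
    by_cases hqs : q ∈ φ.source
    · simp only [F', if_pos hqs]
      have : φ q ∉ Metric.closedBall (φ p0) r := by
        intro hb
        exact hq ⟨φ q, hb, φ.left_inv hqs⟩
      rw [hout _ this]
      simp only [f, Function.comp, φ.left_inv hqs]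
    · simp only [F', if_neg hqs]
  have hφM : ∀ p ∈ φ.source, ContMDiffAt 𝓘(ℝ, E) 𝓘(ℝ, E) ∞ φ p := by
    intro p hp
    have := contMDiffOn_extChartAt (I := 𝓘(ℝ, E)) (n := ∞) (x := p0)
    rw [← extChartAt_source (I := 𝓘(ℝ, E))] at this
    exact this.contMDiffAt (hS.mem_nhds hp)
  have hgM : ∀ p ∈ φ.source, ContMDiffAt 𝓘(ℝ, E) 𝓘(ℝ, R4) ∞ g (φ p) := by
    intro p hp
    exact (hg.contDiffAt (hU.mem_nhds (φ.map_source hp))).contMDiffAt
  have hp0S : p0 ∈ φ.source := mem_extChartAt_source p0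
  refine ⟨F', ⟨?_, ?_⟩, fderiv ℝ f (φ p0), hinj _ hx0, ?_⟩
  · intro p
    by_cases hp : p ∈ φ.source
    · exact ((hgM p hp).comp p (hφM p hp)).congr_of_eventuallyEq (hF'S p hp)
    · exact (hF.sm p).congr_of_eventuallyEq (hF'K p (fun h => hp (hKS h)))
  · intro p
    by_cases hp : p ∈ φ.source
    · rw [(hF'S p hp).mfderiv_eq]
      have h1 : MDifferentiableAt 𝓘(ℝ, E) 𝓘(ℝ, R4) g (φ p) :=
        (hgM p hp).mdifferentiableAt (by simp)
      have h2 : MDifferentiableAt 𝓘(ℝ, E) 𝓘(ℝ, E) φ p :=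
        (hφM p hp).mdifferentiableAt (by simp)
      rw [mfderiv_comp p h1 h2]
      have h4 := isInvertible_mfderiv_extChartAt (I := 𝓘(ℝ, E)) (x := p0) hp
      have h5 := hginj (φ p) (φ.map_source hp)
      rw [← mfderiv_eq_fderiv] at h5
      exact h5.comp h4.injective
    · rw [(hF'K p (fun h => hp (hKS h))).mfderiv_eq]
      exact hF.inj p
  · have hc : ContinuousAt φ p0 := continuousAt_extChartAt p0
    have h0 : F' p0 = f (φ p0) := by
      have := hnear.self_of_nhds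
      simp only [F', if_pos hp0S]
      rw [this]
      simp
    filter_upwards [hc.eventually hnear, hS.mem_nhds hp0S] with p hp hps
    rw [h0]
    simp only [F', if_pos hps]
    exact hp

end Surface

end Vale.Agent.P205.Top
end
end

section

/-!
Block E of TOP (P205): a smooth normal field with finitely many zeros, namely the normal
component of a generic constant vector.
-/

open scoped Manifold ContDiff Topology RealInnerProductSpace
open Set Filter MeasureTheory Module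

noncomputable section

namespace Vale.Agent.P205.Top

section Proj

/-- the Euclidean plane -/
abbrev EnfR2 : Type := EuclideanSpace ℝ (Fin 2)

/-- the adjoint as a real linear map -/
def enfAdj : (EnfR2 →L[ℝ] R4) →L[ℝ] (R4 →L[ℝ] EnfR2) :=
  LinearMap.toContinuousLinearMap
    { toFun := fun L => ContinuousLinearMap.adjoint L
      map_add' := fun a b => map_add _ a b
      map_smul' := fun r a => by simp }

theorem enfAdj_inner (L : EnfR2 →L[ℝ] R4) (y : R4) (x : EnfR2) :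
    ⟪enfAdj L y, x⟫ = ⟪y, L x⟫ := by
  simp [enfAdj, ContinuousLinearMap.adjoint_inner_left]

/-- the Gram operator -/
def enfG (L : EnfR2 →L[ℝ] R4) : EnfR2 →L[ℝ] EnfR2 := (enfAdj L).comp L

/-- the left inverse with kernel the orthogonal complement of the range -/
def enfInv (L : EnfR2 →L[ℝ] R4) : R4 →L[ℝ] EnfR2 :=
  (Ring.inverse (enfG L)).comp (enfAdj L)

theorem enfG_unit {L : EnfR2 →L[ℝ] R4} (h : Function.Injective L) : IsUnit (enfG L) := by
  have hinj : Function.Injective (enfG L : EnfR2 →ₗ[ℝ] EnfR2) := by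
    rw [← LinearMap.ker_eq_bot, LinearMap.ker_eq_bot']
    intro x hx
    have h1 : enfAdj L (L x) = 0 := hx
    have h2 : ⟪L x, L x⟫ = 0 := by
      rw [← enfAdj_inner, h1, inner_zero_left]
    have h3 : L x = 0 := inner_self_eq_zero.1 h2
    exact h (by rw [h3, map_zero])
  refine ⟨ContinuousLinearEquiv.toUnit
    (LinearEquiv.ofInjectiveEndo (enfG L : EnfR2 →ₗ[ℝ] EnfR2) hinj).toContinuousLinearEquiv, ?_⟩
  apply ContinuousLinearMap.ext
  intro x
  rfl

theorem enf_orth {L : EnfR2 →L[ℝ] R4} (h : Function.Injective L) (c : R4) (u : EnfR2) :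
    ⟪c - L (enfInv L c), L u⟫ = 0 := by
  rw [← enfAdj_inner, map_sub]
  have h1 := Ring.mul_inverse_cancel _ (enfG_unit h)
  have h2 := congrArg (fun g : EnfR2 →L[ℝ] EnfR2 => g (enfAdj L c)) h1
  have h3 : enfAdj L (L (enfInv L c)) = enfAdj L c := by
    simpa [enfInv, enfG] using h2
  rw [h3, sub_self, inner_zero_left]

theorem enf_unique {L L' : EnfR2 →L[ℝ] R4} (h : Function.Injective L)
    (h' : Function.Injective L') (h1 : ∀ u, ∃ u', L u = L' u') (h2 : ∀ u', ∃ u, L' u' = L u)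
    (c : R4) : L (enfInv L c) = L' (enfInv L' c) := by
  obtain ⟨a, ha⟩ := h1 (enfInv L c)
  obtain ⟨b, hb⟩ := h2 (enfInv L' c)
  set d := L (enfInv L c) - L' (enfInv L' c) with hd
  have e1 : ⟪c - L (enfInv L c), d⟫ = 0 := by
    rw [hd, hb, ← map_sub]
    exact enf_orth h c _
  have e2 : ⟪c - L' (enfInv L' c), d⟫ = 0 := by
    rw [hd, ha, ← map_sub]
    exact enf_orth h' c _
  have e3 : ⟪d, d⟫ = 0 := by
    have : d = (c - L' (enfInv L' c)) - (c - L (enfInv L c)) := by rw [hd]; abel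
    calc ⟪d, d⟫ = ⟪(c - L' (enfInv L' c)) - (c - L (enfInv L c)), d⟫ := by rw [← this]
      _ = 0 := by rw [inner_sub_left, e1, e2, sub_zero]
  exact sub_eq_zero.1 (inner_self_eq_zero.1 e3)

theorem enfInv_contDiffAt {L : EnfR2 →L[ℝ] R4} (h : Function.Injective L) :
    ContDiffAt ℝ ∞ enfInv L := by
  have h1 : ContDiffAt ℝ ∞ enfAdj L := enfAdj.contDiff.contDiffAt
  have h2 : ContDiffAt ℝ ∞ enfG L := h1.clm_comp contDiffAt_id
  obtain ⟨u, hu⟩ := enfG_unit h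
  have h3 : ContDiffAt ℝ ∞ (Ring.inverse : (EnfR2 →L[ℝ] EnfR2) → (EnfR2 →L[ℝ] EnfR2))
      (enfG L) := by
    rw [← hu]
    exact contDiffAt_ringInverse ℝ u
  have h4 : ContDiffAt ℝ ∞ (fun L => Ring.inverse (enfG L)) L := h3.comp L h2
  exact h4.clm_comp h1

end Proj

section Chart

variable {E : Type*} [NormedAddCommGroup E] [NormedSpace ℝ E] [FiniteDimensional ℝ E]
  {M : Type*} [TopologicalSpace M] [ChartedSpace E M] [IsManifold 𝓘(ℝ, E) ∞ M]

/-- the derivative of `F` read on the Euclidean plane -/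
def enfD (F : M → R4) (T : EnfR2 ≃L[ℝ] E) (p : M) : EnfR2 →L[ℝ] R4 :=
  ContinuousLinearMap.comp (mfderiv 𝓘(ℝ, E) 𝓘(ℝ, R4) F p : E →L[ℝ] R4) (T : EnfR2 →L[ℝ] E)

/-- the derivative of `F` in the chart at `p0` -/
def enfC (F : M → R4) (T : EnfR2 ≃L[ℝ] E) (p0 : M) (x : E) : EnfR2 →L[ℝ] R4 :=
  (fderiv ℝ (F ∘ (extChartAt 𝓘(ℝ, E) p0).symm) x).comp (T : EnfR2 →L[ℝ] E)

omit [FiniteDimensional ℝ E] in
theorem enf_smooth {F : M → R4} (hF : ContMDiff 𝓘(ℝ, E) 𝓘(ℝ, R4) ∞ F) (p0 : M) :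
    ContDiffOn ℝ ∞ (F ∘ (extChartAt 𝓘(ℝ, E) p0).symm) (extChartAt 𝓘(ℝ, E) p0).target := by
  have h := hF.comp_contMDiffOn (contMDiffOn_extChartAt_symm (I := 𝓘(ℝ, E)) (n := ∞) p0)
  exact contMDiffOn_iff_contDiffOn.1 h

omit [FiniteDimensional ℝ E] in
theorem enfC_smooth {F : M → R4} (hF : ContMDiff 𝓘(ℝ, E) 𝓘(ℝ, R4) ∞ F) (T : EnfR2 ≃L[ℝ] E)
    (p0 : M) : ContDiffOn ℝ ∞ (enfC F T p0) (extChartAt 𝓘(ℝ, E) p0).target := by
  have h := (enf_smooth hF p0).fderiv_of_isOpen (m := ∞) (isOpen_extChartAt_target p0) (by simp)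
  exact h.clm_comp contDiffOn_const

omit [FiniteDimensional ℝ E] in
/-- comparison of the two derivatives -/
theorem enf_compare {F : M → R4} (hF : ContMDiff 𝓘(ℝ, E) 𝓘(ℝ, R4) ∞ F) (T : EnfR2 ≃L[ℝ] E)
    {p0 p : M} (hp : p ∈ (extChartAt 𝓘(ℝ, E) p0).source) :
    ∃ B : EnfR2 ≃L[ℝ] EnfR2, ∀ u, enfD F T p u = enfC F T p0 (extChartAt 𝓘(ℝ, E) p0 p) (B u) := by
  have : IsManifold 𝓘(ℝ, E) 1 M := IsManifold.of_le (n := ∞) (by simp)
  have hps : p ∈ (chartAt E p0).source := by simpa using hp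
  have hA' := isInvertible_mfderiv_extChartAt (I := 𝓘(ℝ, E)) hp
  set φ := extChartAt 𝓘(ℝ, E) p0 with hφ
  have h1 : mfderiv 𝓘(ℝ, E) 𝓘(ℝ, R4) F p =
      (fderiv ℝ (F ∘ φ.symm) (φ p) : E →L[ℝ] R4).comp (mfderiv 𝓘(ℝ, E) 𝓘(ℝ, E) φ p : E →L[ℝ] E) := by
    have h2 : F =ᶠ[𝓝 p] (F ∘ φ.symm) ∘ φ := by
      filter_upwards [(isOpen_extChartAt_source (I := 𝓘(ℝ, E)) p0).mem_nhds hp] with q hq
      simp only [Function.comp_apply]
      rw [φ.left_inv hq]
    have h3 : MDifferentiableAt 𝓘(ℝ, E) 𝓘(ℝ, E) φ p := mdifferentiableAt_extChartAt hps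
    have h4 : MDifferentiableAt 𝓘(ℝ, E) 𝓘(ℝ, R4) (F ∘ φ.symm) (φ p) := by
      have := ((enf_smooth hF p0).contDiffAt
        ((isOpen_extChartAt_target p0).mem_nhds (φ.map_source hp))).differentiableAt (by simp)
      exact this.mdifferentiableAt
    rw [h2.mfderiv_eq, mfderiv_comp p h4 h3, mfderiv_eq_fderiv]
    rfl
  obtain ⟨A, hA⟩ : ∃ A : E ≃L[ℝ] E, (A : E →L[ℝ] E) = mfderiv 𝓘(ℝ, E) 𝓘(ℝ, E) φ p := hA'
  refine ⟨(T.trans A).trans T.symm, fun u => ?_⟩
  simp only [enfD, enfC, h1, ← hA]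
  change fderiv ℝ (F ∘ φ.symm) (φ p) (A (T u)) =
    fderiv ℝ (F ∘ φ.symm) (φ p) (T (T.symm (A (T u))))
  rw [T.apply_symm_apply]

omit [FiniteDimensional ℝ E] [IsManifold 𝓘(ℝ, E) ∞ M] in
theorem enfD_inj {F : M → R4} (hF : Imm (E := E) F) (T : EnfR2 ≃L[ℝ] E) (p : M) :
    Function.Injective (enfD F T p) := by
  intro u v h
  exact T.injective (hF.inj p h)

theorem enfC_inj {F : M → R4} (hF : Imm (E := E) F) (T : EnfR2 ≃L[ℝ] E)
    {p0 p : M} (hp : p ∈ (extChartAt 𝓘(ℝ, E) p0).source) :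
    Function.Injective (enfC F T p0 (extChartAt 𝓘(ℝ, E) p0 p)) := by
  obtain ⟨B, hB⟩ := enf_compare hF.sm T hp
  intro u v h
  have h1 : enfD F T p (B.symm u) = enfD F T p (B.symm v) := by
    rw [hB, hB]
    simpa using h
  exact B.symm.injective (enfD_inj hF T p h1)

/-- the normal component of the constant vector `c` -/
def enfXi (F : M → R4) (T : EnfR2 ≃L[ℝ] E) (c : R4) (p : M) : R4 :=
  c - enfD F T p (enfInv (enfD F T p) c)

theorem enfXi_eq {F : M → R4} (hF : Imm (E := E) F) (T : EnfR2 ≃L[ℝ] E) (c : R4)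
    {p0 p : M} (hp : p ∈ (extChartAt 𝓘(ℝ, E) p0).source) :
    enfXi F T c p = c - enfC F T p0 (extChartAt 𝓘(ℝ, E) p0 p)
      (enfInv (enfC F T p0 (extChartAt 𝓘(ℝ, E) p0 p)) c) := by
  obtain ⟨B, hB⟩ := enf_compare hF.sm T hp
  unfold enfXi
  rw [enf_unique (enfD_inj hF T p) (enfC_inj hF T hp) (fun u => ⟨B u, hB u⟩)
    (fun u => ⟨B.symm u, by rw [hB]; simp⟩) c]

theorem enfXi_smooth {F : M → R4} (hF : Imm (E := E) F) (T : EnfR2 ≃L[ℝ] E) (c : R4) :
    ContMDiff 𝓘(ℝ, E) 𝓘(ℝ, R4) ∞ (enfXi F T c) := by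
  intro p0
  have hp0 : p0 ∈ (extChartAt 𝓘(ℝ, E) p0).source := mem_extChartAt_source p0
  have ht : (extChartAt 𝓘(ℝ, E) p0).target ∈ 𝓝 (extChartAt 𝓘(ℝ, E) p0 p0) :=
    (isOpen_extChartAt_target p0).mem_nhds (mem_extChartAt_target p0)
  have h1 : ContDiffAt ℝ ∞ (enfC F T p0) (extChartAt 𝓘(ℝ, E) p0 p0) :=
    (enfC_smooth hF.sm T p0).contDiffAt ht
  have h2 : ContDiffAt ℝ ∞ (fun x => enfInv (enfC F T p0 x)) (extChartAt 𝓘(ℝ, E) p0 p0) :=
    (enfInv_contDiffAt (enfC_inj hF T hp0)).comp _ h1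
  have h3 : ContDiffAt ℝ ∞ (fun x => c - enfC F T p0 x (enfInv (enfC F T p0 x) c))
      (extChartAt 𝓘(ℝ, E) p0 p0) :=
    contDiffAt_const.sub (h1.clm_apply (h2.clm_apply contDiffAt_const))
  have h4 : ContMDiffAt 𝓘(ℝ, E) 𝓘(ℝ, R4) ∞
      ((fun x => c - enfC F T p0 x (enfInv (enfC F T p0 x) c)) ∘ extChartAt 𝓘(ℝ, E) p0) p0 :=
    (h3.contMDiffAt).comp p0 contMDiffAt_extChartAt
  refine h4.congr_of_eventuallyEq ?_
  filter_upwards [extChartAt_source_mem_nhds (I := 𝓘(ℝ, E)) p0] with p hp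
  exact enfXi_eq hF T c hp

theorem enfXi_nor {F : M → R4} (hF : Imm (E := E) F) (T : EnfR2 ≃L[ℝ] E) (c : R4) :
    Nor (E := E) F (enfXi F T c) := by
  refine ⟨enfXi_smooth hF T c, fun p v => ?_⟩
  have h := enf_orth (enfD_inj hF T p) c (T.symm v)
  have h2 : enfD F T p (T.symm v) = mfderiv 𝓘(ℝ, E) 𝓘(ℝ, R4) F p v :=
    congrArg (fun w : E => (mfderiv 𝓘(ℝ, E) 𝓘(ℝ, R4) F p : E →L[ℝ] R4) w)
      (T.apply_symm_apply (v : E))
  rw [h2] at h
  exact h

/-- generic constant vectors: the solutions in a chart are isolated -/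
theorem enf_generic {F : M → R4} (hF : Imm (E := E) F) (hE : finrank ℝ E = 2)
    (T : EnfR2 ≃L[ℝ] E) (p0 : M) :
    ∀ᵐ c ∂(volume : Measure R4), ∀ x ∈ (extChartAt 𝓘(ℝ, E) p0).target, ∀ u : EnfR2,
      enfC F T p0 x u = c →
        ∀ᶠ y in 𝓝 ((x, u) : E × EnfR2), enfC F T p0 y.1 y.2 = c → y = (x, u) := by
  have hdim : finrank ℝ (E × EnfR2) = finrank ℝ R4 := by
    rw [Module.finrank_prod, hE]
    simp
  set S : (E × EnfR2) ≃L[ℝ] R4 := ContinuousLinearEquiv.ofFinrankEq hdim with hS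
  set s : Set R4 := S.symm ⁻¹' ((extChartAt 𝓘(ℝ, E) p0).target ×ˢ univ) with hs
  have hso : IsOpen s :=
    ((isOpen_extChartAt_target p0).prod isOpen_univ).preimage S.symm.continuous
  set g : E × EnfR2 → R4 := fun y => enfC F T p0 y.1 y.2 with hg
  have hgc : ContDiffOn ℝ 1 g ((extChartAt 𝓘(ℝ, E) p0).target ×ˢ univ) := by
    have h1 : ContDiffOn ℝ 1 (fun y : E × EnfR2 => enfC F T p0 y.1)
        ((extChartAt 𝓘(ℝ, E) p0).target ×ˢ univ) :=
      ((enfC_smooth hF.sm T p0).of_le (by simp)).comp contDiffOn_fst (fun y hy => hy.1)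
    exact h1.clm_apply contDiffOn_snd
  have hfc : ContDiffOn ℝ 1 (g ∘ S.symm) s :=
    hgc.comp S.symm.contDiff.contDiffOn (fun z hz => hz)
  filter_upwards [TW.ae_isolated_of_contDiffOn volume hso hfc] with c hc x hx u hu
  have hmem : S (x, u) ∈ s := by
    change S.symm (S (x, u)) ∈ (extChartAt 𝓘(ℝ, E) p0).target ×ˢ (univ : Set EnfR2)
    rw [S.symm_apply_apply]
    exact ⟨hx, mem_univ _⟩
  have h1 := hc (S (x, u)) hmem (by simpa [hg] using hu)
  have h2 : Tendsto (fun y : E × EnfR2 => S y) (𝓝 (x, u)) (𝓝 (S (x, u))) :=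
    S.continuous.tendsto _
  filter_upwards [h2.eventually h1] with y hy hyc
  exact S.injective (hy (by simpa [hg] using hyc))

theorem enf_isolated {F : M → R4} (hF : Imm (E := E) F) (T : EnfR2 ≃L[ℝ] E) (p0 : M) {c : R4}
    (hc : ∀ x ∈ (extChartAt 𝓘(ℝ, E) p0).target, ∀ u : EnfR2, enfC F T p0 x u = c →
      ∀ᶠ y in 𝓝 ((x, u) : E × EnfR2), enfC F T p0 y.1 y.2 = c → y = (x, u))
    {p : M} (hp : p ∈ (extChartAt 𝓘(ℝ, E) p0).source) (h0 : enfXi F T c p = 0) :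
    ∀ᶠ q in 𝓝 p, enfXi F T c q = 0 → q = p := by
  set φ := extChartAt 𝓘(ℝ, E) p0 with hφ
  have ht : φ.target ∈ 𝓝 (φ p) := (isOpen_extChartAt_target p0).mem_nhds (φ.map_source hp)
  have h1 : ContinuousAt (enfC F T p0) (φ p) := ((enfC_smooth hF.sm T p0).contDiffAt ht).continuousAt
  have h2 : ContinuousAt (fun x => enfInv (enfC F T p0 x)) (φ p) :=
    ContinuousAt.comp (enfInv_contDiffAt (enfC_inj hF T hp)).continuousAt h1
  have h3 : ContinuousAt (fun x => ((x, enfInv (enfC F T p0 x) c) : E × EnfR2)) (φ p) :=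
    continuousAt_id.prodMk (h2.clm_apply continuousAt_const)
  have h4 : ContinuousAt φ p := continuousAt_extChartAt' hp
  have h5 : Tendsto (fun q => ((φ q, enfInv (enfC F T p0 (φ q)) c) : E × EnfR2)) (𝓝 p)
      (𝓝 (φ p, enfInv (enfC F T p0 (φ p)) c)) := ContinuousAt.comp h3 h4
  have e0 : enfC F T p0 (φ p) (enfInv (enfC F T p0 (φ p)) c) = c := by
    have := enfXi_eq hF T c hp
    rw [h0] at this
    exact (sub_eq_zero.1 this.symm).symm
  have h6 := hc (φ p) (φ.map_source hp) _ e0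
  filter_upwards [h5.eventually h6, (isOpen_extChartAt_source (I := 𝓘(ℝ, E)) p0).mem_nhds hp]
    with q hq hqs hq0
  have e1 : enfC F T p0 (φ q) (enfInv (enfC F T p0 (φ q)) c) = c := by
    have := enfXi_eq hF T c hqs
    rw [hq0] at this
    exact (sub_eq_zero.1 this.symm).symm
  have e2 := hq e1
  exact φ.injOn hqs hp (Prod.ext_iff.1 e2).1

variable [CompactSpace M] [T2Space M]

/-- E -/
theorem exists_nor_finite (hE : finrank ℝ E = 2) {F : M → R4} (hF : Imm (E := E) F) :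
    ∃ ξ : M → R4, Nor (E := E) F ξ ∧ {p | ξ p = 0}.Finite := by
  have hdim : finrank ℝ EnfR2 = finrank ℝ E := by
    rw [hE]
    simp
  set T : EnfR2 ≃L[ℝ] E := ContinuousLinearEquiv.ofFinrankEq hdim with hT
  obtain ⟨t, ht⟩ := CompactSpace.elim_nhds_subcover
    (fun p : M => (extChartAt 𝓘(ℝ, E) p).source) (fun p => extChartAt_source_mem_nhds p)
  have hae : ∀ᵐ c ∂(volume : Measure R4), ∀ p0 ∈ t, ∀ x ∈ (extChartAt 𝓘(ℝ, E) p0).target,
      ∀ u : EnfR2, enfC F T p0 x u = c →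
        ∀ᶠ y in 𝓝 ((x, u) : E × EnfR2), enfC F T p0 y.1 y.2 = c → y = (x, u) :=
    (ae_ball_iff t.countable_toSet).2 fun p0 _ => enf_generic hF hE T p0
  obtain ⟨c, hc⟩ := hae.exists
  refine ⟨enfXi F T c, enfXi_nor hF T c, ?_⟩
  have hclosed : IsClosed {p : M | enfXi F T c p = 0} :=
    isClosed_eq (enfXi_smooth hF T c).continuous continuous_const
  refine hclosed.isCompact.finite (IsDiscrete.of_nhdsWithin fun p hp => ?_)
  have hpt : p ∈ ⋃ x ∈ t, (extChartAt 𝓘(ℝ, E) x).source := by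
    rw [ht]
    trivial
  obtain ⟨p0, hp0, hps⟩ := mem_iUnion₂.1 hpt
  have h1 := enf_isolated hF T p0 (hc p0 hp0) hps hp
  rw [le_pure_iff, mem_nhdsWithin_iff_eventually]
  filter_upwards [h1] with q hq hq0
  exact hq hq0

end Chart

end Vale.Agent.P205.Top
end
end

section

/-!
Block TOP of P205, G2: the standard zero can be split into simple zeros.
-/

open scoped Manifold ContDiff Topology RealInnerProductSpace
open Set Filter MeasureTheory Module

noncomputable section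

namespace Vale.Agent.P205.Top

section Plane

theorem split_roots {n : ℕ} (hn : n ≠ 0) {r : ℝ} (hr : 0 < r) :
    {z : ℂ | z ^ n = (r : ℂ) ^ n}.ncard = n := by
  have hr' : (r : ℂ) ≠ 0 := by exact_mod_cast hr.ne'
  have h1 : {z : ℂ | z ^ n = (r : ℂ) ^ n} =
      (fun ζ : ℂ => (r : ℂ) * ζ) '' (↑(Polynomial.nthRootsFinset n (1 : ℂ)) : Set ℂ) := by
    ext z
    simp only [mem_setOf_eq, mem_image, Finset.mem_coe,
      Polynomial.mem_nthRootsFinset (Nat.pos_of_ne_zero hn)]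
    constructor
    · intro hz
      refine ⟨z / r, ?_, ?_⟩
      · rw [div_pow, hz]
        exact div_self (pow_ne_zero _ hr')
      · field_simp
    · rintro ⟨ζ, h, rfl⟩
      rw [mul_pow, h, mul_one]
  rw [h1, ncard_image_of_injective _ (mul_right_injective₀ hr'), ncard_coe_finset]
  exact (Complex.isPrimitiveRoot_exp n hn).card_nthRootsFinset

theorem split_nat {s : ℝ} (hs : 0 < s) (n : ℕ) :
    ∃ g : ℂ → ℂ, ContDiff ℝ ∞ g ∧ (∀ z, s / 2 ≤ ‖z‖ → g z = z ^ n) ∧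
      {z | ‖z‖ < s / 2 ∧ g z = 0}.ncard = n ∧
      (∀ z, ‖z‖ < s / 2 → g z = 0 → Function.Injective (fderiv ℝ g z)) := by
  rcases Nat.eq_zero_or_pos n with rfl | hn
  · refine ⟨fun _ => 1, contDiff_const, fun z _ => by simp, ?_, ?_⟩
    · have : {z : ℂ | ‖z‖ < s / 2 ∧ (1 : ℂ) = 0} = ∅ := by
        ext z; simp
      rw [this, ncard_empty]
    · intro z _ h
      exact absurd h one_ne_zero
  · let f : ContDiffBump (0 : ℂ) := ⟨s / 4, s / 2, by positivity, by linarith⟩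
    have f1 : ∀ z : ℂ, ‖z‖ ≤ s / 4 → f z = 1 := fun z hz =>
      f.one_of_mem_closedBall (by simpa [Metric.mem_closedBall, dist_zero_right] using hz)
    have f0 : ∀ z : ℂ, s / 2 ≤ ‖z‖ → f z = 0 := fun z hz =>
      f.zero_of_le_dist (by simpa [dist_zero_right] using hz)
    have fle : ∀ z : ℂ, f z ≤ 1 := fun z => f.le_one
    have fnn : ∀ z : ℂ, 0 ≤ f z := fun z => f.nonneg
    have hr : 0 < s / 8 := by positivity
    have hn' : n ≠ 0 := hn.ne'
    -- the zeros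
    have key : ∀ z : ℂ, (‖z‖ < s / 2 ∧ z ^ n - ((s / 8 : ℝ) : ℂ) ^ n * ((f z : ℝ) : ℂ) = 0) ↔
        z ^ n = ((s / 8 : ℝ) : ℂ) ^ n := by
      intro z
      constructor
      · rintro ⟨h1, h2⟩
        have h3 : z ^ n = ((s / 8 : ℝ) : ℂ) ^ n * ((f z : ℝ) : ℂ) := sub_eq_zero.1 h2
        by_cases h4 : ‖z‖ ≤ s / 4
        · rw [h3, f1 z h4]
          simp
        · push Not at h4
          exfalso
          have h5 : ‖z‖ ^ n = (s / 8) ^ n * f z := by
            have := congrArg norm h3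
            rw [norm_pow, norm_mul, norm_pow, Complex.norm_real, Complex.norm_real,
              Real.norm_of_nonneg hr.le, Real.norm_of_nonneg (fnn z)] at this
            exact this
          have h6 : (s / 8) ^ n < ‖z‖ ^ n := pow_lt_pow_left₀ (by linarith) hr.le hn'
          have h7 : (s / 8) ^ n * f z ≤ (s / 8) ^ n * 1 :=
            mul_le_mul_of_nonneg_left (fle z) (by positivity)
          linarith
      · intro h
        have h1 : ‖z‖ = s / 8 := by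
          have := congrArg norm h
          rw [norm_pow, norm_pow, Complex.norm_real, Real.norm_of_nonneg hr.le] at this
          exact (pow_left_inj₀ (norm_nonneg _) hr.le hn').1 this
        refine ⟨by rw [h1]; linarith, ?_⟩
        rw [f1 z (by rw [h1]; linarith), h]
        simp
    refine ⟨fun z => z ^ n - ((s / 8 : ℝ) : ℂ) ^ n * ((f z : ℝ) : ℂ), ?_, ?_, ?_, ?_⟩
    · have hf : ContDiff ℝ ∞ (fun z : ℂ => ((f z : ℝ) : ℂ)) :=
        Complex.ofRealCLM.contDiff.comp f.contDiff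
      exact (contDiff_id.pow n).sub (contDiff_const.mul hf)
    · intro z hz
      simp only [f0 z hz, Complex.ofReal_zero, mul_zero, sub_zero]
    · have : {z : ℂ | ‖z‖ < s / 2 ∧ z ^ n - ((s / 8 : ℝ) : ℂ) ^ n * ((f z : ℝ) : ℂ) = 0} =
          {z : ℂ | z ^ n = ((s / 8 : ℝ) : ℂ) ^ n} := by
        ext z
        exact key z
      rw [this]
      exact split_roots hn' hr
    · intro z hz h
      have h0 : z ^ n = ((s / 8 : ℝ) : ℂ) ^ n := (key z).1 ⟨hz, h⟩
      have h1 : ‖z‖ = s / 8 := by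
        have := congrArg norm h0
        rw [norm_pow, norm_pow, Complex.norm_real, Real.norm_of_nonneg hr.le] at this
        exact (pow_left_inj₀ (norm_nonneg _) hr.le hn').1 this
      have hz0 : z ≠ 0 := by
        rintro rfl
        rw [norm_zero] at h1
        linarith only [h1, hr]
      have hev : (fun z : ℂ => z ^ n - ((s / 8 : ℝ) : ℂ) ^ n * ((f z : ℝ) : ℂ)) =ᶠ[𝓝 z]
          fun z => z ^ n - ((s / 8 : ℝ) : ℂ) ^ n := by
        have hopen : IsOpen {y : ℂ | ‖y‖ < s / 4} := isOpen_lt continuous_norm continuous_const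
        filter_upwards [hopen.mem_nhds (show ‖z‖ < s / 4 by rw [h1]; linarith)] with y hy
        rw [f1 y (le_of_lt hy)]
        simp
      have hd : HasDerivAt (fun z : ℂ => z ^ n - ((s / 8 : ℝ) : ℂ) ^ n)
          ((n : ℂ) * z ^ (n - 1)) z := (hasDerivAt_pow n z).sub_const _
      have hc : (n : ℂ) * z ^ (n - 1) ≠ 0 :=
        mul_ne_zero (by exact_mod_cast hn') (pow_ne_zero _ hz0)
      have hfd := hd.hasFDerivAt.restrictScalars ℝ
      rw [hev.fderiv_eq, hfd.fderiv]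
      intro u v huv
      have huv' : u * ((n : ℂ) * z ^ (n - 1)) = v * ((n : ℂ) * z ^ (n - 1)) := by
        simpa using huv
      exact mul_right_cancel₀ hc huv'

/-- G2: the standard zero can be split into `|w|` simple zeros -/
theorem exists_split {s : ℝ} (hs : 0 < s) (w : ℤ) :
    ∃ g : ℂ → ℂ, ContDiff ℝ ∞ g ∧ (∀ z, s / 2 ≤ ‖z‖ → g z = zp w z) ∧
      {z | ‖z‖ < s / 2 ∧ g z = 0}.ncard = w.natAbs ∧
      (∀ z, ‖z‖ < s / 2 → g z = 0 → Function.Injective (fderiv ℝ g z)) := by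
  by_cases hw : 0 ≤ w
  · obtain ⟨g, h1, h2, h3, h4⟩ := split_nat hs w.toNat
    refine ⟨g, h1, fun z hz => ?_, ?_, h4⟩
    · rw [h2 z hz, zp, if_pos hw]
    · rw [h3]
      omega
  · obtain ⟨g, h1, h2, h3, h4⟩ := split_nat hs (-w).toNat
    refine ⟨fun z => g (starRingEnd ℂ z), ?_, ?_, ?_, ?_⟩
    · exact h1.comp Complex.conjCLE.contDiff
    · intro z hz
      have hz' : s / 2 ≤ ‖starRingEnd ℂ z‖ := by rwa [RCLike.norm_conj]
      show g (starRingEnd ℂ z) = zp w z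
      rw [h2 _ hz', zp, if_neg hw]
    · have himg : {z : ℂ | ‖z‖ < s / 2 ∧ g (starRingEnd ℂ z) = 0} =
          (starRingEnd ℂ) '' {z : ℂ | ‖z‖ < s / 2 ∧ g z = 0} := by
        ext z
        simp only [mem_setOf_eq, mem_image]
        constructor
        · rintro ⟨ha, hb⟩
          exact ⟨starRingEnd ℂ z, ⟨by rwa [RCLike.norm_conj], hb⟩, Complex.conj_conj z⟩
        · rintro ⟨y, ⟨ha, hb⟩, rfl⟩
          exact ⟨by rwa [RCLike.norm_conj], by rwa [Complex.conj_conj]⟩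
      rw [himg, ncard_image_of_injective _ (starRingEnd ℂ).injective, h3]
      omega
    · intro z hz h
      have hz' : ‖starRingEnd ℂ z‖ < s / 2 := by rwa [RCLike.norm_conj]
      have hinj := h4 _ hz' h
      have hgd : HasFDerivAt g (fderiv ℝ g (starRingEnd ℂ z)) (Complex.conjCLE z) :=
        (h1.differentiable (by simp)).differentiableAt.hasFDerivAt
      have hcomp : HasFDerivAt (fun z => g (starRingEnd ℂ z))
          ((fderiv ℝ g (starRingEnd ℂ z)).comp (Complex.conjCLE : ℂ →L[ℝ] ℂ)) z :=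
        hgd.comp z Complex.conjCLE.hasFDerivAt
      rw [hcomp.fderiv]
      intro u v huv
      have huv' : fderiv ℝ g (starRingEnd ℂ z) (starRingEnd ℂ u) =
          fderiv ℝ g (starRingEnd ℂ z) (starRingEnd ℂ v) := huv
      exact (starRingEnd ℂ).injective (hinj huv')

end Plane

end Vale.Agent.P205.Top
end
end

section

/-!
Block TOP of P205: local analysis near the diagonal.
-/

open scoped Manifold ContDiff Topology RealInnerProductSpace
open Set Filter MeasureTheory Module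

noncomputable section

namespace Vale.Agent.P205.Top

section Flat

theorem two_le : (2 : WithTop ℕ∞) ≤ ∞ := ENat.LEInfty.out

theorem one_one_le : ((1 : WithTop ℕ∞) + 1) ≤ ∞ := by
  rw [one_add_one_eq_two]
  exact two_le

variable {G : Type*} [NormedAddCommGroup G] [InnerProductSpace ℝ G]

/-- the final estimate -/
theorem diag_est {w v a : G} {c d : ℝ} (hc0 : 0 < c) (hpos : 0 < d)
    (hb : ‖w - a‖ ≤ c / 4 * d) (hAv : ‖a - v‖ ≤ c / 4 * d) (hlow : c * d ≤ ‖a‖)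
    (hin : ⟪w, v⟫ = 0) : False := by
  have hrest : ‖w - v‖ ≤ c / 2 * d := by
    have : w - v = (w - a) + (a - v) := by abel
    rw [this]
    refine (norm_add_le _ _).trans ?_
    linarith
  have hvlow : 3 * c / 4 * d ≤ ‖v‖ := by
    have h4 : ‖a‖ ≤ ‖a - v‖ + ‖v‖ := by
      have := norm_add_le (a - v) v
      simpa using this
    linarith only [h4, hlow, hAv]
  have hsq : ‖v‖ ^ 2 = -⟪w - v, v⟫ := by
    rw [inner_sub_left, hin, real_inner_self_eq_norm_sq]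
    ring
  have hle : ‖v‖ ^ 2 ≤ ‖w - v‖ * ‖v‖ := by
    rw [hsq]
    exact (neg_le_abs _).trans (abs_real_inner_le_norm _ _)
  have hcd : 0 < c * d := mul_pos hc0 hpos
  have hvpos : 0 < ‖v‖ := by linarith only [hcd, hvlow]
  have hle' : ‖v‖ ≤ ‖w - v‖ := by
    have : ‖v‖ * ‖v‖ ≤ ‖w - v‖ * ‖v‖ := by rw [← sq]; exact hle
    exact le_of_mul_le_mul_right this hvpos
  linarith only [hle', hvpos, hvlow, hrest]

variable {E : Type*} [NormedAddCommGroup E] [NormedSpace ℝ E]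

/-- an injective linear map is bounded below -/
theorem exists_low [FiniteDimensional ℝ E] (A : E →L[ℝ] G) (hi : Function.Injective A) :
    ∃ c : ℝ, 0 < c ∧ ∀ u : E, c * ‖u‖ ≤ ‖A u‖ := by
  obtain ⟨K, hK, hanti⟩ : ∃ K > 0, AntilipschitzWith K A.toLinearMap :=
    LinearMap.exists_antilipschitzWith A.toLinearMap (LinearMap.ker_eq_bot.2 hi)
  have hKr : (0 : ℝ) < K := by exact_mod_cast hK
  refine ⟨(K : ℝ)⁻¹, inv_pos.2 hKr, fun u => ?_⟩
  rw [inv_mul_le_iff₀ hKr]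
  have := hanti.le_mul_dist u 0
  simpa [dist_zero_right] using this

/-- the analysis in a linear space -/
theorem diag_flat [FiniteDimensional ℝ E] {f n : E → G} {y0 : E} (hf : ContDiffAt ℝ 2 f y0)
    (hi : Function.Injective (fderiv ℝ f y0))
    (ho : ∀ᶠ y in 𝓝 y0, ∀ u, ⟪n y, fderiv ℝ f y u⟫ = 0) :
    ∃ W ∈ 𝓝 y0, ∀ x ∈ W, ∀ y ∈ W, ∀ ε : ℝ, f x - f y = ε • n y → x = y := by
  obtain ⟨c, hc0, hlow⟩ := exists_low (fderiv ℝ f y0) hi
  have hc4 : 0 < c / 4 := by positivity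
  have hstr : HasStrictFDerivAt f (fderiv ℝ f y0) y0 := hf.hasStrictFDerivAt (by norm_num)
  have h1 : ∀ᶠ q : E × E in 𝓝 (y0, y0),
      ‖f q.1 - f q.2 - (fderiv ℝ f y0) (q.1 - q.2)‖ ≤ c / 4 * ‖q.1 - q.2‖ :=
    hstr.isLittleO.def hc4
  have hcont : ContinuousAt (fderiv ℝ f) y0 := hf.continuousAt_fderiv (by norm_num)
  have h2 : ∀ᶠ y in 𝓝 y0, ‖fderiv ℝ f y - fderiv ℝ f y0‖ ≤ c / 4 := by
    filter_upwards [Metric.continuousAt_iff'.1 hcont (c / 4) hc4] with y hy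
    rw [dist_eq_norm] at hy
    exact hy.le
  rw [nhds_prod_eq] at h1
  obtain ⟨W1, hW1, hW1s⟩ := mem_prod_self_iff.1 h1
  refine ⟨W1 ∩ {y | ‖fderiv ℝ f y - fderiv ℝ f y0‖ ≤ c / 4} ∩
    {y | ∀ u, ⟪n y, fderiv ℝ f y u⟫ = 0}, inter_mem (inter_mem hW1 h2) ho, ?_⟩
  rintro x ⟨⟨hx1, -⟩, -⟩ y ⟨⟨hy1, hy2⟩, hy3⟩ ε he
  by_contra hxy
  have hpos : 0 < ‖x - y‖ := norm_pos_iff.2 (sub_ne_zero.2 hxy)
  have hb : ‖f x - f y - (fderiv ℝ f y0) (x - y)‖ ≤ c / 4 * ‖x - y‖ :=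
    hW1s (mk_mem_prod hx1 hy1)
  have hAv : ‖(fderiv ℝ f y0) (x - y) - (fderiv ℝ f y) (x - y)‖ ≤ c / 4 * ‖x - y‖ := by
    rw [← norm_neg, neg_sub, ← sub_apply]
    exact ((fderiv ℝ f y - fderiv ℝ f y0).le_opNorm _).trans
      (mul_le_mul_of_nonneg_right hy2 (norm_nonneg _))
  refine diag_est hc0 hpos hb hAv (hlow _) ?_
  rw [he, inner_smul_left, hy3 (x - y), mul_zero]

/-- the derivative of a normal field at a zero is normal, in a linear space -/
theorem diag_orth {f n : E → G} {y0 : E} (hf : ContDiffAt ℝ ∞ f y0) (hn : ContDiffAt ℝ ∞ n y0)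
    (hz : n y0 = 0) (ho : ∀ᶠ y in 𝓝 y0, ∀ e, ⟪n y, fderiv ℝ f y e⟫ = 0) (u e : E) :
    ⟪fderiv ℝ n y0 u, fderiv ℝ f y0 e⟫ = 0 := by
  have hd1 : HasFDerivAt n (fderiv ℝ n y0) y0 := (hn.differentiableAt (by simp)).hasFDerivAt
  have hd2 : DifferentiableAt ℝ (fun y => fderiv ℝ f y e) y0 := by
    have h : ContDiffAt ℝ 1 (fderiv ℝ f) y0 := hf.fderiv_right (m := 1) one_one_le
    exact (h.differentiableAt (by norm_num)).clm_apply (differentiableAt_const e)
  have hd3 := hd1.inner ℝ hd2.hasFDerivAt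
  have hzero : (fun y => ⟪n y, fderiv ℝ f y e⟫) =ᶠ[𝓝 y0] fun _ => (0 : ℝ) := by
    filter_upwards [ho] with y hy
    exact hy e
  have hd4 := (hd3.congr_of_eventuallyEq hzero.symm).unique (hasFDerivAt_const (0 : ℝ) y0)
  have hd5 := congrArg (fun T : E →L[ℝ] ℝ => T u) hd4
  simp only [ContinuousLinearMap.comp_apply, ContinuousLinearMap.prod_apply,
    fderivInnerCLM_apply, hz, inner_zero_left, zero_add, zero_apply] at hd5
  exact hd5

/-- the linear algebra at a zero on the diagonal -/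
theorem lin_inj {A B : E →L[ℝ] G} (hA : Function.Injective A) (hB : Function.Injective B)
    (ho : ∀ u e : E, ⟪B u, A e⟫ = 0) {ε : ℝ} (hε : ε ≠ 0) :
    Function.Injective (A.comp (ContinuousLinearMap.fst ℝ E E) -
      A.comp (ContinuousLinearMap.snd ℝ E E) -
      ε • B.comp (ContinuousLinearMap.snd ℝ E E) : E × E →L[ℝ] G) := by
  rw [injective_iff_map_eq_zero]
  rintro ⟨u, v⟩ h
  have h0 : A u - A v - ε • B v = 0 := by simpa using h
  have h1 : A (u - v) = ε • B v := by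
    rw [map_sub]
    exact sub_eq_zero.1 h0
  have h2 : A (u - v) = 0 := by
    rw [← inner_self_eq_zero (𝕜 := ℝ)]
    nth_rewrite 1 [h1]
    rw [inner_smul_left, ho v (u - v), mul_zero]
  have h3 : u - v = 0 := hA (by rw [h2, map_zero])
  have h4 : B v = 0 := by
    rw [h2] at h1
    exact (smul_eq_zero.1 h1.symm).resolve_left hε
  have h5 : v = 0 := hB (by rw [h4, map_zero])
  rw [h5, sub_zero] at h3
  rw [h3, h5]
  rfl

end Flat

section Surface

variable {E : Type*} [NormedAddCommGroup E] [NormedSpace ℝ E] [FiniteDimensional ℝ E]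
  {M : Type*} [TopologicalSpace M] [ChartedSpace E M] [IsManifold 𝓘(ℝ, E) ∞ M]

omit [FiniteDimensional ℝ E] [IsManifold 𝓘(ℝ, E) ∞ M] in
theorem mfderiv_chart {F : M → R4} {p : M} (hF : MDifferentiableAt 𝓘(ℝ, E) 𝓘(ℝ, R4) F p) :
    mfderiv 𝓘(ℝ, E) 𝓘(ℝ, R4) F p =
      fderiv ℝ (F ∘ (extChartAt 𝓘(ℝ, E) p).symm) (extChartAt 𝓘(ℝ, E) p p) := by
  rw [hF.mfderiv]
  simp only [writtenInExtChartAt, modelWithCornersSelf_coe, range_id, fderivWithin_univ,
    extChartAt_model_space_eq_id, PartialEquiv.refl_coe, Function.id_comp]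
  rfl

omit [FiniteDimensional ℝ E] in
theorem chart_contDiffOn {F : M → R4} (hF : ContMDiff 𝓘(ℝ, E) 𝓘(ℝ, R4) ∞ F) (p : M) :
    ContDiffOn ℝ ∞ (F ∘ (extChartAt 𝓘(ℝ, E) p).symm) (extChartAt 𝓘(ℝ, E) p).target := by
  rw [← contMDiffOn_iff_contDiffOn]
  exact hF.comp_contMDiffOn (contMDiffOn_extChartAt_symm p)

omit [FiniteDimensional ℝ E] in
theorem chart_orth {F ξ : M → R4} (hF : Imm (E := E) F) (hξ : Nor (E := E) F ξ) (p : M)
    {y : E} (hy : y ∈ (extChartAt 𝓘(ℝ, E) p).target) (u : E) :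
    ⟪(ξ ∘ (extChartAt 𝓘(ℝ, E) p).symm) y,
      fderiv ℝ (F ∘ (extChartAt 𝓘(ℝ, E) p).symm) y u⟫ = 0 := by
  have hopen : IsOpen (extChartAt 𝓘(ℝ, E) p).target := isOpen_extChartAt_target p
  have hs : MDifferentiableAt 𝓘(ℝ, E) 𝓘(ℝ, E) (extChartAt 𝓘(ℝ, E) p).symm y :=
    ((contMDiffOn_extChartAt_symm (n := ∞) (I := 𝓘(ℝ, E)) p).contMDiffAt
      (hopen.mem_nhds hy)).mdifferentiableAt (by simp)
  have hFd : MDifferentiableAt 𝓘(ℝ, E) 𝓘(ℝ, R4) F ((extChartAt 𝓘(ℝ, E) p).symm y) :=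
    (hF.sm _).mdifferentiableAt (by simp)
  have hcomp := mfderiv_comp y hFd hs
  rw [mfderiv_eq_fderiv] at hcomp
  rw [hcomp]
  exact hξ.orth _ _

/-- C1: near the diagonal -/
theorem near_diag {F ξ : M → R4} (hF : Imm (E := E) F) (hξ : Nor (E := E) F ξ) (p : M) :
    ∃ V ∈ 𝓝 p, ∀ x ∈ V, ∀ y ∈ V, ∀ ε : ℝ, F x - F y = ε • ξ y → x = y := by
  set φ := extChartAt 𝓘(ℝ, E) p with hφ
  have hopen : IsOpen φ.target := isOpen_extChartAt_target p
  have hmem : φ p ∈ φ.target := mem_extChartAt_target p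
  have hsm : ContDiffAt ℝ ∞ (F ∘ φ.symm) (φ p) :=
    (chart_contDiffOn hF.sm p).contDiffAt (hopen.mem_nhds hmem)
  have hinj : Function.Injective (fderiv ℝ (F ∘ φ.symm) (φ p)) := by
    rw [← mfderiv_chart ((hF.sm p).mdifferentiableAt (by simp))]
    exact hF.inj p
  obtain ⟨W, hW, hW'⟩ := diag_flat (f := F ∘ φ.symm) (n := ξ ∘ φ.symm)
    (hsm.of_le two_le) hinj
    (by
      filter_upwards [hopen.mem_nhds hmem] with y hy u
      exact chart_orth hF hξ p hy u)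
  refine ⟨φ.source ∩ φ ⁻¹' W, inter_mem (extChartAt_source_mem_nhds p)
    ((continuousAt_extChartAt p).preimage_mem_nhds hW), ?_⟩
  rintro x ⟨hx, hxW⟩ y ⟨hy, hyW⟩ ε he
  have h := hW' (φ x) hxW (φ y) hyW ε (by
    simp only [Function.comp_apply, φ.left_inv hx, φ.left_inv hy]
    exact he)
  exact φ.injOn hx hy h

omit [FiniteDimensional ℝ E] in
/-- the derivative of a normal field at a zero is normal -/
theorem orth_zero {F ξ : M → R4} (hF : Imm (E := E) F) (hξ : Nor (E := E) F ξ) {a : M}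
    (ha : ξ a = 0) (u e : E) : @inner ℝ R4 _ (mfderiv 𝓘(ℝ, E) 𝓘(ℝ, R4) ξ a u)
      (mfderiv 𝓘(ℝ, E) 𝓘(ℝ, R4) F a e) = 0 := by
  have hopen : IsOpen (extChartAt 𝓘(ℝ, E) a).target := isOpen_extChartAt_target a
  have hmem : extChartAt 𝓘(ℝ, E) a a ∈ (extChartAt 𝓘(ℝ, E) a).target :=
    mem_extChartAt_target a
  have hFd : MDifferentiableAt 𝓘(ℝ, E) 𝓘(ℝ, R4) F a := (hF.sm a).mdifferentiableAt (by simp)
  have hξd : MDifferentiableAt 𝓘(ℝ, E) 𝓘(ℝ, R4) ξ a := (hξ.sm a).mdifferentiableAt (by simp)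
  rw [mfderiv_chart hFd, mfderiv_chart hξd]
  refine diag_orth ((chart_contDiffOn hF.sm a).contDiffAt (hopen.mem_nhds hmem))
    ((chart_contDiffOn hξ.sm a).contDiffAt (hopen.mem_nhds hmem)) ?_ ?_ u e
  · simp [ha]
  · filter_upwards [hopen.mem_nhds hmem] with y hy e
    exact chart_orth hF hξ a hy e

omit [FiniteDimensional ℝ E] [IsManifold 𝓘(ℝ, E) ∞ M] in
/-- the derivative of the difference -/
theorem hasMFDerivAt_diff {F ξ : M → R4} {a : M} {A B : E →L[ℝ] R4}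
    (hA : HasMFDerivAt 𝓘(ℝ, E) 𝓘(ℝ, R4) F a A)
    (hB : HasMFDerivAt 𝓘(ℝ, E) 𝓘(ℝ, R4) ξ a B) (ε : ℝ) :
    HasMFDerivAt (𝓘(ℝ, E).prod 𝓘(ℝ, E)) 𝓘(ℝ, R4)
      (fun q : M × M => F q.1 - F q.2 - ε • ξ q.2) (a, a)
      (A.comp (ContinuousLinearMap.fst ℝ E E) - A.comp (ContinuousLinearMap.snd ℝ E E) -
        ε • B.comp (ContinuousLinearMap.snd ℝ E E) : E × E →L[ℝ] R4) := by
  have h1 : HasMFDerivAt (𝓘(ℝ, E).prod 𝓘(ℝ, E)) 𝓘(ℝ, R4) (fun q : M × M => F q.1) (a, a)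
      (A.comp (ContinuousLinearMap.fst ℝ E E)) :=
    HasMFDerivAt.comp (a, a) hA (hasMFDerivAt_fst (a, a))
  have h2 : HasMFDerivAt (𝓘(ℝ, E).prod 𝓘(ℝ, E)) 𝓘(ℝ, R4) (fun q : M × M => F q.2) (a, a)
      (A.comp (ContinuousLinearMap.snd ℝ E E)) :=
    HasMFDerivAt.comp (a, a) hA (hasMFDerivAt_snd (a, a))
  have h3 : HasMFDerivAt (𝓘(ℝ, E).prod 𝓘(ℝ, E)) 𝓘(ℝ, R4) (fun q : M × M => ξ q.2) (a, a)
      (B.comp (ContinuousLinearMap.snd ℝ E E)) :=
    HasMFDerivAt.comp (a, a) hB (hasMFDerivAt_snd (a, a))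
  exact (h1.sub h2).sub (h3.const_smul ε)

omit [FiniteDimensional ℝ E] [IsManifold 𝓘(ℝ, E) ∞ M] in
/-- injectivity of the derivative of the difference -/
theorem inj_diff {F ξ : M → R4} {a : M} {A B : E →L[ℝ] R4}
    (hA : HasMFDerivAt 𝓘(ℝ, E) 𝓘(ℝ, R4) F a A)
    (hB : HasMFDerivAt 𝓘(ℝ, E) 𝓘(ℝ, R4) ξ a B)
    (hAi : Function.Injective A) (hBi : Function.Injective B)
    (ho : ∀ u e : E, ⟪B u, A e⟫ = 0) {ε : ℝ} (hε : ε ≠ 0) :
    Function.Injective (mfderiv (𝓘(ℝ, E).prod 𝓘(ℝ, E)) 𝓘(ℝ, R4)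
      (fun q : M × M => F q.1 - F q.2 - ε • ξ q.2) (a, a)) := by
  rw [(hasMFDerivAt_diff hA hB ε).mfderiv]
  exact lin_inj hAi hBi ho hε

omit [FiniteDimensional ℝ E] in
/-- C3: regularity at the zeros on the diagonal -/
theorem regular_diag {F ξ : M → R4} (hF : Imm (E := E) F) (hξ : Nor (E := E) F ξ) {a : M}
    (ha : ξ a = 0) (hr : Function.Injective (mfderiv 𝓘(ℝ, E) 𝓘(ℝ, R4) ξ a)) {ε : ℝ}
    (hε : ε ≠ 0) :
    Function.Injective (mfderiv (𝓘(ℝ, E).prod 𝓘(ℝ, E)) 𝓘(ℝ, R4)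
      (fun q : M × M => F q.1 - F q.2 - ε • ξ q.2) (a, a)) :=
  inj_diff ((hF.sm a).mdifferentiableAt (by simp)).hasMFDerivAt
    ((hξ.sm a).mdifferentiableAt (by simp)).hasMFDerivAt (hF.inj a) hr (orth_zero hF hξ ha) hε

end Surface

end Vale.Agent.P205.Top
end
end
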