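import Mathlib
import Vale.Agent.P205.Bdl.B2
import Vale.Agent.P205.Bdl.B3

set_option linter.all false

section

/-!
Block TOP of P205: from connected surfaces to all compact surfaces (union over the connected
components).
-/

open scoped Manifold ContDiff Topology RealInnerProductSpace
open Set Filter MeasureTheory Module TopologicalSpace

noncomputable section

namespace Vale.Agent.P205.Top

universe u v

variable {E : Type u} [NormedAddCommGroup E] [NormedSpace ℝ E]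
  {M : Type v} [TopologicalSpace M] [ChartedSpace E M] [IsManifold 𝓘(ℝ, E) ∞ M]

omit [IsManifold 𝓘(ℝ, E) ∞ M] in
/-- the derivative of the inclusion of an open subset is surjective -/
theorem mfderiv_val_surjective (U : Opens M) (x : U) :
    Function.Surjective (mfderiv 𝓘(ℝ, E) 𝓘(ℝ, E) (Subtype.val : U → M) x) := by
  classical
  set r : M → U := fun y => if h : y ∈ U then ⟨y, h⟩ else x with hr
  have hev : (Subtype.val ∘ r) =ᶠ[𝓝 (x : M)] id := by
    filter_upwards [U.isOpen.mem_nhds x.2] with y hy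
    have hy' : y ∈ U := hy
    simp [hr, hy']
  have hrx : r (x : M) = x := by simp [hr]
  have h1 : ContMDiffAt 𝓘(ℝ, E) 𝓘(ℝ, E) ∞ (Subtype.val ∘ r) (x : M) :=
    contMDiffAt_id.congr_of_eventuallyEq hev
  have h2 : ContMDiffAt 𝓘(ℝ, E) 𝓘(ℝ, E) ∞ r (x : M) :=
    (ContMDiffAt.subtypeVal_comp_iff U r (x : M)).1 h1
  have h3 : MDifferentiableAt 𝓘(ℝ, E) 𝓘(ℝ, E) r (x : M) := h2.mdifferentiableAt (by simp)
  have h4 : MDifferentiableAt 𝓘(ℝ, E) 𝓘(ℝ, E) (Subtype.val : U → M) (r (x : M)) :=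
    (contMDiff_subtype_val (I := 𝓘(ℝ, E)) (n := ∞)).contMDiffAt.mdifferentiableAt (by simp)
  have h5 := mfderiv_comp (x : M) h4 h3
  rw [hev.mfderiv_eq, mfderiv_id] at h5
  intro v
  have h6 : v = (mfderiv 𝓘(ℝ, E) 𝓘(ℝ, E) (Subtype.val : U → M) (r (x : M)))
      (mfderiv 𝓘(ℝ, E) 𝓘(ℝ, E) r (x : M) v) := by
    have := congrArg (fun L => L v) h5
    exact this
  rw [hrx] at h6
  exact ⟨_, h6.symm⟩

omit [IsManifold 𝓘(ℝ, E) ∞ M] in
/-- the derivative of a function restricted to an open subset -/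
theorem mfderiv_restrict (U : Opens M) {f : M → R4} (x : U)
    (hf : ContMDiffAt 𝓘(ℝ, E) 𝓘(ℝ, R4) ∞ f (x : M)) (v : TangentSpace 𝓘(ℝ, E) x) :
    mfderiv 𝓘(ℝ, E) 𝓘(ℝ, R4) (fun y : U => f y) x v =
      mfderiv 𝓘(ℝ, E) 𝓘(ℝ, R4) f (x : M)
        (mfderiv 𝓘(ℝ, E) 𝓘(ℝ, E) (Subtype.val : U → M) x v) := by
  have h4 : MDifferentiableAt 𝓘(ℝ, E) 𝓘(ℝ, E) (Subtype.val : U → M) x :=
    (contMDiff_subtype_val (I := 𝓘(ℝ, E)) (n := ∞)).contMDiffAt.mdifferentiableAt (by simp)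
  have h3 : MDifferentiableAt 𝓘(ℝ, E) 𝓘(ℝ, R4) f (x : M) := hf.mdifferentiableAt (by simp)
  have h5 := mfderiv_comp x h3 h4
  exact congrArg (fun L => L v) h5

/-- the union over the components -/
theorem exists_imm_unitNormal_of [CompactSpace M] [T2Space M]
    (H : ∀ (N : Type v) [TopologicalSpace N] [ChartedSpace E N] [IsManifold 𝓘(ℝ, E) ∞ N]
      [CompactSpace N] [T2Space N] [ConnectedSpace N],
      ∃ F q : N → R4, Imm (E := E) F ∧ Nor (E := E) F q ∧ ∀ p, ‖q p‖ = 1) :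
    ∃ F q : M → R4, Imm (E := E) F ∧ Nor (E := E) F q ∧ ∀ p, ‖q p‖ = 1 := by
  classical
  have : LocallyConnectedSpace M := ChartedSpace.locallyConnectedSpace E M
  let U : M → Opens M := fun p => ⟨connectedComponent p, isOpen_connectedComponent⟩
  have hUp : ∀ p, p ∈ U p := fun p => mem_connectedComponent
  have hUeq : ∀ p q, q ∈ U p → U q = U p := by
    intro p q hq
    apply Opens.ext
    exact (connectedComponent_eq hq).symm
  have key : ∀ p, ∃ F q : U p → R4, Imm (E := E) F ∧ Nor (E := E) F q ∧ ∀ x, ‖q x‖ = 1 := by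
    intro p
    have : CompactSpace (U p) :=
      isCompact_iff_compactSpace.1 (isClosed_connectedComponent (x := p)).isCompact
    have : ConnectedSpace (U p) :=
      isConnected_iff_connectedSpace.1 (isConnected_connectedComponent (x := p))
    exact H (U p)
  -- dependence only on the open set
  have key' : ∀ V : Opens M, ∃ f g : M → R4, (∃ p, V = U p) →
      (∀ x : V, ContMDiffAt 𝓘(ℝ, E) 𝓘(ℝ, R4) ∞ f (x : M)) ∧
      (∀ x : V, ContMDiffAt 𝓘(ℝ, E) 𝓘(ℝ, R4) ∞ g (x : M)) ∧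
      (∀ x : V, Function.Injective (mfderiv 𝓘(ℝ, E) 𝓘(ℝ, R4) f (x : M))) ∧
      (∀ x : V, ∀ v : TangentSpace 𝓘(ℝ, E) (x : M),
        ⟪g x, mfderiv 𝓘(ℝ, E) 𝓘(ℝ, R4) f (x : M) v⟫ = 0) ∧ ∀ x : V, ‖g x‖ = 1 := by
    intro V
    by_cases hV : ∃ p, V = U p
    · obtain ⟨p, rfl⟩ := hV
      obtain ⟨F, q, hF, hq, hn⟩ := key p
      let f : M → R4 := fun y => if h : y ∈ U p then F ⟨y, h⟩ else 0
      let g : M → R4 := fun y => if h : y ∈ U p then q ⟨y, h⟩ else 0
      have hfF : (fun y : U p => f y) = F := by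
        funext y
        simp [f]
      have hgq : (fun y : U p => g y) = q := by
        funext y
        simp [g]
      have hfs : ∀ x : U p, ContMDiffAt 𝓘(ℝ, E) 𝓘(ℝ, R4) ∞ f (x : M) := by
        intro x
        rw [← contMDiffAt_subtype_iff, hfF]
        exact hF.sm x
      have hgs : ∀ x : U p, ContMDiffAt 𝓘(ℝ, E) 𝓘(ℝ, R4) ∞ g (x : M) := by
        intro x
        rw [← contMDiffAt_subtype_iff, hgq]
        exact hq.sm x
      have hder : ∀ (x : U p) (v : TangentSpace 𝓘(ℝ, E) x),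
          mfderiv 𝓘(ℝ, E) 𝓘(ℝ, R4) F x v = mfderiv 𝓘(ℝ, E) 𝓘(ℝ, R4) f (x : M)
            (mfderiv 𝓘(ℝ, E) 𝓘(ℝ, E) (Subtype.val : U p → M) x v) := by
        intro x v
        have h1 := mfderiv_restrict (U p) x (hfs x) v
        rw [hfF] at h1
        exact h1
      refine ⟨f, g, fun _ => ⟨hfs, hgs, ?_, ?_, ?_⟩⟩
      · intro x v w hvw
        obtain ⟨v', rfl⟩ := mfderiv_val_surjective (U p) x v
        obtain ⟨w', rfl⟩ := mfderiv_val_surjective (U p) x w
        have h1 : mfderiv 𝓘(ℝ, E) 𝓘(ℝ, R4) F x v' = mfderiv 𝓘(ℝ, E) 𝓘(ℝ, R4) F x w' := by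
          rw [hder x v', hder x w']
          exact hvw
        rw [hF.inj x h1]
      · intro x v
        obtain ⟨v', rfl⟩ := mfderiv_val_surjective (U p) x v
        have h1 := hq.orth x v'
        rw [hder x v'] at h1
        have h2 : g (x : M) = q x := by simp [g]
        rw [h2]
        exact h1
      · intro x
        have h2 : g (x : M) = q x := by simp [g]
        rw [h2]
        exact hn x
    · exact ⟨0, 0, fun h => absurd h hV⟩
  choose f g hfg using key'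
  let F : M → R4 := fun p => f (U p) p
  let q : M → R4 := fun p => g (U p) p
  have hFe : ∀ p, F =ᶠ[𝓝 p] f (U p) := by
    intro p
    filter_upwards [(U p).isOpen.mem_nhds (hUp p)] with y hy
    show f (U y) y = f (U p) y
    rw [hUeq p y hy]
  have hqe : ∀ p, q =ᶠ[𝓝 p] g (U p) := by
    intro p
    filter_upwards [(U p).isOpen.mem_nhds (hUp p)] with y hy
    show g (U y) y = g (U p) y
    rw [hUeq p y hy]
  refine ⟨F, q, ⟨?_, ?_⟩, ⟨?_, ?_⟩, ?_⟩
  · intro p
    exact ((hfg (U p) ⟨p, rfl⟩).1 ⟨p, hUp p⟩).congr_of_eventuallyEq (hFe p)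
  · intro p
    rw [(hFe p).mfderiv_eq]
    exact (hfg (U p) ⟨p, rfl⟩).2.2.1 ⟨p, hUp p⟩
  · intro p
    exact ((hfg (U p) ⟨p, rfl⟩).2.1 ⟨p, hUp p⟩).congr_of_eventuallyEq (hqe p)
  · intro p
    rw [(hFe p).mfderiv_eq]
    exact (hfg (U p) ⟨p, rfl⟩).2.2.2.1 ⟨p, hUp p⟩
  · intro p
    exact (hfg (U p) ⟨p, rfl⟩).2.2.2.2 ⟨p, hUp p⟩

end Vale.Agent.P205.Top
end
end

section

/-!
Block TOP of P205, D1: every compact surface has a smooth immersion into four space.
-/

open scoped Manifold ContDiff Topology RealInnerProductSpace NNReal ENNReal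
open Set Filter MeasureTheory Module

noncomputable section

namespace Vale.Agent.P205.Top

section lin

variable {V : Type*} [NormedAddCommGroup V] [NormedSpace ℝ V] [FiniteDimensional ℝ V]

/-- a linear map with one dimensional kernel -/
theorem imm_proj {n : ℕ} (hV : finrank ℝ V = n + 1) {v : V} (hv : v ≠ 0) :
    ∃ L : V →L[ℝ] EuclideanSpace ℝ (Fin n), ∀ x, L x = 0 → ∃ c : ℝ, x = c • v := by
  have h1 : finrank ℝ (V ⧸ (ℝ ∙ v)) = finrank ℝ (EuclideanSpace ℝ (Fin n)) := by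
    rw [finrank_euclideanSpace_fin, Submodule.finrank_quotient, finrank_span_singleton hv, hV]
    rfl
  let e : (V ⧸ (ℝ ∙ v)) ≃ₗ[ℝ] EuclideanSpace ℝ (Fin n) := LinearEquiv.ofFinrankEq _ _ h1
  refine ⟨(e.toLinearMap.comp (Submodule.mkQ (ℝ ∙ v))).toContinuousLinearMap, fun x hx => ?_⟩
  have h2 : e ((ℝ ∙ v).mkQ x) = 0 := hx
  have h3 : (ℝ ∙ v).mkQ x = 0 := by
    rw [← e.map_zero] at h2
    exact e.injective h2
  rw [Submodule.mkQ_apply, Submodule.Quotient.mk_eq_zero, Submodule.mem_span_singleton] at h3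
  obtain ⟨c, hc⟩ := h3
  exact ⟨c, hc.symm⟩

/-- padding with zeros -/
def padL (n : ℕ) : EuclideanSpace ℝ (Fin n) →ₗ[ℝ] R4 where
  toFun x := WithLp.toLp 2 (fun j : Fin 4 => if h : j.val < n then x ⟨j.val, h⟩ else 0)
  map_add' x y := by
    ext j
    simp only [PiLp.add_apply]
    split_ifs <;> simp
  map_smul' c x := by
    ext j
    simp only [PiLp.smul_apply, RingHom.id_apply]
    split_ifs <;> simp

theorem padL_inj {n : ℕ} (hn : n ≤ 4) : Function.Injective (padL n) := by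
  intro x y hxy
  ext j
  have h := congrArg (fun z : R4 => z ⟨j.val, by omega⟩) hxy
  simpa [padL] using h

end lin

section

variable {E : Type*} [NormedAddCommGroup E] [NormedSpace ℝ E] [FiniteDimensional ℝ E]
  {M : Type*} [TopologicalSpace M] [ChartedSpace E M] [IsManifold 𝓘(ℝ, E) ∞ M]
  {W W' : Type*} [NormedAddCommGroup W] [NormedSpace ℝ W] [FiniteDimensional ℝ W]
  [NormedAddCommGroup W'] [NormedSpace ℝ W'] [FiniteDimensional ℝ W']

omit [IsManifold 𝓘(ℝ, E) ∞ M] [FiniteDimensional ℝ E] [FiniteDimensional ℝ W]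
  [FiniteDimensional ℝ W'] in
theorem imm_comp {f : M → W} (hf : ContMDiff 𝓘(ℝ, E) 𝓘(ℝ, W) ∞ f) (L : W →L[ℝ] W')
    (hinj : ∀ p (u : TangentSpace 𝓘(ℝ, E) p), L (mfderiv 𝓘(ℝ, E) 𝓘(ℝ, W) f p u) = 0 → u = 0) :
    ContMDiff 𝓘(ℝ, E) 𝓘(ℝ, W') ∞ (fun p => L (f p)) ∧
      ∀ p, Function.Injective (mfderiv 𝓘(ℝ, E) 𝓘(ℝ, W') (fun p => L (f p)) p) := by
  refine ⟨L.contMDiff.comp hf, fun p => ?_⟩
  have h1 : MDifferentiableAt 𝓘(ℝ, E) 𝓘(ℝ, W) f p := hf.mdifferentiableAt (by simp)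
  have h2 : HasMFDerivAt 𝓘(ℝ, E) 𝓘(ℝ, W') (fun p => L (f p)) p
      (L.comp (mfderiv 𝓘(ℝ, E) 𝓘(ℝ, W) f p)) :=
    HasMFDerivAt.comp p (L.hasMFDerivAt (x := f p)) h1.hasMFDerivAt
  rw [h2.mfderiv]
  intro u u' huu
  have h3 : L (mfderiv 𝓘(ℝ, E) 𝓘(ℝ, W) f p (u - u')) = 0 := by
    rw [map_sub]
    have h4 : L (mfderiv 𝓘(ℝ, E) 𝓘(ℝ, W) f p u) = L (mfderiv 𝓘(ℝ, E) 𝓘(ℝ, W) f p u') := huu
    exact (map_sub L _ _).trans (sub_eq_zero.2 h4)
  exact sub_eq_zero.1 (hinj p (u - u') h3)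

/-- the tangent vectors over a chart, as the image of a smooth map -/
def tanMap (f : M → W) (p0 : M) (q : E × E) : W :=
  fderiv ℝ (f ∘ (extChartAt 𝓘(ℝ, E) p0).symm) q.1 q.2

omit [FiniteDimensional ℝ E] [FiniteDimensional ℝ W] in
theorem imm_contDiffAt {f : M → W} (hf : ContMDiff 𝓘(ℝ, E) 𝓘(ℝ, W) ∞ f) (p0 : M) {x : E}
    (hx : x ∈ (extChartAt 𝓘(ℝ, E) p0).target) :
    ContDiffAt ℝ ∞ (f ∘ (extChartAt 𝓘(ℝ, E) p0).symm) x := by
  have h1 : ContMDiffOn 𝓘(ℝ, E) 𝓘(ℝ, W) ∞ (f ∘ (extChartAt 𝓘(ℝ, E) p0).symm)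
      (extChartAt 𝓘(ℝ, E) p0).target :=
    hf.comp_contMDiffOn (contMDiffOn_extChartAt_symm p0)
  exact (contMDiffOn_iff_contDiffOn.1 h1).contDiffAt ((isOpen_extChartAt_target p0).mem_nhds hx)

omit [FiniteDimensional ℝ E] [FiniteDimensional ℝ W] in
theorem imm_tan {f : M → W} (hf : ContMDiff 𝓘(ℝ, E) 𝓘(ℝ, W) ∞ f) (p0 : M) {p : M}
    (hp : p ∈ (chartAt E p0).source) (u : TangentSpace 𝓘(ℝ, E) p) :
    ∃ q ∈ (extChartAt 𝓘(ℝ, E) p0).target ×ˢ (univ : Set E),
      tanMap f p0 q = mfderiv 𝓘(ℝ, E) 𝓘(ℝ, W) f p u := by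
  have hp' : p ∈ (extChartAt 𝓘(ℝ, E) p0).source := by rwa [extChartAt_source]
  have hx := (extChartAt 𝓘(ℝ, E) p0).map_source hp'
  have h1 : MDifferentiableAt 𝓘(ℝ, E) 𝓘(ℝ, E) (extChartAt 𝓘(ℝ, E) p0) p :=
    mdifferentiableAt_extChartAt hp
  have h2 : MDifferentiableAt 𝓘(ℝ, E) 𝓘(ℝ, W) (f ∘ (extChartAt 𝓘(ℝ, E) p0).symm)
      (extChartAt 𝓘(ℝ, E) p0 p) :=
    ((imm_contDiffAt hf p0 hx).differentiableAt (by simp)).mdifferentiableAt
  have h3 : f =ᶠ[𝓝 p] (f ∘ (extChartAt 𝓘(ℝ, E) p0).symm) ∘ (extChartAt 𝓘(ℝ, E) p0) := by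
    filter_upwards [(isOpen_extChartAt_source p0).mem_nhds hp'] with y hy
    simp only [Function.comp_apply]
    rw [(extChartAt 𝓘(ℝ, E) p0).left_inv hy]
  refine ⟨(extChartAt 𝓘(ℝ, E) p0 p,
    mfderiv 𝓘(ℝ, E) 𝓘(ℝ, E) (extChartAt 𝓘(ℝ, E) p0) p u), ⟨hx, mem_univ _⟩, ?_⟩
  have h4 := HasMFDerivAt.comp p h2.hasMFDerivAt h1.hasMFDerivAt
  have h5 : mfderiv 𝓘(ℝ, E) 𝓘(ℝ, W) f p =
      mfderiv 𝓘(ℝ, E) 𝓘(ℝ, W)
        ((f ∘ (extChartAt 𝓘(ℝ, E) p0).symm) ∘ (extChartAt 𝓘(ℝ, E) p0)) p :=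
    h3.mfderiv_eq
  rw [tanMap, h5, h4.mfderiv, mfderiv_eq_fderiv]
  rfl

omit [FiniteDimensional ℝ W] in
theorem imm_dimH {f : M → W} (hf : ContMDiff 𝓘(ℝ, E) 𝓘(ℝ, W) ∞ f) (p0 : M) :
    dimH (tanMap f p0 '' ((extChartAt 𝓘(ℝ, E) p0).target ×ˢ (univ : Set E))) ≤
      (finrank ℝ (E × E) : ℝ≥0∞) := by
  refine (dimH_image_le_of_locally_lipschitzOn fun q hq => ?_).trans
    ((dimH_mono (subset_univ _)).trans (Real.dimH_univ_eq_finrank (E × E)).le)
  have h1 : ContDiffAt ℝ 1 (fderiv ℝ (f ∘ (extChartAt 𝓘(ℝ, E) p0).symm)) q.1 :=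
    (imm_contDiffAt hf p0 hq.1).fderiv_right (m := 1) (by norm_cast)
  have h2 : ContDiffAt ℝ 1 (tanMap f p0) q :=
    (h1.comp q contDiffAt_fst).clm_apply contDiffAt_snd
  obtain ⟨K, t, ht, hK⟩ := h2.exists_lipschitzOnWith
  exact ⟨K, t, mem_nhdsWithin_of_mem_nhds ht, hK⟩

variable [CompactSpace M]

/-- a direction which is not tangent -/
theorem imm_direction {f : M → W} (hf : ContMDiff 𝓘(ℝ, E) 𝓘(ℝ, W) ∞ f)
    (hd : finrank ℝ (E × E) < finrank ℝ W) :
    ∃ v : W, v ≠ 0 ∧ ∀ p (u : TangentSpace 𝓘(ℝ, E) p),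
      mfderiv 𝓘(ℝ, E) 𝓘(ℝ, W) f p u ≠ v := by
  obtain ⟨t, ht⟩ := isCompact_univ.elim_finite_subcover (fun p0 : M => (chartAt E p0).source)
    (fun p0 => (chartAt E p0).open_source)
    (fun p _ => mem_iUnion.2 ⟨p, ChartedSpace.mem_chart_source p⟩)
  let T : Set W := {0} ∪ ⋃ p0 ∈ (t : Set M),
    tanMap f p0 '' ((extChartAt 𝓘(ℝ, E) p0).target ×ˢ (univ : Set E))
  have hT : dimH T ≤ (finrank ℝ (E × E) : ℝ≥0∞) := by
    rw [dimH_union, dimH_singleton, dimH_bUnion t.countable_toSet]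
    exact max_le bot_le (iSup₂_le fun p0 _ => imm_dimH hf p0)
  have hne : T ≠ univ := by
    intro h
    rw [h, Real.dimH_univ_eq_finrank] at hT
    exact absurd (Nat.cast_le.1 hT) (not_le.2 hd)
  obtain ⟨v, hv⟩ := (ne_univ_iff_exists_notMem T).1 hne
  refine ⟨v, fun h0 => hv (Or.inl h0), fun p u hpu => hv (Or.inr ?_)⟩
  have hp := ht (mem_univ p)
  rw [mem_iUnion₂] at hp
  obtain ⟨p0, hp0, hp⟩ := hp
  obtain ⟨q, hq, hq'⟩ := imm_tan hf p0 hp u
  exact mem_iUnion₂.2 ⟨p0, hp0, q, hq, hq'.trans hpu⟩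

theorem imm_reduce (hE : finrank ℝ E = 2) (n : ℕ) :
    ∀ f : M → EuclideanSpace ℝ (Fin n),
      ContMDiff 𝓘(ℝ, E) 𝓘(ℝ, EuclideanSpace ℝ (Fin n)) ∞ f →
      (∀ p, Function.Injective (mfderiv 𝓘(ℝ, E) 𝓘(ℝ, EuclideanSpace ℝ (Fin n)) f p)) →
      ∃ F : M → R4, Imm (E := E) F := by
  induction n with
  | zero =>
    intro f hf hinj
    obtain ⟨h1, h2⟩ := imm_comp hf (padL 0).toContinuousLinearMap fun p u hu => by
      have h3 := padL_inj (n := 0) (by omega) (hu.trans (map_zero _).symm)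
      exact hinj p (h3.trans (map_zero _).symm)
    exact ⟨_, h1, h2⟩
  | succ n ih =>
    intro f hf hinj
    by_cases hn : n + 1 ≤ 4
    · obtain ⟨h1, h2⟩ := imm_comp hf (padL (n + 1)).toContinuousLinearMap fun p u hu => by
        have h3 := padL_inj hn (hu.trans (map_zero _).symm)
        exact hinj p (h3.trans (map_zero _).symm)
      exact ⟨_, h1, h2⟩
    · have hd : finrank ℝ (E × E) < finrank ℝ (EuclideanSpace ℝ (Fin (n + 1))) := by
        rw [finrank_euclideanSpace_fin, Module.finrank_prod, hE]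
        omega
      obtain ⟨v, hv0, hv⟩ := imm_direction hf hd
      obtain ⟨L, hL⟩ := imm_proj (n := n) finrank_euclideanSpace_fin hv0
      obtain ⟨h1, h2⟩ := imm_comp hf L fun p u hu => by
        obtain ⟨c, hc⟩ := hL _ hu
        by_cases hc0 : c = 0
        · rw [hc0, zero_smul] at hc
          exact hinj p (hc.trans (map_zero _).symm)
        · exfalso
          have h6 : c⁻¹ • (c • v) = v := by rw [smul_smul, inv_mul_cancel₀ hc0, one_smul]
          exact hv p (c⁻¹ • u) ((map_smul _ _ _).trans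
            ((congrArg (fun z : EuclideanSpace ℝ (Fin (n + 1)) => c⁻¹ • z) hc).trans h6))
      exact ih _ h1 h2

variable [T2Space M]

/-- D1 -/
theorem exists_imm (hE : finrank ℝ E = 2) : ∃ F : M → R4, Imm (E := E) F := by
  obtain ⟨n, e, h1, -, h2⟩ := exists_embedding_euclidean_of_compact (I := 𝓘(ℝ, E)) (M := M)
  exact imm_reduce hE n e h1 h2

end

end Vale.Agent.P205.Top
end
end

section

/-!
Block TOP of P205: winding number and smooth logarithm on an annulus.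
-/

open scoped Manifold ContDiff Topology RealInnerProductSpace
open Set Filter MeasureTheory Module

noncomputable section

namespace Vale.Agent.P205.Top

/-- a continuous logarithm of a smooth function is smooth -/
private theorem xl_smooth_log {U : Set ℂ} (hU : IsOpen U) {G L : ℂ → ℂ}
    (hG : ContDiffOn ℝ ∞ G U) (hL : ContinuousOn L U) (he : ∀ z ∈ U, Complex.exp (L z) = G z) :
    ContDiffOn ℝ ∞ L U := by
  intro z hz
  refine ContDiffAt.contDiffWithinAt ?_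
  have hGz : G z ≠ 0 := by
    rw [← he z hz]
    exact Complex.exp_ne_zero _
  have hUn : U ∈ 𝓝 z := hU.mem_nhds hz
  have hLc : ContinuousAt L z := hL.continuousAt hUn
  have hev : ∀ᶠ x in 𝓝 z, L x = L z + Complex.log (G x / G z) := by
    have h1 : ∀ᶠ x in 𝓝 z, |(L x - L z).im| < Real.pi := by
      have hc : ContinuousAt (fun x => |(L x - L z).im|) z :=
        (continuous_abs.comp Complex.continuous_im).continuousAt.comp (hLc.sub continuousAt_const)
      have h0 : |(L z - L z).im| < Real.pi := by simp [Real.pi_pos]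
      exact hc.eventually (gt_mem_nhds h0)
    filter_upwards [h1, hUn] with x hx hxU
    rw [← he x hxU, ← he z hz, ← Complex.exp_sub, Complex.log_exp (abs_lt.1 hx).1 (abs_lt.1 hx).2.le]
    ring
  have hGd : ContDiffAt ℝ ∞ G z := (hG z hz).contDiffAt hUn
  have hmain : ContDiffAt ℝ ∞ (fun x => L z + Complex.log (G x / G z)) z := by
    refine contDiffAt_const.add ?_
    have hlog : ContDiffAt ℝ ∞ Complex.log (G z / G z) := by
      rw [div_self hGz]
      exact (Complex.contDiffAt_log (by simp)).restrict_scalars ℝ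
    exact hlog.comp z (hGd.div_const _)
  exact hmain.congr_of_eventuallyEq hev

/-- winding number and logarithm on an annulus -/
theorem exists_log {r1 r2 : ℝ} (h1 : 0 < r1) (h2 : r1 < r2) {g : ℂ → ℂ}
    (hg : ContDiffOn ℝ ∞ g {z | r1 < ‖z‖ ∧ ‖z‖ < r2}) (h0 : ∀ z, r1 < ‖z‖ → ‖z‖ < r2 → g z ≠ 0) :
    ∃ (w : ℤ) (h : ℂ → ℂ), ContDiffOn ℝ ∞ h {z | r1 < ‖z‖ ∧ ‖z‖ < r2} ∧
      ∀ z, r1 < ‖z‖ → ‖z‖ < r2 → g z = zp w z * Complex.exp (h z) := by
  have h2' : 0 < r2 := h1.trans h2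
  set U : Set ℂ := Complex.re ⁻¹' Ioo (Real.log r1) (Real.log r2) with hUdef
  have hUo : IsOpen U := isOpen_Ioo.preimage Complex.continuous_re
  have hUc : Convex ℝ U := (convex_Ioo _ _).is_linear_preimage Complex.reLm.isLinear
  have hUne : U.Nonempty := by
    obtain ⟨t, ht⟩ := nonempty_Ioo.2 (Real.log_lt_log h1 h2)
    exact ⟨(t : ℂ), by simpa [hUdef] using ht⟩
  have hmap : ∀ ζ ∈ U, r1 < ‖Complex.exp ζ‖ ∧ ‖Complex.exp ζ‖ < r2 := by
    intro ζ hζ
    rw [Complex.norm_exp]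
    exact ⟨(Real.log_lt_iff_lt_exp h1).1 hζ.1, (Real.lt_log_iff_exp_lt h2').1 hζ.2⟩
  have hinv : ∀ z : ℂ, r1 < ‖z‖ → ‖z‖ < r2 → Complex.log z ∈ U := by
    intro z hz1 hz2
    have : 0 < ‖z‖ := h1.trans hz1
    refine ⟨?_, ?_⟩
    · rw [Complex.log_re]
      exact Real.log_lt_log h1 hz1
    · rw [Complex.log_re]
      exact Real.log_lt_log this hz2
  have hGs : ContDiffOn ℝ ∞ (fun ζ => g (Complex.exp ζ)) U :=
    hg.comp ((Complex.contDiff_exp (𝕜 := ℂ)).restrict_scalars ℝ).contDiffOn hmap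
  have hsc : IsSimplyConnected U := by
    have := hUc.contractibleSpace hUne
    exact SimplyConnectedSpace.ofContractible U
  obtain ⟨L, hLc, hLe⟩ := Complex.exists_continuousOn_eqOn_exp_comp hsc hUo hGs.continuousOn
    (by
      rintro ⟨ζ, hζ, h⟩
      exact h0 _ (hmap ζ hζ).1 (hmap ζ hζ).2 h)
  have hLe' : ∀ ζ ∈ U, Complex.exp (L ζ) = g (Complex.exp ζ) := fun ζ hζ => hLe hζ
  have hLs : ContDiffOn ℝ ∞ L U := xl_smooth_log hUo hGs hLc hLe'
  -- the winding number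
  have hshift : ∀ (ζ : ℂ) (n : ℤ), ζ ∈ U → ζ + n * (2 * Real.pi * Complex.I) ∈ U := by
    intro ζ n hζ
    have : (ζ + n * (2 * Real.pi * Complex.I)).re = ζ.re := by simp
    change (ζ + n * (2 * Real.pi * Complex.I)).re ∈ Ioo (Real.log r1) (Real.log r2)
    rw [this]
    exact hζ
  have hshift1 : ∀ ζ : ℂ, ζ ∈ U → ζ + 2 * Real.pi * Complex.I ∈ U := by
    intro ζ hζ
    simpa using hshift ζ 1 hζ
  have hper : ∀ ζ ∈ U, ∃ n : ℤ, L (ζ + 2 * Real.pi * Complex.I) - L ζ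
      = n * (2 * Real.pi * Complex.I) := by
    intro ζ hζ
    rw [← Complex.exp_eq_one_iff, Complex.exp_sub, hLe' _ (hshift1 ζ hζ), hLe' ζ hζ,
      Complex.exp_periodic ζ]
    exact div_self (h0 _ (hmap ζ hζ).1 (hmap ζ hζ).2)
  obtain ⟨w, hw⟩ : ∃ w : ℤ, ∀ ζ ∈ U, L (ζ + 2 * Real.pi * Complex.I) - L ζ
      = w * (2 * Real.pi * Complex.I) := by
    have hdisc : IsDiscrete (range ((↑) : ℤ → ℝ)) :=
      Int.isClosedEmbedding_coe_real.isEmbedding.isInducing.isDiscrete_range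
    have hpi : (2 * Real.pi : ℝ) ≠ 0 := by positivity
    have hval : ∀ (n : ℤ), ((n : ℂ) * (2 * Real.pi * Complex.I)).im / (2 * Real.pi) = (n : ℝ) := by
      intro n
      have : ((n : ℂ) * (2 * Real.pi * Complex.I)).im = n * (2 * Real.pi) := by
        simp [Complex.mul_im, Complex.mul_re]
      rw [this]
      field_simp
    have hcont : ContinuousOn (fun ζ => (L (ζ + 2 * Real.pi * Complex.I) - L ζ).im
        / (2 * Real.pi)) U := by
      have hc1 : ContinuousOn (fun ζ => L (ζ + 2 * Real.pi * Complex.I)) U :=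
        hLc.comp (continuous_id.add continuous_const).continuousOn hshift1
      exact (Complex.continuous_im.comp_continuousOn (hc1.sub hLc)).div_const _
    obtain ⟨y, ⟨w, rfl⟩, hy⟩ := hUc.isPreconnected.eqOn_const_of_mapsTo hdisc hcont
      (by
        intro ζ hζ
        obtain ⟨n, hn⟩ := hper ζ hζ
        refine ⟨n, ?_⟩
        change (n : ℝ) = (L (ζ + 2 * Real.pi * Complex.I) - L ζ).im / (2 * Real.pi)
        rw [hn, hval]) ⟨_, 0, rfl⟩
    refine ⟨w, fun ζ hζ => ?_⟩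
    obtain ⟨n, hn⟩ := hper ζ hζ
    have hnw : (n : ℝ) = w := by
      have := hy hζ
      change (L (ζ + 2 * Real.pi * Complex.I) - L ζ).im / (2 * Real.pi) = (w : ℝ) at this
      rw [← this, hn, hval]
    have : n = w := by exact_mod_cast hnw
    rw [hn, this]
  -- the periodic function
  obtain ⟨H, hHs, hHp, hHe⟩ : ∃ H : ℂ → ℂ, ContDiffOn ℝ ∞ H U ∧
      (∀ ζ ∈ U, H (ζ + 2 * Real.pi * Complex.I) = H ζ) ∧
      ∀ ζ ∈ U, g (Complex.exp ζ) = zp w (Complex.exp ζ) * Complex.exp (H ζ) := by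
    by_cases hw0 : 0 ≤ w
    · refine ⟨fun ζ => L ζ - w * ζ, hLs.sub (contDiff_const.mul contDiff_id).contDiffOn, ?_, ?_⟩
      · intro ζ hζ
        have := hw ζ hζ
        linear_combination this
      · intro ζ hζ
        have hcast : ((w.toNat : ℕ) : ℂ) = (w : ℂ) := by
          have : ((w.toNat : ℕ) : ℤ) = w := Int.toNat_of_nonneg hw0
          exact_mod_cast this
        rw [← hLe' ζ hζ, zp, if_pos hw0, ← Complex.exp_nat_mul, ← Complex.exp_add, hcast]
        congr 1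
        ring
    · refine ⟨fun ζ => L ζ + w * (starRingEnd ℂ) ζ, hLs.add
        (contDiff_const.mul Complex.conjCLE.contDiff).contDiffOn, ?_, ?_⟩
      · intro ζ hζ
        have := hw ζ hζ
        have hc : (starRingEnd ℂ) (ζ + 2 * Real.pi * Complex.I)
            = (starRingEnd ℂ) ζ - 2 * Real.pi * Complex.I := by
          have h2c : (starRingEnd ℂ) 2 = 2 := map_ofNat (starRingEnd ℂ) 2
          simp [sub_eq_add_neg, h2c]
        simp only [hc]
        linear_combination this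
      · intro ζ hζ
        have hcast : (((-w).toNat : ℕ) : ℂ) = -(w : ℂ) := by
          have : (((-w).toNat : ℕ) : ℤ) = -w := Int.toNat_of_nonneg (by omega)
          exact_mod_cast this
        rw [← hLe' ζ hζ, zp, if_neg hw0, ← Complex.exp_conj, ← Complex.exp_nat_mul,
          ← Complex.exp_add, hcast]
        congr 1
        ring
  have hHn : ∀ (n : ℕ) (ζ : ℂ), ζ ∈ U → H (ζ + n * (2 * Real.pi * Complex.I)) = H ζ := by
    intro n
    induction n with
    | zero => intro ζ _; simp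
    | succ n ih =>
      intro ζ hζ
      have hmem : ζ + n * (2 * Real.pi * Complex.I) ∈ U := by
        have := hshift ζ n hζ
        simpa using this
      have := hHp _ hmem
      rw [ih ζ hζ] at this
      rw [← this]
      congr 1
      push_cast
      ring
  have hHz : ∀ (n : ℤ) (ζ : ℂ), ζ ∈ U → H (ζ + n * (2 * Real.pi * Complex.I)) = H ζ := by
    intro n ζ hζ
    rcases le_total 0 n with hn | hn
    · lift n to ℕ using hn
      simpa using hHn n ζ hζ
    · obtain ⟨m, rfl⟩ : ∃ m : ℕ, n = -(m : ℤ) := ⟨(-n).toNat, by omega⟩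
      have hmem := hshift ζ (-(m : ℤ)) hζ
      have := hHn m _ hmem
      rw [← this]
      congr 1
      push_cast
      ring
  refine ⟨w, fun z => H (Complex.log z), ?_, ?_⟩
  · intro z hz
    refine ContDiffAt.contDiffWithinAt ?_
    have hz0 : z ≠ 0 := by
      rintro rfl
      have := hz.1
      simp only [norm_zero] at this
      linarith
    by_cases hs : z ∈ Complex.slitPlane
    · have hH : ContDiffAt ℝ ∞ H (Complex.log z) :=
        hHs.contDiffAt (hUo.mem_nhds (hinv z hz.1 hz.2))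
      exact hH.comp z ((Complex.contDiffAt_log hs).restrict_scalars ℝ)
    · have hs' : -z ∈ Complex.slitPlane := by
        rw [Complex.mem_slitPlane_iff] at hs ⊢
        push Not at hs
        left
        have hre : z.re ≤ 0 := hs.1
        have him : z.im = 0 := hs.2
        have : z.re ≠ 0 := fun h => hz0 (Complex.ext h him)
        simp only [Complex.neg_re]
        exact neg_pos.2 (lt_of_le_of_ne hre this)
      have hAo : IsOpen {z : ℂ | r1 < ‖z‖ ∧ ‖z‖ < r2} :=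
        (isOpen_lt continuous_const continuous_norm).inter
          (isOpen_lt continuous_norm continuous_const)
      have key : ∀ x : ℂ, r1 < ‖x‖ → ‖x‖ < r2 →
          ∃ n : ℤ, Complex.log x = Complex.log (-x) + Real.pi * Complex.I
            + n * (2 * Real.pi * Complex.I) := by
        intro x hx1 _
        have hx0 : x ≠ 0 := by
          rintro rfl
          simp only [norm_zero] at hx1
          linarith
        rw [← Complex.exp_eq_exp_iff_exists_int, Complex.exp_log hx0, Complex.exp_add,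
          Complex.exp_pi_mul_I, Complex.exp_log (neg_ne_zero.2 hx0)]
        ring
      have hmem' : ∀ x : ℂ, r1 < ‖x‖ → ‖x‖ < r2 →
          Complex.log (-x) + Real.pi * Complex.I ∈ U := by
        intro x hx1 hx2
        obtain ⟨n, hn⟩ := key x hx1 hx2
        have h3 := hshift _ (-n) (hinv x hx1 hx2)
        rw [hn] at h3
        have : Complex.log (-x) + Real.pi * Complex.I + n * (2 * Real.pi * Complex.I)
            + ((-n : ℤ) : ℂ) * (2 * Real.pi * Complex.I)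
            = Complex.log (-x) + Real.pi * Complex.I := by
          push_cast
          ring
        rwa [this] at h3
      have hev : ∀ᶠ x in 𝓝 z, H (Complex.log x)
          = H (Complex.log (-x) + Real.pi * Complex.I) := by
        filter_upwards [hAo.mem_nhds hz] with x hx
        obtain ⟨n, hn⟩ := key x hx.1 hx.2
        rw [hn]
        exact hHz n _ (hmem' x hx.1 hx.2)
      have hH : ContDiffAt ℝ ∞ H (Complex.log (-z) + Real.pi * Complex.I) :=
        hHs.contDiffAt (hUo.mem_nhds (hmem' z hz.1 hz.2))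
      have hl : ContDiffAt ℝ ∞ (fun x : ℂ => Complex.log (-x) + Real.pi * Complex.I) z := by
        refine ContDiffAt.add ?_ contDiffAt_const
        exact ((Complex.contDiffAt_log hs').restrict_scalars ℝ).comp z contDiffAt_id.neg
      exact (hH.comp z hl).congr_of_eventuallyEq hev
  · intro z hz1 hz2
    have hz0 : z ≠ 0 := by
      rintro rfl
      simp only [norm_zero] at hz1
      linarith
    have := hHe _ (hinv z hz1 hz2)
    rwa [Complex.exp_log hz0] at this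

end Vale.Agent.P205.Top
end
end

section

/-!
Block TOP of P205: functions on a disc of the plane. All zeros inside a circle are replaced by one
standard zero in the centre, or moved to a given point inside.
-/

open scoped Manifold ContDiff Topology RealInnerProductSpace
open Set Filter MeasureTheory Module

noncomputable section

namespace Vale.Agent.P205.Top

section Plane

theorem pl_zp_contDiff (w : ℤ) : ContDiff ℝ ∞ (zp w) := by
  by_cases hw : 0 ≤ w
  · have h : zp w = fun z => z ^ w.toNat := by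
      funext z
      simp only [zp, if_pos hw]
    rw [h]
    exact contDiff_id.pow _
  · have h : zp w = fun z => (starRingEnd ℂ z) ^ (-w).toNat := by
      funext z
      simp only [zp, if_neg hw]
    rw [h]
    have h2 : ContDiff ℝ ∞ (fun z : ℂ => starRingEnd ℂ z) := Complex.conjCLE.contDiff
    exact h2.pow _

theorem pl_zp_eq_zero {w : ℤ} {z : ℂ} (h : zp w z = 0) : z = 0 := by
  unfold zp at h
  split_ifs at h
  · exact eq_zero_of_pow_eq_zero h
  · have h2 := eq_zero_of_pow_eq_zero h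
    simpa using h2

/-- radial cut-off: `0` for `‖z‖ ≤ a` and `1` for `b ≤ ‖z‖` -/
def plCut (a b : ℝ) (z : ℂ) : ℝ := Real.smoothTransition ((‖z‖ ^ 2 - a ^ 2) / (b ^ 2 - a ^ 2))

theorem plCut_contDiff (a b : ℝ) : ContDiff ℝ ∞ (plCut a b) := by
  unfold plCut
  refine Real.smoothTransition.contDiff.comp ?_
  exact ((contDiff_norm_sq ℝ).sub contDiff_const).div_const _

theorem plCut_zero {a b : ℝ} (ha : 0 < a) (hab : a < b) {z : ℂ} (hz : ‖z‖ ≤ a) :
    plCut a b z = 0 := by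
  unfold plCut
  apply Real.smoothTransition.zero_of_nonpos
  have h1 : ‖z‖ ^ 2 ≤ a ^ 2 := pow_le_pow_left₀ (norm_nonneg z) hz 2
  have h2 : a ^ 2 < b ^ 2 := pow_lt_pow_left₀ hab ha.le two_ne_zero
  exact div_nonpos_of_nonpos_of_nonneg (by linarith) (by linarith)

theorem plCut_one {a b : ℝ} (ha : 0 < a) (hab : a < b) {z : ℂ} (hz : b ≤ ‖z‖) :
    plCut a b z = 1 := by
  unfold plCut
  apply Real.smoothTransition.one_of_one_le
  have h1 : b ^ 2 ≤ ‖z‖ ^ 2 := pow_le_pow_left₀ (ha.trans hab).le hz 2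
  have h2 : a ^ 2 < b ^ 2 := pow_lt_pow_left₀ hab ha.le two_ne_zero
  rw [le_div_iff₀ (by linarith)]
  linarith

theorem plCut_nonneg (a b : ℝ) (z : ℂ) : 0 ≤ plCut a b z := Real.smoothTransition.nonneg _

theorem plCut_le_one (a b : ℝ) (z : ℂ) : plCut a b z ≤ 1 := Real.smoothTransition.le_one _

theorem pl_glue {r1 r2 R : ℝ} (h1 : 0 < r1) (h2 : r1 < r2) {g : ℂ → ℂ}
    (hg : ContDiffOn ℝ ∞ g {z | ‖z‖ < R}) {w : ℤ} {h : ℂ → ℂ}
    (hh : ContDiffOn ℝ ∞ h {z | r1 < ‖z‖ ∧ ‖z‖ < r2})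
    (hgh : ∀ z, r1 < ‖z‖ → ‖z‖ < r2 → g z = zp w z * Complex.exp (h z))
    {u : ℂ → ℂ} (hu : ContDiff ℝ ∞ u) (huz : ∀ z, r1 ≤ ‖z‖ → u z = zp w z) :
    ∃ (g' : ℂ → ℂ) (s : ℝ), r1 < s ∧ s < r2 ∧ ContDiffOn ℝ ∞ g' {z | ‖z‖ < R} ∧
      (∀ z, r2 ≤ ‖z‖ → g' z = g z) ∧ (∀ z, ‖z‖ < s → g' z = u z) ∧
      (∀ z, ‖z‖ < r2 → g' z = 0 → u z = 0) := by
  set a : ℝ := r1 + (r2 - r1) / 3 with ha
  set b : ℝ := r1 + 2 * (r2 - r1) / 3 with hb
  have ha1 : r1 < a := by rw [ha]; linarith only [h2]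
  have hab : a < b := by rw [ha, hb]; linarith only [ha1, ha]
  have hb2 : b < r2 := by rw [hb]; linarith
  have ha0 : 0 < a := h1.trans ha1
  set F : ℂ → ℂ := fun z => u z * Complex.exp ((plCut a b z : ℂ) * h z) with hF
  set g' : ℂ → ℂ := fun z => if ‖z‖ < r2 then F z else g z with hg'
  have hFa : ∀ z, ‖z‖ ≤ a → F z = u z := by
    intro z hz
    simp only [hF, plCut_zero ha0 hab hz]
    simp
  have hFb : ∀ z, b ≤ ‖z‖ → ‖z‖ < r2 → F z = g z := by
    intro z hz hz2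
    simp only [hF, plCut_one ha0 hab hz]
    rw [hgh z (by linarith only [hz, hab, ha1]) hz2, huz z (by linarith)]
    simp
  have hgb : ∀ z, b ≤ ‖z‖ → g' z = g z := by
    intro z hz
    simp only [hg']
    split_ifs with h3
    · exact hFb z hz h3
    · rfl
  have hga : ∀ z, ‖z‖ ≤ a → g' z = u z := by
    intro z hz
    simp only [hg']
    rw [if_pos (by linarith only [hz, hb2, hab])]
    exact hFa z hz
  refine ⟨g', a, ha1, hab.trans hb2, ?_, ?_, ?_, ?_⟩
  · intro z hz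
    have hopen : IsOpen {z : ℂ | ‖z‖ < R} := isOpen_lt continuous_norm continuous_const
    apply ContDiffAt.contDiffWithinAt
    rcases lt_or_ge ‖z‖ a with h3 | h3
    · have h4 : g' =ᶠ[𝓝 z] u := by
        have : {z : ℂ | ‖z‖ < a} ∈ 𝓝 z := (isOpen_lt continuous_norm continuous_const).mem_nhds h3
        filter_upwards [this] with y hy
        exact hga y (le_of_lt hy)
      exact hu.contDiffAt.congr_of_eventuallyEq h4
    · rcases lt_or_ge b ‖z‖ with h5 | h5
      · have h4 : g' =ᶠ[𝓝 z] g := by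
          have : {z : ℂ | b < ‖z‖} ∈ 𝓝 z :=
            (isOpen_lt continuous_const continuous_norm).mem_nhds h5
          filter_upwards [this] with y hy
          exact hgb y (le_of_lt hy)
        exact ((hg z hz).contDiffAt (hopen.mem_nhds hz)).congr_of_eventuallyEq h4
      · have h6 : z ∈ {z : ℂ | r1 < ‖z‖ ∧ ‖z‖ < r2} := ⟨by linarith, by linarith only [h5, hb2]⟩
        have hopen2 : IsOpen {z : ℂ | r1 < ‖z‖ ∧ ‖z‖ < r2} :=
          (isOpen_lt continuous_const continuous_norm).inter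
            (isOpen_lt continuous_norm continuous_const)
        have h4 : g' =ᶠ[𝓝 z] F := by
          have : {z : ℂ | ‖z‖ < r2} ∈ 𝓝 z :=
            (isOpen_lt continuous_norm continuous_const).mem_nhds h6.2
          filter_upwards [this] with y hy
          simp only [hg']
          rw [if_pos hy]
        refine ContDiffAt.congr_of_eventuallyEq ?_ h4
        have h7 : ContDiffAt ℝ ∞ h z := (hh z h6).contDiffAt (hopen2.mem_nhds h6)
        have h8 : ContDiffAt ℝ ∞ (fun z : ℂ => (plCut a b z : ℂ)) z :=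
          (Complex.ofRealCLM.contDiff.comp (plCut_contDiff a b)).contDiffAt
        exact hu.contDiffAt.mul ((h8.mul h7).cexp)
  · intro z hz
    exact hgb z (by linarith only [hz, hb2])
  · intro z hz
    exact hga z (le_of_lt hz)
  · intro z hz h0
    simp only [hg'] at h0
    rw [if_pos hz] at h0
    simp only [hF] at h0
    rcases mul_eq_zero.1 h0 with h3 | h3
    · exact h3
    · exact absurd h3 (Complex.exp_ne_zero _)

/-- G1: all zeros inside a circle can be replaced by one standard zero in the centre -/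
theorem exists_standard {r1 r2 R : ℝ} (h1 : 0 < r1) (h2 : r1 < r2) (h3 : r2 < R) {g : ℂ → ℂ}
    (hg : ContDiffOn ℝ ∞ g {z | ‖z‖ < R}) (h0 : ∀ z, r1 < ‖z‖ → ‖z‖ < r2 → g z ≠ 0) :
    ∃ (w : ℤ) (g' : ℂ → ℂ) (s : ℝ), 0 < s ∧ s < r2 ∧ ContDiffOn ℝ ∞ g' {z | ‖z‖ < R} ∧
      (∀ z, r2 ≤ ‖z‖ → g' z = g z) ∧ (∀ z, ‖z‖ < s → g' z = zp w z) ∧
      (∀ z, ‖z‖ < r2 → g' z = 0 → z = 0) := by
  have hgA : ContDiffOn ℝ ∞ g {z | r1 < ‖z‖ ∧ ‖z‖ < r2} := by
    refine hg.mono ?_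
    rintro z ⟨-, hz⟩
    exact hz.trans h3
  obtain ⟨w, h, hh, hgh⟩ := exists_log h1 h2 hgA h0
  obtain ⟨g', s, hs1, hs2, hg1, hg2, hg3, hg4⟩ :=
    pl_glue h1 h2 hg hh hgh (pl_zp_contDiff w) (fun z _ => rfl)
  exact ⟨w, g', s, h1.trans hs1, hs2, hg1, hg2, hg3, fun z hz hz0 => pl_zp_eq_zero (hg4 z hz hz0)⟩

/-- F1: all zeros inside a circle can be moved to a given point inside -/
theorem exists_absorb {r1 r2 R : ℝ} (h1 : 0 < r1) (h2 : r1 < r2) (h3 : r2 < R) {g : ℂ → ℂ}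
    (hg : ContDiffOn ℝ ∞ g {z | ‖z‖ < R}) (h0 : ∀ z, r1 < ‖z‖ → ‖z‖ < r2 → g z ≠ 0)
    {q : ℂ} (hq : ‖q‖ < r1) :
    ∃ g' : ℂ → ℂ, ContDiffOn ℝ ∞ g' {z | ‖z‖ < R} ∧ (∀ z, r2 ≤ ‖z‖ → g' z = g z) ∧
      (∀ z, ‖z‖ < r2 → g' z = 0 → z = q) := by
  have hgA : ContDiffOn ℝ ∞ g {z | r1 < ‖z‖ ∧ ‖z‖ < r2} := by
    refine hg.mono ?_
    rintro z ⟨-, hz⟩
    exact hz.trans h3
  obtain ⟨w, h, hh, hgh⟩ := exists_log h1 h2 hgA h0
  set c : ℝ := (‖q‖ + r1) / 2 with hc
  have hqc : ‖q‖ < c := by rw [hc]; linarith only [hq]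
  have hc1 : c < r1 := by rw [hc]; linarith
  have hc0 : 0 < c := lt_of_le_of_lt (norm_nonneg q) hqc
  set u : ℂ → ℂ := fun z => zp w (z - ((1 - plCut c r1 z : ℝ) : ℂ) * q) with hu
  have hus : ContDiff ℝ ∞ u := by
    have e1 : ContDiff ℝ ∞ (fun z : ℂ => ((1 - plCut c r1 z : ℝ) : ℂ)) :=
      Complex.ofRealCLM.contDiff.comp (contDiff_const.sub (plCut_contDiff c r1))
    exact (pl_zp_contDiff w).comp (contDiff_id.sub (e1.mul contDiff_const))
  have huz : ∀ z, r1 ≤ ‖z‖ → u z = zp w z := by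
    intro z hz
    simp only [hu, plCut_one hc0 hc1 hz]
    simp
  obtain ⟨g', s, hs1, hs2, hg1, hg2, hg3, hg4⟩ := pl_glue h1 h2 hg hh hgh hus huz
  refine ⟨g', hg1, hg2, fun z hz hz0 => ?_⟩
  have e2 : u z = 0 := hg4 z hz hz0
  have e3 : z = ((1 - plCut c r1 z : ℝ) : ℂ) * q := sub_eq_zero.1 (pl_zp_eq_zero e2)
  have e4 : ‖z‖ ≤ ‖q‖ := by
    have e5 : ‖z‖ = |1 - plCut c r1 z| * ‖q‖ := by
      conv_lhs => rw [e3]
      rw [norm_mul, Complex.norm_real, Real.norm_eq_abs]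
    rw [e5]
    have e6 : |1 - plCut c r1 z| ≤ 1 := by
      rw [abs_le]
      have := plCut_nonneg c r1 z
      have := plCut_le_one c r1 z
      constructor <;> linarith
    calc |1 - plCut c r1 z| * ‖q‖ ≤ 1 * ‖q‖ := mul_le_mul_of_nonneg_right e6 (norm_nonneg q)
      _ = ‖q‖ := one_mul _
  rw [plCut_zero hc0 hc1 (e4.trans hqc.le)] at e3
  simpa using e3

end Plane

end Vale.Agent.P205.Top
end
end

section

/-!
Block TOP of P205, F0: local orthonormal frames of the normal bundle and the smooth unit normal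
field obtained from a transversal field.
-/

open scoped Manifold ContDiff Topology RealInnerProductSpace
open Set Filter MeasureTheory Module

noncomputable section

namespace Vale.Agent.P205.Top

section FrameLin

/-- the adjoint as a real linear map -/
def adjL (n : ℕ) : (EuclideanSpace ℝ (Fin n) →L[ℝ] R4) →L[ℝ] (R4 →L[ℝ] EuclideanSpace ℝ (Fin n)) :=
  LinearMap.mkContinuous
    { toFun := fun A => ContinuousLinearMap.adjoint A
      map_add' := fun A B => by simp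
      map_smul' := fun c A => by simp } 1 (fun A => by simp)

theorem adjL_apply {n : ℕ} (A : EuclideanSpace ℝ (Fin n) →L[ℝ] R4) :
    adjL n A = ContinuousLinearMap.adjoint A := rfl

/-- the projection to the orthogonal complement of the range of an injective map -/
def prN {n : ℕ} (B : EuclideanSpace ℝ (Fin n) →L[ℝ] R4) : R4 →L[ℝ] R4 :=
  ContinuousLinearMap.id ℝ R4 - B ∘L ((adjL n B) ∘L B).inverse ∘L (adjL n B)

theorem gram_invertible {n : ℕ} (B : EuclideanSpace ℝ (Fin n) →L[ℝ] R4)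
    (hB : Function.Injective B) : ((adjL n B) ∘L B).IsInvertible := by
  have hinj : Function.Injective ((adjL n B) ∘L B) := by
    rw [injective_iff_map_eq_zero]
    intro v hv
    have h1 : ⟪(adjL n B) (B v), v⟫ = 0 := by
      have : (adjL n B) (B v) = 0 := hv
      rw [this, inner_zero_left]
    rw [adjL_apply, ContinuousLinearMap.adjoint_inner_left] at h1
    have h2 : B v = 0 := by simpa using h1
    exact hB (by rw [h2, map_zero])
  refine ⟨ContinuousLinearEquiv.ofBijective _ (LinearMap.ker_eq_bot.mpr hinj)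
    (LinearMap.range_eq_top.mpr ?_), ?_⟩
  · exact LinearMap.injective_iff_surjective.mp hinj
  · ext v
    simp

theorem prN_eq {n : ℕ} (B : EuclideanSpace ℝ (Fin n) →L[ℝ] R4)
    (hB : Function.Injective B) {K : Submodule ℝ R4} (hK : ∀ w, w ∈ K ↔ ∃ v, B v = w) (w : R4) :
    prN B w = Kᗮ.starProjection w := by
  obtain ⟨e, he⟩ := gram_invertible B hB
  have hinv : ((adjL n B) ∘L B).inverse = (e.symm : _ →L[ℝ] _) := by
    rw [← he, ContinuousLinearMap.inverse_equiv]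
  symm
  refine Submodule.eq_starProjection_of_mem_of_inner_eq_zero (K := Kᗮ) ?_ ?_
  · rw [Submodule.mem_orthogonal']
    intro u hu
    obtain ⟨v, rfl⟩ := (hK u).mp hu
    have h1 : (adjL n B) (prN B w) = 0 := by
      have h2 : (adjL n B) (B (e.symm ((adjL n B) w))) = (adjL n B) w := by
        have h3 : ((adjL n B) ∘L B) (e.symm ((adjL n B) w)) = e (e.symm ((adjL n B) w)) := by
          rw [← he]; rfl
        rw [ContinuousLinearEquiv.apply_symm_apply] at h3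
        exact h3
      simp only [prN, hinv, sub_apply, ContinuousLinearMap.comp_apply,
        ContinuousLinearMap.id_apply, map_sub]
      rw [sub_eq_zero]
      exact h2.symm
    rw [adjL_apply] at h1
    rw [← ContinuousLinearMap.adjoint_inner_left, h1, inner_zero_left]
  · intro u hu
    have hmem : w - prN B w ∈ K := by
      rw [hK]
      refine ⟨e.symm ((adjL n B) w), ?_⟩
      simp [prN, hinv]
    exact Submodule.inner_right_of_mem_orthogonal hmem hu

theorem contDiffAt_prN {n : ℕ} (B : EuclideanSpace ℝ (Fin n) →L[ℝ] R4)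
    (hB : Function.Injective B) : ContDiffAt ℝ ∞ (prN (n := n)) B := by
  unfold prN
  have h1 : ContDiffAt ℝ ∞ (fun B : EuclideanSpace ℝ (Fin n) →L[ℝ] R4 => adjL n B) B :=
    (adjL n).contDiff.contDiffAt
  have h2 : ContDiffAt ℝ ∞ (fun B : EuclideanSpace ℝ (Fin n) →L[ℝ] R4 => (adjL n B) ∘L B) B :=
    h1.clm_comp contDiffAt_id
  have h3 : ContDiffAt ℝ ∞ (fun B : EuclideanSpace ℝ (Fin n) →L[ℝ] R4 =>
      ((adjL n B) ∘L B).inverse) B :=
    ContDiffAt.comp (g := ContinuousLinearMap.inverse)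
      (f := fun B : EuclideanSpace ℝ (Fin n) →L[ℝ] R4 => (adjL n B) ∘L B) B
      ((gram_invertible B hB).contDiffAt_map_inverse) h2
  exact contDiffAt_const.sub (contDiffAt_id.clm_comp (h3.clm_comp h1))

end FrameLin

section FrameMfd

variable {E : Type*} [NormedAddCommGroup E] [NormedSpace ℝ E] [FiniteDimensional ℝ E]
  {M : Type*} [TopologicalSpace M] [ChartedSpace E M] [IsManifold 𝓘(ℝ, E) ∞ M]

/-- the range of the derivative -/
def rg (F : M → R4) (q : M) : Submodule ℝ R4 where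
  carrier := {w | ∃ v : TangentSpace 𝓘(ℝ, E) q, mfderiv 𝓘(ℝ, E) 𝓘(ℝ, R4) F q v = w}
  add_mem' := by
    rintro _ _ ⟨a, rfl⟩ ⟨b, rfl⟩
    exact ⟨a + b, map_add _ a b⟩
  zero_mem' := ⟨0, map_zero _⟩
  smul_mem' := by
    rintro c _ ⟨a, rfl⟩
    exact ⟨c • a, map_smul _ c a⟩

omit [FiniteDimensional ℝ E] in
/-- local smooth representation of the derivative -/
theorem exists_coord {F : M → R4} (hF : Imm (E := E) F) (p : M) :
    ∃ A : M → (E →L[ℝ] R4), ContMDiffAt 𝓘(ℝ, E) 𝓘(ℝ, E →L[ℝ] R4) ∞ A p ∧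
      ∀ q ∈ (chartAt E p).source, Function.Injective (A q) ∧
        ∀ w : R4, w ∈ rg (E := E) F q ↔ ∃ v, A q v = w := by
  refine ⟨inTangentCoordinates 𝓘(ℝ, E) 𝓘(ℝ, R4) id F (mfderiv 𝓘(ℝ, E) 𝓘(ℝ, R4) F) p,
    (hF.sm p).mfderiv_const (by simp), ?_⟩
  intro q hq
  have h1 : inTangentCoordinates 𝓘(ℝ, E) 𝓘(ℝ, R4) id F (mfderiv 𝓘(ℝ, E) 𝓘(ℝ, R4) F) p q =
      (mfderiv 𝓘(ℝ, R4) 𝓘(ℝ, R4) (extChartAt 𝓘(ℝ, R4) (F p)) (F q)) ∘L
        (mfderiv 𝓘(ℝ, E) 𝓘(ℝ, R4) F q) ∘L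
        (mfderivWithin 𝓘(ℝ, E) 𝓘(ℝ, E) (extChartAt 𝓘(ℝ, E) p).symm (range 𝓘(ℝ, E))
          (extChartAt 𝓘(ℝ, E) p q)) :=
    inTangentCoordinates_eq_mfderiv_comp (I := 𝓘(ℝ, E)) (I' := 𝓘(ℝ, R4)) (f := id) hq
      (by rw [chartAt_self_eq]; exact mem_univ _)
  have h2 : mfderiv 𝓘(ℝ, R4) 𝓘(ℝ, R4) (extChartAt 𝓘(ℝ, R4) (F p)) (F q) =
      ContinuousLinearMap.id ℝ R4 := by
    have h3 : (extChartAt 𝓘(ℝ, R4) (F p) : R4 → R4) = id := by
      rw [extChartAt_model_space_eq_id]; rfl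
    rw [h3]
    exact mfderiv_id
  obtain ⟨e, he⟩ := isInvertible_mfderivWithin_extChartAt_symm (I := 𝓘(ℝ, E)) (x := p)
    (y := extChartAt 𝓘(ℝ, E) p q) ((extChartAt 𝓘(ℝ, E) p).map_source (by simpa using hq))
  have hA : ∀ v : E, inTangentCoordinates 𝓘(ℝ, E) 𝓘(ℝ, R4) id F
      (mfderiv 𝓘(ℝ, E) 𝓘(ℝ, R4) F) p q v = mfderiv 𝓘(ℝ, E) 𝓘(ℝ, R4) F q (e v) := by
    intro v
    rw [h1, h2, ← he]
    rfl
  refine ⟨fun a b hab => e.injective (hF.inj q ?_), fun w => ⟨?_, ?_⟩⟩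
  · rw [← hA, ← hA]
    exact hab
  · rintro ⟨v, hv⟩
    exact ⟨(e.symm v : E), (hA _).trans
      ((congrArg (mfderiv 𝓘(ℝ, E) 𝓘(ℝ, R4) F q) (e.apply_symm_apply v)).trans hv)⟩
  · rintro ⟨v, hv⟩
    exact ⟨e v, by rw [← hA]; exact hv⟩

/-- the orthogonal projection to the normal space -/
def PN (F : M → R4) (q : M) : R4 →L[ℝ] R4 := (rg (E := E) F q)ᗮ.starProjection

theorem contMDiff_PN {F : M → R4} (hF : Imm (E := E) F) :
    ContMDiff 𝓘(ℝ, E) 𝓘(ℝ, R4 →L[ℝ] R4) ∞ (PN (E := E) F) := by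
  intro p
  obtain ⟨A, hA, hA2⟩ := exists_coord hF p
  have e : EuclideanSpace ℝ (Fin (finrank ℝ E)) ≃L[ℝ] E :=
    ContinuousLinearEquiv.ofFinrankEq (by simp)
  have hB : ContMDiffAt 𝓘(ℝ, E) 𝓘(ℝ, EuclideanSpace ℝ (Fin (finrank ℝ E)) →L[ℝ] R4) ∞
      (fun q => (A q) ∘L (e : EuclideanSpace ℝ (Fin (finrank ℝ E)) →L[ℝ] E)) p :=
    hA.clm_comp contMDiffAt_const
  have hinj : ∀ q ∈ (chartAt E p).source, Function.Injective
      ((A q) ∘L (e : EuclideanSpace ℝ (Fin (finrank ℝ E)) →L[ℝ] E)) := by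
    intro q hq a b hab
    exact e.injective ((hA2 q hq).1 hab)
  have h1 := ContDiffAt.comp_contMDiffAt (g := prN (n := finrank ℝ E))
    (f := fun q => (A q) ∘L (e : EuclideanSpace ℝ (Fin (finrank ℝ E)) →L[ℝ] E)) (x := p)
    (contDiffAt_prN _ (hinj p (mem_chart_source E p))) hB
  refine h1.congr_of_eventuallyEq ?_
  filter_upwards [(chartAt E p).open_source.mem_nhds (mem_chart_source E p)] with q hq
  ext w : 1
  symm
  refine prN_eq _ (hinj q hq) (fun w => ?_) w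
  rw [(hA2 q hq).2 w]
  constructor
  · rintro ⟨v, hv⟩
    exact ⟨e.symm v, by simpa using hv⟩
  · rintro ⟨v, hv⟩
    exact ⟨e v, hv⟩

omit [FiniteDimensional ℝ E] [IsManifold 𝓘(ℝ, E) ∞ M] in
theorem PN_mem (F : M → R4) (q : M) (w : R4) : PN (E := E) F q w ∈ (rg (E := E) F q)ᗮ :=
  Submodule.starProjection_apply_mem _ _

omit [FiniteDimensional ℝ E] [IsManifold 𝓘(ℝ, E) ∞ M] in
theorem orth_of_mem {F : M → R4} {q : M} {w : R4} (hw : w ∈ (rg (E := E) F q)ᗮ)
    (v : TangentSpace 𝓘(ℝ, E) q) : ⟪w, mfderiv 𝓘(ℝ, E) 𝓘(ℝ, R4) F q v⟫ = 0 :=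
  Submodule.inner_left_of_mem_orthogonal (K := rg (E := E) F q) ⟨v, rfl⟩ hw

omit [FiniteDimensional ℝ E] [IsManifold 𝓘(ℝ, E) ∞ M] in
theorem mem_of_orth {F : M → R4} {q : M} {w : R4}
    (hw : ∀ v : TangentSpace 𝓘(ℝ, E) q, ⟪w, mfderiv 𝓘(ℝ, E) 𝓘(ℝ, R4) F q v⟫ = 0) :
    w ∈ (rg (E := E) F q)ᗮ := by
  rw [Submodule.mem_orthogonal']
  rintro u ⟨v, rfl⟩
  exact hw v

theorem contDiffAt_unit {w : R4} (hw : w ≠ 0) : ContDiffAt ℝ ∞ (fun x : R4 => ‖x‖⁻¹ • x) w :=
  ((contDiffAt_norm ℝ hw).inv (norm_ne_zero_iff.mpr hw)).smul contDiffAt_id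

theorem norm_unit {w : R4} (hw : w ≠ 0) : ‖(‖w‖⁻¹ • w)‖ = 1 := by
  rw [norm_smul, norm_inv, norm_norm, inv_mul_cancel₀ (norm_ne_zero_iff.mpr hw)]

/-- F0: local orthonormal frame of the normal bundle -/
theorem exists_frame (hE : finrank ℝ E = 2) {F : M → R4} (hF : Imm (E := E) F) (p : M) :
    ∃ (O : Set M) (n1 n2 : M → R4), IsOpen O ∧ p ∈ O ∧
      ContMDiffOn 𝓘(ℝ, E) 𝓘(ℝ, R4) ∞ n1 O ∧ ContMDiffOn 𝓘(ℝ, E) 𝓘(ℝ, R4) ∞ n2 O ∧
      ∀ q ∈ O, ‖n1 q‖ = 1 ∧ ‖n2 q‖ = 1 ∧ ⟪n1 q, n2 q⟫ = 0 ∧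
        (∀ v : TangentSpace 𝓘(ℝ, E) q, ⟪n1 q, mfderiv 𝓘(ℝ, E) 𝓘(ℝ, R4) F q v⟫ = 0) ∧
        (∀ v : TangentSpace 𝓘(ℝ, E) q, ⟪n2 q, mfderiv 𝓘(ℝ, E) 𝓘(ℝ, R4) F q v⟫ = 0) ∧
        ∀ η : R4, (∀ v : TangentSpace 𝓘(ℝ, E) q, ⟪η, mfderiv 𝓘(ℝ, E) 𝓘(ℝ, R4) F q v⟫ = 0) →
          η = ⟪n1 q, η⟫ • n1 q + ⟪n2 q, η⟫ • n2 q := by
  have hK : ∀ q, finrank ℝ (rg (E := E) F q)ᗮ = 2 := by
    intro q
    have h1 : finrank ℝ (rg (E := E) F q) = 2 := by
      rw [← hE]
      exact LinearMap.finrank_range_of_inj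
        (f := (mfderiv 𝓘(ℝ, E) 𝓘(ℝ, R4) F q : E →L[ℝ] R4).toLinearMap) (hF.inj q)
    have h2 := Submodule.finrank_add_finrank_orthogonal (rg (E := E) F q)
    rw [h1, finrank_euclideanSpace_fin] at h2
    omega
  let b : OrthonormalBasis (Fin 2) ℝ (rg (E := E) F p)ᗮ :=
    (stdOrthonormalBasis ℝ (rg (E := E) F p)ᗮ).reindex (finCongr (hK p))
  set c1 : R4 := (b 0 : R4) with hc1
  set c2 : R4 := (b 1 : R4) with hc2
  have hc1n : ‖c1‖ = 1 := b.orthonormal.1 0
  have hc2n : ‖c2‖ = 1 := b.orthonormal.1 1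
  have hc12 : ⟪c1, c2⟫ = 0 := b.orthonormal.2 (show (0 : Fin 2) ≠ 1 by decide)
  set w1 : M → R4 := fun q => PN (E := E) F q c1 with hw1
  set w2 : M → R4 := fun q => PN (E := E) F q c2 with hw2
  have hw1s : ContMDiff 𝓘(ℝ, E) 𝓘(ℝ, R4) ∞ w1 := (contMDiff_PN hF).clm_apply contMDiff_const
  have hw2s : ContMDiff 𝓘(ℝ, E) 𝓘(ℝ, R4) ∞ w2 := (contMDiff_PN hF).clm_apply contMDiff_const
  have hw1p : w1 p = c1 := Submodule.starProjection_eq_self_iff.mpr (b 0).2
  have hw2p : w2 p = c2 := Submodule.starProjection_eq_self_iff.mpr (b 1).2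
  set U : R4 × R4 → R4 := fun x => ⟪x.1, x.1⟫ • x.2 - ⟪x.1, x.2⟫ • x.1 with hU
  have hUs : ContDiff ℝ ∞ U :=
    ((contDiff_fst.inner ℝ contDiff_fst).smul contDiff_snd).sub
      ((contDiff_fst.inner ℝ contDiff_snd).smul contDiff_fst)
  set u : M → R4 := fun q => U (w1 q, w2 q) with hu
  have hus : ContMDiff 𝓘(ℝ, E) 𝓘(ℝ, R4) ∞ u := fun q =>
    ContDiffAt.comp_contMDiffAt (g := U) (f := fun q => (w1 q, w2 q)) (x := q)
      hUs.contDiffAt ((hw1s q).prodMk_space (hw2s q))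
  have hup : u p = c2 := by
    simp only [hu, hU, hw1p, hw2p, hc12, real_inner_self_eq_norm_sq, hc1n]
    simp
  refine ⟨{q | w1 q ≠ 0 ∧ u q ≠ 0}, fun q => ‖w1 q‖⁻¹ • w1 q, fun q => ‖u q‖⁻¹ • u q, ?_, ?_, ?_,
    ?_, ?_⟩
  · exact (isOpen_ne_fun hw1s.continuous continuous_const).inter
      (isOpen_ne_fun hus.continuous continuous_const)
  · refine ⟨?_, ?_⟩
    · rw [hw1p, ← norm_ne_zero_iff, hc1n]; exact one_ne_zero
    · rw [hup, ← norm_ne_zero_iff, hc2n]; exact one_ne_zero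
  · intro q hq
    exact (ContDiffAt.comp_contMDiffAt (g := fun x : R4 => ‖x‖⁻¹ • x) (f := w1) (x := q)
      (contDiffAt_unit hq.1) (hw1s q)).contMDiffWithinAt
  · intro q hq
    exact (ContDiffAt.comp_contMDiffAt (g := fun x : R4 => ‖x‖⁻¹ • x) (f := u) (x := q)
      (contDiffAt_unit hq.2) (hus q)).contMDiffWithinAt
  · rintro q ⟨hq1, hq2⟩
    have hm1 : w1 q ∈ (rg (E := E) F q)ᗮ := PN_mem F q c1
    have hm2 : w2 q ∈ (rg (E := E) F q)ᗮ := PN_mem F q c2
    have hmu : u q ∈ (rg (E := E) F q)ᗮ :=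
      Submodule.sub_mem _ (Submodule.smul_mem _ _ hm2) (Submodule.smul_mem _ _ hm1)
    have ho : ⟪w1 q, u q⟫ = 0 := by
      simp only [hu, hU, inner_sub_right, real_inner_smul_right]
      ring
    have hn1 : ‖w1 q‖⁻¹ • w1 q ∈ (rg (E := E) F q)ᗮ := Submodule.smul_mem _ _ hm1
    have hn2 : ‖u q‖⁻¹ • u q ∈ (rg (E := E) F q)ᗮ := Submodule.smul_mem _ _ hmu
    have ho' : ⟪‖w1 q‖⁻¹ • w1 q, ‖u q‖⁻¹ • u q⟫ = 0 := by
      rw [real_inner_smul_left, real_inner_smul_right, ho, mul_zero, mul_zero]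
    refine ⟨norm_unit hq1, norm_unit hq2, ho', orth_of_mem hn1, orth_of_mem hn2, ?_⟩
    intro η hη
    have hηm := mem_of_orth hη
    let v : Fin 2 → (rg (E := E) F q)ᗮ := ![⟨_, hn1⟩, ⟨_, hn2⟩]
    have hv : Orthonormal ℝ v := by
      constructor
      · intro i
        fin_cases i
        · exact norm_unit hq1
        · exact norm_unit hq2
      · intro i j hij
        fin_cases i <;> fin_cases j
        · exact absurd rfl hij
        · exact ho'
        · exact (real_inner_comm _ _).trans ho'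
        · exact absurd rfl hij
    have hsp : ⊤ ≤ Submodule.span ℝ (range v) := by
      rw [hv.linearIndependent.span_eq_top_of_card_eq_finrank (by rw [hK q]; rfl)]
    have h3 := (OrthonormalBasis.mk hv hsp).sum_repr' ⟨η, hηm⟩
    have h4 := congrArg (Subtype.val) h3
    rw [Fin.sum_univ_two] at h4
    simp only [OrthonormalBasis.coe_mk] at h4
    exact h4.symm

variable [CompactSpace M] [T2Space M]

set_option linter.unusedSectionVars false in
/-- from a transversal field to a unit normal field -/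
theorem unit_of_transversal {F ζ : M → R4} (hF : Imm (E := E) F)
    (hζ : ContMDiff 𝓘(ℝ, E) 𝓘(ℝ, R4) ∞ ζ)
    (h : ∀ p (v : TangentSpace 𝓘(ℝ, E) p), mfderiv 𝓘(ℝ, E) 𝓘(ℝ, R4) F p v ≠ ζ p) :
    ∃ q : M → R4, Nor (E := E) F q ∧ ∀ p, ‖q p‖ = 1 := by
  have hs : ContMDiff 𝓘(ℝ, E) 𝓘(ℝ, R4) ∞ (fun p => PN (E := E) F p (ζ p)) :=
    (contMDiff_PN hF).clm_apply hζ
  have hne : ∀ p, PN (E := E) F p (ζ p) ≠ 0 := by
    intro p hp
    have h1 : ζ p ∈ (rg (E := E) F p)ᗮᗮ :=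
      (Submodule.starProjection_apply_eq_zero_iff _).mp hp
    rw [Submodule.orthogonal_orthogonal] at h1
    obtain ⟨v, hv⟩ := h1
    exact h p v hv
  refine ⟨fun p => ‖PN (E := E) F p (ζ p)‖⁻¹ • PN (E := E) F p (ζ p), ⟨?_, ?_⟩, ?_⟩
  · intro p
    exact ContDiffAt.comp_contMDiffAt (g := fun x : R4 => ‖x‖⁻¹ • x)
      (f := fun p => PN (E := E) F p (ζ p)) (x := p) (contDiffAt_unit (hne p)) (hs p)
  · intro p v
    exact orth_of_mem (Submodule.smul_mem _ _ (PN_mem F p (ζ p))) v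
  · intro p
    exact norm_unit (hne p)

end FrameMfd

end Vale.Agent.P205.Top
end
end

section

/-!
Block TOP of P205, part F: absorption of the zeros of a normal field into one point.
-/

open scoped Manifold ContDiff Topology RealInnerProductSpace
open Set Filter MeasureTheory Module

noncomputable section

namespace Vale.Agent.P205.Top

section Surface2

variable {E : Type*} [NormedAddCommGroup E] [NormedSpace ℝ E] [FiniteDimensional ℝ E]
  {M : Type*} [TopologicalSpace M] [ChartedSpace E M] [IsManifold 𝓘(ℝ, E) ∞ M]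

lemma absorb_inner_comb {a b w : R4} (α β : ℝ) (ha : ⟪a, w⟫ = 0) (hb : ⟪b, w⟫ = 0) :
    ⟪α • a + β • b, w⟫ = 0 := by
  rw [inner_add_left, inner_smul_left, inner_smul_left, ha, hb]
  simp

/-- a complex chart on a small disc -/
structure AbsorbChart (E : Type*) [NormedAddCommGroup E] [NormedSpace ℝ E]
    {M : Type*} [TopologicalSpace M] [ChartedSpace E M] (p : M) (O : Set M) where
  R : ℝ
  U : Set M
  z : M → ℂ
  σ : ℂ → M
  hR : 0 < R
  hU : IsOpen U
  pU : p ∈ U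
  zp0 : z p = 0
  sub : U ⊆ O
  zσ : ∀ c, ‖c‖ < R → σ c ∈ U ∧ z (σ c) = c
  σz : ∀ x ∈ U, ‖z x‖ < R ∧ σ (z x) = x
  zs : ContMDiffOn 𝓘(ℝ, E) 𝓘(ℝ, ℂ) ∞ z U
  σs : ContMDiffOn 𝓘(ℝ, ℂ) 𝓘(ℝ, E) ∞ σ {c | ‖c‖ < R}

lemma AbsorbChart.closed [T2Space M] {p : M} {O : Set M} (A : AbsorbChart E p O) {r : ℝ}
    (hr : r < A.R) : IsClosed {x | x ∈ A.U ∧ ‖A.z x‖ ≤ r} := by
  have h1 : {x | x ∈ A.U ∧ ‖A.z x‖ ≤ r} = A.σ '' Metric.closedBall (0 : ℂ) r := by
    ext x
    constructor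
    · rintro ⟨hx, hxr⟩
      exact ⟨A.z x, by simpa using hxr, (A.σz x hx).2⟩
    · rintro ⟨c, hc, rfl⟩
      have hc' : ‖c‖ ≤ r := by simpa using hc
      obtain ⟨h2, h3⟩ := A.zσ c (lt_of_le_of_lt hc' hr)
      exact ⟨h2, by rw [h3]; exact hc'⟩
  rw [h1]
  have h2 : ContinuousOn A.σ (Metric.closedBall (0 : ℂ) r) := by
    refine A.σs.continuousOn.mono ?_
    intro c hc
    have hc' : ‖c‖ ≤ r := by simpa using hc
    exact lt_of_le_of_lt hc' hr
  exact ((isCompact_closedBall (0 : ℂ) r).image_of_continuousOn h2).isClosed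

lemma exists_absorbChart (hE : finrank ℝ E = 2) (p : M) {O : Set M} (hO : O ∈ 𝓝 p) :
    Nonempty (AbsorbChart E p O) := by
  have hfr : finrank ℝ E = finrank ℝ ℂ := by rw [hE, Complex.finrank_real_complex]
  let L : E ≃L[ℝ] ℂ := ContinuousLinearEquiv.ofFinrankEq hfr
  set φ := extChartAt 𝓘(ℝ, E) p with hφ
  have ht : φ.target ∈ 𝓝 (φ p) := extChartAt_target_mem_nhds p
  have hc : ContinuousAt φ.symm (φ p) := continuousAt_extChartAt_symm p
  have hsym : φ.symm (φ p) = p := extChartAt_to_inv p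
  have h1 : {y | y ∈ φ.target ∧ φ.symm y ∈ O} ∈ 𝓝 (φ p) := by
    refine inter_mem ht ?_
    refine hc.preimage_mem_nhds ?_
    rw [hsym]
    exact hO
  have h2 : ContinuousAt (fun c : ℂ => L.symm c + φ p) 0 := by fun_prop
  have h3 : (fun c : ℂ => L.symm c + φ p) ⁻¹' {y | y ∈ φ.target ∧ φ.symm y ∈ O} ∈ 𝓝 (0 : ℂ) := by
    refine h2.preimage_mem_nhds ?_
    simpa using h1
  obtain ⟨R, hR, hball⟩ := Metric.mem_nhds_iff.mp h3
  have hb : ∀ c : ℂ, ‖c‖ < R → L.symm c + φ p ∈ φ.target ∧ φ.symm (L.symm c + φ p) ∈ O := by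
    intro c hc'
    exact hball (by simpa using hc')
  have hzc : ContMDiffOn 𝓘(ℝ, E) 𝓘(ℝ, ℂ) ∞ (fun x => L (φ x) - L (φ p)) φ.source := by
    have e1 : ContMDiffOn 𝓘(ℝ, E) 𝓘(ℝ, E) ∞ φ φ.source := by
      rw [hφ, extChartAt_source]
      exact contMDiffOn_extChartAt
    have e2 : ContDiff ℝ ∞ (fun y : E => L y - L (φ p)) := by fun_prop
    exact e2.contMDiff.comp_contMDiffOn e1
  refine ⟨{ R := R
            U := φ.source ∩ {x | ‖L (φ x) - L (φ p)‖ < R}
            z := fun x => L (φ x) - L (φ p)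
            σ := fun c => φ.symm (L.symm c + φ p)
            hR := hR
            hU := ?_
            pU := ?_
            zp0 := by simp
            sub := ?_
            zσ := ?_
            σz := ?_
            zs := hzc.mono inter_subset_left
            σs := ?_ }⟩
  · have := hzc.continuousOn.norm.isOpen_inter_preimage (isOpen_extChartAt_source p)
      (isOpen_Iio (a := R))
    exact this
  · exact ⟨mem_extChartAt_source p, by simpa using hR⟩
  · rintro x ⟨hx, hxR⟩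
    have h5 := (hb _ hxR).2
    have h6 : L.symm (L (φ x) - L (φ p)) + φ p = φ x := by simp
    rw [h6, φ.left_inv hx] at h5
    exact h5
  · intro c hc'
    have h5 := hb c hc'
    have h6 : φ (φ.symm (L.symm c + φ p)) = L.symm c + φ p := φ.right_inv h5.1
    have h7 : L (φ (φ.symm (L.symm c + φ p))) - L (φ p) = c := by
      rw [h6, map_add]
      simp
    refine ⟨⟨φ.map_target h5.1, ?_⟩, h7⟩
    show ‖L (φ (φ.symm (L.symm c + φ p))) - L (φ p)‖ < R
    rw [h7]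
    exact hc'
  · rintro x ⟨hx, hxR⟩
    refine ⟨hxR, ?_⟩
    have h6 : L.symm (L (φ x) - L (φ p)) + φ p = φ x := by simp
    show φ.symm (L.symm (L (φ x) - L (φ p)) + φ p) = x
    rw [h6, φ.left_inv hx]
  · have e1 : ContMDiffOn 𝓘(ℝ, E) 𝓘(ℝ, E) ∞ φ.symm φ.target := contMDiffOn_extChartAt_symm p
    have e2 : ContDiff ℝ ∞ (fun c : ℂ => L.symm c + φ p) := by fun_prop
    exact e1.comp e2.contMDiff.contMDiffOn (fun c hc' => (hb c hc').1)

variable [CompactSpace M] [T2Space M]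

/-- F2: absorption inside a small set -/
theorem absorb_local (hE : finrank ℝ E = 2) {F : M → R4} (hF : Imm (E := E) F) (p : M) :
    ∃ O ∈ 𝓝 p, ∀ a ∈ O, ∀ b ∈ O, ∀ ξ : M → R4, Nor (E := E) F ξ → {x | ξ x = 0}.Finite →
      ∃ ξ' : M → R4, Nor (E := E) F ξ' ∧ {x | ξ' x = 0} ⊆ ({x | ξ x = 0} \ {a}) ∪ {b} := by
  classical
  obtain ⟨O1, n1, n2, hO1, hp1, hn1, hn2, hfr⟩ := exists_frame hE hF p
  obtain ⟨A⟩ := exists_absorbChart (E := E) hE p (hO1.mem_nhds hp1)
  have hR4 : 0 < A.R / 4 := by have := A.hR; linarith only [this]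
  refine ⟨{x | x ∈ A.U ∧ ‖A.z x‖ < A.R / 4}, ?_, ?_⟩
  · have h1 : IsOpen {x | x ∈ A.U ∧ ‖A.z x‖ < A.R / 4} :=
      A.zs.continuousOn.norm.isOpen_inter_preimage A.hU (isOpen_Iio (a := A.R / 4))
    exact h1.mem_nhds ⟨A.pU, by rw [A.zp0]; simpa using A.hR⟩
  rintro a ⟨haU, ha⟩ b ⟨hbU, hb⟩ ξ hξ hfin
  -- the function on the disc
  let g : ℂ → ℂ := fun c => ((⟪n1 (A.σ c), ξ (A.σ c)⟫ : ℝ) : ℂ) +
    ((⟪n2 (A.σ c), ξ (A.σ c)⟫ : ℝ) : ℂ) * Complex.I
  have hgre : ∀ c, (g c).re = ⟪n1 (A.σ c), ξ (A.σ c)⟫ := by intro c; simp [g]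
  have hgim : ∀ c, (g c).im = ⟪n2 (A.σ c), ξ (A.σ c)⟫ := by intro c; simp [g]
  have hmaps : MapsTo A.σ {c | ‖c‖ < A.R} O1 := fun c hc => A.sub (A.zσ c hc).1
  have hgs : ContDiffOn ℝ ∞ g {c | ‖c‖ < A.R} := by
    have s1 : ContDiffOn ℝ ∞ (fun c => n1 (A.σ c)) {c | ‖c‖ < A.R} :=
      contMDiffOn_iff_contDiffOn.mp (hn1.comp A.σs hmaps)
    have s2 : ContDiffOn ℝ ∞ (fun c => n2 (A.σ c)) {c | ‖c‖ < A.R} :=
      contMDiffOn_iff_contDiffOn.mp (hn2.comp A.σs hmaps)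
    have s3 : ContDiffOn ℝ ∞ (fun c => ξ (A.σ c)) {c | ‖c‖ < A.R} :=
      contMDiffOn_iff_contDiffOn.mp (hξ.sm.comp_contMDiffOn A.σs)
    have i1 : ContDiffOn ℝ ∞ (fun c => (⟪n1 (A.σ c), ξ (A.σ c)⟫ : ℝ)) {c | ‖c‖ < A.R} :=
      s1.inner ℝ s3
    have i2 : ContDiffOn ℝ ∞ (fun c => (⟪n2 (A.σ c), ξ (A.σ c)⟫ : ℝ)) {c | ‖c‖ < A.R} :=
      s2.inner ℝ s3
    exact (Complex.ofRealCLM.contDiff.comp_contDiffOn i1).add
      ((Complex.ofRealCLM.contDiff.comp_contDiffOn i2).mul contDiffOn_const)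
  have hexp : ∀ x ∈ A.U, ξ x = ⟪n1 x, ξ x⟫ • n1 x + ⟪n2 x, ξ x⟫ • n2 x := by
    intro x hx
    exact (hfr x (A.sub hx)).2.2.2.2.2 (ξ x) (fun v => hξ.orth x v)
  have hg0 : ∀ c, ‖c‖ < A.R → g c = 0 → ξ (A.σ c) = 0 := by
    intro c hc h0
    have hre : ⟪n1 (A.σ c), ξ (A.σ c)⟫ = 0 := by rw [← hgre, h0]; rfl
    have him : ⟪n2 (A.σ c), ξ (A.σ c)⟫ = 0 := by rw [← hgim, h0]; rfl
    rw [hexp _ (A.zσ c hc).1, hre, him]
    simp
  -- an annulus without zeros
  obtain ⟨r1, r2, hr1, hr12, hr2, hfree⟩ : ∃ r1 r2 : ℝ, A.R / 4 < r1 ∧ r1 < r2 ∧ r2 < A.R ∧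
      ∀ x ∈ A.U, r1 < ‖A.z x‖ → ‖A.z x‖ < r2 → ξ x ≠ 0 := by
    have hf2 : ((fun x => ‖A.z x‖) '' {x | ξ x = 0}).Finite := hfin.image _
    have hinf : (Ioo (A.R / 4) (A.R / 2)).Infinite := Ioo_infinite (by linarith only [hR4])
    obtain ⟨r, hr, hrn⟩ := (hinf.sdiff hf2).nonempty
    have hop : IsOpen (Ioo (A.R / 4) (A.R / 2) ∩ ((fun x => ‖A.z x‖) '' {x | ξ x = 0})ᶜ) :=
      isOpen_Ioo.inter hf2.isClosed.isOpen_compl
    obtain ⟨ε, hε, hball⟩ := Metric.isOpen_iff.mp hop r ⟨hr, hrn⟩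
    have hm : ∀ s, |s - r| < ε → s ∈ Ioo (A.R / 4) (A.R / 2) ∧
        s ∉ (fun x => ‖A.z x‖) '' {x | ξ x = 0} := by
      intro s hs
      exact hball (by rwa [Metric.mem_ball, Real.dist_eq])
    refine ⟨r - ε / 2, r + ε / 2, ?_, by linarith only [hε], ?_, ?_⟩
    · exact (hm (r - ε / 2) (by rw [abs_lt]; constructor <;> linarith)).1.1
    · have := (hm (r + ε / 2) (by rw [abs_lt]; constructor <;> linarith only [hε])).1.2
      have := A.hR
      linarith
    · intro x _ h1 h2 h0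
      exact (hm ‖A.z x‖ (by rw [abs_lt]; constructor <;> linarith)).2 ⟨x, h0, rfl⟩
  have hr1p : 0 < r1 := by linarith
  obtain ⟨g', hg's, hg'eq, hg'0⟩ := exists_absorb (r1 := r1) (r2 := r2) (R := A.R) hr1p hr12 hr2
    (g := g) hgs (by
      intro c h1 h2 h0
      have hcR : ‖c‖ < A.R := h2.trans hr2
      have h3 := A.zσ c hcR
      exact hfree (A.σ c) h3.1 (by rw [h3.2]; exact h1) (by rw [h3.2]; exact h2) (hg0 c hcR h0))
    (q := A.z b) (hb.trans hr1)
  let ξ' : M → R4 := fun x => if x ∈ A.U then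
    (g' (A.z x)).re • n1 x + (g' (A.z x)).im • n2 x else ξ x
  have hin : ∀ x ∈ A.U, ξ' x = (g' (A.z x)).re • n1 x + (g' (A.z x)).im • n2 x := by
    intro x hx
    simp [ξ', hx]
  have hout : ∀ x, (x ∈ A.U → r2 ≤ ‖A.z x‖) → ξ' x = ξ x := by
    intro x hx
    by_cases hxU : x ∈ A.U
    · rw [hin x hxU, hg'eq _ (hx hxU), hgre, hgim, (A.σz x hxU).2]
      exact (hexp x hxU).symm
    · simp [ξ', hxU]
  refine ⟨ξ', ⟨?_, ?_⟩, ?_⟩
  · intro x
    by_cases hxU : x ∈ A.U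
    · have e0 : ContMDiffOn 𝓘(ℝ, E) 𝓘(ℝ, ℂ) ∞ (fun x => g' (A.z x)) A.U :=
        (contMDiffOn_iff_contDiffOn.mpr hg's).comp A.zs (fun x hx => (A.σz x hx).1)
      have e1 : ContMDiffOn 𝓘(ℝ, E) 𝓘(ℝ, ℝ) ∞ (fun x => (g' (A.z x)).re) A.U :=
        Complex.reCLM.contDiff.contMDiff.comp_contMDiffOn e0
      have e2 : ContMDiffOn 𝓘(ℝ, E) 𝓘(ℝ, ℝ) ∞ (fun x => (g' (A.z x)).im) A.U :=
        Complex.imCLM.contDiff.contMDiff.comp_contMDiffOn e0
      have e3 : ContMDiffOn 𝓘(ℝ, E) 𝓘(ℝ, R4) ∞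
          (fun x => (g' (A.z x)).re • n1 x + (g' (A.z x)).im • n2 x) A.U :=
        (e1.smul (hn1.mono A.sub)).add (e2.smul (hn2.mono A.sub))
      have e4 : ContMDiffOn 𝓘(ℝ, E) 𝓘(ℝ, R4) ∞ ξ' A.U := e3.congr hin
      exact e4.contMDiffAt (A.hU.mem_nhds hxU)
    · have hcl := A.closed hr2
      have hx : x ∈ {x | x ∈ A.U ∧ ‖A.z x‖ ≤ r2}ᶜ := fun h => hxU h.1
      have hev : ξ' =ᶠ[𝓝 x] ξ := by
        filter_upwards [hcl.isOpen_compl.mem_nhds hx] with y hy
        exact hout y (fun hyU => (not_le.mp fun h => hy ⟨hyU, h⟩).le)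
      exact (hξ.sm x).congr_of_eventuallyEq hev
  · intro x v
    by_cases hxU : x ∈ A.U
    · rw [hin x hxU]
      have h4 := (hfr x (A.sub hxU)).2.2.2.1 v
      have h5 := (hfr x (A.sub hxU)).2.2.2.2.1 v
      exact absorb_inner_comb _ _ h4 h5
    · rw [hout x (fun h => absurd h hxU)]
      exact hξ.orth x v
  · intro x hx
    have hx0 : ξ' x = 0 := hx
    by_cases hxU : x ∈ A.U
    · by_cases hlt : ‖A.z x‖ < r2
      · right
        obtain ⟨k1, k2, k3, -⟩ := hfr x (A.sub hxU)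
        have h1 := hin x hxU
        rw [hx0] at h1
        have hre : (g' (A.z x)).re = 0 := by
          have h2 : ⟪n1 x, (g' (A.z x)).re • n1 x + (g' (A.z x)).im • n2 x⟫ = 0 := by
            rw [← h1]; simp
          rw [inner_add_right, inner_smul_right, inner_smul_right, k3,
            real_inner_self_eq_norm_sq, k1] at h2
          simpa using h2
        have him : (g' (A.z x)).im = 0 := by
          have h2 : ⟪n2 x, (g' (A.z x)).re • n1 x + (g' (A.z x)).im • n2 x⟫ = 0 := by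
            rw [← h1]; simp
          rw [inner_add_right, inner_smul_right, inner_smul_right, real_inner_comm, k3,
            real_inner_self_eq_norm_sq, k2] at h2
          simpa using h2
        have h0 : g' (A.z x) = 0 := Complex.ext hre him
        have h3 := hg'0 _ hlt h0
        have h4 : x = b := by
          rw [← (A.σz x hxU).2, h3, (A.σz b hbU).2]
        exact h4
      · left
        have h1 := hout x (fun _ => not_lt.mp hlt)
        refine ⟨?_, ?_⟩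
        · show ξ x = 0
          rw [← h1]
          exact hx0
        · intro hxa
          have hxa' : x = a := hxa
          rw [hxa'] at hlt
          exact hlt (by linarith only [hlt, hr12, hr1, ha])
    · left
      have h1 := hout x (fun h => absurd h hxU)
      refine ⟨?_, ?_⟩
      · show ξ x = 0
        rw [← h1]
        exact hx0
      · intro hxa
        have hxa' : x = a := hxa
        exact hxU (hxa' ▸ haU)

/-- F: absorption into one point -/
theorem absorb [ConnectedSpace M] (hE : finrank ℝ E = 2) {F : M → R4} (hF : Imm (E := E) F)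
    (p0 : M) : ∃ ξ : M → R4, Nor (E := E) F ξ ∧ ∀ x, ξ x = 0 → x = p0 := by
  classical
  -- the set of points which can be absorbed into `p0`
  let S : Set M := {a | ∀ ξ : M → R4, Nor (E := E) F ξ → {x | ξ x = 0}.Finite →
    ∃ ξ' : M → R4, Nor (E := E) F ξ' ∧ {x | ξ' x = 0} ⊆ ({x | ξ x = 0} \ {a}) ∪ {p0}}
  have hstep : ∀ p : M, ∃ O ∈ 𝓝 p, (∃ b ∈ O, b ∈ S) → O ⊆ S := by
    intro p
    obtain ⟨O, hO, hO2⟩ := absorb_local hE hF p
    refine ⟨O, hO, ?_⟩
    rintro ⟨b, hbO, hbS⟩ a haO ξ hξ hfin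
    obtain ⟨ξ1, hξ1, hz1⟩ := hO2 a haO b hbO ξ hξ hfin
    have hfin1 : {x | ξ1 x = 0}.Finite :=
      ((hfin.subset sdiff_subset).union (finite_singleton b)).subset hz1
    obtain ⟨ξ2, hξ2, hz2⟩ := hbS ξ1 hξ1 hfin1
    refine ⟨ξ2, hξ2, ?_⟩
    intro x hx
    rcases hz2 hx with ⟨hx1, hxb⟩ | hx1
    · rcases hz1 hx1 with hx2 | hx2
      · exact Or.inl hx2
      · exact absurd hx2 hxb
    · exact Or.inr hx1
  have hp0 : p0 ∈ S := by
    intro ξ hξ _
    refine ⟨ξ, hξ, ?_⟩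
    intro x hx
    by_cases h : x = p0
    · exact Or.inr h
    · exact Or.inl ⟨hx, h⟩
  have hopen : IsOpen S := by
    rw [isOpen_iff_mem_nhds]
    intro p hp
    obtain ⟨O, hO, hO2⟩ := hstep p
    exact mem_of_superset hO (hO2 ⟨p, mem_of_mem_nhds hO, hp⟩)
  have hclosed : IsClosed S := by
    rw [← isOpen_compl_iff, isOpen_iff_mem_nhds]
    intro p hp
    obtain ⟨O, hO, hO2⟩ := hstep p
    refine mem_of_superset hO ?_
    intro b hb hbS
    exact hp (hO2 ⟨b, hb, hbS⟩ (mem_of_mem_nhds hO))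
  have huniv : S = univ := IsClopen.eq_univ ⟨hclosed, hopen⟩ ⟨p0, hp0⟩
  obtain ⟨ξ0, hξ0, hfin0⟩ := exists_nor_finite hE hF
  have key : ∀ n : ℕ, ∀ ξ : M → R4, Nor (E := E) F ξ → {x | ξ x = 0}.Finite →
      ({x | ξ x = 0} \ {p0}).ncard ≤ n →
      ∃ ξ' : M → R4, Nor (E := E) F ξ' ∧ ∀ x, ξ' x = 0 → x = p0 := by
    intro n
    induction n with
    | zero =>
      intro ξ hξ hfin hn
      refine ⟨ξ, hξ, ?_⟩
      intro x hx
      by_contra h
      have h1 : ({x | ξ x = 0} \ {p0}).ncard = 0 := Nat.le_zero.mp hn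
      rw [Set.ncard_eq_zero (hfin.subset sdiff_subset)] at h1
      have h2 : x ∈ {x | ξ x = 0} \ {p0} := ⟨hx, h⟩
      rw [h1] at h2
      exact h2
    | succ n ih =>
      intro ξ hξ hfin hn
      by_cases hne : ({x | ξ x = 0} \ {p0}).Nonempty
      · obtain ⟨a, ha, hap⟩ := hne
        have haS : a ∈ S := by rw [huniv]; exact mem_univ a
        obtain ⟨ξ1, hξ1, hz1⟩ := haS ξ hξ hfin
        have hfin1 : {x | ξ1 x = 0}.Finite :=
          ((hfin.subset sdiff_subset).union (finite_singleton p0)).subset hz1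
        refine ih ξ1 hξ1 hfin1 ?_
        have hlt : {x | ξ1 x = 0} \ {p0} ⊂ {x | ξ x = 0} \ {p0} := by
          refine (ssubset_iff_of_subset ?_).mpr ⟨a, ⟨ha, hap⟩, ?_⟩
          · rintro x ⟨hx, hxp⟩
            rcases hz1 hx with hx1 | hx1
            · exact ⟨hx1.1, hxp⟩
            · exact absurd hx1 hxp
          · rintro ⟨hx, hxp⟩
            rcases hz1 hx with hx1 | hx1
            · exact hx1.2 rfl
            · exact hxp hx1
        have := Set.ncard_lt_ncard hlt (hfin.subset sdiff_subset)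
        omega
      · rw [Set.not_nonempty_iff_eq_empty] at hne
        refine ⟨ξ, hξ, ?_⟩
        intro x hx
        by_contra h
        have h2 : x ∈ {x | ξ x = 0} \ {p0} := ⟨hx, h⟩
        rw [hne] at h2
        exact h2
  exact key _ ξ0 hξ0 hfin0 le_rfl

end Surface2

end Vale.Agent.P205.Top
end
end

section

/-!
The divergence identity behind the degree (P205, block TOP, parity).

For `a : ℝⁿ → ℝⁿ` smooth, `v` fixed, `C i = det (∂_1 a, …, v (place i), …, ∂_n a)`: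
`∑ ∂_i C_i = 0` and `∑ ∂_i (H ∘ a) C_i = det Da * (∂_v H) ∘ a`.
-/

open MeasureTheory
open scoped ContDiff

noncomputable section

namespace Vale.Agent.P205.TOP

variable {n : ℕ}

/-- the determinant as a continuous multilinear function of the columns -/
def detM (n : ℕ) : ContinuousMultilinearMap ℝ (fun _ : Fin n => (Fin n → ℝ)) ℝ :=
  { (Matrix.detRowAlternating (n := Fin n) (R := ℝ)).toMultilinearMap with
    cont := by
      have h : Continuous (fun M : Matrix (Fin n) (Fin n) ℝ => M.det) :=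
        continuous_id.matrix_det
      exact h }

theorem detM_apply (c : Fin n → Fin n → ℝ) : detM n c = Matrix.det (Matrix.of c) := rfl

/-- columns of the derivative -/
def cl (a : (Fin n → ℝ) → (Fin n → ℝ)) (x : Fin n → ℝ) (k : Fin n) : Fin n → ℝ :=
  fderiv ℝ a x (Pi.single k 1)

/-- Jacobian determinant -/
def jd (a : (Fin n → ℝ) → (Fin n → ℝ)) (x : Fin n → ℝ) : ℝ := detM n (cl a x)

/-- cofactor field -/
def cof (a : (Fin n → ℝ) → (Fin n → ℝ)) (v : Fin n → ℝ) (i : Fin n) (x : Fin n → ℝ) : ℝ :=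
  detM n (Function.update (cl a x) i v)

theorem jd_eq (a : (Fin n → ℝ) → (Fin n → ℝ)) (x : Fin n → ℝ) :
    jd a x = (fderiv ℝ a x).det := by
  rw [ContinuousLinearMap.det, ← LinearMap.det_toMatrix', jd, detM_apply, ← Matrix.det_transpose]
  congr 1

theorem contDiff_cl {a : (Fin n → ℝ) → (Fin n → ℝ)} (ha : ContDiff ℝ ∞ a) (k : Fin n) :
    ContDiff ℝ ∞ (fun x => cl a x k) := by
  unfold cl
  exact (ha.fderiv_right (m := ∞) (by simp)).clm_apply contDiff_const

theorem contDiff_detM : ContDiff ℝ ∞ (detM n) := (detM n).contDiff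

theorem contDiff_upd {a : (Fin n → ℝ) → (Fin n → ℝ)} (ha : ContDiff ℝ ∞ a) (v : Fin n → ℝ)
    (i : Fin n) : ContDiff ℝ ∞ (fun x => Function.update (cl a x) i v) := by
  refine contDiff_pi.2 fun k => ?_
  by_cases h : k = i
  · subst h
    simp only [Function.update_self]
    exact contDiff_const
  · simp only [Function.update_of_ne h]
    exact contDiff_cl ha k

theorem contDiff_cof {a : (Fin n → ℝ) → (Fin n → ℝ)} (ha : ContDiff ℝ ∞ a) (v : Fin n → ℝ)
    (i : Fin n) : ContDiff ℝ ∞ (cof a v i) := contDiff_detM.comp (contDiff_upd ha v i)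

/-- second derivatives -/
def sd (a : (Fin n → ℝ) → (Fin n → ℝ)) (x : Fin n → ℝ) (i k : Fin n) : Fin n → ℝ :=
  fderiv ℝ (fderiv ℝ a) x (Pi.single i 1) (Pi.single k 1)

theorem sd_symm {a : (Fin n → ℝ) → (Fin n → ℝ)} (ha : ContDiff ℝ ∞ a) (x : Fin n → ℝ)
    (i k : Fin n) : sd a x i k = sd a x k i := by
  have h : IsSymmSndFDerivAt ℝ a x := by
    apply ContDiffAt.isSymmSndFDerivAt (n := ∞) ha.contDiffAt
    simp only [minSmoothness_of_isRCLikeNormedField]
    exact WithTop.coe_le_coe.2 le_top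
  exact h _ _

theorem hasFDerivAt_cl {a : (Fin n → ℝ) → (Fin n → ℝ)} (ha : ContDiff ℝ ∞ a)
    (x : Fin n → ℝ) (k : Fin n) :
    HasFDerivAt (fun y => cl a y k)
      ((fderiv ℝ (fderiv ℝ a) x).flip (Pi.single k 1)) x := by
  have h1 : HasFDerivAt (fderiv ℝ a) (fderiv ℝ (fderiv ℝ a) x) x :=
    ((ha.fderiv_right (m := ∞) (by simp)).differentiable (by simp) x).hasFDerivAt
  have h2 := h1.clm_apply (hasFDerivAt_const (Pi.single k (1 : ℝ) : Fin n → ℝ) x)
  refine h2.congr_fderiv ?_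
  ext w j
  simp

theorem fderiv_cof {a : (Fin n → ℝ) → (Fin n → ℝ)} (ha : ContDiff ℝ ∞ a) (v x : Fin n → ℝ)
    (i : Fin n) (w : Fin n → ℝ) :
    fderiv ℝ (cof a v i) x w = ∑ k, if k = i then 0 else
      detM n (Function.update (Function.update (cl a x) i v) k
        (fderiv ℝ (fderiv ℝ a) x w (Pi.single k 1))) := by
  classical
  have h1 : HasFDerivAt (fun y => Function.update (cl a y) i v)
      (ContinuousLinearMap.pi fun k => if k = i then 0 else
        (fderiv ℝ (fderiv ℝ a) x).flip (Pi.single k 1)) x := by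
    rw [hasFDerivAt_pi]
    intro k
    by_cases h : k = i
    · subst h
      simp only [Function.update_self, if_true]
      exact hasFDerivAt_const v x
    · simp only [Function.update_of_ne h, if_neg h]
      exact hasFDerivAt_cl ha x k
  have h2 : HasFDerivAt (cof a v i) _ x :=
    ((detM n).hasFDerivAt (x := Function.update (cl a x) i v)).comp x h1
  rw [h2.fderiv]
  rw [ContinuousLinearMap.comp_apply, ContinuousMultilinearMap.linearDeriv_apply]
  refine Finset.sum_congr rfl fun k _ => ?_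
  by_cases h : k = i
  · subst h
    simp only [ContinuousLinearMap.coe_pi', if_true]
    exact (detM n).map_coord_zero k (by simp)
  · simp [h]

/-- **Piola identity** -/
theorem piola {a : (Fin n → ℝ) → (Fin n → ℝ)} (ha : ContDiff ℝ ∞ a) (v x : Fin n → ℝ) :
    ∑ i, fderiv ℝ (cof a v i) x (Pi.single i 1) = 0 := by
  classical
  set T : Fin n → Fin n → ℝ := fun i k => if k = i then 0 else
      detM n (Function.update (Function.update (cl a x) i v) k (sd a x i k)) with hT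
  have h1 : ∑ i, fderiv ℝ (cof a v i) x (Pi.single i 1) = ∑ i, ∑ k, T i k := by
    refine Finset.sum_congr rfl fun i _ => ?_
    rw [fderiv_cof ha]
    rfl
  have h2 : ∀ i k, T i k = - T k i := by
    intro i k
    by_cases h : k = i
    · subst h; simp [hT]
    · have h' : i ≠ k := fun e => h e.symm
      simp only [hT, if_neg h, if_neg h']
      rw [sd_symm ha x i k]
      set m : Fin n → Fin n → ℝ :=
        Function.update (Function.update (cl a x) k v) i (sd a x k i) with hm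
      have e : Function.update (Function.update (cl a x) i v) k (sd a x k i)
          = m ∘ Equiv.swap i k := by
        funext l
        simp only [Function.comp_apply, hm]
        by_cases h1 : l = k
        · subst h1
          rw [Equiv.swap_apply_right, Function.update_self, Function.update_self]
        · by_cases h2 : l = i
          · subst h2
            rw [Equiv.swap_apply_left, Function.update_of_ne h', Function.update_self,
              Function.update_of_ne h, Function.update_self]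
          · rw [Equiv.swap_apply_of_ne_of_ne h2 h1, Function.update_of_ne h1,
              Function.update_of_ne h2, Function.update_of_ne h2, Function.update_of_ne h1]
      rw [e]
      exact (Matrix.detRowAlternating (n := Fin n) (R := ℝ)).map_swap m h'
  rw [h1]
  have h3 : ∑ i, ∑ k, T i k = - ∑ i, ∑ k, T i k := by
    calc ∑ i, ∑ k, T i k = ∑ i, ∑ k, - T k i :=
          Finset.sum_congr rfl fun i _ => Finset.sum_congr rfl fun k _ => h2 i k
      _ = - ∑ i, ∑ k, T k i := by simp only [Finset.sum_neg_distrib]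
      _ = - ∑ i, ∑ k, T i k := by rw [Finset.sum_comm]
  linarith

/-- Cramer -/
theorem cramer_sum (a : (Fin n → ℝ) → (Fin n → ℝ)) (v x : Fin n → ℝ) :
    ∑ i, cof a v i x • cl a x i = jd a x • v := by
  have h := Matrix.mulVec_cramer (Matrix.of (cl a x)).transpose v
  rw [Matrix.det_transpose] at h
  have e : jd a x • v = (Matrix.of (cl a x)).det • v := rfl
  rw [e, ← h]
  funext j
  rw [Matrix.mulVec, dotProduct, Finset.sum_apply]
  refine Finset.sum_congr rfl fun i _ => ?_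
  rw [Matrix.cramer_transpose_apply, Matrix.transpose_apply, Pi.smul_apply, smul_eq_mul,
    mul_comm]
  rfl

theorem fderiv_comp_cl {a : (Fin n → ℝ) → (Fin n → ℝ)} (ha : ContDiff ℝ ∞ a)
    {H : (Fin n → ℝ) → ℝ} (hH : ContDiff ℝ ∞ H) (x : Fin n → ℝ) (i : Fin n) :
    fderiv ℝ (fun y => H (a y)) x (Pi.single i 1) = fderiv ℝ H (a x) (cl a x i) := by
  have h1 : HasFDerivAt a (fderiv ℝ a x) x := (ha.differentiable (by simp) x).hasFDerivAt
  have h2 : HasFDerivAt H (fderiv ℝ H (a x)) (a x) :=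
    (hH.differentiable (by simp) (a x)).hasFDerivAt
  have h3 : HasFDerivAt (fun y => H (a y)) ((fderiv ℝ H (a x)).comp (fderiv ℝ a x)) x :=
    h2.comp x h1
  rw [h3.fderiv]
  rfl

/-- `∑ ∂_i ((H ∘ a) C_i) = det Da * (∂_v H) ∘ a` -/
theorem div_eq {a : (Fin n → ℝ) → (Fin n → ℝ)} (ha : ContDiff ℝ ∞ a)
    {H : (Fin n → ℝ) → ℝ} (hH : ContDiff ℝ ∞ H) (v x : Fin n → ℝ) :
    ∑ i, fderiv ℝ (fun y => H (a y) * cof a v i y) x (Pi.single i 1)
      = jd a x * fderiv ℝ H (a x) v := by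
  have h1 : ∀ i, fderiv ℝ (fun y => H (a y) * cof a v i y) x (Pi.single i 1)
      = H (a x) * fderiv ℝ (cof a v i) x (Pi.single i 1)
        + cof a v i x * fderiv ℝ H (a x) (cl a x i) := by
    intro i
    have hHa : DifferentiableAt ℝ (fun y => H (a y)) x :=
      (hH.comp ha).differentiable (by simp) x
    have hC : DifferentiableAt ℝ (cof a v i) x := (contDiff_cof ha v i).differentiable (by simp) x
    rw [fderiv_fun_mul hHa hC]
    simp only [add_apply, smul_apply, smul_eq_mul]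
    rw [fderiv_comp_cl ha hH]
  simp only [h1, Finset.sum_add_distrib, ← Finset.mul_sum]
  rw [piola ha, mul_zero, zero_add]
  have h2 : ∑ i, cof a v i x * fderiv ℝ H (a x) (cl a x i)
      = fderiv ℝ H (a x) (∑ i, cof a v i x • cl a x i) := by
    rw [map_sum]
    refine Finset.sum_congr rfl fun i _ => ?_
    rw [map_smul, smul_eq_mul]
  rw [h2, cramer_sum, map_smul, smul_eq_mul]

/-- integral of a derivative of a function with compact support -/
theorem integral_fderiv_zero {u : (Fin n → ℝ) → ℝ} (hu : ContDiff ℝ ∞ u)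
    (hc : HasCompactSupport u) (w : Fin n → ℝ) : ∫ x, fderiv ℝ u x w = 0 := by
  have h1 : Continuous (fun x => fderiv ℝ u x w) :=
    ((hu.continuous_fderiv (by simp)).clm_apply continuous_const)
  have h2 : HasCompactSupport (fun x => fderiv ℝ u x w) :=
    (hc.fderiv (𝕜 := ℝ)).mono' (fun x hx => by
      apply subset_tsupport
      intro h0
      apply hx
      simp [h0])
  have key := integral_bilinear_hasLineDerivAt_right_eq_neg_left_of_integrable
    (μ := (volume : Measure (Fin n → ℝ))) (f := fun _ => (1 : ℝ)) (f' := fun _ => (0 : ℝ))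
    (g := u) (g' := fun x => fderiv ℝ u x w) (v := w) (B := ContinuousLinearMap.mul ℝ ℝ)
    (by simp) (by simpa using h1.integrable_of_hasCompactSupport h2)
    (by simpa using hu.continuous.integrable_of_hasCompactSupport hc)
    (fun x _ => by simpa using (hasFDerivAt_const (1 : ℝ) x).hasLineDerivAt w)
    (fun x _ => (hu.differentiable (by simp) x).hasFDerivAt.hasLineDerivAt w)
  simpa using key

/-- the degree integrals of two maps which agree outside a compact set are equal -/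
theorem degree_integral_eq {a b : (Fin n → ℝ) → (Fin n → ℝ)} (ha : ContDiff ℝ ∞ a)
    (hb : ContDiff ℝ ∞ b) {K : Set (Fin n → ℝ)} (hK : IsCompact K)
    (hab : ∀ x ∉ K, a x = b x) {H : (Fin n → ℝ) → ℝ} (hH : ContDiff ℝ ∞ H) (v : Fin n → ℝ) :
    ∫ x, (jd a x * fderiv ℝ H (a x) v - jd b x * fderiv ℝ H (b x) v) = 0 := by
  have hKc : IsClosed K := hK.isClosed
  have hD : ∀ x ∉ K, fderiv ℝ a x = fderiv ℝ b x := by
    intro x hx
    have : a =ᶠ[nhds x] b := by
      filter_upwards [hKc.isOpen_compl.mem_nhds hx] with y hy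
      exact hab y hy
    exact this.fderiv_eq
  have hcof : ∀ i, ∀ x ∉ K, cof a v i x = cof b v i x := by
    intro i x hx
    unfold cof cl
    rw [hD x hx]
  set U : Fin n → (Fin n → ℝ) → ℝ :=
    fun i y => H (a y) * cof a v i y - H (b y) * cof b v i y with hU
  have hUs : ∀ i, ContDiff ℝ ∞ (U i) := fun i =>
    ((hH.comp ha).mul (contDiff_cof ha v i)).sub ((hH.comp hb).mul (contDiff_cof hb v i))
  have hUc : ∀ i, HasCompactSupport (U i) := fun i => by
    refine HasCompactSupport.intro hK fun x hx => ?_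
    simp only [hU]
    rw [hab x hx, hcof i x hx, sub_self]
  have e : (fun x => jd a x * fderiv ℝ H (a x) v - jd b x * fderiv ℝ H (b x) v)
      = fun x => ∑ i, fderiv ℝ (U i) x (Pi.single i 1) := by
    funext x
    rw [← div_eq ha hH, ← div_eq hb hH, ← Finset.sum_sub_distrib]
    refine Finset.sum_congr rfl fun i _ => ?_
    have h1 : DifferentiableAt ℝ (fun y => H (a y) * cof a v i y) x :=
      ((hH.comp ha).mul (contDiff_cof ha v i)).differentiable (by simp) x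
    have h2 : DifferentiableAt ℝ (fun y => H (b y) * cof b v i y) x :=
      ((hH.comp hb).mul (contDiff_cof hb v i)).differentiable (by simp) x
    simp only [hU]
    rw [fderiv_fun_sub h1 h2]
    rfl
  rw [e, integral_finsetSum]
  · exact Finset.sum_eq_zero fun i _ => integral_fderiv_zero (hUs i) (hUc i) _
  · intro i _
    have h1 : Continuous (fun x => fderiv ℝ (U i) x (Pi.single i 1)) :=
      (((hUs i).continuous_fderiv (by simp)).clm_apply continuous_const)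
    refine h1.integrable_of_hasCompactSupport ?_
    refine ((hUc i).fderiv (𝕜 := ℝ)).mono' (fun x hx => ?_)
    apply subset_tsupport
    intro h0
    apply hx
    simp [h0]

end Vale.Agent.P205.TOP
end
end

section

/-!
Block A2 of TOP (P205): the parity of the number of regular zeros does not change under a
change of the function on a compact set.
-/

open scoped Manifold ContDiff Topology RealInnerProductSpace
open Set Filter MeasureTheory Module

noncomputable section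

namespace Vale.Agent.P205.Top

section Local

variable {V W : Type*} [NormedAddCommGroup V] [NormedSpace ℝ V] [FiniteDimensional ℝ V]
  [NormedAddCommGroup W] [NormedSpace ℝ W] [FiniteDimensional ℝ W]

omit [FiniteDimensional ℝ W] in
/-- regular zeros are isolated -/
theorem A2_eventually_ne {f : V → W} {x : V} (hf : DifferentiableAt ℝ f x)
    (hi : Function.Injective (fderiv ℝ f x)) : ∀ᶠ y in 𝓝[≠] x, f y ≠ 0 := by
  obtain ⟨K, -, hK⟩ := (fderiv ℝ f x).toLinearMap.exists_antilipschitzWith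
    (LinearMap.ker_eq_bot.2 hi)
  exact hf.hasFDerivAt.eventually_ne ⟨K, hK⟩

omit [FiniteDimensional ℝ W] in
/-- near a point where all zeros are regular there are no other zeros -/
theorem A2_not_mem {f : V → W} {U : Set V} (hU : IsOpen U) (hf : ContDiffOn ℝ ∞ f U) {x : V}
    (hx : x ∈ U) (hr : f x = 0 → Function.Injective (fderiv ℝ f x)) :
    ∀ᶠ y in 𝓝 x, f y = 0 → y = x := by
  have hd : ContDiffAt ℝ ∞ f x := hf.contDiffAt (hU.mem_nhds hx)
  by_cases h : f x = 0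
  · have h1 := A2_eventually_ne (hd.differentiableAt (by simp)) (hr h)
    rw [eventually_nhdsWithin_iff] at h1
    filter_upwards [h1] with y hy h2
    by_contra h3
    exact hy h3 h2
  · filter_upwards [hd.continuousAt.eventually_ne h] with y hy h2
    exact absurd h2 hy

omit [FiniteDimensional ℝ W] in
theorem A2_finite {U K : Set V} (hU : IsOpen U)
    (hK : IsCompact K) (hKU : K ⊆ U) {f : V → W} (hf : ContDiffOn ℝ ∞ f U)
    (hr : ∀ x ∈ K, f x = 0 → Function.Injective (fderiv ℝ f x)) : {x ∈ K | f x = 0}.Finite := by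
  by_contra hinf
  obtain ⟨x, hx, hacc⟩ := Set.Infinite.exists_accPt_of_subset_isCompact hinf hK
    (fun y hy => hy.1)
  rw [accPt_iff_frequently] at hacc
  refine hacc ?_
  filter_upwards [A2_not_mem hU hf (hKU hx) (hr x hx)] with y hy h2
  exact h2.1 (hy h2.2.2)

omit [FiniteDimensional ℝ W] in
/-- all zeros in a neighbourhood of `K` are in `K` -/
theorem A2_nhds {U K : Set V} (hU : IsOpen U)
    (hKU : K ⊆ U) {f : V → W} (hf : ContDiffOn ℝ ∞ f U)
    (hr : ∀ x ∈ K, f x = 0 → Function.Injective (fderiv ℝ f x)) :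
    ∃ O : Set V, IsOpen O ∧ K ⊆ O ∧ O ⊆ U ∧ ∀ x ∈ O, f x = 0 → x ∈ K := by
  refine ⟨U ∩ (closure ({x | f x = 0} \ K))ᶜ, hU.inter isClosed_closure.isOpen_compl, ?_,
    inter_subset_left, ?_⟩
  · intro x hx
    refine ⟨hKU hx, fun hcl => ?_⟩
    rw [mem_closure_iff_frequently] at hcl
    refine hcl ?_
    filter_upwards [A2_not_mem hU hf (hKU hx) (hr x hx)] with y hy h2
    exact h2.2 (by rw [hy h2.1]; exact hx)
  · intro x hx h0
    by_contra h1
    exact hx.2 (subset_closure ⟨h0, h1⟩)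

end Local

section Deg

/-- the local contribution of a regular zero -/
theorem A2_local {n : ℕ} {G : Set (Fin n → ℝ)} (hG : IsOpen G)
    {f : (Fin n → ℝ) → (Fin n → ℝ)} (hf : ContDiffOn ℝ ∞ f G) {z : Fin n → ℝ} (hz : z ∈ G)
    (hi : Function.Injective (fderiv ℝ f z)) (h0 : f z = 0) :
    ∃ N : Set (Fin n → ℝ), IsOpen N ∧ z ∈ N ∧ N ⊆ G ∧ ∃ s : ℤ, (s : ZMod 2) = 1 ∧
      ∃ δ : ℝ, 0 < δ ∧ ∀ g : (Fin n → ℝ) → ℝ, (∀ y, δ ≤ ‖y‖ → g y = 0) →
        ∫ x in N, g (f x) * (fderiv ℝ f x).det = s * ∫ y, g y := by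
  have hd : ContDiffAt ℝ ∞ f z := hf.contDiffAt (hG.mem_nhds hz)
  have hdet : (fderiv ℝ f z).det ≠ 0 := by
    have h1 : LinearMap.ker (fderiv ℝ f z).toLinearMap = ⊥ := LinearMap.ker_eq_bot.2 hi
    have h2 : IsUnit (fderiv ℝ f z).toLinearMap := (LinearMap.isUnit_iff_ker_eq_bot _).2 h1
    exact ((LinearMap.isUnit_iff_isUnit_det _).1 h2).ne_zero
  let f' : (Fin n → ℝ) ≃L[ℝ] (Fin n → ℝ) :=
    ContinuousLinearEquiv.ofBijective (fderiv ℝ f z) (LinearMap.ker_eq_bot.2 hi)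
      (LinearMap.range_eq_top.2 (LinearMap.surjective_of_injective
        (f := (fderiv ℝ f z).toLinearMap) hi))
  have hf' : HasStrictFDerivAt f (f' : (Fin n → ℝ) →L[ℝ] (Fin n → ℝ)) z := by
    have : (f' : (Fin n → ℝ) →L[ℝ] (Fin n → ℝ)) = fderiv ℝ f z := by
      ext v; rfl
    rw [this]
    exact hd.hasStrictFDerivAt (by simp)
  let e := hf'.toOpenPartialHomeomorph f
  have hez : z ∈ e.source := hf'.mem_toOpenPartialHomeomorph_source
  have hec : (e : (Fin n → ℝ) → (Fin n → ℝ)) = f := hf'.toOpenPartialHomeomorph_coe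
  have hcd : ContinuousOn (fun x => (fderiv ℝ f x).det) G :=
    ContinuousLinearMap.continuous_det.comp_continuousOn
      (hf.continuousOn_fderiv_of_isOpen hG (by simp))
  -- the open set where the determinant has the sign at `z`
  let P : Set (Fin n → ℝ) := {x ∈ G | 0 < (fderiv ℝ f x).det * (fderiv ℝ f z).det}
  have hP : IsOpen P :=
    (hcd.mul continuousOn_const).isOpen_inter_preimage hG isOpen_Ioi
  have hzP : z ∈ P := ⟨hz, mul_self_pos.2 hdet⟩
  let N := e.source ∩ P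
  have hN : IsOpen N := e.open_source.inter hP
  have hzN : z ∈ N := ⟨hez, hzP⟩
  have himg : IsOpen (f '' N) := by
    have := e.isOpen_image_of_subset_source hN inter_subset_left
    rwa [hec] at this
  have h0img : (0 : Fin n → ℝ) ∈ f '' N := ⟨z, hzN, h0⟩
  obtain ⟨δ, hδ, hball⟩ := Metric.isOpen_iff.1 himg 0 h0img
  have hinj : InjOn f N := by
    have := e.injOn
    rw [hec] at this
    exact this.mono inter_subset_left
  have key : ∀ g : (Fin n → ℝ) → ℝ, (∀ y, δ ≤ ‖y‖ → g y = 0) →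
      ∫ x in N, |(fderiv ℝ f x).det| • g (f x) = ∫ y, g y := by
    intro g hg
    rw [← integral_image_eq_integral_abs_det_fderiv_smul volume hN.measurableSet
      (fun x hx => ((hf.contDiffAt (hG.mem_nhds hx.2.1)).differentiableAt
        (by simp)).hasFDerivAt.hasFDerivWithinAt) hinj]
    refine setIntegral_eq_integral_of_forall_compl_eq_zero fun y hy => ?_
    refine hg y ?_
    by_contra hlt
    exact hy (hball (by simpa using not_le.1 hlt))
  refine ⟨N, hN, hzN, fun x hx => hx.2.1, ?_⟩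
  rcases lt_or_gt_of_ne hdet with hneg | hpos
  · refine ⟨-1, by decide, δ, hδ, fun g hg => ?_⟩
    rw [← key g hg]
    push_cast
    rw [neg_one_mul, ← integral_neg]
    refine setIntegral_congr_fun hN.measurableSet fun x hx => ?_
    have : (fderiv ℝ f x).det < 0 := by
      have := hx.2.2
      (by_contra nlg; linarith only [nlg, mul_nonneg (sub_nonneg.2 (not_lt.1 nlg)) (le_of_lt (sub_pos.2 hneg)), this])
    simp only [smul_eq_mul]
    rw [abs_of_neg this]; ring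
  · refine ⟨1, by decide, δ, hδ, fun g hg => ?_⟩
    rw [← key g hg]
    push_cast
    rw [one_mul]
    refine setIntegral_congr_fun hN.measurableSet fun x hx => ?_
    have : 0 < (fderiv ℝ f x).det := by
      have := hx.2.2
      exact (mul_pos_iff_of_pos_right hpos).1 this
    simp only [smul_eq_mul]
    rw [abs_of_pos this]; ring

/-- the signed number of zeros as an integral -/
theorem A2_degree {n : ℕ} {U K : Set (Fin n → ℝ)} (hU : IsOpen U) (hK : IsCompact K)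
    (hKU : K ⊆ U) {f : (Fin n → ℝ) → (Fin n → ℝ)} (hf : ContDiffOn ℝ ∞ f U)
    (hr : ∀ x ∈ K, f x = 0 → Function.Injective (fderiv ℝ f x))
    (hint : ∀ x ∈ K, f x = 0 → x ∈ interior K) :
    ∃ m : ℤ, (m : ZMod 2) = ({x ∈ K | f x = 0}.ncard : ZMod 2) ∧
      ∀ᶠ δ : ℝ in 𝓝[>] 0, ∀ g : (Fin n → ℝ) → ℝ, Continuous g → (∀ y, δ ≤ ‖y‖ → g y = 0) →
        ∫ x in K, g (f x) * (fderiv ℝ f x).det = m * ∫ y, g y := by
  classical
  set Z : Set (Fin n → ℝ) := {x ∈ K | f x = 0} with hZdef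
  have hZ : Z.Finite := A2_finite hU hK hKU hf hr
  obtain ⟨T, hT, hTd⟩ := hZ.t2_separation
  have hloc : ∀ z : Fin n → ℝ, ∃ (N : Set (Fin n → ℝ)) (s : ℤ) (δ : ℝ), z ∈ Z →
      IsOpen N ∧ z ∈ N ∧ N ⊆ interior K ∩ T z ∧ (s : ZMod 2) = 1 ∧ 0 < δ ∧
      ∀ g : (Fin n → ℝ) → ℝ, (∀ y, δ ≤ ‖y‖ → g y = 0) →
        ∫ x in N, g (f x) * (fderiv ℝ f x).det = s * ∫ y, g y := by
    intro z
    by_cases hz : z ∈ Z
    · obtain ⟨N, hN, hzN, hNG, s, hs, δ, hδ, h⟩ := A2_local (G := interior K ∩ T z)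
        (isOpen_interior.inter (hT z).2) (hf.mono (fun x hx => hKU (interior_subset hx.1)))
        (f := f) (z := z) ⟨hint z hz.1 hz.2, (hT z).1⟩ (hr z hz.1 hz.2) hz.2
      exact ⟨N, s, δ, fun _ => ⟨hN, hzN, hNG, hs, hδ, h⟩⟩
    · exact ⟨∅, 0, 0, fun h => absurd h hz⟩
  choose N s δ hprop using hloc
  refine ⟨∑ z ∈ hZ.toFinset, s z, ?_, ?_⟩
  · push_cast
    rw [Finset.sum_congr rfl (g := fun _ => (1 : ZMod 2))]
    · rw [Finset.sum_const, nsmul_eq_mul, mul_one, Set.ncard_eq_toFinset_card _ hZ]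
    · intro z hz
      exact (hprop z (hZ.mem_toFinset.1 hz)).2.2.2.1
  -- the complement of the small neighbourhoods
  set Nn : Set (Fin n → ℝ) := ⋃ z ∈ hZ.toFinset, N z with hNn
  have hNo : IsOpen Nn := isOpen_biUnion fun z hz => (hprop z (hZ.mem_toFinset.1 hz)).1
  have hNK : Nn ⊆ K := by
    intro x hx
    obtain ⟨z, hz, hx⟩ := mem_iUnion₂.1 hx
    exact interior_subset ((hprop z (hZ.mem_toFinset.1 hz)).2.2.1 hx).1
  have hcomp : IsCompact (K \ Nn) := hK.diff hNo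
  have hfar : ∃ d : ℝ, 0 < d ∧ ∀ x ∈ K \ Nn, d ≤ ‖f x‖ := by
    rcases (K \ Nn).eq_empty_or_nonempty with he | hne
    · exact ⟨1, one_pos, fun x hx => by simp [he] at hx⟩
    · obtain ⟨x0, hx0, hmin⟩ := hcomp.exists_isMinOn hne
        ((hf.continuousOn.mono (sdiff_subset.trans hKU)).norm)
      refine ⟨‖f x0‖, ?_, fun x hx => hmin hx⟩
      rw [norm_pos_iff]
      intro h0
      refine hx0.2 (mem_iUnion₂.2 ⟨x0, hZ.mem_toFinset.2 ⟨hx0.1, h0⟩, ?_⟩)
      exact (hprop x0 ⟨hx0.1, h0⟩).2.1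
  obtain ⟨d, hd, hfar⟩ := hfar
  have hcd : ContinuousOn (fun x => (fderiv ℝ f x).det) U :=
    ContinuousLinearMap.continuous_det.comp_continuousOn
      (hf.continuousOn_fderiv_of_isOpen hU (by simp))
  have hev : ∀ᶠ ε : ℝ in 𝓝[>] 0, ∀ z ∈ Z, ε < δ z := by
    rw [eventually_all_finite hZ]
    intro z hz
    filter_upwards [Ioo_mem_nhdsGT (hprop z hz).2.2.2.2.1] with ε hε using hε.2
  filter_upwards [hev, Ioo_mem_nhdsGT hd] with ε hε1 hε2 g hg hg0
  have hcont : ContinuousOn (fun x => g (f x) * (fderiv ℝ f x).det) K :=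
    (hg.comp_continuousOn (hf.continuousOn.mono hKU)).mul (hcd.mono hKU)
  have hi : IntegrableOn (fun x => g (f x) * (fderiv ℝ f x).det) K volume :=
    hcont.integrableOn_compact hK
  rw [setIntegral_eq_of_subset_of_forall_sdiff_eq_zero hK.measurableSet hNK
    (fun x hx => by rw [hg0 _ (hε2.2.le.trans (hfar x hx)), zero_mul]),
    hNn, integral_biUnion_finset]
  · push_cast
    rw [Finset.sum_mul]
    refine Finset.sum_congr rfl fun z hz => ?_
    have hz' := hZ.mem_toFinset.1 hz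
    exact (hprop z hz').2.2.2.2.2 g fun y hy => hg0 y ((hε1 z hz').le.trans hy)
  · intro z hz
    exact (hprop z (hZ.mem_toFinset.1 hz)).1.measurableSet
  · intro z hz w hw hzw
    have hz' := hZ.mem_toFinset.1 hz
    have hw' := hZ.mem_toFinset.1 hw
    exact (hTd hz' hw' hzw).mono (fun x hx => ((hprop z hz').2.2.1 hx).2)
      (fun x hx => ((hprop w hw').2.2.1 hx).2)
  · intro z hz
    exact hi.mono_set (fun x hx => interior_subset ((hprop z (hZ.mem_toFinset.1 hz)).2.2.1 hx).1)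

/-- the Jacobian integrals agree -/
theorem A2_int {n : ℕ} {U K : Set (Fin n → ℝ)} (hU : IsOpen U) (hK : IsCompact K)
    (hKU : K ⊆ U) {f0 f1 : (Fin n → ℝ) → (Fin n → ℝ)} (h0 : ContDiffOn ℝ ∞ f0 U)
    (h1 : ContDiffOn ℝ ∞ f1 U) (heq : ∀ x ∈ U \ K, f0 x = f1 x)
    {H : (Fin n → ℝ) → ℝ} (hH : ContDiff ℝ ∞ H) (v : Fin n → ℝ) :
    ∫ x in K, (fderiv ℝ H (f1 x) v * (fderiv ℝ f1 x).det
      - fderiv ℝ H (f0 x) v * (fderiv ℝ f0 x).det) = 0 := by
  obtain ⟨L, hL, hKL, hLU⟩ := exists_compact_between hK hU hKU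
  obtain ⟨χ, hχ1, hχ0, -⟩ := exists_contMDiffMap_one_nhds_of_subset_interior (n := (⊤ : ℕ∞))
    𝓘(ℝ, Fin n → ℝ) hK.isClosed hKL
  have hχ : ContDiff ℝ ∞ (χ : (Fin n → ℝ) → ℝ) := contMDiff_iff_contDiff.1 χ.contMDiff
  have hsm : ∀ {f : (Fin n → ℝ) → (Fin n → ℝ)}, ContDiffOn ℝ ∞ f U →
      ContDiff ℝ ∞ (fun x => χ x • f x) := by
    intro f hf
    rw [contDiff_iff_contDiffAt]
    intro x
    by_cases hx : x ∈ U
    · exact hχ.contDiffAt.smul (hf.contDiffAt (hU.mem_nhds hx))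
    · have h2 : x ∈ Lᶜ := fun h => hx (hLU h)
      have h3 : (fun x => χ x • f x) =ᶠ[𝓝 x] fun _ => 0 := by
        filter_upwards [hL.isClosed.isOpen_compl.mem_nhds h2] with y hy
        rw [hχ0 y hy, zero_smul]
      exact contDiffAt_const.congr_of_eventuallyEq h3
  have hab : ∀ x ∉ K, (fun x => χ x • f1 x) x = (fun x => χ x • f0 x) x := by
    intro x hx
    by_cases hxU : x ∈ U
    · simp only [heq x ⟨hxU, hx⟩]
    · simp only [hχ0 x fun h => hxU (hLU h), zero_smul]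
  have key := TOP.degree_integral_eq (hsm h1) (hsm h0) hK hab hH v
  rw [← setIntegral_eq_integral_of_forall_compl_eq_zero (s := K)] at key
  · rw [← key]
    refine setIntegral_congr_fun hK.measurableSet fun x hx => ?_
    have h2 : ∀ᶠ y in 𝓝 x, χ y = 1 := hχ1.filter_mono (nhds_le_nhdsSet hx)
    have h3 : ∀ f : (Fin n → ℝ) → (Fin n → ℝ), (fun x => χ x • f x) =ᶠ[𝓝 x] f := by
      intro f
      filter_upwards [h2] with y hy
      rw [hy, one_smul]
    simp only [TOP.jd_eq]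
    rw [(h3 f1).fderiv_eq, (h3 f0).fderiv_eq, h2.self_of_nhds, one_smul, one_smul]
    ring
  · intro x hx
    have h2 : (fun x => χ x • f1 x) =ᶠ[𝓝 x] (fun x => χ x • f0 x) := by
      filter_upwards [hK.isClosed.isOpen_compl.mem_nhds hx] with y hy
      exact hab y hy
    simp only [TOP.jd_eq]
    rw [h2.fderiv_eq]
    have := hab x hx
    simp only at this
    rw [this, sub_self]

/-- a test function which is a derivative -/
theorem A2_test {n : ℕ} (hn : 0 < n) {δ : ℝ} (hδ : 0 < δ) :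
    ∃ (H : (Fin n → ℝ) → ℝ) (v : Fin n → ℝ), ContDiff ℝ ∞ H ∧
      Continuous (fun y => fderiv ℝ H y v) ∧ (∀ y, δ ≤ ‖y‖ → fderiv ℝ H y v = 0) ∧
      0 < ∫ y, fderiv ℝ H y v := by
  classical
  let β : ContDiffBump (0 : ℝ) := ⟨δ / 2, δ, half_pos hδ, half_lt_self hδ⟩
  let θ : ℝ → ℝ := fun s => ∫ u in (0 : ℝ)..s, β u
  have hβ : ContDiff ℝ ∞ (β : ℝ → ℝ) := β.contDiff
  have hθd : ∀ s, HasDerivAt θ (β s) s := fun s =>
    intervalIntegral.integral_hasDerivAt_right (hβ.continuous.intervalIntegrable _ _)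
      (hβ.continuous.stronglyMeasurableAtFilter _ _) hβ.continuous.continuousAt
  have hθ : ContDiff ℝ ∞ θ := by
    rw [contDiff_infty_iff_deriv]
    refine ⟨fun s => (hθd s).differentiableAt, ?_⟩
    have : deriv θ = β := by
      funext s
      exact (hθd s).deriv
    rw [this]
    exact hβ
  let i0 : Fin n := ⟨0, hn⟩
  let H : (Fin n → ℝ) → ℝ := fun y => θ (y i0) * ∏ j ∈ Finset.univ.erase i0, β (y j)
  let v : Fin n → ℝ := Pi.single i0 1
  have hH : ContDiff ℝ ∞ H := by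
    refine (hθ.comp (contDiff_apply ℝ ℝ i0)).mul (contDiff_prod fun j _ => ?_)
    exact hβ.comp (contDiff_apply ℝ ℝ j)
  have hd : ∀ y, fderiv ℝ H y v = ∏ j, β (y j) := by
    intro y
    rw [← (hH.differentiable (by simp) y).lineDeriv_eq_fderiv]
    have h1 : HasDerivAt (fun t : ℝ => H (y + t • v))
        (β (y i0) * ∏ j ∈ Finset.univ.erase i0, β (y j)) 0 := by
      have e1 : (fun t : ℝ => H (y + t • v))
          = fun t => θ (y i0 + t) * ∏ j ∈ Finset.univ.erase i0, β (y j) := by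
        funext t
        simp only [H, v]
        congr 1
        · simp
        · refine Finset.prod_congr rfl fun j hj => ?_
          have : j ≠ i0 := Finset.ne_of_mem_erase hj
          simp [this]
      rw [e1]
      have h2 : HasDerivAt (fun t : ℝ => θ (y i0 + t)) (β (y i0)) 0 := by
        have h3 := hθd (y i0 + 0)
        have h4 : HasDerivAt (fun t : ℝ => y i0 + t) 1 0 := (hasDerivAt_id 0).const_add _
        have h5 := HasDerivAt.comp (h₂ := θ) (h := fun t : ℝ => y i0 + t) (0 : ℝ) h3 h4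
        rw [add_zero, mul_one] at h5
        exact h5
      exact h2.mul_const _
    rw [Finset.mul_prod_erase _ (fun j => β (y j)) (Finset.mem_univ i0)] at h1
    exact h1.deriv
  have hfun : (fun y => fderiv ℝ H y v) = fun y => ∏ j, β (y j) := funext hd
  have hcont : Continuous fun y : Fin n → ℝ => ∏ j, β (y j) :=
    continuous_finsetProd _ fun j _ => hβ.continuous.comp (continuous_apply j)
  have hzero : ∀ y : Fin n → ℝ, δ ≤ ‖y‖ → ∏ j, β (y j) = 0 := by
    intro y hy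
    have h1 : ¬ ∀ j, ‖y j‖ < δ := fun h => absurd ((pi_norm_lt_iff hδ).2 h) (not_lt.2 hy)
    push Not at h1
    obtain ⟨j, hj⟩ := h1
    refine Finset.prod_eq_zero (Finset.mem_univ j) ?_
    refine β.zero_of_le_dist ?_
    simpa [β] using hj
  refine ⟨H, v, hH, hfun ▸ hcont, fun y hy => (hd y).trans (hzero y hy), ?_⟩
  rw [hfun]
  refine hcont.integral_pos_of_hasCompactSupport_nonneg_nonzero ?_
    (fun y => Finset.prod_nonneg fun j _ => β.nonneg) (x := 0) ?_
  · refine HasCompactSupport.intro (isCompact_closedBall (0 : Fin n → ℝ) δ) fun y hy => hzero y ?_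
    rw [mem_closedBall_zero_iff, not_le] at hy
    exact hy.le
  · refine Finset.prod_ne_zero_iff.2 fun j _ => ?_
    have : β (0 : ℝ) = 1 := β.one_of_mem_closedBall (by
      simp only [β, Metric.mem_closedBall, dist_self]; exact (half_pos hδ).le)
    simp [this]

/-- parity, in coordinates -/
theorem A2_parity {n : ℕ} {U K : Set (Fin n → ℝ)} (hU : IsOpen U) (hK : IsCompact K)
    (hKU : K ⊆ U) {f0 f1 : (Fin n → ℝ) → (Fin n → ℝ)} (h0 : ContDiffOn ℝ ∞ f0 U)
    (h1 : ContDiffOn ℝ ∞ f1 U) (heq : ∀ x ∈ U \ K, f0 x = f1 x)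
    (r0 : ∀ x ∈ K, f0 x = 0 → Function.Injective (fderiv ℝ f0 x))
    (r1 : ∀ x ∈ K, f1 x = 0 → Function.Injective (fderiv ℝ f1 x)) :
    {x ∈ K | f0 x = 0}.ncard % 2 = {x ∈ K | f1 x = 0}.ncard % 2 := by
  rcases Nat.eq_zero_or_pos n with hn | hn
  · subst hn
    have : f0 = f1 := by
      funext x
      exact Subsingleton.elim _ _
    rw [this]
  obtain ⟨O0, hO0, hKO0, hO0U, hz0⟩ := A2_nhds hU hKU h0 r0
  obtain ⟨O1, hO1, hKO1, hO1U, hz1⟩ := A2_nhds hU hKU h1 r1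
  obtain ⟨L, hL, hKL, hLO⟩ := exists_compact_between hK (hO0.inter hO1) (subset_inter hKO0 hKO1)
  have hLU : L ⊆ U := fun x hx => hO0U (hLO hx).1
  have hKL' : K ⊆ L := hKL.trans interior_subset
  have e0 : {x ∈ L | f0 x = 0} = {x ∈ K | f0 x = 0} := by
    ext x
    exact ⟨fun h => ⟨hz0 x (hLO h.1).1 h.2, h.2⟩, fun h => ⟨hKL' h.1, h.2⟩⟩
  have e1 : {x ∈ L | f1 x = 0} = {x ∈ K | f1 x = 0} := by
    ext x
    exact ⟨fun h => ⟨hz1 x (hLO h.1).2 h.2, h.2⟩, fun h => ⟨hKL' h.1, h.2⟩⟩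
  obtain ⟨m0, hm0, hd0⟩ := A2_degree hU hL hLU h0
    (fun x hx h => r0 x (hz0 x (hLO hx).1 h) h) (fun x hx h => hKL (hz0 x (hLO hx).1 h))
  obtain ⟨m1, hm1, hd1⟩ := A2_degree hU hL hLU h1
    (fun x hx h => r1 x (hz1 x (hLO hx).2 h) h) (fun x hx h => hKL (hz1 x (hLO hx).2 h))
  have hpos : ∀ᶠ δ : ℝ in 𝓝[>] 0, 0 < δ := self_mem_nhdsWithin
  obtain ⟨δ, hδ, hδ0, hδ1⟩ := (hpos.and (hd0.and hd1)).exists
  rw [e0] at hm0
  rw [e1] at hm1
  obtain ⟨H, v, hH, hgc, hg0, hgi⟩ := A2_test hn hδ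
  have hi : ∀ {f : (Fin n → ℝ) → (Fin n → ℝ)}, ContDiffOn ℝ ∞ f U →
      IntegrableOn (fun x => fderiv ℝ H (f x) v * (fderiv ℝ f x).det) L volume := by
    intro f hf
    have hcd : ContinuousOn (fun x => (fderiv ℝ f x).det) U :=
      ContinuousLinearMap.continuous_det.comp_continuousOn
        (hf.continuousOn_fderiv_of_isOpen hU (by simp))
    exact ((hgc.comp_continuousOn (hf.continuousOn.mono hLU)).mul
      (hcd.mono hLU)).integrableOn_compact hL
  have key := A2_int hU hL hLU h0 h1 (fun x hx => heq x ⟨hx.1, fun h => hx.2 (hKL' h)⟩) hH v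
  rw [integral_sub (hi h1) (hi h0), hδ0 _ hgc hg0, hδ1 _ hgc hg0, ← sub_mul,
    mul_eq_zero, or_iff_left hgi.ne', sub_eq_zero] at key
  have hm : m1 = m0 := by exact_mod_cast key
  rw [← ZMod.natCast_eq_natCast_iff', ← hm0, ← hm1, hm]

end Deg

section Transport

variable {V W : Type*} [NormedAddCommGroup V] [NormedSpace ℝ V] [FiniteDimensional ℝ V]
  [NormedAddCommGroup W] [NormedSpace ℝ W] [FiniteDimensional ℝ W]

/-- A2a -/
theorem finite_zeros (hd : finrank ℝ V = finrank ℝ W) {U K : Set V} (hU : IsOpen U)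
    (hK : IsCompact K) (hKU : K ⊆ U) {f : V → W} (hf : ContDiffOn ℝ ∞ f U)
    (hr : ∀ x ∈ K, f x = 0 → Function.Injective (fderiv ℝ f x)) : {x ∈ K | f x = 0}.Finite :=
  A2_finite hU hK hKU hf hr

/-- A2 -/
theorem parity_local (hd : finrank ℝ V = finrank ℝ W) {U K : Set V} (hU : IsOpen U)
    (hK : IsCompact K) (hKU : K ⊆ U) {f0 f1 : V → W} (h0 : ContDiffOn ℝ ∞ f0 U)
    (h1 : ContDiffOn ℝ ∞ f1 U) (heq : ∀ x ∈ U \ K, f0 x = f1 x)
    (r0 : ∀ x ∈ K, f0 x = 0 → Function.Injective (fderiv ℝ f0 x))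
    (r1 : ∀ x ∈ K, f1 x = 0 → Function.Injective (fderiv ℝ f1 x)) :
    {x ∈ K | f0 x = 0}.ncard % 2 = {x ∈ K | f1 x = 0}.ncard % 2 := by
  let A : V ≃L[ℝ] (Fin (finrank ℝ V) → ℝ) := ContinuousLinearEquiv.ofFinrankEq (by simp)
  let B : W ≃L[ℝ] (Fin (finrank ℝ V) → ℝ) := ContinuousLinearEquiv.ofFinrankEq (by simp [hd])
  have hU' : IsOpen (A.symm ⁻¹' U) := hU.preimage A.symm.continuous
  have hK' : IsCompact (A.symm ⁻¹' K) := by
    rw [← A.image_eq_preimage_symm]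
    exact hK.image A.continuous
  have hsm : ∀ {f : V → W}, ContDiffOn ℝ ∞ f U →
      ContDiffOn ℝ ∞ (fun x => B (f (A.symm x))) (A.symm ⁻¹' U) := by
    intro f hf
    exact B.contDiff.comp_contDiffOn (hf.comp A.symm.contDiff.contDiffOn (fun x hx => hx))
  have hreg : ∀ {f : V → W}, (∀ x ∈ K, f x = 0 → Function.Injective (fderiv ℝ f x)) →
      ∀ x ∈ A.symm ⁻¹' K, B (f (A.symm x)) = 0 →
        Function.Injective (fderiv ℝ (fun x => B (f (A.symm x))) x) := by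
    intro f hr x hx hfx
    have h1 : f (A.symm x) = 0 := by simpa using hfx
    have h2 := hr _ hx h1
    have h3 : fderiv ℝ (fun x => B (f (A.symm x))) x
        = (B : W →L[ℝ] _).comp ((fderiv ℝ f (A.symm x)).comp (A.symm : _ →L[ℝ] V)) := by
      have e1 : (fun x => B (f (A.symm x))) = B ∘ (f ∘ A.symm) := rfl
      rw [e1, B.comp_fderiv, A.symm.comp_right_fderiv]
    rw [h3]
    exact B.injective.comp (h2.comp A.symm.injective)
  have hcard : ∀ f : V → W, {x ∈ A.symm ⁻¹' K | B (f (A.symm x)) = 0}.ncard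
      = {x ∈ K | f x = 0}.ncard := by
    intro f
    have : {x ∈ A.symm ⁻¹' K | B (f (A.symm x)) = 0} = A '' {x ∈ K | f x = 0} := by
      rw [A.image_eq_preimage_symm]
      ext x
      simp
    rw [this, ncard_image_of_injective _ A.injective]
  have := A2_parity hU' hK' (preimage_mono hKU) (hsm h0) (hsm h1)
    (fun x hx => by rw [heq _ ⟨hx.1, hx.2⟩]) (hreg r0) (hreg r1)
  rwa [hcard, hcard] at this

end Transport

end Vale.Agent.P205.Top
end
end

section

/-!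
Block TOP of P205: the number of zeros of a generic map from a closed manifold to a vector space
of the same dimension is even.
-/

open scoped Manifold ContDiff Topology RealInnerProductSpace
open Set Filter MeasureTheory Module

noncomputable section

namespace Vale.Agent.P205.Top

section Main

variable {V W : Type*} [NormedAddCommGroup V] [NormedSpace ℝ V] [FiniteDimensional ℝ V]
  [NormedAddCommGroup W] [NormedSpace ℝ W] [FiniteDimensional ℝ W]
  {H : Type*} [TopologicalSpace H] (I : ModelWithCorners ℝ V H) [I.Boundaryless]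
  {N : Type*} [TopologicalSpace N] [ChartedSpace H N] [IsManifold I ∞ N]

omit [FiniteDimensional ℝ V] [FiniteDimensional ℝ W] in
theorem chart_inj (c : N) {Φ : N → W} (hΦ : ContMDiff I 𝓘(ℝ, W) ∞ Φ) {y : V}
    (hy : y ∈ (extChartAt I c).target)
    (h : Function.Injective (mfderiv I 𝓘(ℝ, W) Φ ((extChartAt I c).symm y))) :
    Function.Injective (fderiv ℝ (Φ ∘ (extChartAt I c).symm) y) := by
  have h1 : MDifferentiableAt 𝓘(ℝ, V) I (extChartAt I c).symm y :=
    ((contMDiffOn_extChartAt_symm (n := ∞) c).contMDiffAt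
      ((isOpen_extChartAt_target c).mem_nhds hy)).mdifferentiableAt (by simp)
  have h2 := isInvertible_mfderivWithin_extChartAt_symm (I := I) hy
  rw [I.range_eq_univ, mfderivWithin_univ] at h2
  rw [← mfderiv_eq_fderiv, mfderiv_comp y (hΦ.mdifferentiableAt (by simp)) h1]
  exact h.comp h2.injective

omit [FiniteDimensional ℝ V] [FiniteDimensional ℝ W] [I.Boundaryless] in
theorem chart_smooth (c : N) {Φ : N → W} (hΦ : ContMDiff I 𝓘(ℝ, W) ∞ Φ) :
    ContDiffOn ℝ ∞ (Φ ∘ (extChartAt I c).symm) (extChartAt I c).target := by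
  rw [← contMDiffOn_iff_contDiffOn]
  exact hΦ.comp_contMDiffOn (contMDiffOn_extChartAt_symm c)

omit [FiniteDimensional ℝ V] [NormedSpace ℝ W] [FiniteDimensional ℝ W] [IsManifold I ∞ N]
  [I.Boundaryless] in
theorem chart_image (c : N) (Φ : N → W) {K : Set N} (hK : K ⊆ (extChartAt I c).source) :
    {x ∈ (extChartAt I c) '' K | (Φ ∘ (extChartAt I c).symm) x = 0} =
      (extChartAt I c) '' {p ∈ K | Φ p = 0} := by
  ext x
  constructor
  · rintro ⟨⟨p, hp, rfl⟩, h⟩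
    refine ⟨p, ⟨hp, ?_⟩, rfl⟩
    rw [Function.comp_apply, (extChartAt I c).left_inv (hK hp)] at h
    exact h
  · rintro ⟨p, ⟨hp, h⟩, rfl⟩
    refine ⟨⟨p, hp, rfl⟩, ?_⟩
    rw [Function.comp_apply, (extChartAt I c).left_inv (hK hp)]
    exact h

omit [FiniteDimensional ℝ V] [NormedSpace ℝ W] [FiniteDimensional ℝ W] [IsManifold I ∞ N]
  [I.Boundaryless] in
theorem chart_ncard (c : N) (Φ : N → W) {K : Set N} (hK : K ⊆ (extChartAt I c).source) :
    {x ∈ (extChartAt I c) '' K | (Φ ∘ (extChartAt I c).symm) x = 0}.ncard =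
      {p ∈ K | Φ p = 0}.ncard := by
  rw [chart_image I c Φ hK]
  exact ((extChartAt I c).injOn.mono (fun p hp => hK hp.1)).ncard_image

theorem chart_finite (hd : finrank ℝ V = finrank ℝ W) (c : N) {Φ : N → W}
    (hΦ : ContMDiff I 𝓘(ℝ, W) ∞ Φ)
    (hr : ∀ p, Φ p = 0 → Function.Injective (mfderiv I 𝓘(ℝ, W) Φ p)) {K : Set N}
    (hK : IsCompact K) (hKs : K ⊆ (extChartAt I c).source) : {p ∈ K | Φ p = 0}.Finite := by
  have hK' : IsCompact ((extChartAt I c) '' K) :=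
    hK.image_of_continuousOn ((continuousOn_extChartAt c).mono hKs)
  have hKU : (extChartAt I c) '' K ⊆ (extChartAt I c).target := by
    rintro _ ⟨p, hp, rfl⟩
    exact (extChartAt I c).map_source (hKs hp)
  have := finite_zeros hd (isOpen_extChartAt_target c) hK' hKU (chart_smooth I c hΦ)
    (fun x hx h0 => chart_inj I c hΦ (hKU hx) (hr _ h0))
  rw [chart_image I c Φ hKs] at this
  exact Finite.of_finite_image this ((extChartAt I c).injOn.mono (fun p hp => hKs hp.1))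

variable [CompactSpace N] [T2Space N]

theorem closed_finite (hd : finrank ℝ V = finrank ℝ W) {Φ : N → W}
    (hΦ : ContMDiff I 𝓘(ℝ, W) ∞ Φ)
    (hr : ∀ p, Φ p = 0 → Function.Injective (mfderiv I 𝓘(ℝ, W) Φ p)) : {p | Φ p = 0}.Finite := by
  have key : ({p ∈ (univ : Set N) | Φ p = 0}).Finite := by
    refine isCompact_univ.induction_on (p := fun s => {p ∈ s | Φ p = 0}.Finite) ?_ ?_ ?_ ?_
    · simp
    · intro s t hst ht
      exact ht.subset (fun p hp => ⟨hst hp.1, hp.2⟩)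
    · intro s t hs ht
      refine (hs.union ht).subset ?_
      rintro p ⟨hp | hp, h⟩
      · exact Or.inl ⟨hp, h⟩
      · exact Or.inr ⟨hp, h⟩
    · intro p _
      obtain ⟨K, hK1, hK2, hK3⟩ := local_compact_nhds (extChartAt_source_mem_nhds (I := I) p)
      exact ⟨K, mem_nhdsWithin_of_mem_nhds hK1, chart_finite I hd p hΦ hr hK3 hK2⟩
  simpa using key

theorem chart_parity (hd : finrank ℝ V = finrank ℝ W) (c : N) {Φ0 Φ1 : N → W}
    (h0 : ContMDiff I 𝓘(ℝ, W) ∞ Φ0) (h1 : ContMDiff I 𝓘(ℝ, W) ∞ Φ1)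
    (r0 : ∀ p, Φ0 p = 0 → Function.Injective (mfderiv I 𝓘(ℝ, W) Φ0 p))
    (r1 : ∀ p, Φ1 p = 0 → Function.Injective (mfderiv I 𝓘(ℝ, W) Φ1 p)) {K : Set N}
    (hK : IsCompact K) (hKs : K ⊆ (extChartAt I c).source) (heq : ∀ p, p ∉ K → Φ0 p = Φ1 p) :
    {p | Φ0 p = 0}.ncard % 2 = {p | Φ1 p = 0}.ncard % 2 := by
  have hK' : IsCompact ((extChartAt I c) '' K) :=
    hK.image_of_continuousOn ((continuousOn_extChartAt c).mono hKs)
  have hKU : (extChartAt I c) '' K ⊆ (extChartAt I c).target := by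
    rintro _ ⟨p, hp, rfl⟩
    exact (extChartAt I c).map_source (hKs hp)
  have hl := parity_local hd (isOpen_extChartAt_target c) hK' hKU (chart_smooth I c h0)
    (chart_smooth I c h1) (by
      rintro x ⟨hx, hxK⟩
      apply heq
      intro h
      exact hxK ⟨_, h, (extChartAt I c).right_inv hx⟩)
    (fun x hx hz => chart_inj I c h0 (hKU hx) (r0 _ hz))
    (fun x hx hz => chart_inj I c h1 (hKU hx) (r1 _ hz))
  rw [chart_ncard I c Φ0 hKs, chart_ncard I c Φ1 hKs] at hl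
  have f0 := closed_finite I hd h0 r0
  have f1 := closed_finite I hd h1 r1
  have s0 : ({p ∈ K | Φ0 p = 0} ∪ {p | p ∉ K ∧ Φ0 p = 0}) = {p | Φ0 p = 0} := by
    ext p; simp only [mem_union, mem_ofPred_eq]; tauto
  have s1 : ({p ∈ K | Φ1 p = 0} ∪ {p | p ∉ K ∧ Φ0 p = 0}) = {p | Φ1 p = 0} := by
    ext p
    simp only [mem_union, mem_ofPred_eq]
    constructor
    · rintro (h | h)
      · exact h.2
      · rw [← heq p h.1]; exact h.2
    · intro h
      by_cases hp : p ∈ K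
      · exact Or.inl ⟨hp, h⟩
      · exact Or.inr ⟨hp, by rw [heq p hp]; exact h⟩
  have d0 : Disjoint {p ∈ K | Φ0 p = 0} {p | p ∉ K ∧ Φ0 p = 0} := by
    rw [Set.disjoint_left]; rintro p ⟨hp, _⟩ ⟨hp', _⟩; exact hp' hp
  have d1 : Disjoint {p ∈ K | Φ1 p = 0} {p | p ∉ K ∧ Φ0 p = 0} := by
    rw [Set.disjoint_left]; rintro p ⟨hp, _⟩ ⟨hp', _⟩; exact hp' hp
  have g0 : {p ∈ K | Φ0 p = 0}.Finite := f0.subset (fun p hp => hp.2)
  have g1 : {p ∈ K | Φ1 p = 0}.Finite := f1.subset (fun p hp => hp.2)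
  have g2 : {p | p ∉ K ∧ Φ0 p = 0}.Finite := f0.subset (fun p hp => hp.2)
  rw [← s0, ← s1, ncard_union_eq d0 g0 g2, ncard_union_eq d1 g1 g2]
  omega

omit [I.Boundaryless] [IsManifold I ∞ N] [CompactSpace N] [T2Space N]
  [FiniteDimensional ℝ V] [FiniteDimensional ℝ W] in
theorem smooth_add {Φ : N → W} (hΦ : ContMDiff I 𝓘(ℝ, W) ∞ Φ) {χ : N → ℝ}
    (hχ : ContMDiff I 𝓘(ℝ, ℝ) ∞ χ) (c : W) :
    ContMDiff I 𝓘(ℝ, W) ∞ (fun q => Φ q + χ q • c) :=
  hΦ.add (hχ.smul contMDiff_const)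

/-- **B** -/
theorem even_zeros (hd : finrank ℝ V = finrank ℝ W) (hpos : 0 < finrank ℝ W)
    {Ψ : N → W} (hΨ : ContMDiff I 𝓘(ℝ, W) ∞ Ψ)
    (hr : ∀ p, Ψ p = 0 → Function.Injective (mfderiv I 𝓘(ℝ, W) Ψ p)) :
    {p | Ψ p = 0}.Finite ∧ Even {p | Ψ p = 0}.ncard := by
  classical
  refine ⟨closed_finite I hd hΨ hr, ?_⟩
  let _ : MeasurableSpace W := borel W
  have : BorelSpace W := ⟨rfl⟩
  have : ProperSpace W := FiniteDimensional.proper ℝ W
  have : Nontrivial W := nontrivial_of_finrank_pos hpos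
  let μ : Measure W := Measure.addHaar
  -- finite partition of unity
  obtain ⟨t, ht⟩ := CompactSpace.elim_nhds_subcover (fun x : N => (chartAt H x).source)
    (fun x => (chartAt H x).open_source.mem_nhds (mem_chart_source H x))
  obtain ⟨f, hf⟩ := SmoothPartitionOfUnity.exists_isSubordinate I (isClosed_univ (X := N))
    (fun i : t => (chartAt H (i : N)).source) (fun i => (chartAt H (i : N)).open_source) (by
      intro x _
      have hx : x ∈ ⋃ y ∈ t, (chartAt H y).source := by rw [ht]; trivial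
      simp only [mem_iUnion] at hx ⊢
      obtain ⟨y, hy, hxy⟩ := hx
      exact ⟨⟨y, hy⟩, hxy⟩)
  obtain ⟨C, hC⟩ := isCompact_univ.exists_bound_of_continuousOn hΨ.continuous.continuousOn
  obtain ⟨b, hb⟩ := exists_norm_eq W (c := |C| + 1) (by positivity)
  have step : ∀ S : Finset t, ∃ c : t → W, (∀ i, ‖c i - b‖ < 1 / 2) ∧
      ContMDiff I 𝓘(ℝ, W) ∞ (fun q => Ψ q + ∑ i ∈ S, f i q • c i) ∧
      (∀ p, Ψ p + ∑ i ∈ S, f i p • c i = 0 → Function.Injective
        (mfderiv I 𝓘(ℝ, W) (fun q => Ψ q + ∑ i ∈ S, f i q • c i) p)) ∧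
      {p | Ψ p = 0}.ncard % 2 = {p | Ψ p + ∑ i ∈ S, f i p • c i = 0}.ncard % 2 := by
    intro S
    induction S using Finset.induction_on with
    | empty =>
      have hz : (fun q => Ψ q + ∑ i ∈ (∅ : Finset t), f i q • (fun _ => b : t → W) i) = Ψ := by
        funext q
        rw [Finset.sum_empty, add_zero]
      refine ⟨fun _ => b, fun i => by simp, ?_, ?_, ?_⟩
      · rw [hz]
        exact hΨ
      · intro p hp
        rw [hz]
        rw [Finset.sum_empty, add_zero] at hp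
        exact hr p hp
      · simp
    | insert j S hj ih =>
      obtain ⟨c, hc1, hc2, hc3, hc4⟩ := ih
      have hae := sard_add I μ hd hc2 (f j).contMDiff (fun p => f.nonneg j p)
      obtain ⟨cj, hcj, hcb⟩ := (Measure.dense_of_ae hae).exists_mem_open
        (Metric.isOpen_ball (x := b) (ε := 1 / 2)) ⟨b, Metric.mem_ball_self (by norm_num)⟩
      have hsum : ∀ q, Ψ q + ∑ i ∈ insert j S, f i q • (Function.update c j cj) i =
          (Ψ q + ∑ i ∈ S, f i q • c i) + f j q • cj := by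
        intro q
        rw [Finset.sum_insert hj, Function.update_self]
        have : ∑ i ∈ S, f i q • (Function.update c j cj) i = ∑ i ∈ S, f i q • c i := by
          refine Finset.sum_congr rfl (fun i hi => ?_)
          rw [Function.update_of_ne (ne_of_mem_of_not_mem hi hj)]
        rw [this]
        abel
      have hfun : (fun q => Ψ q + ∑ i ∈ insert j S, f i q • (Function.update c j cj) i) =
          fun q => (Ψ q + ∑ i ∈ S, f i q • c i) + f j q • cj := funext hsum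
      have hsm := smooth_add I hc2 (f j).contMDiff cj
      have hreg : ∀ p, (Ψ p + ∑ i ∈ S, f i p • c i) + f j p • cj = 0 → Function.Injective
          (mfderiv I 𝓘(ℝ, W) (fun q => (Ψ q + ∑ i ∈ S, f i q • c i) + f j q • cj) p) := by
        intro p hp
        refine hcj p hp ?_
        rcases (f.nonneg j p).lt_or_eq with h | h
        · exact Or.inl h
        · right
          apply hc3
          rw [← h] at hp
          simpa using hp
      refine ⟨Function.update c j cj, ?_, ?_, ?_, ?_⟩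
      · intro i
        by_cases hi : i = j
        · subst hi
          rw [Function.update_self]
          simpa [dist_eq_norm] using hcb
        · rw [Function.update_of_ne hi]
          exact hc1 i
      · rw [hfun]; exact hsm
      · intro p hp
        rw [hsum] at hp
        rw [hfun]
        exact hreg p hp
      · simp only [hsum]
        rw [hc4]
        refine chart_parity I hd (j : N) hc2 hsm hc3 hreg
          (isClosed_tsupport (f j)).isCompact ?_ ?_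
        · rw [extChartAt_source]
          exact hf j
        · intro p hp
          have : f j p = 0 := image_eq_zero_of_notMem_tsupport hp
          rw [this]
          simp
  obtain ⟨c, hc1, hc2, hc3, hc4⟩ := step Finset.univ
  have hempty : {p | Ψ p + ∑ i ∈ Finset.univ, f i p • c i = 0} = ∅ := by
    rw [Set.eq_empty_iff_forall_notMem]
    intro p hp
    have hs : ∑ i, f i p = 1 := by
      rw [← finsum_eq_sum_of_fintype]
      exact f.sum_eq_one (mem_univ p)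
    have h1 : ∑ i, f i p • c i = b + ∑ i, f i p • (c i - b) := by
      simp only [smul_sub, Finset.sum_sub_distrib, ← Finset.sum_smul, hs, one_smul]
      abel
    have h2 : ‖∑ i, f i p • (c i - b)‖ ≤ 1 / 2 := by
      calc ‖∑ i, f i p • (c i - b)‖ ≤ ∑ i, ‖f i p • (c i - b)‖ := norm_sum_le _ _
        _ ≤ ∑ i, f i p * (1 / 2) := by
            refine Finset.sum_le_sum (fun i _ => ?_)
            rw [norm_smul, Real.norm_of_nonneg (f.nonneg i p)]
            exact mul_le_mul_of_nonneg_left (hc1 i).le (f.nonneg i p)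
        _ = 1 / 2 := by rw [← Finset.sum_mul, hs, one_mul]
    have h3 : b = -(Ψ p + ∑ i, f i p • (c i - b)) := by
      rw [mem_ofPred_eq, h1] at hp
      have : b + (Ψ p + ∑ i, f i p • (c i - b)) = 0 := by rw [← hp]; abel
      exact eq_neg_of_add_eq_zero_left this
    have h4 : ‖b‖ ≤ |C| + 1 / 2 := by
      calc ‖b‖ = ‖Ψ p + ∑ i, f i p • (c i - b)‖ := by rw [h3, norm_neg, ← h3]
        _ ≤ ‖Ψ p‖ + ‖∑ i, f i p • (c i - b)‖ := norm_add_le _ _
        _ ≤ |C| + 1 / 2 := add_le_add ((hC p (mem_univ p)).trans (le_abs_self C)) h2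
    rw [hb] at h4
    linarith only [h4]
  rw [hempty] at hc4
  rw [Nat.even_iff, hc4]
  simp

end Main

end Vale.Agent.P205.Top
end
end

section

/-!
Block C of TOP: the number of zeros of a generic normal field is even.
-/

open scoped Manifold ContDiff Topology RealInnerProductSpace
open Set Filter MeasureTheory Module

noncomputable section

namespace Vale.Agent.P205.Top

/-- a finite set with a fixed point free involution has an even number of elements -/
theorem par_even_of_involution {X : Type*} {Z : Set X} (hZ : Z.Finite) {τ : X → X}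
    (h1 : ∀ z ∈ Z, τ z ∈ Z) (h2 : ∀ z, τ (τ z) = z) (h3 : ∀ z ∈ Z, τ z ≠ z) :
    Even Z.ncard := by
  classical
  have h : ∑ _z ∈ hZ.toFinset, (1 : ZMod 2) = 0 := by
    refine Finset.sum_involution (fun z _ => τ z) (fun _ _ => by decide) ?_ ?_ ?_
    · intro z hz _
      exact h3 z (hZ.mem_toFinset.1 hz)
    · intro z hz
      exact hZ.mem_toFinset.2 (h1 z (hZ.mem_toFinset.1 hz))
    · intro z _
      exact h2 z
  rw [Finset.sum_const, nsmul_eq_mul, mul_one, ← Set.ncard_eq_toFinset_card Z hZ] at h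
  exact (ZMod.natCast_eq_zero_iff_even).1 h

section Surface

variable {E : Type*} [NormedAddCommGroup E] [NormedSpace ℝ E] [FiniteDimensional ℝ E]
  {M : Type*} [TopologicalSpace M] [ChartedSpace E M] [IsManifold 𝓘(ℝ, E) ∞ M]

variable [CompactSpace M] [T2Space M]

/-- C -/
theorem even_normal_zeros (hE : finrank ℝ E = 2) {F ξ : M → R4} (hF : Imm (E := E) F)
    (hξ : Nor (E := E) F ξ)
    (hr : ∀ p, ξ p = 0 → Function.Injective (mfderiv 𝓘(ℝ, E) 𝓘(ℝ, R4) ξ p)) :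
    Even {p | ξ p = 0}.ncard := by
  classical
  -- the good neighbourhood of the diagonal
  choose V hV hVd using fun p => near_diag hF hξ p
  let 𝒱 : Set (M × M) := ⋃ p, interior (V p) ×ˢ interior (V p)
  have h𝒱o : IsOpen 𝒱 := isOpen_iUnion fun p => isOpen_interior.prod isOpen_interior
  have h𝒱Δ : ∀ a : M, (a, a) ∈ 𝒱 := fun a =>
    mem_iUnion.2 ⟨a, mem_interior_iff_mem_nhds.2 (hV a), mem_interior_iff_mem_nhds.2 (hV a)⟩
  have h𝒱s : ∀ q : M × M, q ∈ 𝒱 → q.swap ∈ 𝒱 := by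
    intro q hq
    obtain ⟨p, hp⟩ := mem_iUnion.1 hq
    exact mem_iUnion.2 ⟨p, hp.2, hp.1⟩
  have h𝒱d : ∀ q ∈ 𝒱, ∀ ε : ℝ, F q.1 - F q.2 = ε • ξ q.2 → q.1 = q.2 := by
    intro q hq ε h
    obtain ⟨p, hp⟩ := mem_iUnion.1 hq
    exact hVd p _ (interior_subset hp.1) _ (interior_subset hp.2) ε h
  -- the cut off function
  obtain ⟨β, hβ0, hβ1, -⟩ := exists_contMDiffMap_zero_one_nhds_of_isClosed
    (𝓘(ℝ, E).prod 𝓘(ℝ, E)) (n := (⊤ : ℕ∞)) (M := M × M) (s := 𝒱ᶜ) (t := diagonal M)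
    h𝒱o.isClosed_compl isClosed_diagonal (by
      rw [disjoint_compl_left_iff_subset]
      rintro ⟨a, b⟩ hab
      have : a = b := hab
      subst this
      exact h𝒱Δ a)
  obtain ⟨V1, hV1o, hΔV1, hV1⟩ := eventually_nhdsSet_iff_exists.1 hβ1
  obtain ⟨V0, hV0o, h𝒱V0, hV0⟩ := eventually_nhdsSet_iff_exists.1 hβ0
  let T : Set (M × M) := tsupport β
  have hTc : IsClosed T := isClosed_tsupport _
  have hT𝒱 : T ⊆ 𝒱 := by
    have h1 : T ⊆ V0ᶜ := by
      refine closure_minimal ?_ hV0o.isClosed_compl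
      intro q hq hq0
      exact hq (hV0 q hq0)
    intro q hq
    by_contra h
    exact h1 hq (h𝒱V0 h)
  have hV1T : V1 ⊆ T := by
    intro q hq
    apply subset_tsupport
    rw [Function.mem_support, hV1 q hq]
    exact one_ne_zero
  have hΔT : ∀ a : M, (a, a) ∈ T := fun a => hV1T (hΔV1 (mem_diagonal a))
  -- the odd function
  let τ : M × M → M × M := Prod.swap
  have hτ : ContMDiff (𝓘(ℝ, E).prod 𝓘(ℝ, E)) (𝓘(ℝ, E).prod 𝓘(ℝ, E)) ∞ τ :=
    contMDiff_snd.prodMk contMDiff_fst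
  have hττ : ∀ q, τ (τ q) = q := fun q => Prod.swap_swap q
  let G : M × M → R4 := fun q => F q.1 - F q.2
  have hG : ContMDiff (𝓘(ℝ, E).prod 𝓘(ℝ, E)) 𝓘(ℝ, R4) ∞ G :=
    (hF.sm.comp contMDiff_fst).sub (hF.sm.comp contMDiff_snd)
  have hGodd : ∀ q, G (τ q) = - G q := fun q => by simp [G, τ]
  have hGc : Continuous G := hG.continuous
  let D : Set (M × M) := {q | G q = 0} \ 𝒱
  have hDc : IsCompact D :=
    ((isClosed_eq hGc continuous_const).sdiff h𝒱o).isCompact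
  let O : Set (M × M) := (T ∪ τ ⁻¹' T)ᶜ
  have hτc : Continuous τ := hτ.continuous
  have hOo : IsOpen O := (hTc.union (hTc.preimage hτc)).isOpen_compl
  have hDO : D ⊆ O := by
    intro q hq h
    rcases h with h | h
    · exact hq.2 (hT𝒱 h)
    · have := h𝒱s _ (hT𝒱 h)
      exact hq.2 (by simpa [τ] using this)
  have hfix : ∀ q ∈ O, τ q ≠ q := by
    intro q hq h
    apply hq
    left
    have : q.1 = q.2 := by
      have := congrArg Prod.fst h
      simpa [τ] using this.symm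
    have h2 : q = (q.1, q.1) := Prod.ext rfl this.symm
    rw [h2]
    exact hΔT _
  have hOτ : ∀ q ∈ O, τ q ∈ O := by
    intro q hq h
    apply hq
    rcases h with h | h
    · exact Or.inr h
    · left
      have h' : τ (τ q) ∈ T := h
      rwa [hττ] at h'
  have hd : finrank ℝ (E × E) = finrank ℝ R4 := by
    rw [Module.finrank_prod, hE, finrank_euclideanSpace_fin]
  obtain ⟨D', hD'o, hDD', hD'O, hD'⟩ := odd_perturb (𝓘(ℝ, E).prod 𝓘(ℝ, E)) hd hτ hττ hG hGodd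
    hDc hOo hDO hfix hOτ
  -- a lower bound for `G`
  have hm : ∃ m : ℝ, 0 < m ∧ ∀ q ∈ (D' ∪ V1)ᶜ, m ≤ ‖G q‖ := by
    have hC : IsCompact (D' ∪ V1)ᶜ := (hD'o.union hV1o).isClosed_compl.isCompact
    rcases (D' ∪ V1)ᶜ.eq_empty_or_nonempty with h | h
    · exact ⟨1, one_pos, fun q hq => by rw [h] at hq; exact hq.elim⟩
    · obtain ⟨q0, hq0, hq0m⟩ := hC.exists_isMinOn h hGc.norm.continuousOn
      refine ⟨‖G q0‖, ?_, fun q hq => hq0m hq⟩
      rw [norm_pos_iff]
      intro h0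
      by_cases h1 : q0 ∈ 𝒱
      · have h2 : q0.1 = q0.2 := h𝒱d q0 h1 0 (by simpa [G] using h0)
        exact hq0 (Or.inr (hΔV1 h2))
      · exact hq0 (Or.inl (hDD' ⟨h0, h1⟩))
  obtain ⟨m, hm0, hm⟩ := hm
  obtain ⟨η, hηs, hηodd, hηm, hηO, hηr⟩ := hD' m hm0
  -- the final function
  let Ψ : M × M → R4 := fun q => G q - β q • ξ q.2 + η q
  have hΨ : ContMDiff (𝓘(ℝ, E).prod 𝓘(ℝ, E)) 𝓘(ℝ, R4) ∞ Ψ :=
    (hG.sub (β.contMDiff.smul (hξ.sm.comp contMDiff_snd))).add hηs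
  have hηT : ∀ q ∈ T, η =ᶠ[𝓝 q] 0 := by
    intro q hq
    apply notMem_tsupport_iff_eventuallyEq.1
    intro h
    exact hηO h (Or.inl hq)
  -- zeros in `T`
  have hin : ∀ q ∈ T, Ψ q = 0 → q.1 = q.2 ∧ ξ q.1 = 0 := by
    intro q hq h
    have h0 : η q = 0 := (hηT q hq).self_of_nhds
    have h1 : F q.1 - F q.2 = β q • ξ q.2 := by
      have : G q - β q • ξ q.2 + η q = 0 := h
      rw [h0, add_zero, sub_eq_zero] at this
      exact this
    have h2 : q.1 = q.2 := h𝒱d q (hT𝒱 hq) _ h1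
    refine ⟨h2, ?_⟩
    rw [h2, sub_self] at h1
    have h3 : β q = 1 := hV1 q (hΔV1 h2)
    rw [h3, one_smul] at h1
    rw [h2]
    exact h1.symm
  have hdiag : ∀ a : M, ξ a = 0 → Ψ (a, a) = 0 := by
    intro a ha
    have h0 : η (a, a) = 0 := (hηT _ (hΔT a)).self_of_nhds
    show G (a, a) - β (a, a) • ξ a + η (a, a) = 0
    rw [h0, ha]
    simp [G]
  have hout : ∀ q, q ∉ T → Ψ =ᶠ[𝓝 q] fun x => G x + η x := by
    intro q hq
    have h := notMem_tsupport_iff_eventuallyEq.1 hq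
    filter_upwards [h] with x hx
    show G x - β x • ξ x.2 + η x = G x + η x
    rw [hx]
    simp
  have houtD : ∀ q, q ∉ T → Ψ q = 0 → q ∈ D' := by
    intro q hq h
    rw [(hout q hq).self_of_nhds] at h
    by_contra hc
    have h1 : q ∉ V1 := fun h => hq (hV1T h)
    have h2 := hm q (fun h => h.elim hc h1)
    have h3 : ‖G q‖ = ‖η q‖ := by
      rw [eq_neg_of_add_eq_zero_left h, norm_neg]
    exact absurd (hηm q) (not_lt.2 (h3 ▸ h2))
  have hreg : ∀ q, Ψ q = 0 →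
      Function.Injective (mfderiv (𝓘(ℝ, E).prod 𝓘(ℝ, E)) 𝓘(ℝ, R4) Ψ q) := by
    intro q h
    by_cases hq : q ∈ T
    · obtain ⟨h1, h2⟩ := hin q hq h
      obtain ⟨a, b⟩ := q
      have h1' : a = b := h1
      subst h1'
      have h2' : ξ a = 0 := h2
      have h3 : Ψ =ᶠ[𝓝 (a, a)] fun q : M × M => F q.1 - F q.2 - (1 : ℝ) • ξ q.2 := by
        filter_upwards [hηT _ hq, hV1o.mem_nhds (hΔV1 (mem_diagonal a))] with x hx1 hx2
        show G x - β x • ξ x.2 + η x = F x.1 - F x.2 - (1 : ℝ) • ξ x.2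
        rw [hx1, hV1 x hx2]
        simp [G]
      rw [h3.mfderiv_eq]
      exact regular_diag hF hξ h2' (hr a h2') one_ne_zero
    · have h1 := houtD q hq h
      rw [(hout q hq).mfderiv_eq]
      rw [(hout q hq).self_of_nhds] at h
      exact hηr q h1 h
  obtain ⟨hfin, heven⟩ := even_zeros (𝓘(ℝ, E).prod 𝓘(ℝ, E)) hd
    (by rw [finrank_euclideanSpace_fin]; norm_num) hΨ hreg
  let Z : Set (M × M) := {q | q ∈ O ∧ G q + η q = 0}
  have hOT : ∀ q ∈ O, q ∉ T := fun q hq h => hq (Or.inl h)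
  have hsplit : {q | Ψ q = 0} = (fun a : M => (a, a)) '' {p | ξ p = 0} ∪ Z := by
    ext q
    constructor
    · intro h
      by_cases hq : q ∈ T
      · left
        obtain ⟨h1, h2⟩ := hin q hq h
        exact ⟨q.1, h2, Prod.ext rfl h1⟩
      · right
        refine ⟨hD'O (houtD q hq h), ?_⟩
        have h' : Ψ q = 0 := h
        rwa [(hout q hq).self_of_nhds] at h'
    · rintro (⟨a, ha, rfl⟩ | h)
      · exact hdiag a ha
      · show Ψ q = 0
        rw [(hout q (hOT q h.1)).self_of_nhds]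
        exact h.2
  have hZfin : Z.Finite := hfin.subset (by rw [hsplit]; exact subset_union_right)
  have hAfin : ((fun a : M => (a, a)) '' {p | ξ p = 0}).Finite :=
    hfin.subset (by rw [hsplit]; exact subset_union_left)
  have hdisj : Disjoint ((fun a : M => (a, a)) '' {p | ξ p = 0}) Z := by
    rw [Set.disjoint_left]
    rintro q ⟨a, -, rfl⟩ h
    exact hOT _ h.1 (hΔT a)
  have hZeven : Even Z.ncard := by
    refine par_even_of_involution hZfin (τ := τ) ?_ hττ ?_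
    · intro q hq
      refine ⟨hOτ q hq.1, ?_⟩
      rw [hGodd, hηodd, ← neg_add, hq.2, neg_zero]
    · intro q hq
      exact hfix q hq.1
  have hinj : Function.Injective (fun a : M => (a, a)) := fun a b h => (Prod.ext_iff.1 h).1
  rw [hsplit, Set.ncard_union_eq hdisj hAfin hZfin, Set.ncard_image_of_injective _ hinj] at heven
  exact (Nat.even_add.1 heven).2 hZeven

end Surface

end Vale.Agent.P205.Top
end
end

section

/-!
Block TOP of P205, H': rescaling of the kink and reflection (both signs of the winding number).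
-/

open scoped Manifold ContDiff Topology RealInnerProductSpace
open Set Filter MeasureTheory Module

noncomputable section

namespace Vale.Agent.P205.Top

/-- rescaling of a kink -/
lemma kink_scale_aux {s : ℝ} (hs : 0 < s) (j : ℕ) {R : ℝ} {W0 ζ0 : ℂ → ℂ × ℂ} (hR : 0 < R)
    (hW : ContDiff ℝ ∞ W0) (hζ : ContDiff ℝ ∞ ζ0) (hW1 : ∀ z, R ≤ ‖z‖ → W0 z = (z, 0))
    (hζ1 : ∀ z, R ≤ ‖z‖ → ζ0 z = (0, z ^ (2 * j)))
    (hi : ∀ z, Function.Injective (fderiv ℝ W0 z)) (hn : ∀ z u, fderiv ℝ W0 z u ≠ ζ0 z) :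
    ∃ (W ζ : ℂ → ℂ × ℂ), ContDiff ℝ ∞ W ∧ ContDiff ℝ ∞ ζ ∧ (∀ z, s / 2 ≤ ‖z‖ → W z = (z, 0)) ∧
    (∀ z, s / 2 ≤ ‖z‖ → ζ z = (0, z ^ (2 * j))) ∧
    (∀ z, Function.Injective (fderiv ℝ W z)) ∧ ∀ z u, fderiv ℝ W z u ≠ ζ z := by
  set ρ : ℝ := s / (2 * R) with hρ
  have hρ0 : 0 < ρ := by positivity
  have hρne : ρ ≠ 0 := hρ0.ne'
  have hnorm : ∀ z : ℂ, s / 2 ≤ ‖z‖ → R ≤ ‖ρ⁻¹ • z‖ := by
    intro z hz
    rw [norm_smul, Real.norm_eq_abs, abs_of_pos (inv_pos.2 hρ0), le_inv_mul_iff₀ hρ0]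
    have : ρ * R = s / 2 := by
      rw [hρ]; field_simp
    rw [this]; exact hz
  have hd : ∀ z : ℂ, HasFDerivAt (fun z : ℂ => ρ • W0 (ρ⁻¹ • z)) (fderiv ℝ W0 (ρ⁻¹ • z)) z := by
    intro z
    have h1 : HasFDerivAt (fun z : ℂ => ρ⁻¹ • z) (ρ⁻¹ • ContinuousLinearMap.id ℝ ℂ) z :=
      (hasFDerivAt_id z).const_smul ρ⁻¹
    have h2 : HasFDerivAt W0 (fderiv ℝ W0 (ρ⁻¹ • z)) (ρ⁻¹ • z) :=
      ((hW.differentiable (by simp)) _).hasFDerivAt
    have h3 := (h2.comp z h1).const_smul ρ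
    refine h3.congr_fderiv ?_
    ext u <;> simp [smul_smul, hρne]
  refine ⟨fun z => ρ • W0 (ρ⁻¹ • z), fun z => ρ ^ (2 * j) • ζ0 (ρ⁻¹ • z), ?_, ?_, ?_, ?_, ?_, ?_⟩
  · exact (hW.comp (contDiff_const_smul ρ⁻¹)).const_smul ρ
  · exact (hζ.comp (contDiff_const_smul ρ⁻¹)).const_smul _
  · intro z hz
    simp only
    rw [hW1 _ (hnorm z hz)]
    simp [Prod.smul_mk, hρne]
  · intro z hz
    simp only
    rw [hζ1 _ (hnorm z hz)]
    simp only [Prod.smul_mk, smul_zero, Prod.mk.injEq, true_and]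
    rw [smul_pow, smul_smul, ← mul_pow, mul_inv_cancel₀ hρne, one_pow, one_smul]
  · intro z
    rw [(hd z).fderiv]
    exact hi _
  · intro z u h
    rw [(hd z).fderiv] at h
    apply hn (ρ⁻¹ • z) ((ρ ^ (2 * j))⁻¹ • u)
    rw [map_smul, h, smul_smul, inv_mul_cancel₀ (pow_ne_zero _ hρne), one_smul]

/-- H' from H -/
theorem exists_kink'_of (H : ∀ j : ℕ, ∃ (R : ℝ) (W ζ : ℂ → ℂ × ℂ), 0 < R ∧ ContDiff ℝ ∞ W ∧
    ContDiff ℝ ∞ ζ ∧ (∀ z, R ≤ ‖z‖ → W z = (z, 0)) ∧ (∀ z, R ≤ ‖z‖ → ζ z = (0, z ^ (2 * j))) ∧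
    (∀ z, Function.Injective (fderiv ℝ W z)) ∧ ∀ z u, fderiv ℝ W z u ≠ ζ z)
    {s : ℝ} (hs : 0 < s) {w : ℤ} (hw : Even w) :
    ∃ (W ζ : ℂ → ℂ × ℂ), ContDiff ℝ ∞ W ∧ ContDiff ℝ ∞ ζ ∧ (∀ z, s / 2 ≤ ‖z‖ → W z = (z, 0)) ∧
    (∀ z, s / 2 ≤ ‖z‖ → ζ z = (0, zp w z)) ∧
    (∀ z, Function.Injective (fderiv ℝ W z)) ∧ ∀ z u, fderiv ℝ W z u ≠ ζ z := by
  obtain ⟨r, hr⟩ := hw
  obtain ⟨R, W0, ζ0, hR, hW, hζ, hW1, hζ1, hi, hn⟩ := H r.natAbs
  obtain ⟨W, ζ, hW', hζ', hW1', hζ1', hi', hn'⟩ :=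
    kink_scale_aux hs r.natAbs hR hW hζ hW1 hζ1 hi hn
  rcases le_or_gt 0 w with h0 | h0
  · refine ⟨W, ζ, hW', hζ', hW1', ?_, hi', hn'⟩
    intro z hz
    rw [hζ1' z hz]
    have : w.toNat = 2 * r.natAbs := by omega
    simp [zp, h0, this]
  · let L : (ℂ × ℂ) ≃L[ℝ] (ℂ × ℂ) :=
      (ContinuousLinearEquiv.refl ℝ ℂ).prodCongr Complex.conjCLE
    have hL : ∀ p : ℂ × ℂ, L p = (p.1, starRingEnd ℂ p.2) := fun p => rfl
    have hd : ∀ z : ℂ, fderiv ℝ (fun z => L (W z)) z = (L : (ℂ × ℂ) →L[ℝ] (ℂ × ℂ)).comp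
        (fderiv ℝ W z) := by
      intro z
      have h2 : HasFDerivAt W (fderiv ℝ W z) z :=
        ((hW'.differentiable (by simp)) _).hasFDerivAt
      exact (L.hasFDerivAt.comp z h2).fderiv
    refine ⟨fun z => L (W z), fun z => L (ζ z), L.contDiff.comp hW', L.contDiff.comp hζ',
      ?_, ?_, ?_, ?_⟩
    · intro z hz
      simp only
      rw [hW1' z hz, hL]
      simp
    · intro z hz
      simp only
      rw [hζ1' z hz, hL]
      have h3 : (-w).toNat = 2 * r.natAbs := by omega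
      have h4 : ¬ (0 ≤ w) := by omega
      simp [zp, h4, h3]
    · intro z
      rw [hd z]
      exact L.injective.comp (hi' z)
    · intro z u h
      rw [hd z] at h
      exact hn' z u (L.injective h)

end Vale.Agent.P205.Top
end
end

section

/-!
Block TOP of P205, H': the kink, scaled, both signs of the winding number.
-/

open scoped Manifold ContDiff Topology RealInnerProductSpace
open Set Filter MeasureTheory Module

noncomputable section

namespace Vale.Agent.P205.Top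

/-- H': scaled, both signs of the winding number -/
theorem exists_kink' {s : ℝ} (hs : 0 < s) {w : ℤ} (hw : Even w) :
    ∃ (W ζ : ℂ → ℂ × ℂ), ContDiff ℝ ∞ W ∧ ContDiff ℝ ∞ ζ ∧ (∀ z, s / 2 ≤ ‖z‖ → W z = (z, 0)) ∧
    (∀ z, s / 2 ≤ ‖z‖ → ζ z = (0, zp w z)) ∧
    (∀ z, Function.Injective (fderiv ℝ W z)) ∧ ∀ z u, fderiv ℝ W z u ≠ ζ z :=
  exists_kink'_of exists_kink hs hw

end Vale.Agent.P205.Top
end
end

section

/-!
Block TOP of P205, part G: a pair (immersion, nowhere tangent field) on a connected surface.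
-/

open scoped Manifold ContDiff Topology RealInnerProductSpace
open Set Filter MeasureTheory Module

noncomputable section

namespace Vale.Agent.P205.Top

namespace Pair

section Chart

variable {E : Type*} [NormedAddCommGroup E] [NormedSpace ℝ E]
  {M : Type*} [TopologicalSpace M] [ChartedSpace E M]

/-- complex coordinate of the chart at `p0` -/
def zc (L : E ≃L[ℝ] ℂ) (p0 p : M) : ℂ :=
  L (extChartAt 𝓘(ℝ, E) p0 p - extChartAt 𝓘(ℝ, E) p0 p0)

/-- inverse of the complex coordinate -/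
def zi (L : E ≃L[ℝ] ℂ) (p0 : M) (z : ℂ) : M :=
  (extChartAt 𝓘(ℝ, E) p0).symm (extChartAt 𝓘(ℝ, E) p0 p0 + L.symm z)

/-- disc in the chart -/
def Dz (L : E ≃L[ℝ] ℂ) (p0 : M) (R : ℝ) : Set M :=
  {p | p ∈ (extChartAt 𝓘(ℝ, E) p0).source ∧ ‖zc L p0 p‖ < R}

/-- closed disc in the chart -/
def Kz (L : E ≃L[ℝ] ℂ) (p0 : M) (r : ℝ) : Set M :=
  {p | p ∈ (extChartAt 𝓘(ℝ, E) p0).source ∧ ‖zc L p0 p‖ ≤ r}

/-- the disc of radius `R` is contained in the image of the chart -/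
structure Good (L : E ≃L[ℝ] ℂ) (p0 : M) (R : ℝ) : Prop where
  pos : 0 < R
  tgt : ∀ z : ℂ, ‖z‖ < R → extChartAt 𝓘(ℝ, E) p0 p0 + L.symm z ∈ (extChartAt 𝓘(ℝ, E) p0).target

variable {L : E ≃L[ℝ] ℂ} {p0 p : M} {R : ℝ}

theorem zc_self : zc L p0 p0 = 0 := by simp [zc]

theorem zi_zc (hp : p ∈ (extChartAt 𝓘(ℝ, E) p0).source) : zi L p0 (zc L p0 p) = p := by
  unfold zi zc
  rw [L.symm_apply_apply, add_sub_cancel]
  exact (extChartAt 𝓘(ℝ, E) p0).left_inv hp

theorem zc_zi (hG : Good L p0 R) {z : ℂ} (hz : ‖z‖ < R) : zc L p0 (zi L p0 z) = z := by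
  unfold zi zc
  rw [(extChartAt 𝓘(ℝ, E) p0).right_inv (hG.tgt z hz), add_sub_cancel_left, L.apply_symm_apply]

theorem zi_mem (hG : Good L p0 R) {z : ℂ} (hz : ‖z‖ < R) : zi L p0 z ∈ Dz L p0 R := by
  refine ⟨(extChartAt 𝓘(ℝ, E) p0).map_target (hG.tgt z hz), ?_⟩
  rw [zc_zi hG hz]
  exact hz

theorem isOpen_Dz : IsOpen (Dz L p0 R) := by
  have h := isOpen_extChartAt_preimage (I := 𝓘(ℝ, E)) p0
    (s := {x : E | ‖L (x - extChartAt 𝓘(ℝ, E) p0 p0)‖ < R})
    (isOpen_lt (by fun_prop) continuous_const)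
  rw [← extChartAt_source (I := 𝓘(ℝ, E))] at h
  exact h

theorem isClosed_Kz [T2Space M] (hG : Good L p0 R) {r : ℝ} (hr : r < R) :
    IsClosed (Kz L p0 r) := by
  have h1 : Kz L p0 r = zi L p0 '' Metric.closedBall (0 : ℂ) r := by
    ext q
    constructor
    · rintro ⟨h1, h2⟩
      exact ⟨zc L p0 q, by simpa using h2, zi_zc h1⟩
    · rintro ⟨z, hz, rfl⟩
      have hz' : ‖z‖ ≤ r := by simpa using hz
      refine ⟨(zi_mem hG (hz'.trans_lt hr)).1, ?_⟩
      rw [zc_zi hG (hz'.trans_lt hr)]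
      exact hz'
  have h2 : ContinuousOn (zi L p0) (Metric.closedBall (0 : ℂ) r) := by
    refine (continuousOn_extChartAt_symm (I := 𝓘(ℝ, E)) p0).comp (t := (extChartAt 𝓘(ℝ, E) p0).target)
      (f := fun z : ℂ => extChartAt 𝓘(ℝ, E) p0 p0 + L.symm z) (by fun_prop) ?_
    intro z hz
    have hz' : ‖z‖ ≤ r := by simpa using hz
    exact hG.tgt z (hz'.trans_lt hr)
  rw [h1]
  exact ((isCompact_closedBall (0 : ℂ) r).image_of_continuousOn h2).isClosed

theorem exists_good (L : E ≃L[ℝ] ℂ) (p0 : M) {U : Set M} (hU : U ∈ 𝓝 p0) :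
    ∃ R : ℝ, Good L p0 R ∧ Dz L p0 R ⊆ U := by
  set φ := extChartAt 𝓘(ℝ, E) p0 with hφ
  have h1 : φ.target ∈ 𝓝 (φ p0) := extChartAt_target_mem_nhds (I := 𝓘(ℝ, E)) p0
  have h2 : φ.symm ⁻¹' U ∈ 𝓝 (φ p0) := by
    refine (continuousAt_extChartAt_symm (I := 𝓘(ℝ, E)) p0).preimage_mem_nhds ?_
    rw [extChartAt_to_inv]
    exact hU
  have h3 : Tendsto (fun z : ℂ => φ p0 + L.symm z) (𝓝 0) (𝓝 (φ p0)) := by
    have : Continuous (fun z : ℂ => φ p0 + L.symm z) := by fun_prop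
    simpa using this.tendsto 0
  have h4 := h3 (inter_mem h1 h2)
  obtain ⟨R, hR, h5⟩ := Metric.mem_nhds_iff.1 (Filter.mem_map.1 h4)
  have h6 : ∀ z : ℂ, ‖z‖ < R → φ p0 + L.symm z ∈ φ.target ∧ zi L p0 z ∈ U := by
    intro z hz
    have : z ∈ Metric.ball (0 : ℂ) R := by simpa using hz
    exact h5 this
  refine ⟨R, ⟨hR, fun z hz => (h6 z hz).1⟩, ?_⟩
  rintro q ⟨hq1, hq2⟩
  have := (h6 _ hq2).2
  rwa [zi_zc hq1] at this

theorem zi_smooth [IsManifold 𝓘(ℝ, E) ∞ M] (hG : Good L p0 R) :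
    ContMDiffOn 𝓘(ℝ, ℂ) 𝓘(ℝ, E) ∞ (zi L p0) {z | ‖z‖ < R} := by
  have h1 : ContMDiffOn 𝓘(ℝ, ℂ) 𝓘(ℝ, E) ∞
      (fun z : ℂ => extChartAt 𝓘(ℝ, E) p0 p0 + L.symm z) {z | ‖z‖ < R} := by
    have : ContDiff ℝ ∞ (fun z : ℂ => extChartAt 𝓘(ℝ, E) p0 p0 + L.symm z) := by fun_prop
    exact this.contMDiff.contMDiffOn
  exact (contMDiffOn_extChartAt_symm (I := 𝓘(ℝ, E)) (n := ∞) p0).comp h1
    (fun z hz => hG.tgt z hz)

theorem zc_smooth [IsManifold 𝓘(ℝ, E) ∞ M] (hp : p ∈ (extChartAt 𝓘(ℝ, E) p0).source) :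
    ContMDiffAt 𝓘(ℝ, E) 𝓘(ℝ, ℂ) ∞ (zc L p0) p := by
  rw [extChartAt_source] at hp
  have h1 : ContMDiffAt 𝓘(ℝ, E) 𝓘(ℝ, E) ∞ (extChartAt 𝓘(ℝ, E) p0) p :=
    contMDiffAt_extChartAt' hp
  have h2 : ContDiff ℝ ∞ (fun x : E => L (x - extChartAt 𝓘(ℝ, E) p0 p0)) := by fun_prop
  exact (h2.contMDiff.contMDiffAt).comp p h1

theorem zc_bij [IsManifold 𝓘(ℝ, E) ∞ M] (hp : p ∈ (extChartAt 𝓘(ℝ, E) p0).source) :
    Function.Bijective (mfderiv 𝓘(ℝ, E) 𝓘(ℝ, ℂ) (zc L p0) p) := by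
  have : IsManifold 𝓘(ℝ, E) 1 M := IsManifold.of_le (n := ∞) (by simp)
  have h0 := isInvertible_mfderiv_extChartAt (I := 𝓘(ℝ, E)) hp
  have h1 : MDifferentiableAt 𝓘(ℝ, E) 𝓘(ℝ, E) (extChartAt 𝓘(ℝ, E) p0) p := by
    rw [extChartAt_source] at hp
    exact (contMDiffAt_extChartAt' (I := 𝓘(ℝ, E)) (n := ∞) hp).mdifferentiableAt (by simp)
  have h2 : HasFDerivAt (fun x : E => L (x - extChartAt 𝓘(ℝ, E) p0 p0)) (L : E →L[ℝ] ℂ)
      (extChartAt 𝓘(ℝ, E) p0 p) := by
    have h := (L : E →L[ℝ] ℂ).hasFDerivAt.comp (extChartAt 𝓘(ℝ, E) p0 p)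
      ((hasFDerivAt_id (𝕜 := ℝ) (extChartAt 𝓘(ℝ, E) p0 p)).sub_const
        (extChartAt 𝓘(ℝ, E) p0 p0))
    rw [ContinuousLinearMap.comp_id] at h
    exact h
  have h3 : HasMFDerivAt 𝓘(ℝ, E) 𝓘(ℝ, ℂ) (zc L p0) p
      ((L : E →L[ℝ] ℂ).comp (mfderiv 𝓘(ℝ, E) 𝓘(ℝ, E) (extChartAt 𝓘(ℝ, E) p0) p)) :=
    (h2.hasMFDerivAt).comp p h1.hasMFDerivAt
  rw [h3.mfderiv]
  have h4 : Function.Bijective (mfderiv 𝓘(ℝ, E) 𝓘(ℝ, E) (extChartAt 𝓘(ℝ, E) p0) p) :=
    h0.bijective
  exact L.bijective.comp h4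

end Chart

section Glue

variable {E : Type*} [NormedAddCommGroup E] [NormedSpace ℝ E]
  {M : Type*} [TopologicalSpace M] [ChartedSpace E M]

open Classical in
/-- `u ∘ z` on the disc, `f` outside -/
def glue (L : E ≃L[ℝ] ℂ) (p0 : M) (R : ℝ) (u : ℂ → R4) (f : M → R4) (p : M) : R4 :=
  if p ∈ Dz L p0 R then u (zc L p0 p) else f p

/-- gluing data -/
structure GlueOK (L : E ≃L[ℝ] ℂ) (p0 : M) (R r : ℝ) (u : ℂ → R4) (f : M → R4) : Prop where
  good : Good L p0 R
  lt : r < R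
  smu : ContDiffOn ℝ ∞ u {z | ‖z‖ < R}
  smf : ContMDiff 𝓘(ℝ, E) 𝓘(ℝ, R4) ∞ f
  agree : ∀ p ∈ Dz L p0 R, r ≤ ‖zc L p0 p‖ → u (zc L p0 p) = f p

variable {L : E ≃L[ℝ] ℂ} {p0 p : M} {R r : ℝ} {u : ℂ → R4} {f : M → R4}

theorem glue_in (hp : p ∈ Dz L p0 R) : glue L p0 R u f p = u (zc L p0 p) := if_pos hp

theorem glue_out (hp : p ∉ Dz L p0 R) : glue L p0 R u f p = f p := if_neg hp

theorem glue_in_ev (hp : p ∈ Dz L p0 R) :
    glue L p0 R u f =ᶠ[𝓝 p] fun q => u (zc L p0 q) := by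
  filter_upwards [isOpen_Dz.mem_nhds hp] with q hq
  exact glue_in hq

theorem glue_out_ev [T2Space M] (h : GlueOK L p0 R r u f) (hp : p ∉ Dz L p0 R) :
    glue L p0 R u f =ᶠ[𝓝 p] f := by
  have h1 : p ∉ Kz L p0 r := fun h2 => hp ⟨h2.1, h2.2.trans_lt h.lt⟩
  filter_upwards [(isClosed_Kz h.good h.lt).isOpen_compl.mem_nhds h1] with q hq
  by_cases hq2 : q ∈ Dz L p0 R
  · rw [glue_in hq2]
    refine h.agree q hq2 ?_
    by_contra h3
    exact hq ⟨hq2.1, (not_le.1 h3).le⟩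
  · exact glue_out hq2

theorem comp_smooth [IsManifold 𝓘(ℝ, E) ∞ M] (hu : ContDiffOn ℝ ∞ u {z | ‖z‖ < R})
    (hp : p ∈ Dz L p0 R) : ContMDiffAt 𝓘(ℝ, E) 𝓘(ℝ, R4) ∞ (fun q => u (zc L p0 q)) p := by
  have h1 : ContDiffAt ℝ ∞ u (zc L p0 p) :=
    hu.contDiffAt ((isOpen_lt continuous_norm continuous_const).mem_nhds hp.2)
  exact h1.contMDiffAt.comp p (zc_smooth hp.1)

theorem comp_mfderiv [IsManifold 𝓘(ℝ, E) ∞ M] (hu : ContDiffOn ℝ ∞ u {z | ‖z‖ < R})
    (hp : p ∈ Dz L p0 R) (v : TangentSpace 𝓘(ℝ, E) p) :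
    mfderiv 𝓘(ℝ, E) 𝓘(ℝ, R4) (fun q => u (zc L p0 q)) p v =
      fderiv ℝ u (zc L p0 p) (mfderiv 𝓘(ℝ, E) 𝓘(ℝ, ℂ) (zc L p0) p v) := by
  have h1 : ContDiffAt ℝ ∞ u (zc L p0 p) :=
    hu.contDiffAt ((isOpen_lt continuous_norm continuous_const).mem_nhds hp.2)
  have h2 : HasFDerivAt u (fderiv ℝ u (zc L p0 p)) (zc L p0 p) :=
    (h1.differentiableAt (by simp)).hasFDerivAt
  have h3 : MDifferentiableAt 𝓘(ℝ, E) 𝓘(ℝ, ℂ) (zc L p0) p :=
    (zc_smooth hp.1).mdifferentiableAt (by simp)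
  have h4 : HasMFDerivAt 𝓘(ℝ, E) 𝓘(ℝ, R4) (fun q => u (zc L p0 q)) p
      ((fderiv ℝ u (zc L p0 p)).comp (mfderiv 𝓘(ℝ, E) 𝓘(ℝ, ℂ) (zc L p0) p)) :=
    (h2.hasMFDerivAt).comp p h3.hasMFDerivAt
  rw [h4.mfderiv]
  rfl

theorem GlueOK.smooth [T2Space M] [IsManifold 𝓘(ℝ, E) ∞ M] (h : GlueOK L p0 R r u f) :
    ContMDiff 𝓘(ℝ, E) 𝓘(ℝ, R4) ∞ (glue L p0 R u f) := by
  intro p
  by_cases hp : p ∈ Dz L p0 R
  · exact (comp_smooth h.smu hp).congr_of_eventuallyEq (glue_in_ev hp)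
  · exact (h.smf p).congr_of_eventuallyEq (glue_out_ev h hp)

theorem GlueOK.mfderiv_in [IsManifold 𝓘(ℝ, E) ∞ M] (h : GlueOK L p0 R r u f)
    (hp : p ∈ Dz L p0 R) (v : TangentSpace 𝓘(ℝ, E) p) :
    mfderiv 𝓘(ℝ, E) 𝓘(ℝ, R4) (glue L p0 R u f) p v =
      fderiv ℝ u (zc L p0 p) (mfderiv 𝓘(ℝ, E) 𝓘(ℝ, ℂ) (zc L p0) p v) := by
  rw [(glue_in_ev hp).mfderiv_eq]
  exact comp_mfderiv h.smu hp v

theorem GlueOK.inj [IsManifold 𝓘(ℝ, E) ∞ M] (h : GlueOK L p0 R r u f)
    (hp : p ∈ Dz L p0 R) (hu : Function.Injective (fderiv ℝ u (zc L p0 p))) :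
    Function.Injective (mfderiv 𝓘(ℝ, E) 𝓘(ℝ, R4) (glue L p0 R u f) p) := by
  intro v v' hv
  have h1 := (h.mfderiv_in hp v).symm.trans (hv.trans (h.mfderiv_in hp v'))
  exact (zc_bij hp.1).1 (hu h1)

theorem GlueOK.mfderiv_out [T2Space M] (h : GlueOK L p0 R r u f) (hp : p ∉ Dz L p0 R)
    (v : TangentSpace 𝓘(ℝ, E) p) :
    mfderiv 𝓘(ℝ, E) 𝓘(ℝ, R4) (glue L p0 R u f) p v = mfderiv 𝓘(ℝ, E) 𝓘(ℝ, R4) f p v := by
  rw [(glue_out_ev h hp).mfderiv_eq]
  rfl

end Glue

section Frame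

/-- orthogonal frame of the complement of the image of a plane -/
theorem exists_normal (A : ℂ →L[ℝ] R4) (hA : Function.Injective A) :
    ∃ (B : ℂ →L[ℝ] R4) (Bl : R4 →L[ℝ] ℂ), (∀ z, Bl (B z) = z) ∧
      (∀ y, (∀ a, ⟪y, A a⟫ = 0) → B (Bl y) = y) ∧ ∀ a b, ⟪B b, A a⟫ = 0 := by
  set N : Submodule ℝ R4 := (LinearMap.range (A : ℂ →ₗ[ℝ] R4))ᗮ with hN
  have h1 : finrank ℝ (LinearMap.range (A : ℂ →ₗ[ℝ] R4)) = 2 := by
    rw [LinearMap.finrank_range_of_inj hA, Complex.finrank_real_complex]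
  have h2 : finrank ℝ N = 2 := by
    have h3 := Submodule.finrank_add_finrank_orthogonal (LinearMap.range (A : ℂ →ₗ[ℝ] R4))
    rw [h1, finrank_euclideanSpace_fin, ← hN] at h3
    omega
  have e : ℂ ≃L[ℝ] N := ContinuousLinearEquiv.ofFinrankEq (by
    rw [h2, Complex.finrank_real_complex])
  refine ⟨N.subtypeL.comp (e : ℂ →L[ℝ] N),
    (e.symm : N →L[ℝ] ℂ).comp N.orthogonalProjectionOnto, ?_, ?_, ?_⟩
  · intro z
    simp
  · intro y hy
    have hyN : y ∈ N := by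
      rw [hN, Submodule.mem_orthogonal']
      rintro _ ⟨a, rfl⟩
      exact hy a
    simp only [ContinuousLinearMap.comp_apply, ContinuousLinearEquiv.coe_coe,
      ContinuousLinearEquiv.apply_symm_apply, Submodule.subtypeL_apply]
    exact Submodule.starProjection_eq_self_iff.2 hyN
  · intro a b
    have hb : (e b : R4) ∈ N := (e b).2
    exact (Submodule.mem_orthogonal' _ _).1 hb _ ⟨a, rfl⟩

end Frame

section Main

variable {E : Type*} [NormedAddCommGroup E] [NormedSpace ℝ E]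
  {M : Type*} [TopologicalSpace M] [ChartedSpace E M]

/-- the situation after flattening, absorption and standardisation -/
structure Setup (L : E ≃L[ℝ] ℂ) (p0 : M) (R s : ℝ) (w : ℤ) (F ξ : M → R4)
    (A B : ℂ →L[ℝ] R4) (Bl : R4 →L[ℝ] ℂ) (g : ℂ → ℂ) : Prop where
  good : Good L p0 R
  imm : Imm (E := E) F
  nor : Nor (E := E) F ξ
  injA : Function.Injective A
  BlB : ∀ z, Bl (B z) = z
  orth : ∀ a b, ⟪B b, A a⟫ = 0
  flat : ∀ p ∈ Dz L p0 R, F p = F p0 + A (zc L p0 p)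
  nz : ∀ p, p ∉ Dz L p0 R → ξ p ≠ 0
  spos : 0 < s
  slt : s < R / 2
  gsm : ContDiffOn ℝ ∞ g {z | ‖z‖ < R}
  gout : ∀ p ∈ Dz L p0 R, R / 2 ≤ ‖zc L p0 p‖ → B (g (zc L p0 p)) = ξ p
  gin : ∀ z, ‖z‖ < s → g z = zp w z
  gnz : ∀ z, z ≠ 0 → ‖z‖ < R → g z ≠ 0

theorem flat_mfderiv [IsManifold 𝓘(ℝ, E) ∞ M] {L : E ≃L[ℝ] ℂ} {p0 : M} {R : ℝ} {F : M → R4}
    {A : ℂ →L[ℝ] R4} (hF : ∀ p ∈ Dz L p0 R, F p = F p0 + A (zc L p0 p)) {p : M}
    (hp : p ∈ Dz L p0 R) (v : TangentSpace 𝓘(ℝ, E) p) :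
    mfderiv 𝓘(ℝ, E) 𝓘(ℝ, R4) F p v = A (mfderiv 𝓘(ℝ, E) 𝓘(ℝ, ℂ) (zc L p0) p v) := by
  have h1 : F =ᶠ[𝓝 p] fun q => (fun z => F p0 + A z) (zc L p0 q) := by
    filter_upwards [isOpen_Dz.mem_nhds hp] with q hq
    exact hF q hq
  rw [h1.mfderiv_eq]
  have h2 : ContDiffOn ℝ ∞ (fun z => F p0 + A z) {z | ‖z‖ < R} := by fun_prop
  have h3 := comp_mfderiv h2 hp v
  have h4 : fderiv ℝ (fun z => F p0 + A z) (zc L p0 p) = A := by
    rw [fderiv_const_add, A.fderiv]
  rw [h4] at h3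
  exact h3

variable [IsManifold 𝓘(ℝ, E) ∞ M] [CompactSpace M] [T2Space M]

theorem exists_setup [FiniteDimensional ℝ E] [ConnectedSpace M] (hE : finrank ℝ E = 2) :
    ∃ (L : E ≃L[ℝ] ℂ) (p0 : M) (R s : ℝ) (w : ℤ) (F ξ : M → R4) (A B : ℂ →L[ℝ] R4)
      (Bl : R4 →L[ℝ] ℂ) (g : ℂ → ℂ), Setup L p0 R s w F ξ A B Bl g := by
  obtain ⟨p0⟩ := (inferInstance : Nonempty M)
  obtain ⟨F0, hF0⟩ := exists_imm (E := E) (M := M) hE
  obtain ⟨F, hF, A0, hA0, hflat⟩ := exists_flat hF0 p0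
  obtain ⟨ξ, hξ, hξ0⟩ := absorb hE hF p0
  have L : E ≃L[ℝ] ℂ := ContinuousLinearEquiv.ofFinrankEq (by
    rw [hE, Complex.finrank_real_complex])
  obtain ⟨R, hG, hRU⟩ := exists_good L p0 hflat
  set A : ℂ →L[ℝ] R4 := A0.comp (L.symm : ℂ →L[ℝ] E) with hA
  have hAinj : Function.Injective A := hA0.comp L.symm.injective
  obtain ⟨B, Bl, hBl, hB, hBA⟩ := exists_normal A hAinj
  have hFl : ∀ p ∈ Dz L p0 R, F p = F p0 + A (zc L p0 p) := by
    intro p hp
    have h1 : F p = F p0 + A0 (extChartAt 𝓘(ℝ, E) p0 p - extChartAt 𝓘(ℝ, E) p0 p0) := hRU hp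
    rw [h1, hA]
    simp [zc]
  have hξB : ∀ p ∈ Dz L p0 R, B (Bl (ξ p)) = ξ p := by
    intro p hp
    refine hB _ (fun a => ?_)
    obtain ⟨v, hv⟩ := (zc_bij (L := L) hp.1).2 a
    have h1 := hξ.orth p v
    rw [flat_mfderiv hFl hp v, hv] at h1
    exact h1
  have hgs : ContDiffOn ℝ ∞ (fun z => Bl (ξ (zi L p0 z))) {z | ‖z‖ < R} := by
    have h1 : ContMDiffOn 𝓘(ℝ, ℂ) 𝓘(ℝ, R4) ∞ (fun z => ξ (zi L p0 z)) {z | ‖z‖ < R} :=
      hξ.sm.comp_contMDiffOn (zi_smooth hG)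
    have h2 : ContDiffOn ℝ ∞ (fun z => ξ (zi L p0 z)) {z | ‖z‖ < R} := h1.contDiffOn
    exact Bl.contDiff.comp_contDiffOn h2
  have hg0 : ∀ z, z ≠ 0 → ‖z‖ < R → Bl (ξ (zi L p0 z)) ≠ 0 := by
    intro z hz0 hz h
    have h1 := hξB _ (zi_mem hG hz)
    rw [h, map_zero] at h1
    have h2 := hξ0 _ h1.symm
    have h3 := zc_zi hG hz
    rw [h2, zc_self] at h3
    exact hz0 h3.symm
  have hRp := hG.pos
  obtain ⟨w, g, s, hs0, hs, hgsm, hgo, hgi, hgz⟩ := exists_standard (r1 := R / 4) (r2 := R / 2)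
    (R := R) (by linarith) (by linarith) (by linarith) hgs (by
      intro z h1 h2
      refine hg0 z ?_ (by linarith)
      rintro rfl
      rw [norm_zero] at h1
      linarith)
  refine ⟨L, p0, R, s, w, F, ξ, A, B, Bl, g, ⟨hG, hF, hξ, hAinj, hBl, hBA, hFl, ?_, hs0, hs,
    hgsm, ?_, hgi, ?_⟩⟩
  · intro p hp h
    have := hξ0 p h
    rw [this] at hp
    refine hp ⟨mem_extChartAt_source p0, ?_⟩
    rw [zc_self, norm_zero]
    exact hRp
  · intro p hp h
    rw [hgo _ h, zi_zc hp.1]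
    exact hξB p hp
  · intro z hz0 hz h
    by_cases h1 : ‖z‖ < R / 2
    · exact hz0 (hgz z h1 h)
    · rw [hgo z (not_lt.1 h1)] at h
      exact hg0 z hz0 hz h

variable {L : E ≃L[ℝ] ℂ} {p0 : M} {R s : ℝ} {w : ℤ} {F ξ : M → R4} {A B : ℂ →L[ℝ] R4}
  {Bl : R4 →L[ℝ] ℂ} {g : ℂ → ℂ}

omit [IsManifold 𝓘(ℝ, E) ∞ M] [CompactSpace M] [T2Space M] in
theorem Setup.B_inj (S : Setup L p0 R s w F ξ A B Bl g) {z : ℂ} (h : B z = 0) : z = 0 := by
  have := S.BlB z
  rw [h, map_zero] at this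
  exact this.symm

theorem Setup.even [FiniteDimensional ℝ E] (hE : finrank ℝ E = 2)
    (S : Setup L p0 R s w F ξ A B Bl g) : Even w := by
  obtain ⟨gs, hgs, hgo, hgc, hgr⟩ := exists_split S.spos w
  have hs0 := S.spos
  have hsR := S.slt
  have hRp := S.good.pos
  set g2 : ℂ → ℂ := fun z => if ‖z‖ < s then gs z else g z with hg2
  have e1 : ∀ z, ‖z‖ < s → g2 =ᶠ[𝓝 z] gs := by
    intro z hz
    filter_upwards [(isOpen_lt continuous_norm continuous_const).mem_nhds hz] with y hy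
    exact if_pos hy
  have e0 : ∀ y, s / 2 ≤ ‖y‖ → g2 y = g y := by
    intro y hy
    by_cases h : ‖y‖ < s
    · rw [hg2]
      simp only [if_pos h]
      rw [hgo y hy, S.gin y h]
    · exact if_neg h
  have e2 : ∀ z, s / 2 < ‖z‖ → g2 =ᶠ[𝓝 z] g := by
    intro z hz
    filter_upwards [(isOpen_lt continuous_const continuous_norm).mem_nhds hz] with y hy
    exact e0 y (le_of_lt hy)
  have hsm : ContDiffOn ℝ ∞ g2 {z | ‖z‖ < R} := by
    intro z hz
    by_cases h : ‖z‖ < s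
    · exact ((hgs.contDiffAt).congr_of_eventuallyEq (e1 z h)).contDiffWithinAt
    · have h1 : s / 2 < ‖z‖ := by
        have := not_lt.1 h
        linarith only [this, hs0]
      have h2 : ContDiffAt ℝ ∞ g z :=
        S.gsm.contDiffAt ((isOpen_lt continuous_norm continuous_const).mem_nhds hz)
      exact (h2.congr_of_eventuallyEq (e2 z h1)).contDiffWithinAt
  have hGl : GlueOK L p0 R (R / 2) (fun z => B (g2 z)) ξ := by
    refine ⟨S.good, by linarith, B.contDiff.comp_contDiffOn hsm, S.nor.sm, ?_⟩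
    intro p hp h
    have h1 : B (g2 (zc L p0 p)) = ξ p := by
      rw [e0 _ (by linarith)]
      exact S.gout p hp h
    exact h1
  have hN : Nor (E := E) F (glue L p0 R (fun z => B (g2 z)) ξ) := by
    refine ⟨hGl.smooth, ?_⟩
    intro p v
    by_cases hp : p ∈ Dz L p0 R
    · rw [glue_in hp, flat_mfderiv S.flat hp v]
      exact S.orth _ _
    · rw [glue_out hp]
      exact S.nor.orth p v
  have hz0 : ∀ p, glue L p0 R (fun z => B (g2 z)) ξ p = 0 →
      p ∈ Dz L p0 R ∧ ‖zc L p0 p‖ < s / 2 ∧ gs (zc L p0 p) = 0 := by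
    intro p h
    by_cases hp : p ∈ Dz L p0 R
    · rw [glue_in hp] at h
      have h1 : g2 (zc L p0 p) = 0 := S.B_inj h
      by_cases h2 : ‖zc L p0 p‖ < s / 2
      · rw [hg2] at h1
        simp only [if_pos (show ‖zc L p0 p‖ < s by linarith)] at h1
        exact ⟨hp, h2, h1⟩
      · exfalso
        rw [e0 _ (not_lt.1 h2)] at h1
        refine S.gnz _ ?_ hp.2 h1
        intro h3
        rw [h3, norm_zero] at h2
        linarith
    · exfalso
      rw [glue_out hp] at h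
      exact S.nz p hp h
  have hev := even_normal_zeros hE S.imm hN (by
    intro p h
    obtain ⟨hp, h1, h2⟩ := hz0 p h
    have h3 := hgr _ h1 h2
    have h4 : fderiv ℝ (fun z => B (g2 z)) (zc L p0 p) =
        B.comp (fderiv ℝ gs (zc L p0 p)) := by
      have h5 : (fun z => B (g2 z)) =ᶠ[𝓝 (zc L p0 p)] fun z => B (gs z) := by
        filter_upwards [e1 (zc L p0 p) (by linarith)] with y hy
        rw [hy]
      rw [h5.fderiv_eq]
      have h6 : HasFDerivAt (fun z => B (gs z)) (B.comp (fderiv ℝ gs (zc L p0 p)))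
          (zc L p0 p) :=
        B.hasFDerivAt.comp _ ((hgs.differentiable (by simp)) _).hasFDerivAt
      exact h6.fderiv
    refine hGl.inj hp ?_
    rw [h4]
    intro v v' hv
    refine h3 ?_
    have h5 := congrArg Bl hv
    simp only [ContinuousLinearMap.comp_apply] at h5
    rw [S.BlB, S.BlB] at h5
    exact h5)
  have hset : {p | glue L p0 R (fun z => B (g2 z)) ξ p = 0} =
      zi L p0 '' {z | ‖z‖ < s / 2 ∧ gs z = 0} := by
    ext p
    constructor
    · intro h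
      obtain ⟨hp, h1, h2⟩ := hz0 p h
      exact ⟨zc L p0 p, ⟨h1, h2⟩, zi_zc hp.1⟩
    · rintro ⟨z, ⟨h1, h2⟩, rfl⟩
      have h3 : ‖z‖ < R := by linarith
      have h4 : glue L p0 R (fun z => B (g2 z)) ξ (zi L p0 z) = 0 := by
        rw [glue_in (zi_mem S.good h3), zc_zi S.good h3]
        rw [hg2]
        simp only [if_pos (show ‖z‖ < s by linarith)]
        rw [h2, map_zero]
      exact h4
  have hinj : Set.InjOn (zi L p0) {z | ‖z‖ < s / 2 ∧ gs z = 0} := by
    rintro z ⟨h1, -⟩ z' ⟨h1', -⟩ h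
    rw [← zc_zi S.good (show ‖z‖ < R by linarith), h, zc_zi S.good (show ‖z'‖ < R by linarith)]
  have hev2 := hev
  rw [hset, hinj.ncard_image, hgc, Int.natAbs_even] at hev2
  exact hev2

omit [CompactSpace M] in
theorem Setup.pair (S : Setup L p0 R s w F ξ A B Bl g) (hw : Even w) :
    ∃ F' ζ : M → R4, Imm (E := E) F' ∧ ContMDiff 𝓘(ℝ, E) 𝓘(ℝ, R4) ∞ ζ ∧
      ∀ p (v : TangentSpace 𝓘(ℝ, E) p), mfderiv 𝓘(ℝ, E) 𝓘(ℝ, R4) F' p v ≠ ζ p := by
  obtain ⟨W, ζk, hW, hζk, hWo, hζo, hWi, hne⟩ := exists_kink' S.spos hw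
  have hs0 := S.spos
  have hsR := S.slt
  have hRp := S.good.pos
  set Φ : ℂ × ℂ →L[ℝ] R4 := A.comp (ContinuousLinearMap.fst ℝ ℂ ℂ) +
    B.comp (ContinuousLinearMap.snd ℝ ℂ ℂ) with hΦ
  have hΦa : ∀ a b, Φ (a, b) = A a + B b := by
    intro a b
    simp [hΦ]
  have hAB : ∀ a b, A a = B b → b = 0 := by
    intro a b h
    have h1 := S.orth a b
    rw [h, inner_self_eq_zero] at h1
    exact S.B_inj h1
  have hΦi : Function.Injective Φ := by
    rw [injective_iff_map_eq_zero]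
    rintro ⟨a, b⟩ h
    rw [hΦa] at h
    have h1 : A a = B (-b) := by
      rw [map_neg]
      exact eq_neg_of_add_eq_zero_left h
    have h2 : b = 0 := by simpa using hAB _ _ h1
    rw [h2, neg_zero, map_zero] at h1
    have h3 : a = 0 := S.injA (by rw [h1, map_zero])
    rw [h2, h3]
    rfl
  have hF1 : GlueOK L p0 R (s / 2) (fun z => F p0 + Φ (W z)) F := by
    refine ⟨S.good, by linarith only [hsR, hs0], ?_, S.imm.sm, ?_⟩
    · exact (contDiff_const.add (Φ.contDiff.comp hW)).contDiffOn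
    · intro p hp h
      have h1 : F p0 + Φ (W (zc L p0 p)) = F p := by
        rw [hWo _ h, hΦa, map_zero, add_zero, S.flat p hp]
      exact h1
  have hζ1 : ∀ y, s / 2 ≤ ‖y‖ → (if ‖y‖ < s then Φ (ζk y) else B (g y)) = B (g y) := by
    intro y hy
    by_cases h : ‖y‖ < s
    · rw [if_pos h, hζo y hy, hΦa, map_zero, zero_add, S.gin y h]
    · rw [if_neg h]
  have hZ1 : GlueOK L p0 R (R / 2) (fun z => if ‖z‖ < s then Φ (ζk z) else B (g z)) ξ := by
    refine ⟨S.good, by linarith, ?_, S.nor.sm, ?_⟩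
    · intro z hz
      by_cases h : ‖z‖ < s
      · have e1 : (fun z => if ‖z‖ < s then Φ (ζk z) else B (g z)) =ᶠ[𝓝 z]
            fun z => Φ (ζk z) := by
          filter_upwards [(isOpen_lt continuous_norm continuous_const).mem_nhds h] with y hy
          exact if_pos hy
        exact ((Φ.contDiff.comp hζk).contDiffAt.congr_of_eventuallyEq e1).contDiffWithinAt
      · have h1 : s / 2 < ‖z‖ := by
          have := not_lt.1 h
          linarith
        have e1 : (fun z => if ‖z‖ < s then Φ (ζk z) else B (g z)) =ᶠ[𝓝 z]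
            fun z => B (g z) := by
          filter_upwards [(isOpen_lt continuous_const continuous_norm).mem_nhds h1] with y hy
          exact hζ1 y (le_of_lt hy)
        have h2 : ContDiffAt ℝ ∞ g z :=
          S.gsm.contDiffAt ((isOpen_lt continuous_norm continuous_const).mem_nhds hz)
        exact ((B.contDiff.contDiffAt.comp z h2).congr_of_eventuallyEq e1).contDiffWithinAt
    · intro p hp h
      have h1 : (if ‖zc L p0 p‖ < s then Φ (ζk (zc L p0 p)) else B (g (zc L p0 p))) = ξ p := by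
        rw [hζ1 _ (by linarith)]
        exact S.gout p hp h
      exact h1
  have hd : ∀ z, fderiv ℝ (fun z => F p0 + Φ (W z)) z = Φ.comp (fderiv ℝ W z) := by
    intro z
    have h1 : HasFDerivAt (fun z => Φ (W z)) (Φ.comp (fderiv ℝ W z)) z :=
      Φ.hasFDerivAt.comp _ ((hW.differentiable (by simp)) _).hasFDerivAt
    exact (h1.const_add (F p0)).fderiv
  refine ⟨glue L p0 R (fun z => F p0 + Φ (W z)) F,
    glue L p0 R (fun z => if ‖z‖ < s then Φ (ζk z) else B (g z)) ξ,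
    ⟨hF1.smooth, ?_⟩, hZ1.smooth, ?_⟩
  · intro p
    by_cases hp : p ∈ Dz L p0 R
    · refine hF1.inj hp ?_
      rw [hd]
      exact hΦi.comp (hWi _)
    · intro v v' hv
      exact S.imm.inj p ((hF1.mfderiv_out hp v).symm.trans (hv.trans (hF1.mfderiv_out hp v')))
  · intro p v hv0
    by_cases hp : p ∈ Dz L p0 R
    · obtain ⟨a, ha⟩ : ∃ a : ℂ, a = mfderiv 𝓘(ℝ, E) 𝓘(ℝ, ℂ) (zc L p0) p v := ⟨_, rfl⟩
      have hv : fderiv ℝ (fun z => F p0 + Φ (W z)) (zc L p0 p) a =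
          if ‖zc L p0 p‖ < s then Φ (ζk (zc L p0 p)) else B (g (zc L p0 p)) := by
        rw [ha]
        exact (hF1.mfderiv_in hp v).symm.trans (hv0.trans (glue_in hp))
      rw [hd] at hv
      by_cases h : ‖zc L p0 p‖ < s
      · rw [if_pos h] at hv
        exact hne _ _ (hΦi hv)
      · rw [if_neg h] at hv
        have h1 : s / 2 < ‖zc L p0 p‖ := by
          have := not_lt.1 h
          linarith
        have e1 : W =ᶠ[𝓝 (zc L p0 p)] fun z => (z, (0 : ℂ)) := by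
          filter_upwards [(isOpen_lt continuous_const continuous_norm).mem_nhds h1] with y hy
          exact hWo y (le_of_lt hy)
        have h2 : fderiv ℝ W (zc L p0 p) = ContinuousLinearMap.inl ℝ ℂ ℂ := by
          rw [e1.fderiv_eq]
          exact (ContinuousLinearMap.inl ℝ ℂ ℂ).fderiv
        rw [h2, ContinuousLinearMap.comp_apply, ContinuousLinearMap.inl_apply, hΦa, map_zero,
          add_zero] at hv
        have h3 := hAB _ _ hv
        refine S.gnz _ ?_ hp.2 h3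
        intro h4
        rw [h4, norm_zero] at h1
        linarith
    · have hv : mfderiv 𝓘(ℝ, E) 𝓘(ℝ, R4) F p v = ξ p :=
        (hF1.mfderiv_out hp v).symm.trans (hv0.trans (glue_out hp))
      have h1 : ⟪ξ p, ξ p⟫ = 0 := by
        have h2 := S.nor.orth p v
        rw [hv] at h2
        exact h2
      rw [inner_self_eq_zero] at h1
      exact S.nz p hp h1

end Main

end Pair

section Final

variable {E : Type*} [NormedAddCommGroup E] [NormedSpace ℝ E] [FiniteDimensional ℝ E]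
  {M : Type*} [TopologicalSpace M] [ChartedSpace E M] [IsManifold 𝓘(ℝ, E) ∞ M]
  [CompactSpace M] [T2Space M]

/-- G: immersion and nowhere tangent field on a connected closed surface -/
theorem exists_pair_connected [ConnectedSpace M] (hE : finrank ℝ E = 2) :
    ∃ F ζ : M → R4, Imm (E := E) F ∧ ContMDiff 𝓘(ℝ, E) 𝓘(ℝ, R4) ∞ ζ ∧
      ∀ p (v : TangentSpace 𝓘(ℝ, E) p), mfderiv 𝓘(ℝ, E) 𝓘(ℝ, R4) F p v ≠ ζ p := by
  obtain ⟨L, p0, R, s, w, F, ξ, A, B, Bl, g, S⟩ := Pair.exists_setup (E := E) (M := M) hE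
  exact S.pair (S.even hE)

end Final

end Vale.Agent.P205.Top
end
end

section

/-!
Block TOP of P205: every compact smooth surface has a smooth immersion into `ℝ⁴` with a smooth
unit normal field.
-/

open scoped Manifold ContDiff Topology RealInnerProductSpace
open Set Filter MeasureTheory Module

noncomputable section

namespace Vale.Agent.P205.Top

variable {E : Type*} [NormedAddCommGroup E] [NormedSpace ℝ E] [FiniteDimensional ℝ E]
  {M : Type*} [TopologicalSpace M] [ChartedSpace E M] [IsManifold 𝓘(ℝ, E) ∞ M]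
  [CompactSpace M] [T2Space M]

/-- **TOP** -/
theorem exists_imm_unitNormal (hE : finrank ℝ E = 2) :
    ∃ F q : M → R4, Imm (E := E) F ∧ Nor (E := E) F q ∧ ∀ p, ‖q p‖ = 1 := by
  refine exists_imm_unitNormal_of (E := E) (M := M) ?_
  intro N _ _ _ _ _ _
  obtain ⟨F, ζ, hF, hζ, h⟩ := exists_pair_connected (E := E) (M := N) hE
  obtain ⟨q, hq, hn⟩ := unit_of_transversal (E := E) (M := N) hF hζ h
  exact ⟨F, q, hF, hq, hn⟩

end Vale.Agent.P205.Top
end
end
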