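import Mathlib
import Vale.Agent.P205.Bdl.B1
import Vale.Agent.P205.Bdl.B3
import Vale.Agent.P205.Bdl.B2

set_option linter.all false

section

/-!
Completeness of the differential function space of a compact manifold.
-/

noncomputable section

set_option linter.unusedSectionVars false
set_option linter.deprecated false

open scoped Manifold ContDiff Topology
open Set Filter

namespace Vale.Agent.P205.F

section asm

variable {E : Type*} [NormedAddCommGroup E] [NormedSpace ℝ E] [FiniteDimensional ℝ E]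
  {A : Type*} [Fintype A] (b : Module.Basis A ℝ E)

/-- assembling a covector from its values on a basis -/
def asm : (A → ℂ) →L[ℝ] (E →L[ℝ] ℂ) :=
  ∑ a, ((ContinuousLinearMap.smulRightL ℝ E ℂ)
    (LinearMap.toContinuousLinearMap (b.coord a))).comp (ContinuousLinearMap.proj a)

theorem asm_apply (z : A → ℂ) (v : E) : asm b z v = ∑ a, b.coord a v • z a := by
  unfold asm
  rw [ContinuousLinearMap.sum_apply, ContinuousLinearMap.sum_apply]
  rfl

theorem asm_basis (z : A → ℂ) (a : A) : asm b z (b a) = z a := by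
  classical
  rw [asm_apply, Finset.sum_eq_single a]
  · simp
  · intro a' _ h
    rw [Module.Basis.coord_apply, b.repr_self, Finsupp.single_eq_of_ne h, zero_smul]
  · intro h
    exact absurd (Finset.mem_univ a) h

theorem asm_eq (T : E →L[ℝ] ℂ) : asm b (fun a => T (b a)) = T := by
  apply ContinuousLinearMap.coe_injective
  refine b.ext fun a => ?_
  exact asm_basis b _ a

end asm

namespace Cov

variable {E : Type*} [NormedAddCommGroup E] [NormedSpace ℝ E] [FiniteDimensional ℝ E]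
  {M : Type*} [TopologicalSpace M] [ChartedSpace E M] [IsManifold 𝓘(ℝ, E) ∞ M]
  (K : Cov E M) {A : Type*} [Fintype A] (b : Module.Basis A ℝ E)

/-- the image of `V i` in the chart -/
def O (i : Fin K.n) : Set E := (K.ph i).target ∩ (K.ph i).symm ⁻¹' K.V i

theorem isOpen_O (i : Fin K.n) : IsOpen (K.O i) :=
  (continuousOn_extChartAt_symm (K.c i)).isOpen_inter_preimage (K.isOpen_target i) (K.opn i)

theorem fderiv_O {u : M → ℂ} (hu : ContMDiff 𝓘(ℝ, E) 𝓘(ℝ, ℂ) ∞ u) {i : Fin K.n} {y : E}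
    (hy : y ∈ K.O i) : HasFDerivAt (u ∘ (K.ph i).symm)
      (asm b fun a => K.Dv b (i, a) u ((K.ph i).symm y)) y := by
  have h1 : (K.ph i).symm y ∈ (K.ph i).source := (K.ph i).map_target hy.1
  have h2 := K.differentiableAt_symm hu h1
  have h3 : (fun a => K.Dv b (i, a) u ((K.ph i).symm y)) =
      fun a => fderiv ℝ (u ∘ (K.ph i).symm) y (b a) := by
    funext a
    rw [K.Dv_V b hy.2, (K.ph i).right_inv hy.1]
  rw [(K.ph i).right_inv hy.1] at h2
  rw [h3, asm_eq]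
  exact h2.hasFDerivAt

variable {g : List (Fin K.n × A) → M → ℂ} {f : List (Fin K.n × A) → ℕ → M → ℂ}

/-- the limit of the derivatives is the derivative of the limit -/
theorem hasFDerivAt_lim (hf : ∀ w q, ContMDiff 𝓘(ℝ, E) 𝓘(ℝ, ℂ) ∞ (f w q))
    (hD : ∀ w q j, f (j :: w) q = K.Dv b j (f w q))
    (hg : ∀ w, TendstoUniformly (f w) (g w) atTop) (w : List (Fin K.n × A)) {i : Fin K.n} {y : E}
    (hy : y ∈ K.O i) : HasFDerivAt (g w ∘ (K.ph i).symm)
      (asm b fun a => g ((i, a) :: w) ((K.ph i).symm y)) y := by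
  have h1 : TendstoUniformly (fun q p => (fun a => f ((i, a) :: w) q p))
      (fun p a => g ((i, a) :: w) p) atTop := by
    rw [Metric.tendstoUniformly_iff]
    intro ε hε
    have h2 : ∀ a, ∀ᶠ q in atTop, ∀ p, dist (g ((i, a) :: w) p) (f ((i, a) :: w) q p) < ε :=
      fun a => Metric.tendstoUniformly_iff.1 (hg ((i, a) :: w)) ε hε
    filter_upwards [eventually_all.2 h2] with q hq p
    rw [dist_pi_lt_iff hε]
    exact fun a => hq a p
  have h3 := ((asm b).uniformContinuous.comp_tendstoUniformly h1).comp (K.ph i).symm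
  refine hasFDerivAt_of_tendstoUniformlyOn (K.isOpen_O i) (f := fun q => f w q ∘ (K.ph i).symm)
    (f' := fun q y => asm b fun a => f ((i, a) :: w) q ((K.ph i).symm y))
    (g' := fun y => asm b fun a => g ((i, a) :: w) ((K.ph i).symm y))
    h3.tendstoUniformlyOn ?_ ?_ hy
  · intro q x hx
    have h4 := K.fderiv_O b (hf w q) hx
    simp only [hD]
    exact h4
  · intro x _
    exact (hg w).tendsto_at _

theorem contMDiff_lim (hf : ∀ w q, ContMDiff 𝓘(ℝ, E) 𝓘(ℝ, ℂ) ∞ (f w q))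
    (hD : ∀ w q j, f (j :: w) q = K.Dv b j (f w q))
    (hg : ∀ w, TendstoUniformly (f w) (g w) atTop) (n : ℕ) :
    ∀ w, ContMDiff 𝓘(ℝ, E) 𝓘(ℝ, ℂ) n (g w) := by
  induction n with
  | zero =>
    intro w
    rw [Nat.cast_zero, contMDiff_zero_iff]
    exact (hg w).continuous (Frequently.of_forall fun q => (hf w q).continuous)
  | succ n ih =>
    intro w p
    obtain ⟨i, hi⟩ := K.cov p
    have hpo : K.ph i p ∈ K.O i := by
      refine ⟨(K.ph i).map_source (K.V_sub i hi), ?_⟩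
      rw [mem_preimage, (K.ph i).left_inv (K.V_sub i hi)]
      exact hi
    have h1 : ContDiffOn ℝ (n + 1) (g w ∘ (K.ph i).symm) (K.O i) := by
      rw [contDiffOn_succ_iff_fderiv_of_isOpen (K.isOpen_O i)]
      refine ⟨fun y hy => (K.hasFDerivAt_lim b hf hD hg w hy).differentiableAt.differentiableWithinAt,
        by simp, ?_⟩
      have h2 : ContDiffOn ℝ n (fun y => asm b fun a => g ((i, a) :: w) ((K.ph i).symm y))
          (K.O i) := by
        refine (asm b).contDiff.comp_contDiffOn (contDiffOn_pi.2 fun a => ?_)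
        rw [← contMDiffOn_iff_contDiffOn]
        refine (ih ((i, a) :: w)).comp_contMDiffOn ((contMDiffOn_extChartAt_symm (K.c i)).mono ?_)
        exact inter_subset_left
      exact h2.congr fun y hy => (K.hasFDerivAt_lim b hf hD hg w hy).fderiv
    have h2 : ContDiffAt ℝ (n + 1) (g w ∘ (K.ph i).symm) (K.ph i p) :=
      h1.contDiffAt ((K.isOpen_O i).mem_nhds hpo)
    have h3 : ContMDiffAt 𝓘(ℝ, E) 𝓘(ℝ, ℂ) (n + 1) ((g w ∘ (K.ph i).symm) ∘ K.ph i) p := by
      refine h2.contMDiffAt.comp p ?_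
      have hp : p ∈ (chartAt E (K.c i)).source := by
        rw [← extChartAt_source 𝓘(ℝ, E)]
        exact K.V_sub i hi
      exact (contMDiffAt_extChartAt' (n := ∞) hp).of_le (by
        exact_mod_cast le_top)
    push_cast
    refine h3.congr_of_eventuallyEq ?_
    filter_upwards [(K.isOpen_source i).mem_nhds (K.V_sub i hi)] with x hx
    simp only [Function.comp_apply, (K.ph i).left_inv hx]

theorem complete [CompactSpace M] : (K.dalg b).Complete := by
  intro u hu hk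
  have h1 : ∀ w : List (Fin K.n × A), ∃ g : M → ℂ,
      TendstoUniformly (fun q => (K.dalg b).wd w (u q)) g atTop := by
    intro w
    obtain ⟨c, hc, q0, hq⟩ := hk w.length
    refine inst_unif hc (q0 := q0) fun q hq0 p => ?_
    have h2 := hq q hq0 w le_rfl p
    rw [(K.dalg b).wd_sub w (hu _) (hu _)] at h2
    exact h2
  choose g hg using h1
  have hf : ∀ w q, ContMDiff 𝓘(ℝ, E) 𝓘(ℝ, ℂ) ∞ ((K.dalg b).wd w (u q)) := fun w q =>
    (K.dalg b).sm_wd w (hu q)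
  have hD : ∀ w q j, (K.dalg b).wd (j :: w) (u q) = K.Dv b j ((K.dalg b).wd w (u q)) :=
    fun w q j => rfl
  have hsm : ∀ w, ContMDiff 𝓘(ℝ, E) 𝓘(ℝ, ℂ) ∞ (g w) := fun w =>
    contMDiff_infty.2 fun n => K.contMDiff_lim b hf hD hg n w
  have hgD : ∀ w j, K.Dv b j (g w) = g (j :: w) := by
    intro w j
    funext p
    obtain ⟨i, hi⟩ := K.cov p
    obtain ⟨c, hc⟩ := K.Dv_span (F := ℂ) b hi (K.X b j p)
    have h3 : ∀ a, K.Dv b (i, a) (g w) p = g ((i, a) :: w) p := by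
      intro a
      have hps := K.V_sub i hi
      have hpo : K.ph i p ∈ K.O i := by
        refine ⟨(K.ph i).map_source hps, ?_⟩
        rw [mem_preimage, (K.ph i).left_inv hps]
        exact hi
      rw [K.Dv_V b hi, (K.hasFDerivAt_lim b hf hD hg w hpo).fderiv, asm_basis,
        (K.ph i).left_inv hps]
    have h4 : K.Dv b j (g w) p = ∑ a, c a • g ((i, a) :: w) p := by
      rw [K.Dv_eq b (hsm w), hc (hsm w)]
      exact Finset.sum_congr rfl fun a _ => by rw [h3]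
    have h5 : Tendsto (fun q => (K.dalg b).wd (j :: w) (u q) p) atTop
        (𝓝 (∑ a, c a • g ((i, a) :: w) p)) := by
      have h6 : (fun q => (K.dalg b).wd (j :: w) (u q) p) =
          fun q => ∑ a, c a • (K.dalg b).wd ((i, a) :: w) (u q) p := by
        funext q
        rw [hD, K.Dv_eq b (hf w q), hc (hf w q)]
        rfl
      rw [h6]
      exact tendsto_finsetSum _ fun a _ => ((hg ((i, a) :: w)).tendsto_at p).const_smul _
    rw [h4]
    exact tendsto_nhds_unique h5 ((hg (j :: w)).tendsto_at p)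
  have hwd : ∀ w, (K.dalg b).wd w (g []) = g w := by
    intro w
    induction w with
    | nil => rfl
    | cons j w ih =>
      change K.Dv b j ((K.dalg b).wd w (g [])) = _
      rw [ih, hgD]
  refine ⟨g [], hsm [], fun w p => ?_⟩
  rw [hwd]
  exact (hg w).tendsto_at p

end Cov

end Vale.Agent.P205.F
end
end

section

/-!
Smoothing operators for a differential function space with finitely many charts (P205), part B.
-/

open MeasureTheory Set Function
open scoped ContDiff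

noncomputable section

namespace Vale.Agent.P205.F

variable {P κ : Type*} (S : DAlg P κ)

/-- Localisation of a differential function space in finitely many Euclidean charts:
`down i u` is the function `χ i * u` read in the chart `i`, and `up i g` is the function
`χ' i * (g ∘ chart i)`, where `χ' i = 1` on the support of `χ i` and `∑ i, χ i = 1`. -/
structure DAlg.Charts (E : Type*) [NormedAddCommGroup E] [NormedSpace ℝ E] {A : Type*}
    (b : A → E) where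
  /-- index of the charts -/
  ι : Type
  /-- finitely many -/
  fin : Fintype ι
  /-- localisation -/
  down : ι → (P → ℂ) → (E → ℂ)
  /-- globalisation -/
  up : ι → (E → ℂ) → (P → ℂ)
  down_cc : ∀ i {u}, S.Sm u → Cc (down i u)
  down_real : ∀ i {u}, S.Sm u → Rl u → ∀ x, (down i u x).im = 0
  down_nb : ∀ i k, ∃ C : ℝ, 0 ≤ C ∧ ∀ B u, 0 ≤ B → S.Sm u → S.Nb k B u →
    EN b k (C * B) (down i u)
  up_sm : ∀ i {g}, Cc g → S.Sm (up i g)
  up_real : ∀ i {g}, Cc g → (∀ x, (g x).im = 0) → Rl (up i g)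
  up_nb : ∀ i k, ∃ C : ℝ, 0 ≤ C ∧ ∀ B g, Cc g → EN b k B g → S.Nb k (C * B) (up i g)
  up_sub : ∀ i {g g'}, Cc g → Cc g' → up i (g - g') = up i g - up i g'
  sum_eq : ∀ {u}, S.Sm u → ∑ i, up i (down i u) = u

variable {S}

theorem DAlg.Nb.sum {ι : Type*} (s : Finset ι) {u : ι → P → ℂ} (hu : ∀ i ∈ s, S.Sm (u i))
    {k : ℕ} {B : ι → ℝ} (hB : ∀ i ∈ s, S.Nb k (B i) (u i)) :
    S.Nb k (∑ i ∈ s, B i) (∑ i ∈ s, u i) := by
  intro w hw p
  rw [S.wd_sum w hu, Finset.sum_apply]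
  exact (norm_sum_le _ _).trans (Finset.sum_le_sum fun i hi => hB i hi w hw p)

theorem DAlg.Nb.mono' {k k' : ℕ} {B B' : ℝ} {u : P → ℂ} (h : S.Nb k B u) (hk : k' ≤ k)
    (hB : B ≤ B') : S.Nb k' B' u :=
  fun w hw p => (h w (hw.trans hk) p).trans hB

/-- Smoothing operators exist as soon as there is a finite system of charts. -/
theorem DAlg.Charts.smoothing {E : Type*} [NormedAddCommGroup E] [NormedSpace ℝ E]
    [FiniteDimensional ℝ E] {A : Type*} [Fintype A] (b : Module.Basis A ℝ E)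
    (c : S.Charts E b) (m : ℕ) : Nonempty (S.Smoothing m) := by
  classical
  let _ : MeasurableSpace E := borel E
  have _ : BorelSpace E := ⟨rfl⟩
  let μ : Measure E := Measure.addHaar
  let _ := c.fin
  obtain ⟨ψ, hψ, h0, h1, h1', hs⟩ := exists_bump E μ
  -- the operator
  let T : ℝ → (P → ℂ) → (P → ℂ) := fun θ u => ∑ i, c.up i (smo μ ψ θ⁻¹ m (c.down i u))
  have hθ : ∀ {θ : ℝ}, 1 ≤ θ → 0 < θ⁻¹ := fun h => inv_pos.2 (by linarith)
  have hcc : ∀ i {θ : ℝ} {u : P → ℂ}, 1 ≤ θ → S.Sm u →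
      Cc (smo μ ψ θ⁻¹ m (c.down i u)) := fun i θ u h hu => smo_cc μ hψ (hθ h) m (c.down_cc i hu)
  have hsub : ∀ {θ : ℝ} {u : P → ℂ}, 1 ≤ θ → S.Sm u →
      u - T θ u = ∑ i, c.up i (c.down i u - smo μ ψ θ⁻¹ m (c.down i u)) := by
    intro θ u h hu
    have h2 : ∀ i, c.up i (c.down i u - smo μ ψ θ⁻¹ m (c.down i u)) =
        c.up i (c.down i u) - c.up i (smo μ ψ θ⁻¹ m (c.down i u)) :=
      fun i => c.up_sub i (c.down_cc i hu) (hcc i h hu)
    simp_rw [h2]
    rw [Finset.sum_sub_distrib, c.sum_eq hu]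
  -- constants for the gain
  have hgain : ∀ l, ∃ C : ℝ, 0 ≤ C ∧ ∀ {k : ℕ} {θ B : ℝ} {u : P → ℂ}, k ≤ l → 1 ≤ θ → S.Sm u →
      S.Nb k B u → S.Nb l (C * θ ^ (l - k) * B) (T θ u) := by
    intro l
    have hd : ∀ i, ∃ C : ℝ, 0 ≤ C ∧ ∀ k ≤ l, ∀ B u, 0 ≤ B → S.Sm u → S.Nb k B u →
        EN b k (C * B) (c.down i u) := by
      intro i
      choose C hC0 hC using c.down_nb i
      refine ⟨∑ k ∈ Finset.range (l + 1), C k, Finset.sum_nonneg fun k _ => hC0 k,
        fun k hk B u hB hu hN => ?_⟩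
      refine (hC k B u hB hu hN).mono le_rfl ?_
      exact mul_le_mul_of_nonneg_right
        (Finset.single_le_sum (fun k _ => hC0 k) (Finset.mem_range.2 (by omega))) hB
    choose C₁ hC₁0 hC₁ using hd
    obtain ⟨C₂, hC₂0, hC₂⟩ := smo_gain μ (b : A → E) hψ h1' m l
    choose C₃ hC₃0 hC₃ using fun i => c.up_nb i l
    refine ⟨∑ i, C₃ i * C₂ * C₁ i, Finset.sum_nonneg fun i _ => by
      have := hC₁0 i; have := hC₃0 i; positivity, ?_⟩
    intro k θ B u hkl h hu hN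
    rcases isEmpty_or_nonempty P with hP | ⟨⟨p₀⟩⟩
    · intro w _ p
      exact (hP.false p).elim
    have hB : 0 ≤ B := (norm_nonneg _).trans (hN [] (by simp) p₀)
    have h2 := DAlg.Nb.sum (S := S) Finset.univ (u := fun i =>
        c.up i (smo μ ψ θ⁻¹ m (c.down i u))) (fun i _ => c.up_sm i (hcc i h hu)) (k := l)
      (B := fun i => C₃ i * (C₂ * (θ⁻¹)⁻¹ ^ (l - k) * (C₁ i * B))) (fun i _ => by
        refine hC₃ i _ _ (hcc i h hu) ?_
        exact hC₂ k _ _ _ hkl (hθ h) (inv_le_one_of_one_le₀ h) (c.down_cc i hu)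
          (hC₁ i k hkl B u hB hu hN))
    refine h2.mono' le_rfl (le_of_eq ?_)
    rw [inv_inv, Finset.sum_mul, Finset.sum_mul]
    refine Finset.sum_congr rfl fun i _ => by ring
  have happr : ∀ k, ∃ C : ℝ, 0 ≤ C ∧ ∀ {θ B : ℝ} {u : P → ℂ}, 1 ≤ θ → S.Sm u →
      S.Nb (k + m) B u → S.Nb k (C * (θ ^ m)⁻¹ * B) (u - T θ u) := by
    intro k
    choose C₁ hC₁0 hC₁ using fun i => c.down_nb i (k + m)
    obtain ⟨C₂, hC₂0, hC₂⟩ := smo_appr μ b hψ h0 h1 hs m
    choose C₃ hC₃0 hC₃ using fun i => c.up_nb i k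
    refine ⟨∑ i, C₃ i * C₂ * C₁ i, Finset.sum_nonneg fun i _ => by
      have := hC₁0 i; have := hC₃0 i; positivity, ?_⟩
    intro θ B u h hu hN
    rcases isEmpty_or_nonempty P with hP | ⟨⟨p₀⟩⟩
    · intro w _ p
      exact (hP.false p).elim
    have hB : 0 ≤ B := (norm_nonneg _).trans (hN [] (by simp) p₀)
    rw [hsub h hu]
    have h2 := DAlg.Nb.sum (S := S) Finset.univ (u := fun i =>
        c.up i (c.down i u - smo μ ψ θ⁻¹ m (c.down i u)))
        (fun i _ => c.up_sm i ((c.down_cc i hu).sub (hcc i h hu))) (k := k)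
      (B := fun i => C₃ i * (C₂ * θ⁻¹ ^ m * (C₁ i * B))) (fun i _ => by
        refine hC₃ i _ _ ((c.down_cc i hu).sub (hcc i h hu)) ?_
        exact hC₂ k _ _ _ (hθ h) (c.down_cc i hu) (hC₁ i B u hB hu hN))
    refine h2.mono' le_rfl (le_of_eq ?_)
    rw [inv_pow, Finset.sum_mul, Finset.sum_mul]
    refine Finset.sum_congr rfl fun i _ => by ring
  choose Cg hCg0 hCg using hgain
  choose Ca hCa0 hCa using happr
  refine ⟨{
    T := T
    C := fun l => Cg l + Ca l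
    sm := fun h hu => S.sm_sum fun i _ => c.up_sm i (hcc i h hu)
    real := fun h hu hr p => ?_
    gain := fun {k l θ B u} hkl h hu hN => ?_
    appr := fun {k θ B u} h hu hN => ?_ }⟩
  · simp only [T, Finset.sum_apply, Complex.im_sum]
    exact Finset.sum_eq_zero fun i _ => c.up_real i (hcc i h hu)
      (smo_real μ ψ _ m (c.down_real i hu hr)) p
  · rcases isEmpty_or_nonempty P with hP | ⟨⟨p₀⟩⟩
    · intro w _ p
      exact (hP.false p).elim
    have hB : 0 ≤ B := (norm_nonneg _).trans (hN [] (by simp) p₀)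
    have hθ0 : 0 ≤ θ := by linarith
    refine (hCg l hkl h hu hN).mono' le_rfl ?_
    have := hCa0 l
    gcongr
    linarith
  · rcases isEmpty_or_nonempty P with hP | ⟨⟨p₀⟩⟩
    · intro w _ p
      exact (hP.false p).elim
    have hB : 0 ≤ B := (norm_nonneg _).trans (hN [] (by simp) p₀)
    have hθ0 : 0 ≤ θ := by linarith
    refine (hCa k h hu hN).mono' le_rfl ?_
    have := hCg0 k
    gcongr
    linarith

end Vale.Agent.P205.F
end
end

section

/-!
The differential function space of a two sheeted cover (P205, full question, BP-COVER).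

`Line S I`: a smooth line field in `ℝ⁴` over the points of `S`, given by the relation `ok p n`
(`n` is a unit vector of the line at `p`) and local smooth unit sections `m i` on `V i`.
`L.Pt`: the pairs `(p, n)`, `L.sg`: the involution, `L.cover`: the differential function space.
-/

open scoped ContDiff

noncomputable section

namespace Vale.Agent.P205.TW

open Vale.Agent.P205.F

variable {P κ I : Type*}

/-- a line field in `ℝ⁴` with local smooth unit sections -/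
structure Line (S : DAlg P κ) (I : Type*) where
  /-- the regions of the local sections -/
  V : I → Set P
  cov : ∀ p, ∃ i, p ∈ V i
  locD : ∀ (i : I) (j : κ) (u v : P → ℂ), (∀ p ∈ V i, u p = v p) →
    ∀ p ∈ V i, S.D j u p = S.D j v p
  locS : ∀ u : P → ℂ, (∀ i, ∃ v, S.Sm v ∧ ∀ p ∈ V i, u p = v p) → S.Sm u
  /-- the local sections -/
  m : I → Fin 4 → P → ℂ
  smm : ∀ i k, S.Sm (m i k)
  rm : ∀ i k p, (m i k p).im = 0
  unit : ∀ i, ∀ p ∈ V i, ∑ k, m i k p * m i k p = 1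
  /-- `n` is a unit vector of the line at `p` -/
  ok : P → (Fin 4 → ℝ) → Prop
  ok_iff : ∀ i, ∀ p ∈ V i, ∀ n, ok p n ↔
    (∀ k, ((n k : ℝ) : ℂ) = m i k p) ∨ (∀ k, ((n k : ℝ) : ℂ) = - m i k p)
  ex : ∀ p, ∃ n, ok p n

namespace Line

variable {S : DAlg P κ} (L : Line S I)

/-- the points of the cover -/
def Pt : Type _ := {x : P × (Fin 4 → ℝ) // L.ok x.1 x.2}

/-- the projection -/
def pi (x : L.Pt) : P := x.1.1

/-- the unit vector -/
def n (k : Fin 4) (x : L.Pt) : ℂ := ((x.1.2 k : ℝ) : ℂ)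

variable {L}

lemma ok_neg {p : P} {n : Fin 4 → ℝ} (h : L.ok p n) : L.ok p (-n) := by
  obtain ⟨i, hi⟩ := L.cov p
  rw [L.ok_iff i p hi] at h ⊢
  rcases h with h | h
  · right; intro k; rw [Pi.neg_apply, Complex.ofReal_neg, h k]
  · left; intro k; rw [Pi.neg_apply, Complex.ofReal_neg, h k, neg_neg]

variable (L)

/-- the involution -/
def sg (x : L.Pt) : L.Pt := ⟨(x.1.1, -x.1.2), ok_neg x.2⟩

variable {L}

lemma sg_sg (x : L.Pt) : L.sg (L.sg x) = x := by
  apply Subtype.ext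
  simp [sg]

lemma pi_sg (x : L.Pt) : L.pi (L.sg x) = L.pi x := rfl

lemma n_sg (k : Fin 4) (x : L.Pt) : L.n k (L.sg x) = -L.n k x := by
  simp [n, sg]

lemma eq_or {x y : L.Pt} (h : L.pi x = L.pi y) : y = x ∨ y = L.sg x := by
  obtain ⟨i, hi⟩ := L.cov x.1.1
  have hp : x.1.1 = y.1.1 := h
  have hi' : y.1.1 ∈ L.V i := by rw [← hp]; exact hi
  have hx := (L.ok_iff i _ hi _).1 x.2
  have hy := (L.ok_iff i _ hi' _).1 y.2
  rw [← hp] at hy
  have same : (∀ k, ((y.1.2 k : ℝ) : ℂ) = ((x.1.2 k : ℝ) : ℂ)) → y = x := fun h1 =>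
    Subtype.ext (Prod.ext hp.symm (funext fun k => by exact_mod_cast h1 k))
  have opp : (∀ k, ((y.1.2 k : ℝ) : ℂ) = -((x.1.2 k : ℝ) : ℂ)) → y = L.sg x := fun h1 =>
    Subtype.ext (Prod.ext hp.symm (funext fun k => by
      show y.1.2 k = (-x.1.2) k
      rw [Pi.neg_apply]
      exact_mod_cast h1 k))
  rcases hx with hx | hx <;> rcases hy with hy | hy
  · exact Or.inl (same fun k => by rw [hy k, hx k])
  · exact Or.inr (opp fun k => by rw [hy k, hx k])
  · exact Or.inr (opp fun k => by rw [hy k, hx k, neg_neg])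
  · exact Or.inl (same fun k => by rw [hy k, hx k])

lemma n_unit (x : L.Pt) : ∑ k, L.n k x * L.n k x = 1 := by
  obtain ⟨i, hi⟩ := L.cov (L.pi x)
  have hx := (L.ok_iff i _ hi _).1 x.2
  rw [← L.unit i _ hi]
  refine Finset.sum_congr rfl fun k _ => ?_
  rcases hx with hx | hx
  · rw [n, hx k]
  · rw [n, hx k, neg_mul_neg]

variable (L)

/-- a point over `p` -/
def s0 (p : P) : L.Pt := ⟨(p, Classical.choose (L.ex p)), Classical.choose_spec (L.ex p)⟩

variable {L}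

lemma pi_s0 (p : P) : L.pi (L.s0 p) = p := rfl

variable (L)

/-- the even part -/
def ev (u : L.Pt → ℂ) (p : P) : ℂ := (u (L.s0 p) + u (L.sg (L.s0 p))) / 2

/-- the odd part, as a vector -/
def od (u : L.Pt → ℂ) (k : Fin 4) (p : P) : ℂ :=
  (u (L.s0 p) - u (L.sg (L.s0 p))) / 2 * L.n k (L.s0 p)

variable {L}

lemma ev_pi (u : L.Pt → ℂ) (x : L.Pt) : L.ev u (L.pi x) = (u x + u (L.sg x)) / 2 := by
  rcases eq_or (L := L) (x := L.s0 (L.pi x)) (y := x) (pi_s0 _) with h | h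
  · rw [ev, ← h]
  · have h' : L.sg x = L.s0 (L.pi x) := by rw [h, sg_sg]; rfl
    rw [ev, h', ← h, add_comm]

lemma od_pi (u : L.Pt → ℂ) (k : Fin 4) (x : L.Pt) :
    L.od u k (L.pi x) = (u x - u (L.sg x)) / 2 * L.n k x := by
  rcases eq_or (L := L) (x := L.s0 (L.pi x)) (y := x) (pi_s0 _) with h | h
  · rw [od, ← h]
  · have h' : L.sg x = L.s0 (L.pi x) := by rw [h, sg_sg]; rfl
    have h2 : L.n k (L.s0 (L.pi x)) = - L.n k x := by rw [← h', n_sg]
    rw [od, h2, ← h, h']; ring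

/-- decomposition -/
lemma decomp (u : L.Pt → ℂ) (x : L.Pt) :
    u x = L.ev u (L.pi x) + ∑ k, L.od u k (L.pi x) * L.n k x := by
  rw [ev_pi]
  simp_rw [od_pi]
  have h := n_unit x
  rw [Fin.sum_univ_four] at h ⊢
  linear_combination (-(u x - u (L.sg x)) / 2) * h

/-- the even and odd parts of an explicit function -/
lemma ev_of {u : L.Pt → ℂ} {a : P → ℂ} {b : Fin 4 → P → ℂ}
    (h : ∀ x, u x = a (L.pi x) + ∑ k, b k (L.pi x) * L.n k x) : L.ev u = a := by
  funext p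
  rw [ev, h, h, pi_sg, pi_s0]
  simp_rw [n_sg]
  simp only [mul_neg, Finset.sum_neg_distrib]
  ring

lemma od_of {u : L.Pt → ℂ} {a : P → ℂ} {b : Fin 4 → P → ℂ}
    (h : ∀ x, u x = a (L.pi x) + ∑ k, b k (L.pi x) * L.n k x) (k : Fin 4) :
    L.od u k = fun p => ∑ l, b l p * (L.n l (L.s0 p) * L.n k (L.s0 p)) := by
  funext p
  rw [od, h, h, pi_sg, pi_s0]
  simp_rw [n_sg]
  simp only [mul_neg, Finset.sum_neg_distrib]
  rw [Fin.sum_univ_four, Fin.sum_univ_four]
  ring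

variable (L)

/-- the projection matrix of the line -/
def N (l k : Fin 4) (p : P) : ℂ := L.n l (L.s0 p) * L.n k (L.s0 p)

variable {L}

lemma N_pi (l k : Fin 4) (x : L.Pt) : L.N l k (L.pi x) = L.n l x * L.n k x := by
  rcases eq_or (L := L) (x := L.s0 (L.pi x)) (y := x) (pi_s0 _) with h | h
  · rw [N, ← h]
  · have h' : L.sg x = L.s0 (L.pi x) := by rw [h, sg_sg]; rfl
    rw [N, ← h', n_sg, n_sg]; ring

/-- the lift of a point of `V i` on the sheet of `m i` -/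
lemma exists_lift {i : I} {p : P} (hp : p ∈ L.V i) :
    ∃ x : L.Pt, L.pi x = p ∧ ∀ k, L.n k x = L.m i k p := by
  have h := (L.ok_iff i p hp _).1 (L.s0 p).2
  rcases h with h | h
  · exact ⟨L.s0 p, rfl, h⟩
  · refine ⟨L.sg (L.s0 p), rfl, fun k => ?_⟩
    rw [n_sg, n, h k, neg_neg]

lemma sm_N (l k : Fin 4) : S.Sm (L.N l k) := by
  refine L.locS _ fun i => ⟨L.m i l * L.m i k, S.sm_mul (L.smm i l) (L.smm i k), fun p hp => ?_⟩
  obtain ⟨x, hx, hn⟩ := exists_lift hp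
  rw [← hx, N_pi, hn, hn, hx]; rfl

variable (S) in
lemma sm_sum3 {f : Fin 4 → P → ℂ} (h : ∀ k, S.Sm (f k)) : S.Sm (fun p => ∑ k, f k p) := by
  have : (fun p => ∑ k, f k p) = f 0 + f 1 + f 2 + f 3 := by
    funext p; rw [Fin.sum_univ_four]; rfl
  rw [this]; exact S.sm_add (S.sm_add (S.sm_add (h 0) (h 1)) (h 2)) (h 3)

variable (S) in
lemma D_sum3 {f : Fin 4 → P → ℂ} (h : ∀ k, S.Sm (f k)) (j : κ) (p : P) :
    S.D j (fun p => ∑ k, f k p) p = ∑ k, S.D j (f k) p := by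
  have : (fun p => ∑ k, f k p) = f 0 + f 1 + f 2 + f 3 := by
    funext p; rw [Fin.sum_univ_four]; rfl
  rw [this, S.D_add j (S.sm_add (S.sm_add (h 0) (h 1)) (h 2)) (h 3),
    S.D_add j (S.sm_add (h 0) (h 1)) (h 2), S.D_add j (h 0) (h 1), Fin.sum_univ_four]
  rfl

variable (L)

/-- smooth functions on the cover -/
def Smc (u : L.Pt → ℂ) : Prop := S.Sm (L.ev u) ∧ ∀ k, S.Sm (L.od u k)

/-- derivations on the cover -/
def Dc (j : κ) (u : L.Pt → ℂ) (x : L.Pt) : ℂ :=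
  S.D j (L.ev u) (L.pi x) + ∑ k, S.D j (L.od u k) (L.pi x) * L.n k x

variable {L}

/-- smoothness of an explicit function -/
lemma smc_of {u : L.Pt → ℂ} {a : P → ℂ} {b : Fin 4 → P → ℂ} (ha : S.Sm a) (hb : ∀ k, S.Sm (b k))
    (h : ∀ x, u x = a (L.pi x) + ∑ k, b k (L.pi x) * L.n k x) : L.Smc u := by
  refine ⟨?_, fun k => ?_⟩
  · rw [ev_of h]; exact ha
  · rw [od_of h]
    exact sm_sum3 S fun l => S.sm_mul (hb l) (sm_N l k)

lemma sum_congr3 {f g : Fin 4 → ℂ} (h : ∀ k, f k = g k) : ∑ k, f k = ∑ k, g k :=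
  Finset.sum_congr rfl fun k _ => h k

lemma ev_mul (u v : L.Pt → ℂ) : L.ev (u * v) =
    L.ev u * L.ev v + (fun p => ∑ k, L.od u k p * L.od v k p) := by
  funext p
  have h := n_unit (L.s0 p)
  simp only [ev, od, Pi.mul_apply, Pi.add_apply]
  rw [Fin.sum_univ_four] at h ⊢
  linear_combination (-(u (L.s0 p) - u (L.sg (L.s0 p))) * (v (L.s0 p) - v (L.sg (L.s0 p))) / 4) * h

lemma od_mul (u v : L.Pt → ℂ) (k : Fin 4) : L.od (u * v) k =
    L.ev u * L.od v k + L.od u k * L.ev v := by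
  funext p
  simp only [ev, od, Pi.mul_apply, Pi.add_apply]
  ring

lemma ev_add (u v : L.Pt → ℂ) : L.ev (u + v) = L.ev u + L.ev v := by
  funext p; simp only [ev, Pi.add_apply]; ring

lemma od_add (u v : L.Pt → ℂ) (k : Fin 4) : L.od (u + v) k = L.od u k + L.od v k := by
  funext p; simp only [od, Pi.add_apply]; ring

lemma conj_n (k : Fin 4) (x : L.Pt) : (starRingEnd ℂ) (L.n k x) = L.n k x :=
  Complex.conj_ofReal _

lemma ev_conj (u : L.Pt → ℂ) : L.ev (fun x => (starRingEnd ℂ) (u x)) =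
    fun p => (starRingEnd ℂ) (L.ev u p) := by
  funext p
  have h2 : (starRingEnd ℂ) (2 : ℂ) = 2 := map_ofNat _ 2
  simp only [ev, map_div₀, map_add, h2]

lemma od_conj (u : L.Pt → ℂ) (k : Fin 4) : L.od (fun x => (starRingEnd ℂ) (u x)) k =
    fun p => (starRingEnd ℂ) (L.od u k p) := by
  funext p
  have h2 : (starRingEnd ℂ) (2 : ℂ) = 2 := map_ofNat _ 2
  simp only [od, map_div₀, map_sub, map_mul, h2, conj_n]

lemma im_n (k : Fin 4) (x : L.Pt) : (L.n k x).im = 0 := Complex.ofReal_im _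

lemma ev_real {u : L.Pt → ℂ} (hu : ∀ x, (u x).im = 0) (p : P) : (L.ev u p).im = 0 := by
  rw [ev]
  have h : (u (L.s0 p) + u (L.sg (L.s0 p))) / 2 =
      (((u (L.s0 p)).re + (u (L.sg (L.s0 p))).re) / 2 : ℝ) := by
    apply Complex.ext <;> simp [hu]
  rw [h]; exact Complex.ofReal_im _

lemma od_real {u : L.Pt → ℂ} (hu : ∀ x, (u x).im = 0) (k : Fin 4) (p : P) :
    (L.od u k p).im = 0 := by
  rw [od, n]
  have h : (u (L.s0 p) - u (L.sg (L.s0 p))) / 2 =
      (((u (L.s0 p)).re - (u (L.sg (L.s0 p))).re) / 2 : ℝ) := by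
    apply Complex.ext <;> simp [hu]
  rw [h, ← Complex.ofReal_mul]; exact Complex.ofReal_im _

lemma m_D {i : I} {p : P} (hp : p ∈ L.V i) (j : κ) :
    ∑ k, L.m i k p * S.D j (L.m i k) p = 0 := by
  have h1 := L.locD i j (fun p => ∑ k, (L.m i k * L.m i k) p) (fun _ => 1) (L.unit i) p hp
  rw [D_sum3 S (fun k => S.sm_mul (L.smm i k) (L.smm i k)), S.D_const] at h1
  simp_rw [S.D_mul j (L.smm i _) (L.smm i _)] at h1
  simp only [Pi.add_apply, Pi.mul_apply, Pi.zero_apply] at h1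
  rw [Fin.sum_univ_four] at h1 ⊢
  linear_combination (1 / 2 : ℂ) * h1

variable (S) in
lemma D_cmul (c : ℂ) {u : P → ℂ} (hu : S.Sm u) (j : κ) (p : P) :
    S.D j (fun p => c * u p) p = c * S.D j u p := by
  have h : (fun p => c * u p) = (fun _ => c) * u := by funext p; simp
  rw [h, S.D_mul j (S.sm_const _) hu, S.D_const]
  simp

variable (S) in
lemma sm_cmul (c : ℂ) {u : P → ℂ} (hu : S.Sm u) : S.Sm (fun p => c * u p) := by
  have h : (fun p => c * u p) = (fun _ => c) * u := by funext p; simp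
  rw [h]; exact S.sm_mul (S.sm_const _) hu

variable (L)

/-- the odd part along the section `m i`, a global function, meaningful on `V i` -/
def be (u : L.Pt → ℂ) (i : I) (p : P) : ℂ := ∑ k, L.od u k p * L.m i k p

variable {L}

lemma sm_be {u : L.Pt → ℂ} (hu : L.Smc u) (i : I) : S.Sm (L.be u i) :=
  sm_sum3 S fun k => S.sm_mul (hu.2 k) (L.smm i k)

lemma od_eq_be (u : L.Pt → ℂ) {i : I} {p : P} (hp : p ∈ L.V i) (k : Fin 4) :
    L.od u k p = L.be u i p * L.m i k p := by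
  obtain ⟨x, hx, hn⟩ := exists_lift hp
  have h1 : ∀ l, L.od u l p = (u x - u (L.sg x)) / 2 * L.m i l p := by
    intro l; rw [← hx, od_pi, hn, hx]
  rw [be]
  simp_rw [h1]
  have h2 := L.unit i p hp
  rw [Fin.sum_univ_four] at h2 ⊢
  linear_combination (-(u x - u (L.sg x)) / 2 * L.m i k p) * h2

lemma D_be {u : L.Pt → ℂ} (hu : L.Smc u) {i : I} {p : P} (hp : p ∈ L.V i) (j : κ) :
    S.D j (L.be u i) p = ∑ k, S.D j (L.od u k) p * L.m i k p := by
  have h0 : L.be u i = fun p => ∑ k, (L.od u k * L.m i k) p := rfl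
  rw [h0, D_sum3 S (fun k => S.sm_mul (hu.2 k) (L.smm i k))]
  simp_rw [S.D_mul j (hu.2 _) (L.smm i _)]
  simp only [Pi.add_apply, Pi.mul_apply]
  have h1 := m_D (L := L) hp j
  rw [Fin.sum_univ_four] at h1 ⊢
  rw [Fin.sum_univ_four, od_eq_be u hp 0, od_eq_be u hp 1, od_eq_be u hp 2,
    od_eq_be u hp 3]
  linear_combination (L.be u i p) * h1

/-- value of `u` at a point on the sheet `s = ±1` of `m i` -/
lemma val_be (u : L.Pt → ℂ) {i : I} {x : L.Pt} {s : ℂ} (hs : ∀ k, L.n k x = s * L.m i k (L.pi x)) :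
    u x = L.ev u (L.pi x) + s * L.be u i (L.pi x) := by
  rw [decomp u x, be, Finset.mul_sum]
  congr 1
  exact sum_congr3 fun k => by rw [hs]; ring

/-- derivative of `u` at a point on the sheet `s = ±1` of `m i` -/
lemma Dc_be {u : L.Pt → ℂ} (hu : L.Smc u) {i : I} {x : L.Pt} (hi : L.pi x ∈ L.V i) {s : ℂ}
    (hs : ∀ k, L.n k x = s * L.m i k (L.pi x)) (j : κ) :
    L.Dc j u x = S.D j (L.ev u) (L.pi x) + s * S.D j (L.be u i) (L.pi x) := by
  rw [Dc, D_be hu hi, Finset.mul_sum]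
  congr 1
  exact sum_congr3 fun k => by rw [hs]; ring

lemma sheet {x : L.Pt} {i : I} (hi : L.pi x ∈ L.V i) :
    ∃ s : ℂ, s * s = 1 ∧ ∀ k, L.n k x = s * L.m i k (L.pi x) := by
  rcases (L.ok_iff i _ hi _).1 x.2 with h | h
  · exact ⟨1, by ring, fun k => by rw [one_mul]; exact h k⟩
  · exact ⟨-1, by ring, fun k => by rw [neg_one_mul]; exact h k⟩

lemma be_real {u : L.Pt → ℂ} (hr : ∀ x, (u x).im = 0) (i : I) (p : P) : (L.be u i p).im = 0 := by
  rw [be, Complex.im_sum]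
  refine Finset.sum_eq_zero fun k _ => ?_
  rw [Complex.mul_im, od_real hr, L.rm]; ring

lemma be_eq {u : L.Pt → ℂ} {i : I} {p : P} (hp : p ∈ L.V i) {x : L.Pt} (hx : L.pi x = p)
    (hn : ∀ k, L.n k x = L.m i k p) : L.be u i p = (u x - u (L.sg x)) / 2 := by
  rw [be]
  have h1 : ∀ l, L.od u l p = (u x - u (L.sg x)) / 2 * L.m i l p := by
    intro l; rw [← hx, od_pi, hn, hx]
  simp_rw [h1]
  have h2 := L.unit i p hp
  rw [Fin.sum_univ_four] at h2 ⊢
  linear_combination ((u x - u (L.sg x)) / 2) * h2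

lemma ev_eq {u : L.Pt → ℂ} {p : P} {x : L.Pt} (hx : L.pi x = p) :
    L.ev u p = (u x + u (L.sg x)) / 2 := by rw [← hx, ev_pi]

section comp

variable {G : ℝ → ℂ} (hG : ContDiff ℝ ∞ G) {u : L.Pt → ℂ} (hu : L.Smc u)
  (hr : ∀ x, (u x).im = 0)

variable (L) in
/-- `G (a ± β)` -/
def gg (G : ℝ → ℂ) (u : L.Pt → ℂ) (i : I) (c : ℂ) (p : P) : ℂ :=
  G ((L.ev u p + c * L.be u i p)).re

include hu in
lemma sm_lin (i : I) (c : ℂ) : S.Sm (fun p => L.ev u p + c * L.be u i p) :=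
  S.sm_add hu.1 (sm_cmul S c (sm_be hu i))

include hr in
lemma re_lin (i : I) (c : ℝ) (p : P) : (L.ev u p + c * L.be u i p).im = 0 := by
  rw [Complex.add_im, Complex.mul_im, ev_real hr, be_real hr, Complex.ofReal_im]; ring

include hG hu hr in
lemma sm_gg (i : I) (c : ℝ) : S.Sm (L.gg G u i c) :=
  S.sm_comp hG (sm_lin hu i c) (re_lin hr i c)

include hG hu hr in
lemma D_gg (i : I) (c : ℝ) (j : κ) (p : P) : S.D j (L.gg G u i c) p =
    deriv G ((L.ev u p + c * L.be u i p)).re * (S.D j (L.ev u) p + c * S.D j (L.be u i) p) := by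
  have h1 := congrFun (S.D_comp j hG (sm_lin hu i c) (re_lin hr i c)) p
  have h2 : S.D j (fun p => L.ev u p + c * L.be u i p) p =
      S.D j (L.ev u) p + c * S.D j (L.be u i) p := by
    have h3 : (fun p => L.ev u p + c * L.be u i p) = L.ev u + (fun p => c * L.be u i p) := rfl
    rw [h3, S.D_add j hu.1 (sm_cmul S c (sm_be hu i)), Pi.add_apply, D_cmul S c (sm_be hu i)]
  rw [h2] at h1
  exact h1

lemma gg_lift {i : I} {p : P} (hp : p ∈ L.V i) {x : L.Pt} (hx : L.pi x = p)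
    (hn : ∀ k, L.n k x = L.m i k p) : G (u x).re = L.gg G u i (1 : ℝ) p ∧
      G (u (L.sg x)).re = L.gg G u i (-1 : ℝ) p := by
  have h1 := ev_eq (u := u) hx
  have h2 := be_eq (u := u) hp hx hn
  refine ⟨?_, ?_⟩
  · rw [gg, h1, h2]; congr 2; push_cast; ring
  · rw [gg, h1, h2]; congr 2; push_cast; ring

lemma ev_comp {i : I} {p : P} (hp : p ∈ L.V i) : L.ev (fun x => G (u x).re) p =
    (1 / 2 : ℂ) * (L.gg G u i (1 : ℝ) + L.gg G u i (-1 : ℝ)) p := by
  obtain ⟨x, hx, hn⟩ := exists_lift hp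
  have h := gg_lift (G := G) (u := u) hp hx hn
  rw [ev_eq hx, h.1, h.2, Pi.add_apply]; ring

lemma be_comp {i : I} {p : P} (hp : p ∈ L.V i) : L.be (fun x => G (u x).re) i p =
    (1 / 2 : ℂ) * (L.gg G u i (1 : ℝ) + (fun p => (-1 : ℂ) * L.gg G u i (-1 : ℝ) p)) p := by
  obtain ⟨x, hx, hn⟩ := exists_lift hp
  have h := gg_lift (G := G) (u := u) hp hx hn
  rw [be_eq hp hx hn, h.1, h.2, Pi.add_apply]; ring

include hG hu hr in
lemma smc_comp : L.Smc (fun x => G (u x).re) := by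
  refine ⟨L.locS _ fun i => ⟨_, sm_cmul S (1 / 2 : ℂ) (S.sm_add (sm_gg hG hu hr i 1)
    (sm_gg hG hu hr i (-1))), fun p hp => ev_comp hp⟩, fun k => L.locS _ fun i =>
    ⟨_, S.sm_mul (sm_cmul S (1 / 2 : ℂ) (S.sm_add (sm_gg hG hu hr i 1)
      (sm_cmul S (-1 : ℂ) (sm_gg hG hu hr i (-1))))) (L.smm i k), fun p hp => ?_⟩⟩
  rw [od_eq_be _ hp, be_comp hp]; rfl

include hG hu hr in
lemma Dc_comp (j : κ) : L.Dc j (fun x => G (u x).re) =
    fun x => deriv G (u x).re * L.Dc j u x := by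
  funext x
  obtain ⟨i, hi⟩ := L.cov (L.pi x)
  obtain ⟨s, hs1, hs⟩ := sheet hi
  rw [Dc_be (smc_comp hG hu hr) hi hs, Dc_be hu hi hs, val_be u hs]
  have e1 := L.locD i j _ _ (fun p hp => ev_comp (G := G) (u := u) hp) _ hi
  have e2 := L.locD i j _ _ (fun p hp => be_comp (G := G) (u := u) hp) _ hi
  rw [D_cmul S (1 / 2 : ℂ) (S.sm_add (sm_gg hG hu hr i 1) (sm_gg hG hu hr i (-1))),
    S.D_add j (sm_gg hG hu hr i 1) (sm_gg hG hu hr i (-1)), Pi.add_apply,
    D_gg hG hu hr, D_gg hG hu hr] at e1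
  rw [D_cmul S (1 / 2 : ℂ) (S.sm_add (sm_gg hG hu hr i 1)
      (sm_cmul S (-1 : ℂ) (sm_gg hG hu hr i (-1)))),
    S.D_add j (sm_gg hG hu hr i 1) (sm_cmul S (-1 : ℂ) (sm_gg hG hu hr i (-1))), Pi.add_apply,
    D_cmul S (-1 : ℂ) (sm_gg hG hu hr i (-1)), D_gg hG hu hr, D_gg hG hu hr] at e2
  rw [e1, e2]
  push_cast
  have h3 : (s - 1) * (s + 1) = 0 := by linear_combination hs1
  rcases mul_eq_zero.1 h3 with h | h
  · have h4 : s = 1 := by linear_combination h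
    rw [h4]; ring
  · have h4 : s = -1 := by linear_combination h
    rw [h4]; ring

end comp

/-- the differential function space of the cover -/
def cover : DAlg L.Pt κ where
  Sm := L.Smc
  D := L.Dc
  sm_const c := smc_of (a := fun _ => c) (b := fun _ _ => 0) (S.sm_const c) (fun _ => S.sm_const 0)
    (fun x => by simp)
  sm_add hu hv := ⟨by rw [ev_add]; exact S.sm_add hu.1 hv.1,
    fun k => by rw [od_add]; exact S.sm_add (hu.2 k) (hv.2 k)⟩
  sm_mul hu hv := ⟨by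
      rw [ev_mul]
      exact S.sm_add (S.sm_mul hu.1 hv.1) (sm_sum3 S fun k => S.sm_mul (hu.2 k) (hv.2 k)),
    fun k => by
      rw [od_mul]
      exact S.sm_add (S.sm_mul hu.1 (hv.2 k)) (S.sm_mul (hu.2 k) hv.1)⟩
  sm_conj hu := ⟨by rw [ev_conj]; exact S.sm_conj hu.1,
    fun k => by rw [od_conj]; exact S.sm_conj (hu.2 k)⟩
  sm_D j hu := smc_of (S.sm_D j hu.1) (fun k => S.sm_D j (hu.2 k)) (fun x => rfl)
  D_const j c := by
    funext x
    have h1 : L.ev (fun _ => c) = fun _ => c := by funext p; simp [ev]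
    have h2 : ∀ k, L.od (fun _ => c) k = fun _ => 0 := by intro k; funext p; simp [od]
    simp only [Dc, h1, h2, S.D_const, Pi.zero_apply, zero_mul, Finset.sum_const_zero, add_zero]
  D_add j hu hv := by
    funext x
    simp only [Dc, ev_add, od_add, S.D_add j hu.1 hv.1, S.D_add j (hu.2 _) (hv.2 _),
      Pi.add_apply]
    rw [Fin.sum_univ_four, Fin.sum_univ_four, Fin.sum_univ_four]
    ring
  D_mul := by
    intro u v j hu hv
    funext x
    obtain ⟨i, hi⟩ := L.cov (L.pi x)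
    obtain ⟨s, hs1, hs⟩ := sheet hi
    have huv : L.Smc (u * v) := ⟨by
        rw [ev_mul]
        exact S.sm_add (S.sm_mul hu.1 hv.1) (sm_sum3 S fun k => S.sm_mul (hu.2 k) (hv.2 k)),
      fun k => by
        rw [od_mul]
        exact S.sm_add (S.sm_mul hu.1 (hv.2 k)) (S.sm_mul (hu.2 k) hv.1)⟩
    have e1 := L.locD i j (L.ev (u * v)) (L.ev u * L.ev v + L.be u i * L.be v i) (fun p hp => by
      rw [ev_mul, Pi.add_apply, Pi.add_apply]
      congr 1
      simp_rw [od_eq_be u hp, od_eq_be v hp]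
      have h2 := L.unit i p hp
      rw [Pi.mul_apply]
      rw [Fin.sum_univ_four] at h2 ⊢
      linear_combination (L.be u i p * L.be v i p) * h2) _ hi
    have e2 := L.locD i j (L.be (u * v) i) (L.ev u * L.be v i + L.be u i * L.ev v)
      (fun p hp => by
        obtain ⟨y, hy, hn⟩ := exists_lift hp
        simp only [Pi.add_apply, Pi.mul_apply]
        rw [be_eq hp hy hn, be_eq hp hy hn, be_eq hp hy hn, ev_eq hy, ev_eq hy]
        simp only [Pi.mul_apply]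
        ring) _ hi
    rw [S.D_add j (S.sm_mul hu.1 hv.1) (S.sm_mul (sm_be hu i) (sm_be hv i)),
      S.D_mul j hu.1 hv.1, S.D_mul j (sm_be hu i) (sm_be hv i)] at e1
    rw [S.D_add j (S.sm_mul hu.1 (sm_be hv i)) (S.sm_mul (sm_be hu i) hv.1),
      S.D_mul j hu.1 (sm_be hv i), S.D_mul j (sm_be hu i) hv.1] at e2
    simp only [Pi.add_apply, Pi.mul_apply] at e1 e2 ⊢
    rw [Dc_be huv hi hs, Dc_be hu hi hs, Dc_be hv hi hs, val_be u hs, val_be v hs, e1, e2]
    linear_combination (-(S.D j (L.be u i) (L.pi x) * L.be v i (L.pi x)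
      + L.be u i (L.pi x) * S.D j (L.be v i) (L.pi x))) * hs1
  D_conj := by
    intro u j hu
    funext x
    simp only [Dc, ev_conj, od_conj, S.D_conj j hu.1, S.D_conj j (hu.2 _), map_add, map_sum,
      map_mul, conj_n]
  sm_comp hG hu hr := smc_comp hG hu hr
  D_comp j hG hu hr := Dc_comp hG hu hr j
  bdd := by
    intro u hu
    obtain ⟨C, hC⟩ := S.bdd hu.1
    obtain ⟨C0, hC0⟩ := S.bdd (hu.2 0)
    obtain ⟨C1, hC1⟩ := S.bdd (hu.2 1)
    obtain ⟨C2, hC2⟩ := S.bdd (hu.2 2)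
    obtain ⟨C3, hC3⟩ := S.bdd (hu.2 3)
    have hn : ∀ k (x : L.Pt), ‖L.n k x‖ ≤ 1 := by
      intro k x
      have h := n_unit x
      have h1 : ∑ k, (x.1.2 k) ^ 2 = 1 := by
        have h2 : (((∑ k, (x.1.2 k) ^ 2 : ℝ)) : ℂ) = 1 := by
          rw [← h]; push_cast
          exact sum_congr3 fun k => by rw [n]; ring
        exact_mod_cast h2
      have h2 : (x.1.2 k) ^ 2 ≤ 1 := by
        rw [← h1]
        exact Finset.single_le_sum (f := fun k => (x.1.2 k) ^ 2) (fun _ _ => sq_nonneg _)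
          (Finset.mem_univ k)
      rw [n, Complex.norm_real, Real.norm_eq_abs]
      exact (sq_le_one_iff_abs_le_one _).1 h2
    refine ⟨C + (C0 + C1 + C2 + C3), fun x => ?_⟩
    rw [decomp u x, Fin.sum_univ_four]
    have hb : ∀ k C', (∀ p, ‖L.od u k p‖ ≤ C') → ‖L.od u k (L.pi x) * L.n k x‖ ≤ C' := by
      intro k C' h
      rw [norm_mul]
      have h1 := h (L.pi x)
      have h2 := hn k x
      have h3 := norm_nonneg (L.od u k (L.pi x))
      calc _ ≤ ‖L.od u k (L.pi x)‖ * 1 := mul_le_mul_of_nonneg_left h2 h3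
        _ ≤ C' := by rw [mul_one]; exact h1
    refine (norm_add_le _ _).trans (add_le_add (hC _) ((norm_add_le _ _).trans (add_le_add
      ((norm_add_le _ _).trans (add_le_add ((norm_add_le _ _).trans (add_le_add (hb 0 _ hC0)
        (hb 1 _ hC1))) (hb 2 _ hC2))) (hb 3 _ hC3))))

lemma cover_Sm {u : L.Pt → ℂ} : L.cover.Sm u ↔ S.Sm (L.ev u) ∧ ∀ k, S.Sm (L.od u k) := Iff.rfl

lemma cover_D (j : κ) (u : L.Pt → ℂ) : L.cover.D j u = L.Dc j u := rfl

lemma ev_comp_pi (u : P → ℂ) : L.ev (fun x => u (L.pi x)) = u := by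
  funext p; simp only [ev, pi_sg, pi_s0]; ring

lemma od_comp_pi (u : P → ℂ) (k : Fin 4) : L.od (fun x => u (L.pi x)) k = fun _ => 0 := by
  funext p; simp only [od, pi_sg, pi_s0]; ring

/-- even smooth functions are the smooth functions on `P` -/
lemma sm_pi_iff {u : P → ℂ} : L.cover.Sm (fun x => u (L.pi x)) ↔ S.Sm u := by
  rw [cover_Sm, ev_comp_pi]
  refine ⟨fun h => h.1, fun h => ⟨h, fun k => ?_⟩⟩
  rw [od_comp_pi]; exact S.sm_const 0

lemma D_pi (j : κ) (u : P → ℂ) :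
    L.cover.D j (fun x => u (L.pi x)) = fun x => S.D j u (L.pi x) := by
  funext x
  rw [cover_D, Dc, ev_comp_pi]
  simp only [od_comp_pi, S.D_const, Pi.zero_apply, zero_mul, Finset.sum_const_zero, add_zero]

/-- descent of an even function -/
lemma eq_ev_of_even {u : L.Pt → ℂ} (h : ∀ x, u (L.sg x) = u x) (x : L.Pt) :
    u x = L.ev u (L.pi x) := by
  rw [ev_pi, h]; ring

/-- the components of the unit vector are smooth -/
lemma sm_n (k : Fin 4) : L.cover.Sm (L.n k) := by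
  refine smc_of (a := fun _ => 0) (b := fun l _ => if l = k then 1 else 0) (S.sm_const 0)
    (fun l => S.sm_const _) (fun x => ?_)
  simp

lemma n_real (k : Fin 4) : Rl (L.n k) := fun x => im_n k x

lemma ev_sg (u : L.Pt → ℂ) : L.ev (fun x => u (L.sg x)) = L.ev u := by
  funext p; simp only [ev, sg_sg]; ring

lemma od_sg (u : L.Pt → ℂ) (k : Fin 4) :
    L.od (fun x => u (L.sg x)) k = fun p => (-1 : ℂ) * L.od u k p := by
  funext p; simp only [od, sg_sg]; ring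

lemma sm_sg {u : L.Pt → ℂ} (h : L.cover.Sm u) : L.cover.Sm (fun x => u (L.sg x)) := by
  refine ⟨by rw [ev_sg]; exact h.1, fun k => ?_⟩
  rw [od_sg]; exact sm_cmul S _ (h.2 k)

lemma D_sg (j : κ) {u : L.Pt → ℂ} (h : L.cover.Sm u) (x : L.Pt) :
    L.cover.D j (fun x => u (L.sg x)) x = L.cover.D j u (L.sg x) := by
  rw [cover_D, cover_D, Dc, Dc, ev_sg, pi_sg]
  congr 1
  refine sum_congr3 fun k => ?_
  rw [od_sg, D_cmul S _ (h.2 k), n_sg]; ring

end Line

end Vale.Agent.P205.TW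
end
end

section

/-!
The line field of an immersion `F₀ : M → ℝ³` of a compact surface (P205, BP-COVER).
-/

noncomputable section

set_option linter.unusedSectionVars false

open scoped Manifold ContDiff Topology
open Set Filter

namespace Vale.Agent.P205.TW

open Vale.Agent.P205.F

/-- Euclidean product -/
def dt4 (a b : Fin 4 → ℝ) : ℝ := ∑ k, a k * b k

/-- triple cross product -/
def cr4 (a b c : Fin 4 → ℝ) : Fin 4 → ℝ :=
  ![a 1 * (b 2 * c 3 - b 3 * c 2) - a 2 * (b 1 * c 3 - b 3 * c 1) + a 3 * (b 1 * c 2 - b 2 * c 1),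
    -(a 0 * (b 2 * c 3 - b 3 * c 2) - a 2 * (b 0 * c 3 - b 3 * c 0)
      + a 3 * (b 0 * c 2 - b 2 * c 0)),
    a 0 * (b 1 * c 3 - b 3 * c 1) - a 1 * (b 0 * c 3 - b 3 * c 0) + a 3 * (b 0 * c 1 - b 1 * c 0),
    -(a 0 * (b 1 * c 2 - b 2 * c 1) - a 1 * (b 0 * c 2 - b 2 * c 0)
      + a 2 * (b 0 * c 1 - b 1 * c 0))]

section cross

variable (a b c : Fin 4 → ℝ)

lemma cr4_0 : cr4 a b c 0 = a 1 * (b 2 * c 3 - b 3 * c 2) - a 2 * (b 1 * c 3 - b 3 * c 1)
    + a 3 * (b 1 * c 2 - b 2 * c 1) := rfl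

lemma cr4_1 : cr4 a b c 1 = -(a 0 * (b 2 * c 3 - b 3 * c 2) - a 2 * (b 0 * c 3 - b 3 * c 0)
    + a 3 * (b 0 * c 2 - b 2 * c 0)) := rfl

lemma cr4_2 : cr4 a b c 2 = a 0 * (b 1 * c 3 - b 3 * c 1) - a 1 * (b 0 * c 3 - b 3 * c 0)
    + a 3 * (b 0 * c 1 - b 1 * c 0) := rfl

lemma cr4_3 : cr4 a b c 3 = -(a 0 * (b 1 * c 2 - b 2 * c 1) - a 1 * (b 0 * c 2 - b 2 * c 0)
    + a 2 * (b 0 * c 1 - b 1 * c 0)) := rfl

lemma dt4_comm : dt4 a b = dt4 b a := Finset.sum_congr rfl fun k _ => mul_comm _ _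

lemma dt4_cr4_1 : dt4 (cr4 a b c) a = 0 := by
  simp only [dt4, Fin.sum_univ_four, cr4_0, cr4_1, cr4_2, cr4_3]; ring

lemma dt4_cr4_2 : dt4 (cr4 a b c) b = 0 := by
  simp only [dt4, Fin.sum_univ_four, cr4_0, cr4_1, cr4_2, cr4_3]; ring

lemma dt4_cr4_3 : dt4 (cr4 a b c) c = 0 := by
  simp only [dt4, Fin.sum_univ_four, cr4_0, cr4_1, cr4_2, cr4_3]; ring

variable {a b c}

lemma wedge {n : Fin 4 → ℝ} (ha : dt4 n a = 0) (hb : dt4 n b = 0) (hc : dt4 n c = 0)
    (k l : Fin 4) : n k * cr4 a b c l = n l * cr4 a b c k := by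
  simp only [dt4, Fin.sum_univ_four] at ha hb hc
  have e01 : n 0 * cr4 a b c 1 = n 1 * cr4 a b c 0 := by
    rw [cr4_0, cr4_1]
    linear_combination -(b 2 * c 3 - b 3 * c 2) * ha + (a 2 * c 3 - a 3 * c 2) * hb
      - (a 2 * b 3 - a 3 * b 2) * hc
  have e02 : n 0 * cr4 a b c 2 = n 2 * cr4 a b c 0 := by
    rw [cr4_0, cr4_2]
    linear_combination -(b 3 * c 1 - b 1 * c 3) * ha + (a 3 * c 1 - a 1 * c 3) * hb
      - (a 3 * b 1 - a 1 * b 3) * hc
  have e03 : n 0 * cr4 a b c 3 = n 3 * cr4 a b c 0 := by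
    rw [cr4_0, cr4_3]
    linear_combination -(b 1 * c 2 - b 2 * c 1) * ha + (a 1 * c 2 - a 2 * c 1) * hb
      - (a 1 * b 2 - a 2 * b 1) * hc
  have e12 : n 1 * cr4 a b c 2 = n 2 * cr4 a b c 1 := by
    rw [cr4_1, cr4_2]
    linear_combination -(b 0 * c 3 - b 3 * c 0) * ha + (a 0 * c 3 - a 3 * c 0) * hb
      - (a 0 * b 3 - a 3 * b 0) * hc
  have e13 : n 1 * cr4 a b c 3 = n 3 * cr4 a b c 1 := by
    rw [cr4_1, cr4_3]
    linear_combination -(b 2 * c 0 - b 0 * c 2) * ha + (a 2 * c 0 - a 0 * c 2) * hb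
      - (a 2 * b 0 - a 0 * b 2) * hc
  have e23 : n 2 * cr4 a b c 3 = n 3 * cr4 a b c 2 := by
    rw [cr4_2, cr4_3]
    linear_combination -(b 0 * c 1 - b 1 * c 0) * ha + (a 0 * c 1 - a 1 * c 0) * hb
      - (a 0 * b 1 - a 1 * b 0) * hc
  fin_cases k <;> fin_cases l
  · rfl
  · exact e01
  · exact e02
  · exact e03
  · exact e01.symm
  · rfl
  · exact e12
  · exact e13
  · exact e02.symm
  · exact e12.symm
  · rfl
  · exact e23
  · exact e03.symm
  · exact e13.symm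
  · exact e23.symm
  · rfl

lemma cr4_unique {n : Fin 4 → ℝ} (ha : dt4 n a = 0) (hb : dt4 n b = 0) (hc : dt4 n c = 0)
    (k : Fin 4) :
    dt4 (cr4 a b c) (cr4 a b c) * n k = dt4 n (cr4 a b c) * cr4 a b c k := by
  unfold dt4
  rw [Finset.sum_mul, Finset.sum_mul]
  exact Finset.sum_congr rfl fun l _ => by
    have := wedge ha hb hc k l
    linear_combination (cr4 a b c l) * this

lemma cr4_sq (h1 : dt4 c c = 1) (ha : dt4 c a = 0) (hb : dt4 c b = 0) :
    dt4 (cr4 a b c) (cr4 a b c) = dt4 a a * dt4 b b - dt4 a b * dt4 a b := by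
  have key : dt4 (cr4 a b c) (cr4 a b c) =
      dt4 a a * (dt4 b b * dt4 c c - dt4 c b * dt4 c b)
      - dt4 a b * (dt4 a b * dt4 c c - dt4 c b * dt4 c a)
      + dt4 c a * (dt4 a b * dt4 c b - dt4 b b * dt4 c a) := by
    simp only [dt4, Fin.sum_univ_four, cr4_0, cr4_1, cr4_2, cr4_3]; ring
  rw [key, h1, ha, hb]; ring

lemma dt4_self_nonneg (v : Fin 4 → ℝ) : 0 ≤ dt4 v v :=
  Finset.sum_nonneg fun k _ => mul_self_nonneg _

lemma eq_zero_of_dt4 {v : Fin 4 → ℝ} (h : dt4 v v = 0) : v = 0 := by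
  funext k
  have h3 := (Finset.sum_eq_zero_iff_of_nonneg (fun k _ => mul_self_nonneg (v k))).1 h k
    (Finset.mem_univ k)
  simpa using h3

lemma gram2_pos (h : LinearIndependent ℝ ![a, b]) : 0 < dt4 a a * dt4 b b - dt4 a b * dt4 a b := by
  rw [LinearIndependent.pair_iff] at h
  have hb : 0 < dt4 b b := by
    rcases (dt4_self_nonneg b).eq_or_lt with h1 | h1
    · exfalso
      have h2 := eq_zero_of_dt4 h1.symm
      have := (h 0 1 (by rw [h2]; simp)).2
      exact one_ne_zero this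
    · exact h1
  set v : Fin 4 → ℝ := fun k => dt4 b b * a k - dt4 a b * b k with hv
  have e : dt4 v v = dt4 b b * (dt4 a a * dt4 b b - dt4 a b * dt4 a b) := by
    simp only [hv, dt4, Fin.sum_univ_four]; ring
  rcases (dt4_self_nonneg v).eq_or_lt with h1 | h1
  · exfalso
    have h2 := eq_zero_of_dt4 h1.symm
    have := (h (dt4 b b) (-(dt4 a b)) (by
      funext k
      have := congrFun h2 k
      simp only [hv, Pi.zero_apply] at this
      simp only [Pi.add_apply, Pi.smul_apply, smul_eq_mul, Pi.zero_apply]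
      linarith)).1
    exact hb.ne' this
  · rw [e] at h1
    exact (pos_iff_pos_of_mul_pos h1).1 hb

lemma unit_or {n : Fin 4 → ℝ} (hp : 0 < dt4 (cr4 a b c) (cr4 a b c)) (hn : dt4 n n = 1)
    (ha : dt4 n a = 0) (hb : dt4 n b = 0) (hc : dt4 n c = 0) :
    (∀ k, n k = cr4 a b c k / Real.sqrt (dt4 (cr4 a b c) (cr4 a b c))) ∨
    (∀ k, n k = -(cr4 a b c k / Real.sqrt (dt4 (cr4 a b c) (cr4 a b c)))) := by
  have h1 : ∀ k, dt4 (cr4 a b c) (cr4 a b c) * n k = dt4 n (cr4 a b c) * cr4 a b c k :=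
    cr4_unique ha hb hc
  generalize hX : cr4 a b c = X at *
  generalize hD : dt4 X X = D at *
  generalize ht : dt4 n X = t at *
  have h2 : D = t * t := by
    have h3 : D * D * dt4 n n = t * t * D := by
      have e1 : D * D * dt4 n n = ∑ k, (D * n k) * (D * n k) := by
        unfold dt4
        rw [Finset.mul_sum]
        exact Finset.sum_congr rfl fun k _ => by ring
      have e2 : t * t * D = ∑ k, (t * X k) * (t * X k) := by
        rw [← hD]
        unfold dt4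
        rw [Finset.mul_sum]
        exact Finset.sum_congr rfl fun k _ => by ring
      rw [e1, e2]
      exact Finset.sum_congr rfl fun k _ => by rw [h1]
    rw [hn, mul_one] at h3
    exact mul_right_cancel₀ hp.ne' h3
  have hs : Real.sqrt D * Real.sqrt D = D := Real.mul_self_sqrt hp.le
  have hs0 : 0 < Real.sqrt D := Real.sqrt_pos.2 hp
  have h4 : (t - Real.sqrt D) * (t + Real.sqrt D) = 0 := by linear_combination -h2 - hs
  rcases mul_eq_zero.1 h4 with h | h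
  · left
    intro k
    rw [eq_div_iff hs0.ne']
    have h5 : t = Real.sqrt D := by linarith
    have h6 := h1 k
    rw [h5] at h6
    have h7 : Real.sqrt D * (n k * Real.sqrt D - X k) = 0 := by
      linear_combination h6 + (n k) * hs
    have h8 := (mul_eq_zero.1 h7).resolve_left hs0.ne'
    linarith
  · right
    intro k
    rw [← neg_div, eq_div_iff hs0.ne']
    have h5 : t = -Real.sqrt D := by linarith
    have h6 := h1 k
    rw [h5] at h6
    have h7 : Real.sqrt D * (n k * Real.sqrt D + X k) = 0 := by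
      linear_combination h6 + (n k) * hs
    have h8 := (mul_eq_zero.1 h7).resolve_left hs0.ne'
    linarith

end cross

section man

variable {E : Type*} [NormedAddCommGroup E] [NormedSpace ℝ E]
  {M : Type*} [TopologicalSpace M] [ChartedSpace E M] (K : Cov E M)
  (b : Module.Basis (Fin 2) ℝ E)

section loc

variable {F : Type*} [NormedAddCommGroup F] [NormedSpace ℝ F]

/-- locality of the derivations -/
lemma Dv_congr (j : Fin K.n × Fin 2) {u v : M → F} {U : Set M} (hU : IsOpen U)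
    (h : ∀ p ∈ U, u p = v p) {p : M} (hp : p ∈ U) : K.Dv b j u p = K.Dv b j v p := by
  by_cases hs : p ∈ (K.ph j.1).source
  · rw [Cov.Dv, Cov.Dv]
    congr 2
    refine Filter.EventuallyEq.fderiv_eq ?_
    have h1 : ContinuousAt (K.ph j.1).symm (K.ph j.1 p) :=
      continuousAt_extChartAt_symm'' ((K.ph j.1).map_source hs)
    have h2 : (K.ph j.1).symm (K.ph j.1 p) = p := (K.ph j.1).left_inv hs
    have h3 : ∀ᶠ y in 𝓝 (K.ph j.1 p), (K.ph j.1).symm y ∈ U :=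
      h1.eventually_mem (by rw [h2]; exact hU.mem_nhds hp)
    filter_upwards [h3] with y hy
    exact h _ hy
  · rw [K.Dv_eq_zero b j _ hs, K.Dv_eq_zero b j _ hs]

end loc

variable [IsManifold 𝓘(ℝ, E) ∞ M]

/-- over `V i` all fields are combinations of the fields of the chart `i` -/
lemma exists_coeff [FiniteDimensional ℝ E] {i : Fin K.n} {p : M} (hp : p ∈ K.V i)
    (j : Fin K.n × Fin 2) :
    ∃ c : Fin 2 → ℝ, K.X b j p = ∑ a, c a • K.X b (i, a) p := by
  have hs : p ∈ (K.ph i).source := K.V_sub i hp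
  have h1 := isInvertible_mfderivWithin_extChartAt_symm (I := 𝓘(ℝ, E)) (x := K.c i)
    ((K.ph i).map_source hs)
  rw [show range (𝓘(ℝ, E) : E → E) = univ from by simp, mfderivWithin_univ] at h1
  obtain ⟨T, hT⟩ := h1
  have h2 : (K.ph i).symm (K.ph i p) = p := (K.ph i).left_inv hs
  have h3 : ∀ v : E, ((mfderiv 𝓘(ℝ, E) 𝓘(ℝ, E) (K.ph i).symm (K.ph i p)) v : E) = (T v : E) := by
    intro v
    rw [← hT]; rfl
  have h4 : ∀ a, K.X b (i, a) p = (T (b a) : E) := by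
    intro a
    rw [Cov.X]
    rw [K.one i p hp, one_smul]
    exact h3 (b a)
  set Y : E := K.X b j p with hY
  let Z : E := T.symm Y
  have h5 : (T Z : E) = Y := T.apply_symm_apply Y
  refine ⟨fun a => b.repr Z a, ?_⟩
  have h6 : Z = ∑ a, b.repr Z a • b a := (b.sum_repr Z).symm
  have h7 : (T Z : E) = ∑ a, b.repr Z a • (T (b a) : E) := by
    conv_lhs => rw [h6]
    exact (map_sum T _ _).trans (Finset.sum_congr rfl fun a _ => map_smul T _ _)
  have h8 : Y = ∑ a, b.repr Z a • (T (b a) : E) := h5.symm.trans h7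
  refine h8.trans ?_
  exact Finset.sum_congr rfl fun a _ =>
    (congrArg (fun z : E => b.repr Z a • z) (h4 a)).symm

/-- an immersion into `ℝ⁴` with a unit normal field -/
structure ImmN (E : Type*) [NormedAddCommGroup E] [NormedSpace ℝ E]
    (M : Type*) [TopologicalSpace M] [ChartedSpace E M] where
  /-- the immersion -/
  F : M → EuclideanSpace ℝ (Fin 4)
  /-- the normal field -/
  ξ : M → EuclideanSpace ℝ (Fin 4)
  smF : ContMDiff 𝓘(ℝ, E) 𝓘(ℝ, EuclideanSpace ℝ (Fin 4)) ∞ F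
  smξ : ContMDiff 𝓘(ℝ, E) 𝓘(ℝ, EuclideanSpace ℝ (Fin 4)) ∞ ξ
  imm : ∀ p, Function.Injective (mfderiv 𝓘(ℝ, E) 𝓘(ℝ, EuclideanSpace ℝ (Fin 4)) F p)
  unit : ∀ p, ‖ξ p‖ = 1
  perp : ∀ (p : M) (v : TangentSpace 𝓘(ℝ, E) p),
    inner ℝ (ξ p) (mfderiv 𝓘(ℝ, E) 𝓘(ℝ, EuclideanSpace ℝ (Fin 4)) F p v :
      EuclideanSpace ℝ (Fin 4)) = 0

variable (H : ImmN E M)

/-- derivative of `F` along the coordinate fields of the chart `i`, without cut-off -/
def raw (i : Fin K.n) (a : Fin 2) (p : M) : Fin 4 → ℝ := fun k =>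
  (fderiv ℝ (H.F ∘ (K.ph i).symm) (K.ph i p) (b a)) k

/-- `F` as a function -/
def ImmN.xi (p : M) : Fin 4 → ℝ := fun k => H.ξ p k

lemma inner_eq_dt4 (x y : EuclideanSpace ℝ (Fin 4)) :
    inner ℝ x y = dt4 (fun k => x k) (fun k => y k) := by
  rw [PiLp.inner_apply, dt4]
  exact Finset.sum_congr rfl fun k _ => by simp [mul_comm]

lemma raw_eq {i : Fin K.n} {p : M} (hs : p ∈ (K.ph i).source) (a : Fin 2) :
    (fderiv ℝ (H.F ∘ (K.ph i).symm) (K.ph i p) (b a)) =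
      (mfderiv 𝓘(ℝ, E) 𝓘(ℝ, EuclideanSpace ℝ (Fin 4)) H.F p
        (mfderiv 𝓘(ℝ, E) 𝓘(ℝ, E) (K.ph i).symm (K.ph i p) (b a) : E) :
          EuclideanSpace ℝ (Fin 4)) := by
  have h1 : MDifferentiableAt 𝓘(ℝ, E) 𝓘(ℝ, E) (K.ph i).symm (K.ph i p) :=
    ((contMDiffOn_extChartAt_symm (n := ∞) (K.c i)).contMDiffAt
      ((K.isOpen_target i).mem_nhds ((K.ph i).map_source hs))).mdifferentiableAt (by simp)
  have h2 : MDifferentiableAt 𝓘(ℝ, E) 𝓘(ℝ, EuclideanSpace ℝ (Fin 4)) H.F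
      ((K.ph i).symm (K.ph i p)) := H.smF.contMDiffAt.mdifferentiableAt (by simp)
  have h3 := mfderiv_comp (K.ph i p) h2 h1
  rw [mfderiv_eq_fderiv] at h3
  have h4 : (K.ph i).symm (K.ph i p) = p := (K.ph i).left_inv hs
  have h5 : fderiv ℝ (H.F ∘ (K.ph i).symm) (K.ph i p) =
      (mfderiv 𝓘(ℝ, E) 𝓘(ℝ, EuclideanSpace ℝ (Fin 4)) H.F ((K.ph i).symm (K.ph i p)) :
        E →L[ℝ] EuclideanSpace ℝ (Fin 4)).comp
        (mfderiv 𝓘(ℝ, E) 𝓘(ℝ, E) (K.ph i).symm (K.ph i p) : E →L[ℝ] E) := h3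
  rw [h4] at h5
  rw [h5]
  rfl

lemma raw_indep {i : Fin K.n} {p : M} (hs : p ∈ (K.ph i).source) :
    LinearIndependent ℝ ![raw K b H i 0 p, raw K b H i 1 p] := by
  have h1 := isInvertible_mfderivWithin_extChartAt_symm (I := 𝓘(ℝ, E)) (x := K.c i)
    ((K.ph i).map_source hs)
  rw [show range (𝓘(ℝ, E) : E → E) = univ from by simp, mfderivWithin_univ] at h1
  obtain ⟨T, hT⟩ := h1
  have h3 : ∀ v : E, ((mfderiv 𝓘(ℝ, E) 𝓘(ℝ, E) (K.ph i).symm (K.ph i p)) v : E) = (T v : E) := by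
    intro v
    rw [← hT]; rfl
  rw [LinearIndependent.pair_iff]
  intro s t hst
  let G : E →L[ℝ] EuclideanSpace ℝ (Fin 4) :=
    mfderiv 𝓘(ℝ, E) 𝓘(ℝ, EuclideanSpace ℝ (Fin 4)) H.F p
  let T' : E →L[ℝ] E := mfderiv 𝓘(ℝ, E) 𝓘(ℝ, E) (K.ph i).symm (K.ph i p)
  have h6 : ∀ a k, raw K b H i a p k = (G (T' (b a))) k := by
    intro a k
    rw [raw, raw_eq K b H hs a]
    rfl
  have h7 : G (T' (s • b 0 + t • b 1)) = 0 := by
    rw [map_add, map_add, map_smul, map_smul, map_smul, map_smul]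
    ext k
    have := congrFun hst k
    simp only [Pi.add_apply, Pi.smul_apply, smul_eq_mul, Pi.zero_apply, h6] at this
    simpa using this
  have hG : Function.Injective G := H.imm p
  have hT' : Function.Injective T' := by
    intro v w hvw
    have h8 : (T v : E) = (T w : E) := by rw [← h3, ← h3]; exact hvw
    exact T.injective h8
  have h9 : s • b 0 + t • b 1 = 0 := by
    apply hT'
    apply hG
    rw [h7, map_zero, map_zero]
  have h10 := b.linearIndependent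
  have h11 := Fintype.linearIndependent_iff.1 h10 ![s, t] (by simpa [Fin.sum_univ_two] using h9)
  exact ⟨h11 0, h11 1⟩

lemma xi_raw {i : Fin K.n} {p : M} (hs : p ∈ (K.ph i).source) (a : Fin 2) :
    dt4 (H.xi p) (raw K b H i a p) = 0 := by
  have h1 := H.perp p (mfderiv 𝓘(ℝ, E) 𝓘(ℝ, E) (K.ph i).symm (K.ph i p) (b a) : E)
  rw [← raw_eq K b H hs a, inner_eq_dt4] at h1
  exact h1

lemma xi_unit (p : M) : dt4 (H.xi p) (H.xi p) = 1 := by
  have h1 := real_inner_self_eq_norm_sq (H.ξ p)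
  rw [H.unit, inner_eq_dt4] at h1
  have h2 : dt4 (H.xi p) (H.xi p) = 1 ^ 2 := h1
  rw [h2]; norm_num

/-- the cross product in the chart -/
def crs (i : Fin K.n) (p : M) : Fin 4 → ℝ := cr4 (raw K b H i 0 p) (raw K b H i 1 p) (H.xi p)

lemma crs_pos {i : Fin K.n} {p : M} (hs : p ∈ (K.ph i).source) :
    0 < dt4 (crs K b H i p) (crs K b H i p) := by
  rw [crs, cr4_sq (xi_unit H p) (xi_raw K b H hs 0) (xi_raw K b H hs 1)]
  exact gram2_pos (raw_indep K b H hs)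

/-- the real local unit normal over the chart `i`, cut off -/
def mr (i : Fin K.n) (k : Fin 4) (p : M) : ℝ :=
  K.χ i p * (crs K b H i p k / Real.sqrt (dt4 (crs K b H i p) (crs K b H i p)))

lemma sm_raw (i : Fin K.n) (a : Fin 2) (k : Fin 4) :
    ContMDiffOn 𝓘(ℝ, E) 𝓘(ℝ, ℝ) ∞ (fun p => raw K b H i a p k) (K.ph i).source :=
  (EuclideanSpace.proj k : EuclideanSpace ℝ (Fin 4) →L[ℝ] ℝ).contDiff.contMDiff.comp_contMDiffOn
    (K.contMDiffOn_fderiv H.smF i (b a))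

lemma sm_xi (k : Fin 4) : ContMDiff 𝓘(ℝ, E) 𝓘(ℝ, ℝ) ∞ (fun p => H.xi p k) :=
  ((EuclideanSpace.proj k : EuclideanSpace ℝ (Fin 4) →L[ℝ] ℝ).contDiff).comp_contMDiff H.smξ

lemma sm_crs (i : Fin K.n) (k : Fin 4) :
    ContMDiffOn 𝓘(ℝ, E) 𝓘(ℝ, ℝ) ∞ (fun p => crs K b H i p k) (K.ph i).source := by
  have h0 := fun k => sm_raw K b H i 0 k
  have h1 := fun k => sm_raw K b H i 1 k
  have h2 := fun k => (sm_xi H k).contMDiffOn (s := (K.ph i).source)
  have t : ∀ i1 i2 i3 i4 i5 : Fin 4, ContMDiffOn 𝓘(ℝ, E) 𝓘(ℝ, ℝ) ∞ (fun p =>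
      raw K b H i 0 p i1 * (raw K b H i 1 p i2 * H.xi p i3 - raw K b H i 1 p i4 * H.xi p i5))
      (K.ph i).source := by
    intro i1 i2 i3 i4 i5
    exact (h0 i1).mul (((h1 i2).mul (h2 i3)).sub ((h1 i4).mul (h2 i5)))
  fin_cases k
  · exact ((t 1 2 3 3 2).sub (t 2 1 3 3 1)).add (t 3 1 2 2 1)
  · exact (((t 0 2 3 3 2).sub (t 2 0 3 3 0)).add (t 3 0 2 2 0)).neg
  · exact ((t 0 1 3 3 1).sub (t 1 0 3 3 0)).add (t 3 0 1 1 0)
  · exact (((t 0 1 2 2 1).sub (t 1 0 2 2 0)).add (t 2 0 1 1 0)).neg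

lemma sm_mr (i : Fin K.n) (k : Fin 4) : ContMDiff 𝓘(ℝ, E) 𝓘(ℝ, ℝ) ∞ (mr K b H i k) := by
  refine contMDiff_of_tsupport fun p hp => ?_
  have h1 : p ∈ (K.ph i).source := K.tsupport_sub i (tsupport_mul_subset_left hp)
  have hn := (K.isOpen_source i).mem_nhds h1
  have hc := fun k => (sm_crs K b H i k).contMDiffAt hn
  have hd : ContMDiffAt 𝓘(ℝ, E) 𝓘(ℝ, ℝ) ∞
      (fun p => dt4 (crs K b H i p) (crs K b H i p)) p := by
    have h2 : (fun p => dt4 (crs K b H i p) (crs K b H i p)) = fun p =>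
        crs K b H i p 0 * crs K b H i p 0 + crs K b H i p 1 * crs K b H i p 1
        + crs K b H i p 2 * crs K b H i p 2 + crs K b H i p 3 * crs K b H i p 3 := by
      funext q; simp only [dt4, Fin.sum_univ_four]
    rw [h2]
    exact ((((hc 0).mul (hc 0)).add ((hc 1).mul (hc 1))).add ((hc 2).mul (hc 2))).add
      ((hc 3).mul (hc 3))
  have hpos := crs_pos K b H h1
  have hs : ContMDiffAt 𝓘(ℝ, E) 𝓘(ℝ, ℝ) ∞
      (fun p => Real.sqrt (dt4 (crs K b H i p) (crs K b H i p))) p :=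
    (Real.contDiffAt_sqrt hpos.ne').contMDiffAt.comp p hd
  exact (K.sm i).contMDiffAt.mul ((hc k).div₀ hs (Real.sqrt_pos.2 hpos).ne')

/-- unit normals -/
def okM (p : M) (n : Fin 4 → ℝ) : Prop :=
  dt4 n n = 1 ∧ dt4 n (H.xi p) = 0 ∧
    ∀ j : Fin K.n × Fin 2, dt4 n (fun k => K.Dv b j H.F p k) = 0

lemma Dv_raw {i : Fin K.n} {p : M} (hp : p ∈ K.V i) (a : Fin 2) :
    (fun k => K.Dv b (i, a) H.F p k) = raw K b H i a p := by
  funext k
  rw [Cov.Dv, K.one i p hp, one_smul]; rfl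

lemma Dv_comb {i : Fin K.n} {p : M} (hp : p ∈ K.V i) (j : Fin K.n × Fin 2) :
    ∃ c : Fin 2 → ℝ, ∀ k, K.Dv b j H.F p k =
      c 0 * raw K b H i 0 p k + c 1 * raw K b H i 1 p k := by
  have : FiniteDimensional ℝ E := Module.Basis.finiteDimensional_of_finite b
  obtain ⟨c, hc⟩ := exists_coeff K b hp j
  refine ⟨c, fun k => ?_⟩
  let G : E →L[ℝ] EuclideanSpace ℝ (Fin 4) :=
    mfderiv 𝓘(ℝ, E) 𝓘(ℝ, EuclideanSpace ℝ (Fin 4)) H.F p
  let x : Fin K.n × Fin 2 → E := fun j => K.X b j p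
  have h1 : ∀ j, K.Dv b j H.F p = G (x j) := fun j => K.Dv_eq b H.smF j p
  have h2 : x j = c 0 • x (i, 0) + c 1 • x (i, 1) := hc.trans (Fin.sum_univ_two _)
  have h3 : K.Dv b j H.F p = c 0 • K.Dv b (i, 0) H.F p + c 1 • K.Dv b (i, 1) H.F p := by
    rw [h1, h1, h1, h2, map_add, map_smul, map_smul]
  rw [h3, ← Dv_raw K b H hp 0, ← Dv_raw K b H hp 1]
  simp

lemma mr_eq {i : Fin K.n} {p : M} (hp : p ∈ K.V i) (k : Fin 4) :
    mr K b H i k p = crs K b H i p k / Real.sqrt (dt4 (crs K b H i p) (crs K b H i p)) := by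
  rw [mr, K.one i p hp, one_mul]

lemma mr_unit {i : Fin K.n} {p : M} (hp : p ∈ K.V i) :
    dt4 (fun k => mr K b H i k p) (fun k => mr K b H i k p) = 1 := by
  have hpos := crs_pos K b H (K.V_sub i hp)
  have hs0 : Real.sqrt (dt4 (crs K b H i p) (crs K b H i p)) ≠ 0 := (Real.sqrt_pos.2 hpos).ne'
  have hs := Real.mul_self_sqrt hpos.le
  simp only [mr_eq K b H hp]
  generalize Real.sqrt (dt4 (crs K b H i p) (crs K b H i p)) = s at *
  generalize crs K b H i p = X at *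
  unfold dt4 at hs ⊢
  simp only [Fin.sum_univ_four] at hs ⊢
  field_simp
  linear_combination -hs

lemma mr_ok {i : Fin K.n} {p : M} (hp : p ∈ K.V i) : okM K b H p (fun k => mr K b H i k p) := by
  have hlin : ∀ v : Fin 4 → ℝ, dt4 (crs K b H i p) v = 0 → dt4 (fun k => mr K b H i k p) v = 0 := by
    intro v hv
    have : dt4 (fun k => mr K b H i k p) v =
        (1 / Real.sqrt (dt4 (crs K b H i p) (crs K b H i p))) * dt4 (crs K b H i p) v := by
      simp only [mr_eq K b H hp]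
      unfold dt4
      rw [Finset.mul_sum]
      exact Finset.sum_congr rfl fun k _ => by ring
    rw [this, hv, mul_zero]
  refine ⟨mr_unit K b H hp, hlin _ (dt4_cr4_3 _ _ _), fun j => ?_⟩
  obtain ⟨c, hc⟩ := Dv_comb K b H hp j
  have h1 : (fun k => K.Dv b j H.F p k) =
      fun k => c 0 * raw K b H i 0 p k + c 1 * raw K b H i 1 p k := funext hc
  rw [h1]
  apply hlin
  have e0 := dt4_cr4_1 (raw K b H i 0 p) (raw K b H i 1 p) (H.xi p)
  have e1 := dt4_cr4_2 (raw K b H i 0 p) (raw K b H i 1 p) (H.xi p)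
  rw [crs]
  generalize cr4 (raw K b H i 0 p) (raw K b H i 1 p) (H.xi p) = X at *
  unfold dt4 at *
  rw [Fin.sum_univ_four] at *
  linear_combination c 0 * e0 + c 1 * e1

lemma ok_neg' {p : M} {n : Fin 4 → ℝ} (h : okM K b H p n) : okM K b H p (fun k => -n k) := by
  obtain ⟨h1, h2, h3⟩ := h
  have hneg : ∀ v, dt4 (fun k => -n k) v = - dt4 n v := by
    intro v; unfold dt4; rw [← Finset.sum_neg_distrib]
    exact Finset.sum_congr rfl fun k _ => by ring
  refine ⟨?_, ?_, fun j => ?_⟩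
  · have : dt4 (fun k => -n k) (fun k => -n k) = dt4 n n := by
      unfold dt4; exact Finset.sum_congr rfl fun k _ => by ring
    rw [this, h1]
  · rw [hneg, h2, neg_zero]
  · rw [hneg, h3, neg_zero]

lemma okM_iff {i : Fin K.n} {p : M} (hp : p ∈ K.V i) (n : Fin 4 → ℝ) : okM K b H p n ↔
    (∀ k, n k = mr K b H i k p) ∨ (∀ k, n k = - mr K b H i k p) := by
  constructor
  · rintro ⟨h1, h2, h3⟩
    have e0 := h3 (i, 0)
    have e1 := h3 (i, 1)
    rw [Dv_raw K b H hp] at e0 e1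
    have := unit_or (crs_pos K b H (K.V_sub i hp)) h1 e0 e1 h2
    simp only [mr_eq K b H hp]
    exact this
  · rintro (h | h)
    · have : n = fun k => mr K b H i k p := funext h
      rw [this]; exact mr_ok K b H hp
    · have : n = fun k => -mr K b H i k p := funext h
      rw [this]; exact ok_neg' K b H (mr_ok K b H hp)

variable [CompactSpace M]

/-- the line field of an immersion with a unit normal field -/
def lineM : Line (K.dalg b) (Fin K.n) where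
  V := K.V
  cov := K.cov
  locD i j u v h p hp := Dv_congr K b j (K.opn i) h hp
  locS u h := by
    rw [Cov.dalg_Sm]
    intro p
    obtain ⟨i, hi⟩ := K.cov p
    obtain ⟨v, hv, hv2⟩ := h i
    have h1 : ContMDiffAt 𝓘(ℝ, E) 𝓘(ℝ, ℂ) ∞ v p := (K.dalg_Sm b).1 hv p
    refine h1.congr_of_eventuallyEq ?_
    filter_upwards [(K.opn i).mem_nhds hi] with q hq
    exact hv2 q hq
  m i k p := ((mr K b H i k p : ℝ) : ℂ)
  smm i k := (K.dalg_Sm b).2 (Complex.ofRealCLM.contDiff.comp_contMDiff (sm_mr K b H i k))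
  rm i k p := Complex.ofReal_im _
  unit i p hp := by
    have h1 := mr_unit K b H hp
    have h2 : (((dt4 (fun k => mr K b H i k p) (fun k => mr K b H i k p) : ℝ)) : ℂ) = 1 := by
      rw [h1]; simp
    rw [← h2, dt4]; push_cast; rfl
  ok := okM K b H
  ok_iff i p hp n := by
    rw [okM_iff K b H hp]
    constructor
    · rintro (h | h)
      · left; intro k; rw [h k]
      · right; intro k; rw [h k]; push_cast; rfl
    · rintro (h | h)
      · left; intro k; exact_mod_cast h k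
      · right; intro k
        have := h k
        rw [← Complex.ofReal_neg] at this
        exact_mod_cast this
  ex p := by
    obtain ⟨i, hi⟩ := K.cov p
    exact ⟨_, mr_ok K b H hi⟩

end man

end Vale.Agent.P205.TW
end
end

section

/-!
P205, scheme T1W, DATA on the cover: odd lifts of sections of the line field, lifts of tensors.
-/

noncomputable section

namespace Vale.Agent.P205.TW.DC

open Vale.Agent.P205.F Vale.Agent.P205.TW

section odd

variable {P κ I : Type*} {S : DAlg P κ} (L : Line S I)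

/-- odd function of a section -/
def odl (Ψ : Fin 4 → P → ℂ) (x : L.Pt) : ℂ := ∑ k, Ψ k (L.pi x) * L.n k x

variable {L} {Ψ : Fin 4 → P → ℂ}

lemma sm_odl (h : ∀ k, S.Sm (Ψ k)) : L.cover.Sm (odl L Ψ) :=
  Line.smc_of (a := fun _ => 0) (b := Ψ) (S.sm_const 0) h (fun x => by rw [zero_add]; rfl)

lemma rl_odl (h : ∀ k, Rl (Ψ k)) : Rl (odl L Ψ) := by
  intro x
  rw [odl, Complex.im_sum]
  refine Finset.sum_eq_zero fun k _ => ?_
  rw [Complex.mul_im, h k, Line.im_n]; ring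

lemma odl_sg (x : L.Pt) : odl L Ψ (L.sg x) = -odl L Ψ x := by
  simp only [odl, Line.pi_sg, Line.n_sg, mul_neg, Finset.sum_neg_distrib]

lemma od_odl (hs : ∀ k (x : L.Pt), Ψ k (L.pi x) = odl L Ψ x * L.n k x) (k : Fin 4) :
    L.od (odl L Ψ) k = Ψ k := by
  funext p
  have h1 := Line.od_pi (L := L) (odl L Ψ) k (L.s0 p)
  rw [Line.pi_s0, odl_sg] at h1
  rw [h1]
  have h2 := hs k (L.s0 p)
  rw [Line.pi_s0] at h2
  rw [h2]; ring

lemma ev_odl : L.ev (odl L Ψ) = fun _ => 0 :=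
  Line.ev_of (a := fun _ => 0) (b := Ψ) (fun x => by rw [zero_add]; rfl)

lemma D_odl (hs : ∀ k (x : L.Pt), Ψ k (L.pi x) = odl L Ψ x * L.n k x) (j : κ) (x : L.Pt) :
    L.cover.D j (odl L Ψ) x = ∑ k, S.D j (Ψ k) (L.pi x) * L.n k x := by
  rw [Line.cover_D, Line.Dc, ev_odl, S.D_const]
  simp only [od_odl hs, Pi.zero_apply, zero_add]

end odd

section tens

variable {P I : Type*} {κ : Type} [Fintype κ] {S : DAlg P κ} {L : Line S I}

/-- lift of a tensor -/
lemma isT_lift {T : κ → κ → P → ℂ} (h : S.IsT T) :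
    L.cover.IsT (fun j k x => T j k (L.pi x)) := by
  refine ⟨fun j k => ?_, fun x c hc k => ?_⟩
  · funext x
    exact congrFun (h.1 j k) (L.pi x)
  · refine h.2 (L.pi x) c (fun u hu => ?_) k
    have h1 := hc (fun x => u (L.pi x)) (Line.sm_pi_iff.2 hu)
    simp only [Line.D_pi] at h1
    exact h1

end tens

end Vale.Agent.P205.TW.DC
end
end

section

/-!
Local form of the generic twisted phase: `ψ_c x = ⟪n x, a + B (G x)⟫`, `c = (a, B)`, has isolated
critical points for almost every `c`.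
-/

open MeasureTheory Set Filter Module
open scoped Topology ContDiff RealInnerProductSpace

noncomputable section

namespace Vale.Agent.P205.TW

variable {E W : Type*}
  [NormedAddCommGroup E] [NormedSpace ℝ E] [FiniteDimensional ℝ E]
  [NormedAddCommGroup W] [InnerProductSpace ℝ W] [FiniteDimensional ℝ W]

/-- the parameters `c = (a, B)` -/
abbrev Par (W : Type*) [NormedAddCommGroup W] [InnerProductSpace ℝ W] : Type _ := W × (W →L[ℝ] W)

/-- the twisted function with parameter `c` for the local normal field `n` -/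
def psic (G n : E → W) (c : Par W) (x : E) : ℝ := ⟪n x, c.1 + c.2 (G x)⟫

/-- evaluation `c ↦ a + B w`, a continuous linear map -/
def evp (w : W) : Par W →L[ℝ] W :=
  ContinuousLinearMap.fst ℝ W (W →L[ℝ] W) +
    (ContinuousLinearMap.apply ℝ W w).comp (ContinuousLinearMap.snd ℝ W (W →L[ℝ] W))

theorem hasFDerivAt_psic {G n : E → W} {x : E} (c : Par W) (hG : DifferentiableAt ℝ G x)
    (hn : DifferentiableAt ℝ n x) (v : E) :
    fderiv ℝ (psic G n c) x v =
      ⟪n x, c.2 (fderiv ℝ G x v)⟫ + ⟪fderiv ℝ n x v, c.1 + c.2 (G x)⟫ := by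
  have h1 : DifferentiableAt ℝ (fun y => c.1 + c.2 (G y)) x :=
    (differentiableAt_const _).add (c.2.differentiableAt.comp x hG)
  have h2 : fderiv ℝ (fun y => c.1 + c.2 (G y)) x v = c.2 (fderiv ℝ G x v) := by
    have h3 : HasFDerivAt (fun y => c.1 + c.2 (G y)) (c.2.comp (fderiv ℝ G x)) x := by
      have := (c.2.hasFDerivAt (x := G x)).comp x hG.hasFDerivAt
      exact this.const_add c.1
    rw [h3.fderiv]
    rfl
  have h4 := fderiv_inner_apply ℝ hn h1 v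
  unfold psic
  rw [h4, h2]

/-- the linear map of the parameter -/
def Lpsi (G n : E → W) (x : E) : Par W →L[ℝ] (E →L[ℝ] ℝ) :=
  LinearMap.toContinuousLinearMap
    { toFun := fun c => (innerSL ℝ (n x)).comp (c.2.comp (fderiv ℝ G x)) +
        (innerSL ℝ (c.1 + c.2 (G x))).comp (fderiv ℝ n x)
      map_add' := by
        intro c d
        ext v
        simp only [Prod.snd_add, Prod.fst_add, add_apply,
          ContinuousLinearMap.comp_apply, innerSL_apply_apply, inner_add_left, inner_add_right]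
        ring
      map_smul' := by
        intro r c
        ext v
        simp only [Prod.smul_snd, Prod.smul_fst, add_apply,
          ContinuousLinearMap.comp_apply, innerSL_apply_apply, inner_add_left, inner_add_right,
          smul_apply, real_inner_smul_left, real_inner_smul_right,
          RingHom.id_apply, smul_eq_mul]
        ring }

theorem Lpsi_apply (G n : E → W) (x : E) (c : Par W) (v : E) :
    Lpsi G n x c v = ⟪n x, c.2 (fderiv ℝ G x v)⟫ + ⟪c.1 + c.2 (G x), fderiv ℝ n x v⟫ := rfl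

theorem Lpsi_eq {G n : E → W} {x : E} (c : Par W) (hG : DifferentiableAt ℝ G x)
    (hn : DifferentiableAt ℝ n x) : Lpsi G n x c = fderiv ℝ (psic G n c) x := by
  ext v
  rw [Lpsi_apply, hasFDerivAt_psic c hG hn v, real_inner_comm (c.1 + c.2 (G x))]

theorem Lpsi_surjective {G n : E → W} {x : E} (hinj : Function.Injective (fderiv ℝ G x))
    (hunit : ‖n x‖ = 1) : Function.Surjective (Lpsi G n x) := by
  intro ξ
  -- extend `ξ` to `W`
  obtain ⟨g, hg⟩ := LinearMap.exists_leftInverse_of_injective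
    (fderiv ℝ G x : E →ₗ[ℝ] W) (LinearMap.ker_eq_bot.2 hinj)
  set η : W →L[ℝ] ℝ := ξ.comp (LinearMap.toContinuousLinearMap g) with hη
  have h1 : ∀ v, η (fderiv ℝ G x v) = ξ v := by
    intro v
    have := congrArg (fun T => T v) hg
    simp only [LinearMap.comp_apply, LinearMap.id_apply, ContinuousLinearMap.coe_coe] at this
    simp [hη, this]
  refine ⟨(-(η (G x)) • n x, η.smulRight (n x)), ?_⟩
  ext v
  rw [Lpsi_apply]
  have h2 : (-(η (G x)) • n x, η.smulRight (n x)).1 +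
      ((-(η (G x)) • n x, η.smulRight (n x)) : Par W).2 (G x) = 0 := by
    simp [ContinuousLinearMap.smulRight_apply]
  rw [h2, inner_zero_left, add_zero]
  simp only [ContinuousLinearMap.smulRight_apply, real_inner_smul_right, h1]
  rw [real_inner_self_eq_norm_sq, hunit]
  simp

theorem contDiffOn_Lpsi {G n : E → W} {V : Set E} (hV : IsOpen V) (hG : ContDiffOn ℝ 2 G V)
    (hn : ContDiffOn ℝ 2 n V) : ContDiffOn ℝ 1 (Lpsi G n) V := by
  rw [contDiffOn_clm_apply]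
  intro c
  rw [contDiffOn_clm_apply]
  intro v x hx
  have hGx : ContDiffAt ℝ 2 G x := hG.contDiffAt (hV.mem_nhds hx)
  have hnx : ContDiffAt ℝ 2 n x := hn.contDiffAt (hV.mem_nhds hx)
  have hG1 : ContDiffAt ℝ 1 G x := hGx.of_le one_le_two
  have hn1 : ContDiffAt ℝ 1 n x := hnx.of_le one_le_two
  have hdG : ContDiffAt ℝ 1 (fderiv ℝ G) x := hGx.fderiv_right (m := 1) (by norm_num)
  have hdn : ContDiffAt ℝ 1 (fderiv ℝ n) x := hnx.fderiv_right (m := 1) (by norm_num)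
  refine ContDiffAt.contDiffWithinAt ?_
  have h1 : ContDiffAt ℝ 1 (fun y => fderiv ℝ G y v) x := hdG.clm_apply contDiffAt_const
  have h2 : ContDiffAt ℝ 1 (fun y => fderiv ℝ n y v) x := hdn.clm_apply contDiffAt_const
  have h3 : ContDiffAt ℝ 1 (fun y => c.2 (fderiv ℝ G y v)) x :=
    c.2.contDiff.contDiffAt.comp x h1
  have h4 : ContDiffAt ℝ 1 (fun y => c.1 + c.2 (G y)) x :=
    contDiffAt_const.add (c.2.contDiff.contDiffAt.comp x hG1)
  have h5 := (hn1.inner ℝ h3).add (h4.inner ℝ h2)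
  exact h5

/-- **local generic statement** -/
theorem psi_generic_local [MeasurableSpace (Par W)] [BorelSpace (Par W)] (μ : Measure (Par W))
    [μ.IsAddHaarMeasure] {V : Set E} (hV : IsOpen V) {G n : E → W}
    (hG : ContDiffOn ℝ 2 G V) (hn : ContDiffOn ℝ 2 n V)
    (hinj : ∀ x ∈ V, Function.Injective (fderiv ℝ G x)) (hunit : ∀ x ∈ V, ‖n x‖ = 1) :
    ∀ᵐ c ∂μ, ∀ x ∈ V, fderiv ℝ (psic G n c) x = 0 →
      ∀ᶠ y in 𝓝 x, fderiv ℝ (psic G n c) y = 0 → y = x := by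
  have hdim : finrank ℝ (E →L[ℝ] ℝ) = finrank ℝ E := by
    have h1 : finrank ℝ (E →L[ℝ] ℝ) = finrank ℝ (E →ₗ[ℝ] ℝ) :=
      (LinearMap.toContinuousLinearMap (𝕜 := ℝ) (E := E) (F' := ℝ)).symm.finrank_eq
    rw [h1, Module.finrank_linearMap]
    simp
  filter_upwards [ae_isolated μ hdim hV (Lpsi G n) (contDiffOn_Lpsi hV hG hn)
    (fun x hx => Lpsi_surjective (hinj x hx) (hunit x hx))] with c hc x hx h0
  have hd : ∀ y ∈ V, Lpsi G n y c = fderiv ℝ (psic G n c) y := by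
    intro y hy
    exact Lpsi_eq c (((hG.contDiffAt (hV.mem_nhds hy))).differentiableAt two_ne_zero)
      (((hn.contDiffAt (hV.mem_nhds hy))).differentiableAt two_ne_zero)
  have h1 := hc x hx (by rw [hd x hx]; exact h0)
  filter_upwards [h1, hV.mem_nhds hx] with y hy hyV h2
  exact hy (by rw [hd y hyV]; exact h2)

end Vale.Agent.P205.TW
end
end

section

/-!
Manifold form of the generic twisted phase.
-/

open MeasureTheory Set Filter Module
open scoped Topology ContDiff Manifold RealInnerProductSpace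

noncomputable section

namespace Vale.Agent.P205.TW

variable {E W : Type*}
  [NormedAddCommGroup E] [NormedSpace ℝ E] [FiniteDimensional ℝ E]
  [NormedAddCommGroup W] [InnerProductSpace ℝ W] [FiniteDimensional ℝ W]
  {M : Type*} [TopologicalSpace M] [ChartedSpace E M] [IsManifold 𝓘(ℝ, E) ∞ M]

theorem two_le_inf : (2 : ℕ∞ω) ≤ ∞ := WithTop.coe_le_coe.2 le_top

/-- the twisted function on the manifold for the local normal field `m` -/
def psiM (F0 m : M → W) (c : Par W) (p : M) : ℝ := ⟪m p, c.1 + c.2 (F0 p)⟫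

theorem contMDiffOn_psiM {V : Set M} {F0 m : M → W} (hF : ContMDiff 𝓘(ℝ, E) 𝓘(ℝ, W) ∞ F0)
    (hm : ContMDiffOn 𝓘(ℝ, E) 𝓘(ℝ, W) ∞ m V) (c : Par W) :
    ContMDiffOn 𝓘(ℝ, E) 𝓘(ℝ, ℝ) ∞ (psiM F0 m c) V := by
  have h1 : ContMDiff 𝓘(ℝ, E) 𝓘(ℝ, W) ∞ (fun p => c.1 + c.2 (F0 p)) := by
    have h2 : ContMDiff 𝓘(ℝ, E) 𝓘(ℝ, W) ∞ (fun p => c.2 (F0 p)) :=
      c.2.contMDiff.comp hF
    exact contMDiff_const.add h2
  have h3 : ContDiff ℝ ∞ (fun z : W × W => ⟪z.1, z.2⟫) := contDiff_inner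
  have h4 : ContMDiffOn 𝓘(ℝ, E) 𝓘(ℝ, W × W) ∞ (fun p => (m p, c.1 + c.2 (F0 p))) V :=
    hm.prodMk_space h1.contMDiffOn
  exact (h3.contMDiff).comp_contMDiffOn h4

/-- the critical points of a function and of its chart expression -/
theorem mfderiv_eq_zero_iff {f : M → ℝ} {x p : M} (hp : p ∈ (extChartAt 𝓘(ℝ, E) x).source)
    (hf : MDifferentiableAt 𝓘(ℝ, E) 𝓘(ℝ, ℝ) f p) :
    mfderiv 𝓘(ℝ, E) 𝓘(ℝ, ℝ) f p = 0 ↔
      fderiv ℝ (f ∘ (extChartAt 𝓘(ℝ, E) x).symm) (extChartAt 𝓘(ℝ, E) x p) = 0 := by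
  set φ := extChartAt 𝓘(ℝ, E) x with hφ
  have hp' : p ∈ (chartAt E x).source := by rwa [extChartAt_source] at hp
  have hpt : φ p ∈ φ.target := φ.map_source hp
  have hs : φ.symm (φ p) = p := φ.left_inv hp
  have hφd : MDifferentiableAt 𝓘(ℝ, E) 𝓘(ℝ, E) φ p :=
    (contMDiffAt_extChartAt' (n := ∞) hp').mdifferentiableAt (by simp)
  have hφsd : MDifferentiableAt 𝓘(ℝ, E) 𝓘(ℝ, E) φ.symm (φ p) := by
    have h1 : ContMDiffOn 𝓘(ℝ, E) 𝓘(ℝ, E) ∞ φ.symm φ.target := contMDiffOn_extChartAt_symm x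
    have h2 : φ.target ∈ 𝓝 (φ p) := extChartAt_target_mem_nhds' hpt
    exact (h1.contMDiffAt h2).mdifferentiableAt (by simp)
  have hf' : MDifferentiableAt 𝓘(ℝ, E) 𝓘(ℝ, ℝ) f (φ.symm (φ p)) := by rw [hs]; exact hf
  have hg : MDifferentiableAt 𝓘(ℝ, E) 𝓘(ℝ, ℝ) (f ∘ φ.symm) (φ p) := hf'.comp _ hφsd
  constructor
  · intro h
    have h1 := mfderiv_comp (φ p) hf' hφsd
    rw [hs, h] at h1
    rw [← mfderiv_eq_fderiv, h1]
    rfl
  · intro h
    have h1 : mfderiv 𝓘(ℝ, E) 𝓘(ℝ, ℝ) ((f ∘ φ.symm) ∘ φ) p =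
        (mfderiv 𝓘(ℝ, E) 𝓘(ℝ, ℝ) (f ∘ φ.symm) (φ p)).comp (mfderiv 𝓘(ℝ, E) 𝓘(ℝ, E) φ p) :=
      mfderiv_comp p hg hφd
    have h2 : (f ∘ φ.symm) ∘ φ =ᶠ[𝓝 p] f := by
      have h3 : φ.source ∈ 𝓝 p := extChartAt_source_mem_nhds' hp
      filter_upwards [h3] with q hq
      simp [φ.left_inv hq]
    rw [← h2.mfderiv_eq, h1, mfderiv_eq_fderiv, h]
    rfl

/-- **generic twisted functions have isolated critical points on `V`** -/
theorem ae_isolated_mfd [CompactSpace M] [MeasurableSpace (Par W)] [BorelSpace (Par W)]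
    (μ : Measure (Par W)) [μ.IsAddHaarMeasure] {V : Set M} (hV : IsOpen V) {F0 m : M → W}
    (hF : ContMDiff 𝓘(ℝ, E) 𝓘(ℝ, W) ∞ F0)
    (hinj : ∀ p, Function.Injective (mfderiv 𝓘(ℝ, E) 𝓘(ℝ, W) F0 p))
    (hm : ContMDiffOn 𝓘(ℝ, E) 𝓘(ℝ, W) ∞ m V) (hunit : ∀ p ∈ V, ‖m p‖ = 1) :
    ∀ᵐ c ∂μ, ∀ p ∈ V, mfderiv 𝓘(ℝ, E) 𝓘(ℝ, ℝ) (psiM F0 m c) p = 0 →
      ∀ᶠ q in 𝓝 p, mfderiv 𝓘(ℝ, E) 𝓘(ℝ, ℝ) (psiM F0 m c) q = 0 → q = p := by
  classical
  obtain ⟨t, -, ht⟩ := (isCompact_univ (X := M)).elim_nhds_subcover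
    (fun x => (extChartAt 𝓘(ℝ, E) x).source) fun x _ => extChartAt_source_mem_nhds x
  have key : ∀ x : M, ∀ᵐ c ∂μ, ∀ p ∈ V ∩ (extChartAt 𝓘(ℝ, E) x).source,
      mfderiv 𝓘(ℝ, E) 𝓘(ℝ, ℝ) (psiM F0 m c) p = 0 →
      ∀ᶠ q in 𝓝 p, mfderiv 𝓘(ℝ, E) 𝓘(ℝ, ℝ) (psiM F0 m c) q = 0 → q = p := by
    intro x
    set φ := extChartAt 𝓘(ℝ, E) x with hφ
    set U : Set E := φ.target ∩ φ.symm ⁻¹' V with hU
    have hUo : IsOpen U :=
      (continuousOn_extChartAt_symm x).isOpen_inter_preimage (isOpen_extChartAt_target x) hV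
    have hsym : ContMDiffOn 𝓘(ℝ, E) 𝓘(ℝ, E) ∞ φ.symm φ.target := contMDiffOn_extChartAt_symm x
    have hG : ContDiffOn ℝ 2 (F0 ∘ φ.symm) U := by
      have h1 : ContMDiffOn 𝓘(ℝ, E) 𝓘(ℝ, W) ∞ (F0 ∘ φ.symm) φ.target := hF.comp_contMDiffOn hsym
      exact ((contMDiffOn_iff_contDiffOn.1 h1).mono inter_subset_left).of_le two_le_inf
    have hn : ContDiffOn ℝ 2 (m ∘ φ.symm) U := by
      have h1 : ContMDiffOn 𝓘(ℝ, E) 𝓘(ℝ, W) ∞ (m ∘ φ.symm) U :=
        hm.comp (hsym.mono inter_subset_left) (fun y hy => hy.2)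
      exact (contMDiffOn_iff_contDiffOn.1 h1).of_le two_le_inf
    have hsd : ∀ y ∈ φ.target, MDifferentiableAt 𝓘(ℝ, E) 𝓘(ℝ, E) φ.symm y := fun y hy =>
      (hsym.contMDiffAt (extChartAt_target_mem_nhds' hy)).mdifferentiableAt (by simp)
    have hFd : ∀ q, MDifferentiableAt 𝓘(ℝ, E) 𝓘(ℝ, W) F0 q := fun q =>
      hF.contMDiffAt.mdifferentiableAt (by simp)
    have hinj' : ∀ y ∈ U, Function.Injective (fderiv ℝ (F0 ∘ φ.symm) y) := by
      intro y hy
      rw [← mfderiv_eq_fderiv, mfderiv_comp y (hFd _) (hsd y hy.1)]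
      have h2 : Function.Injective (mfderiv 𝓘(ℝ, E) 𝓘(ℝ, E) φ.symm y) := by
        -- left inverse
        have hsrc : φ.symm y ∈ φ.source := φ.map_target hy.1
        have hsrc' : φ.symm y ∈ (chartAt E x).source := by
          have := hsrc
          rwa [hφ, extChartAt_source] at this
        have hφd : MDifferentiableAt 𝓘(ℝ, E) 𝓘(ℝ, E) φ (φ.symm y) :=
          (contMDiffAt_extChartAt' (n := ∞) hsrc').mdifferentiableAt (by simp)
        have h3 := mfderiv_comp y hφd (hsd y hy.1)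
        have h4 : φ ∘ φ.symm =ᶠ[𝓝 y] id := by
          filter_upwards [extChartAt_target_mem_nhds' hy.1] with z hz
          exact φ.right_inv hz
        rw [h4.mfderiv_eq, mfderiv_id] at h3
        intro v w hvw
        have h5 := congrArg (fun T => T v) h3
        have h6 := congrArg (fun T => T w) h3
        simp only [ContinuousLinearMap.comp_apply] at h5 h6
        rw [hvw] at h5
        exact h5.trans h6.symm
      exact (hinj _).comp h2
    have hunit' : ∀ y ∈ U, ‖(m ∘ φ.symm) y‖ = 1 := fun y hy => hunit _ hy.2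
    filter_upwards [psi_generic_local μ hUo hG hn hinj' hunit'] with c hc p hp h0
    have hmd : ∀ q ∈ V, MDifferentiableAt 𝓘(ℝ, E) 𝓘(ℝ, ℝ) (psiM F0 m c) q := fun q hq =>
      ((contMDiffOn_psiM hF hm c).contMDiffAt (hV.mem_nhds hq)).mdifferentiableAt (by simp)
    have heq : psiM F0 m c ∘ φ.symm = psic (F0 ∘ φ.symm) (m ∘ φ.symm) c := rfl
    have hyU : φ p ∈ U := by
      refine ⟨φ.map_source hp.2, ?_⟩
      change φ.symm (φ p) ∈ V
      rw [φ.left_inv hp.2]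
      exact hp.1
    have h1 : fderiv ℝ (psic (F0 ∘ φ.symm) (m ∘ φ.symm) c) (φ p) = 0 := by
      rw [← heq]
      exact (mfderiv_eq_zero_iff hp.2 (hmd p hp.1)).1 h0
    have h2 := hc (φ p) hyU h1
    have hcont : ContinuousAt φ p := continuousAt_extChartAt' hp.2
    filter_upwards [hcont.eventually h2, hV.mem_nhds hp.1, extChartAt_source_mem_nhds' hp.2]
      with q hq hqV hqs h3
    have h4 : fderiv ℝ (psic (F0 ∘ φ.symm) (m ∘ φ.symm) c) (φ q) = 0 := by
      rw [← heq]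
      exact (mfderiv_eq_zero_iff hqs (hmd q hqV)).1 h3
    exact φ.injOn hqs hp.2 (hq h4)
  have h1 : ∀ᵐ c ∂μ, ∀ x ∈ t, ∀ p ∈ V ∩ (extChartAt 𝓘(ℝ, E) x).source,
      mfderiv 𝓘(ℝ, E) 𝓘(ℝ, ℝ) (psiM F0 m c) p = 0 →
      ∀ᶠ q in 𝓝 p, mfderiv 𝓘(ℝ, E) 𝓘(ℝ, ℝ) (psiM F0 m c) q = 0 → q = p :=
    (ae_ball_iff t.countable_toSet).2 fun x _ => key x
  filter_upwards [h1] with c hc p hp h0
  obtain ⟨x, hx, hpx⟩ := mem_iUnion₂.1 (ht (mem_univ p))
  exact hc x hx p ⟨hp, hpx⟩ h0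

/-- two continuous unit fields which agree up to the sign at every point agree up to a constant
sign near every point -/
theorem unit_sign_local {n n' : M → W} {V V' : Set M}
    (hV : IsOpen V) (hV' : IsOpen V') (hn : ContinuousOn n V) (hn' : ContinuousOn n' V')
    (h1 : ∀ p ∈ V, ‖n p‖ = 1) (halt : ∀ p ∈ V, p ∈ V' → n' p = n p ∨ n' p = -n p) {p : M}
    (hp : p ∈ V) (hp' : p ∈ V') : (n' =ᶠ[𝓝 p] n) ∨ (n' =ᶠ[𝓝 p] fun q => -n q) := by
  have hc : ContinuousAt (fun q => ⟪n' q, n q⟫) p :=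
    (hn'.continuousAt (hV'.mem_nhds hp')).inner (hn.continuousAt (hV.mem_nhds hp))
  have hnb : V ∩ V' ∈ 𝓝 p := inter_mem (hV.mem_nhds hp) (hV'.mem_nhds hp')
  have hself : ∀ q ∈ V, ⟪n q, n q⟫ = 1 := fun q hq => by
    rw [real_inner_self_eq_norm_sq, h1 q hq, one_pow]
  rcases halt p hp hp' with h | h
  · left
    have hpos : (0 : ℝ) < ⟪n' p, n p⟫ := by rw [h, hself p hp]; exact one_pos
    filter_upwards [hnb, hc.eventually (lt_mem_nhds hpos)] with q hq hq2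
    rcases halt q hq.1 hq.2 with h3 | h3
    · exact h3
    · rw [h3, inner_neg_left, hself q hq.1] at hq2
      linarith
  · right
    have hneg : ⟪n' p, n p⟫ < (0 : ℝ) := by
      rw [h, inner_neg_left, hself p hp]; norm_num
    filter_upwards [hnb, hc.eventually (gt_mem_nhds hneg)] with q hq hq2
    rcases halt q hq.1 hq.2 with h3 | h3
    · rw [h3, hself q hq.1] at hq2
      linarith
    · exact h3

/-- the critical points do not depend on the local normal field -/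
theorem mfderiv_psiM_congr {F0 n n' : M → W} {c : Par W} {p : M}
    (h : (n' =ᶠ[𝓝 p] n) ∨ (n' =ᶠ[𝓝 p] fun q => -n q)) :
    mfderiv 𝓘(ℝ, E) 𝓘(ℝ, ℝ) (psiM F0 n c) p = 0 ↔
      mfderiv 𝓘(ℝ, E) 𝓘(ℝ, ℝ) (psiM F0 n' c) p = 0 := by
  rcases h with h | h
  · have h1 : psiM F0 n' c =ᶠ[𝓝 p] psiM F0 n c := by
      filter_upwards [h] with q hq
      simp only [psiM, hq]
    rw [h1.mfderiv_eq]
    exact Iff.rfl
  · have h1 : psiM F0 n' c =ᶠ[𝓝 p] fun q => -psiM F0 n c q := by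
      filter_upwards [h] with q hq
      simp only [psiM, hq, inner_neg_left]
    rw [h1.mfderiv_eq]
    have h2 : mfderiv 𝓘(ℝ, E) 𝓘(ℝ, ℝ) (-psiM F0 n c) p =
        -mfderiv 𝓘(ℝ, E) 𝓘(ℝ, ℝ) (psiM F0 n c) p := mfderiv_neg
    have h3 : (fun q => -psiM F0 n c q) = -psiM F0 n c := rfl
    rw [h3, h2]
    exact (neg_eq_zero).symm

/-- the four-dimensional case: unit vectors orthogonal to a plane and to a normal vector -/
theorem unit_normal_unique4 (hE : finrank ℝ E = 2) (hW : finrank ℝ W = 4) {T : E →L[ℝ] W}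
    (hT : Function.Injective T) {ξ n n' : W} (hξ : ξ ≠ 0) (hξT : ∀ v, ⟪ξ, T v⟫ = 0)
    (hn : ‖n‖ = 1) (hn' : ‖n'‖ = 1)
    (h : ∀ v, ⟪n, T v⟫ = 0) (h' : ∀ v, ⟪n', T v⟫ = 0) (hx : ⟪n, ξ⟫ = 0) (hx' : ⟪n', ξ⟫ = 0) :
    n' = n ∨ n' = -n := by
  set T' : (E × ℝ) →L[ℝ] W :=
    T.comp (ContinuousLinearMap.fst ℝ E ℝ) +
      (ContinuousLinearMap.snd ℝ E ℝ).smulRight ξ with hT'
  have hT'a : ∀ z, T' z = T z.1 + z.2 • ξ := fun z => rfl
  have hinj : Function.Injective T' := by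
    rw [injective_iff_map_eq_zero]
    rintro ⟨v, r⟩ hz
    rw [hT'a] at hz
    have h1 : ⟪ξ, T v + r • ξ⟫ = 0 := by
      simp only at hz
      rw [hz, inner_zero_right]
    rw [inner_add_right, hξT, zero_add, real_inner_smul_right] at h1
    have h2 : ⟪ξ, ξ⟫ ≠ 0 := by
      rw [real_inner_self_eq_norm_sq]
      exact pow_ne_zero 2 (norm_ne_zero_iff.2 hξ)
    have hr : r = 0 := (mul_eq_zero.1 h1).resolve_right h2
    simp only [hr, zero_smul, add_zero] at hz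
    have hv : v = 0 := hT (by rw [hz, map_zero])
    rw [hr, hv]
    rfl
  set R : Submodule ℝ W := LinearMap.range (T' : E × ℝ →ₗ[ℝ] W) with hR
  have hRf : finrank ℝ R = 3 := by
    rw [hR, LinearMap.finrank_range_of_inj hinj, Module.finrank_prod, hE]
    simp
  have hperp : finrank ℝ Rᗮ = 1 := by
    have h1 := Submodule.finrank_add_finrank_orthogonal R
    omega
  have hnR : n ∈ Rᗮ := by
    rw [Submodule.mem_orthogonal']
    rintro u ⟨v, rfl⟩
    change ⟪n, T' v⟫ = 0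
    rw [hT'a, inner_add_right, h, real_inner_smul_right, hx, mul_zero, add_zero]
  have hnR' : n' ∈ Rᗮ := by
    rw [Submodule.mem_orthogonal']
    rintro u ⟨v, rfl⟩
    change ⟪n', T' v⟫ = 0
    rw [hT'a, inner_add_right, h', real_inner_smul_right, hx', mul_zero, add_zero]
  have hn0 : (⟨n, hnR⟩ : Rᗮ) ≠ 0 := by
    intro h0
    have : n = 0 := congrArg Subtype.val h0
    rw [this, norm_zero] at hn
    exact zero_ne_one hn
  obtain ⟨r, hr⟩ := (finrank_eq_one_iff_of_nonzero' (⟨n, hnR⟩ : Rᗮ) hn0).1 hperp ⟨n', hnR'⟩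
  have hr' : r • n = n' := congrArg Subtype.val hr
  have hr1 : |r| = 1 := by
    have := congrArg norm hr'
    rw [norm_smul, hn, hn', mul_one] at this
    simpa using this
  rcases abs_eq (zero_le_one) |>.1 hr1 with h1 | h1
  · left
    rw [← hr', h1, one_smul]
  · right
    rw [← hr', h1, neg_smul, one_smul]

/-- **generic twisted phase**: for almost every `c` the set of critical points is finite;
general form: `m i` unit fields on `V i` which agree up to the sign -/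
theorem ae_finite_crit' [CompactSpace M] [MeasurableSpace (Par W)] [BorelSpace (Par W)]
    (μ : Measure (Par W)) [μ.IsAddHaarMeasure] {F0 : M → W} (hF : ContMDiff 𝓘(ℝ, E) 𝓘(ℝ, W) ∞ F0)
    (hinj : ∀ p, Function.Injective (mfderiv 𝓘(ℝ, E) 𝓘(ℝ, W) F0 p))
    {ι : Type*} [Countable ι] {V : ι → Set M} (hV : ∀ i, IsOpen (V i)) (hcov : ∀ p, ∃ i, p ∈ V i)
    {m : ι → M → W} (hm : ∀ i, ContMDiffOn 𝓘(ℝ, E) 𝓘(ℝ, W) ∞ (m i) (V i))
    (hunit : ∀ i, ∀ p ∈ V i, ‖m i p‖ = 1)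
    (hsgn : ∀ i j, ∀ p ∈ V i, p ∈ V j → m j p = m i p ∨ m j p = -m i p) :
    ∀ᵐ c ∂μ, {p : M | ∃ i, p ∈ V i ∧
      mfderiv 𝓘(ℝ, E) 𝓘(ℝ, ℝ) (psiM F0 (m i) c) p = 0}.Finite := by
  classical
  have h1 : ∀ᵐ c ∂μ, ∀ i, ∀ p ∈ V i, mfderiv 𝓘(ℝ, E) 𝓘(ℝ, ℝ) (psiM F0 (m i) c) p = 0 →
      ∀ᶠ q in 𝓝 p, mfderiv 𝓘(ℝ, E) 𝓘(ℝ, ℝ) (psiM F0 (m i) c) q = 0 → q = p :=
    ae_all_iff.2 fun i => ae_isolated_mfd μ (hV i) hF hinj (hm i) (hunit i)
  filter_upwards [h1] with c hc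
  -- locally at most one critical point
  have hloc : ∀ p : M, ∃ U ∈ 𝓝 p, ∀ q ∈ U, (∃ i, q ∈ V i ∧
      mfderiv 𝓘(ℝ, E) 𝓘(ℝ, ℝ) (psiM F0 (m i) c) q = 0) → q = p := by
    intro p
    obtain ⟨i, hi⟩ := hcov p
    have hcrit : ∀ q ∈ V i, (∃ j, q ∈ V j ∧
        mfderiv 𝓘(ℝ, E) 𝓘(ℝ, ℝ) (psiM F0 (m j) c) q = 0) →
        mfderiv 𝓘(ℝ, E) 𝓘(ℝ, ℝ) (psiM F0 (m i) c) q = 0 := by
      rintro q hq ⟨j, hj, h0⟩
      exact (mfderiv_psiM_congr (unit_sign_local (hV i) (hV j)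
        (hm i).continuousOn (hm j).continuousOn (hunit i) (hsgn i j) hq hj)).2 h0
    by_cases h0 : mfderiv 𝓘(ℝ, E) 𝓘(ℝ, ℝ) (psiM F0 (m i) c) p = 0
    · refine ⟨_, inter_mem (hc i p hi h0) ((hV i).mem_nhds hi), ?_⟩
      rintro q ⟨hq1, hq2⟩ hq3
      exact hq1 (hcrit q hq2 hq3)
    · -- the differential does not vanish near `p`
      set φ := extChartAt 𝓘(ℝ, E) p with hφ
      set U : Set E := φ.target ∩ φ.symm ⁻¹' V i with hU
      have hUo : IsOpen U :=
        (continuousOn_extChartAt_symm p).isOpen_inter_preimage (isOpen_extChartAt_target p) (hV i)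
      have hsm : ContMDiffOn 𝓘(ℝ, E) 𝓘(ℝ, ℝ) ∞ (psiM F0 (m i) c ∘ φ.symm) U :=
        (contMDiffOn_psiM hF (hm i) c).comp
          ((contMDiffOn_extChartAt_symm p).mono inter_subset_left) (fun y hy => hy.2)
      have hsm' : ContDiffOn ℝ 2 (psiM F0 (m i) c ∘ φ.symm) U :=
        (contMDiffOn_iff_contDiffOn.1 hsm).of_le two_le_inf
      have hps : p ∈ φ.source := mem_extChartAt_source p
      have hpU : φ p ∈ U := by
        refine ⟨φ.map_source hps, ?_⟩
        change φ.symm (φ p) ∈ V i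
        rw [φ.left_inv hps]
        exact hi
      have hmd : ∀ q ∈ V i, MDifferentiableAt 𝓘(ℝ, E) 𝓘(ℝ, ℝ) (psiM F0 (m i) c) q :=
        fun q hq => ((contMDiffOn_psiM hF (hm i) c).contMDiffAt
          ((hV i).mem_nhds hq)).mdifferentiableAt (by simp)
      have hne : fderiv ℝ (psiM F0 (m i) c ∘ φ.symm) (φ p) ≠ 0 := fun h =>
        h0 ((mfderiv_eq_zero_iff hps (hmd p hi)).2 h)
      have hcd : ContinuousAt (fderiv ℝ (psiM F0 (m i) c ∘ φ.symm)) (φ p) :=
        ((hsm'.contDiffAt (hUo.mem_nhds hpU)).fderiv_right (m := 1)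
          (by norm_num)).continuousAt
      have hev : ∀ᶠ y in 𝓝 (φ p), fderiv ℝ (psiM F0 (m i) c ∘ φ.symm) y ≠ 0 :=
        hcd.eventually (isOpen_ne.mem_nhds hne)
      have hcont : ContinuousAt φ p := continuousAt_extChartAt p
      have hsn : φ.source ∈ 𝓝 p := extChartAt_source_mem_nhds p
      refine ⟨_, inter_mem (hcont.eventually hev) (inter_mem ((hV i).mem_nhds hi) hsn), ?_⟩
      rintro q ⟨hq1, hq2, hq4⟩ hq3
      exact absurd ((mfderiv_eq_zero_iff hq4 (hmd q hq2)).1 (hcrit q hq2 hq3)) hq1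
  choose U hU hUc using hloc
  obtain ⟨t, -, ht⟩ := (isCompact_univ (X := M)).elim_nhds_subcover U fun x _ => hU x
  refine t.finite_toSet.subset ?_
  rintro p hp
  obtain ⟨x, hx, hpx⟩ := mem_iUnion₂.1 (ht (mem_univ p))
  have := hUc x p hpx hp
  rw [this]
  exact hx

end Vale.Agent.P205.TW
end
end

section

/-!
Local smooth unit normals and the generic twisted phase as a smooth normal field.
-/

open MeasureTheory Set Filter Module
open scoped Topology ContDiff Manifold RealInnerProductSpace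

noncomputable section

namespace Vale.Agent.P205.TW

section loc

variable {E E' W : Type*}
  [NormedAddCommGroup E] [NormedSpace ℝ E]
  [NormedAddCommGroup E'] [NormedSpace ℝ E'] [FiniteDimensional ℝ E']
  [NormedAddCommGroup W] [InnerProductSpace ℝ W] [FiniteDimensional ℝ W]

/-- local smooth unit normals of a smooth family of hyperplanes -/
theorem exists_local_normal {U : Set E} (hU : IsOpen U) {T : E → (E' →L[ℝ] W)}
    (hT : ContDiffOn ℝ ∞ T U) {x0 : E} (hx0 : x0 ∈ U) (hinj : Function.Injective (T x0))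
    (hdim : finrank ℝ W = finrank ℝ E' + 1) :
    ∃ U' : Set E, IsOpen U' ∧ U' ⊆ U ∧ x0 ∈ U' ∧ ∃ n : E → W, ContDiffOn ℝ ∞ n U' ∧
      ∀ x ∈ U', ‖n x‖ = 1 ∧ ∀ v, ⟪n x, T x v⟫ = 0 := by
  classical
  -- a vector outside the range
  have hlt : finrank ℝ (LinearMap.range (T x0 : E' →ₗ[ℝ] W)) < finrank ℝ W := by
    rw [LinearMap.finrank_range_of_inj hinj, hdim]
    omega
  obtain ⟨w0, hw0⟩ : ∃ w0 : W, w0 ∉ LinearMap.range (T x0 : E' →ₗ[ℝ] W) := by
    by_contra h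
    push Not at h
    have : LinearMap.range (T x0 : E' →ₗ[ℝ] W) = ⊤ := (Submodule.eq_top_iff').2 h
    rw [this, finrank_top] at hlt
    exact lt_irrefl _ hlt
  set A : E → ((E' × ℝ) →L[ℝ] W) := fun x =>
    (T x).comp (ContinuousLinearMap.fst ℝ E' ℝ) +
      (ContinuousLinearMap.snd ℝ E' ℝ).smulRight w0 with hA
  have hAa : ∀ x z, A x z = T x z.1 + z.2 • w0 := fun x z => rfl
  have hAs : ContDiffOn ℝ ∞ A U := by
    have h1 : ContDiff ℝ ∞ (fun S : E' →L[ℝ] W => S.comp (ContinuousLinearMap.fst ℝ E' ℝ)) :=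
      ((ContinuousLinearMap.compL ℝ (E' × ℝ) E' W).flip (ContinuousLinearMap.fst ℝ E' ℝ)).contDiff
    exact (h1.comp_contDiffOn hT).add contDiffOn_const
  have hinjA : Function.Injective (A x0) := by
    rw [injective_iff_map_eq_zero]
    rintro ⟨v, r⟩ hz
    rw [hAa] at hz
    simp only at hz
    have hr : r = 0 := by
      by_contra hr
      refine hw0 ⟨-(r⁻¹ • v), ?_⟩
      have h1 : T x0 v = -(r • w0) := eq_neg_of_add_eq_zero_left hz
      simp [h1, smul_smul, hr]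
    simp only [hr, zero_smul, add_zero] at hz
    have hv : v = 0 := hinj (by rw [hz, map_zero])
    rw [hr, hv]
    rfl
  have hfin : finrank ℝ (E' × ℝ) = finrank ℝ W := by
    rw [Module.finrank_prod, hdim]
    simp
  obtain ⟨e0, he0⟩ : ∃ e0 : (E' × ℝ) ≃L[ℝ] W, (e0 : (E' × ℝ) →L[ℝ] W) = A x0 := by
    refine ⟨(LinearEquiv.ofInjectiveOfFinrankEq (A x0 : (E' × ℝ) →ₗ[ℝ] W) hinjA
      hfin).toContinuousLinearEquiv, ?_⟩
    ext z <;> rfl
  have hopen : ∀ᶠ x in 𝓝 x0, ∃ e : (E' × ℝ) ≃L[ℝ] W, (e : (E' × ℝ) →L[ℝ] W) = A x := by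
    have hAc : ContinuousAt A x0 := hAs.continuousOn.continuousAt (hU.mem_nhds hx0)
    have h1 : range ((↑) : ((E' × ℝ) ≃L[ℝ] W) → ((E' × ℝ) →L[ℝ] W)) ∈ 𝓝 (A x0) := by
      rw [← he0]
      exact ContinuousLinearEquiv.nhds e0
    exact hAc h1
  obtain ⟨U', hU'sub, hU'o, hx0'⟩ := mem_nhds_iff.1 (Filter.inter_mem (hU.mem_nhds hx0) hopen)
  set ν : E → (W →L[ℝ] ℝ) := fun x =>
    (ContinuousLinearMap.snd ℝ E' ℝ).comp (ContinuousLinearMap.inverse (A x)) with hν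
  have hνs : ContDiffOn ℝ ∞ ν U' := by
    intro x hx
    obtain ⟨e, he⟩ := (hU'sub hx).2
    have h1 : ContDiffAt ℝ ∞ ContinuousLinearMap.inverse (A x) := by
      rw [← he]
      exact contDiffAt_map_inverse e
    have h2 : ContDiffAt ℝ ∞ A x := hAs.contDiffAt (hU.mem_nhds (hU'sub hx).1)
    have h3 : ContDiff ℝ ∞ (fun S : W →L[ℝ] (E' × ℝ) =>
        (ContinuousLinearMap.snd ℝ E' ℝ).comp S) :=
      (ContinuousLinearMap.compL ℝ W (E' × ℝ) ℝ (ContinuousLinearMap.snd ℝ E' ℝ)).contDiff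
    exact ((h3.contDiffAt.comp x (h1.comp x h2))).contDiffWithinAt
  have hν0 : ∀ x ∈ U', (∀ v, ν x (T x v) = 0) ∧ ν x w0 = 1 := by
    intro x hx
    obtain ⟨e, he⟩ := (hU'sub hx).2
    have hinv : ContinuousLinearMap.inverse (A x) = (e.symm : W →L[ℝ] (E' × ℝ)) := by
      rw [← he]
      exact ContinuousLinearMap.inverse_equiv e
    constructor
    · intro v
      have h1 : T x v = e (v, 0) := by
        have : e (v, 0) = A x (v, 0) := by rw [← he]; rfl
        rw [this, hAa]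
        simp
      simp only [hν]
      rw [hinv, h1]
      simp
    · have h1 : w0 = e (0, 1) := by
        have : e (0, 1) = A x (0, 1) := by rw [← he]; rfl
        rw [this, hAa]
        simp
      simp only [hν]
      rw [hinv]
      conv_lhs => rw [h1]
      simp
  set N : E → W := fun x => (InnerProductSpace.toDual ℝ W).symm (ν x) with hN
  have hNs : ContDiffOn ℝ ∞ N U' :=
    (InnerProductSpace.toDual ℝ W).symm.toContinuousLinearEquiv.contDiff.comp_contDiffOn hνs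
  have hNi : ∀ x w, ⟪N x, w⟫ = ν x w := fun x w => InnerProductSpace.toDual_symm_apply
  have hN0 : ∀ x ∈ U', N x ≠ 0 := by
    intro x hx h0
    have h1 := hNi x w0
    rw [h0, inner_zero_left, (hν0 x hx).2] at h1
    exact zero_ne_one h1
  refine ⟨U', hU'o, fun x hx => (hU'sub hx).1, hx0', fun x => ‖N x‖⁻¹ • N x, ?_, ?_⟩
  · intro x hx
    have h1 : ContDiffAt ℝ ∞ N x := hNs.contDiffAt (hU'o.mem_nhds hx)
    have h2 : ContDiffAt ℝ ∞ (fun x => ‖N x‖) x := h1.norm ℝ (hN0 x hx)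
    exact ((h2.inv (norm_ne_zero_iff.2 (hN0 x hx))).smul h1).contDiffWithinAt
  · intro x hx
    refine ⟨?_, fun v => ?_⟩
    · rw [norm_smul, norm_inv, norm_norm, inv_mul_cancel₀ (norm_ne_zero_iff.2 (hN0 x hx))]
    · rw [real_inner_smul_left, hNi, (hν0 x hx).1, mul_zero]

end loc

section mfd

variable {E W : Type*}
  [NormedAddCommGroup E] [NormedSpace ℝ E] [FiniteDimensional ℝ E]
  [NormedAddCommGroup W] [InnerProductSpace ℝ W] [FiniteDimensional ℝ W]
  {M : Type*} [TopologicalSpace M] [ChartedSpace E M] [IsManifold 𝓘(ℝ, E) ∞ M]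

/-- transport of local unit normals from the chart to the manifold -/
theorem exists_local_normal_chart {E' : Type*} [NormedAddCommGroup E'] [NormedSpace ℝ E']
    [FiniteDimensional ℝ E'] (p0 : M) {T : E → (E' →L[ℝ] W)}
    (hT : ContDiffOn ℝ ∞ T (extChartAt 𝓘(ℝ, E) p0).target)
    (hinj : Function.Injective (T (extChartAt 𝓘(ℝ, E) p0 p0)))
    (hdim : finrank ℝ W = finrank ℝ E' + 1) :
    ∃ V : Set M, IsOpen V ∧ V ⊆ (extChartAt 𝓘(ℝ, E) p0).source ∧ p0 ∈ V ∧ ∃ m : M → W,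
      ContMDiffOn 𝓘(ℝ, E) 𝓘(ℝ, W) ∞ m V ∧
      ∀ p ∈ V, ‖m p‖ = 1 ∧ ∀ v, ⟪m p, T (extChartAt 𝓘(ℝ, E) p0 p) v⟫ = 0 := by
  set φ := extChartAt 𝓘(ℝ, E) p0 with hφ
  obtain ⟨U', hU'o, hU's, hx0, n, hn, hn'⟩ := exists_local_normal
    (isOpen_extChartAt_target p0) hT (mem_extChartAt_target p0) hinj hdim
  refine ⟨φ.source ∩ φ ⁻¹' U', ?_, inter_subset_left, ⟨mem_extChartAt_source p0, hx0⟩,
    n ∘ φ, ?_, ?_⟩
  · exact (continuousOn_extChartAt p0).isOpen_inter_preimage (isOpen_extChartAt_source p0) hU'o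
  · have h1 : ContMDiffOn 𝓘(ℝ, E) 𝓘(ℝ, E) ∞ φ φ.source := by
      rw [hφ, extChartAt_source]
      exact contMDiffOn_extChartAt
    exact (contMDiffOn_iff_contDiffOn.2 hn).comp (h1.mono inter_subset_left) (fun y hy => hy.2)
  · intro p hp
    exact hn' (φ p) hp.2

/-- the differential in the chart -/
theorem mfderiv_eq_chart {F0 : M → W} (hF : ContMDiff 𝓘(ℝ, E) 𝓘(ℝ, W) ∞ F0) {p0 p : M}
    (hp : p ∈ (extChartAt 𝓘(ℝ, E) p0).source) (v : TangentSpace 𝓘(ℝ, E) p) :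
    mfderiv 𝓘(ℝ, E) 𝓘(ℝ, W) F0 p v =
      fderiv ℝ (F0 ∘ (extChartAt 𝓘(ℝ, E) p0).symm) (extChartAt 𝓘(ℝ, E) p0 p)
        (mfderiv 𝓘(ℝ, E) 𝓘(ℝ, E) (extChartAt 𝓘(ℝ, E) p0) p v) := by
  set φ := extChartAt 𝓘(ℝ, E) p0 with hφ
  have hp' : p ∈ (chartAt E p0).source := by rwa [hφ, extChartAt_source] at hp
  have hpt : φ p ∈ φ.target := φ.map_source hp
  have hφd : MDifferentiableAt 𝓘(ℝ, E) 𝓘(ℝ, E) φ p :=
    (contMDiffAt_extChartAt' (n := ∞) hp').mdifferentiableAt (by simp)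
  have hφsd : MDifferentiableAt 𝓘(ℝ, E) 𝓘(ℝ, E) φ.symm (φ p) := by
    have h1 : ContMDiffOn 𝓘(ℝ, E) 𝓘(ℝ, E) ∞ φ.symm φ.target := contMDiffOn_extChartAt_symm p0
    exact (h1.contMDiffAt (extChartAt_target_mem_nhds' hpt)).mdifferentiableAt (by simp)
  have hFd : MDifferentiableAt 𝓘(ℝ, E) 𝓘(ℝ, W) F0 (φ.symm (φ p)) :=
    hF.contMDiffAt.mdifferentiableAt (by simp)
  have hg : MDifferentiableAt 𝓘(ℝ, E) 𝓘(ℝ, W) (F0 ∘ φ.symm) (φ p) := hFd.comp _ hφsd
  have h1 : mfderiv 𝓘(ℝ, E) 𝓘(ℝ, W) ((F0 ∘ φ.symm) ∘ φ) p =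
      (mfderiv 𝓘(ℝ, E) 𝓘(ℝ, W) (F0 ∘ φ.symm) (φ p)).comp (mfderiv 𝓘(ℝ, E) 𝓘(ℝ, E) φ p) :=
    mfderiv_comp p hg hφd
  have h2 : (F0 ∘ φ.symm) ∘ φ =ᶠ[𝓝 p] F0 := by
    have h3 : φ.source ∈ 𝓝 p := extChartAt_source_mem_nhds' hp
    filter_upwards [h3] with q hq
    simp [φ.left_inv hq]
  rw [← h2.mfderiv_eq, h1, mfderiv_eq_fderiv]
  rfl

/-- the differential in the chart, from the chart side -/
theorem fderiv_chart_eq {F0 : M → W} {p0 p : M} (hF : MDifferentiableAt 𝓘(ℝ, E) 𝓘(ℝ, W) F0 p)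
    (hp : p ∈ (extChartAt 𝓘(ℝ, E) p0).source) (v : E) :
    fderiv ℝ (F0 ∘ (extChartAt 𝓘(ℝ, E) p0).symm) (extChartAt 𝓘(ℝ, E) p0 p) v =
      mfderiv 𝓘(ℝ, E) 𝓘(ℝ, W) F0 p
        (mfderiv 𝓘(ℝ, E) 𝓘(ℝ, E) (extChartAt 𝓘(ℝ, E) p0).symm
          (extChartAt 𝓘(ℝ, E) p0 p) v : E) := by
  set φ := extChartAt 𝓘(ℝ, E) p0 with hφ
  have hpt : φ p ∈ φ.target := φ.map_source hp
  have hs : φ.symm (φ p) = p := φ.left_inv hp
  have hφsd : MDifferentiableAt 𝓘(ℝ, E) 𝓘(ℝ, E) φ.symm (φ p) := by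
    have h1 : ContMDiffOn 𝓘(ℝ, E) 𝓘(ℝ, E) ∞ φ.symm φ.target := contMDiffOn_extChartAt_symm p0
    exact (h1.contMDiffAt (extChartAt_target_mem_nhds' hpt)).mdifferentiableAt (by simp)
  have hF' : MDifferentiableAt 𝓘(ℝ, E) 𝓘(ℝ, W) F0 (φ.symm (φ p)) := by rw [hs]; exact hF
  have h1 := mfderiv_comp (φ p) hF' hφsd
  rw [← mfderiv_eq_fderiv, h1]
  rw [hs]
  rfl

/-- the differential of the chart expression is injective -/
theorem fderiv_chart_injective {F0 : M → W} (hF : ContMDiff 𝓘(ℝ, E) 𝓘(ℝ, W) ∞ F0)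
    (hinj : ∀ p, Function.Injective (mfderiv 𝓘(ℝ, E) 𝓘(ℝ, W) F0 p)) (p : M) :
    Function.Injective (fderiv ℝ (F0 ∘ (extChartAt 𝓘(ℝ, E) p).symm)
      (extChartAt 𝓘(ℝ, E) p p)) := by
  set φ := extChartAt 𝓘(ℝ, E) p with hφ
  have hp := mem_extChartAt_source (I := 𝓘(ℝ, E)) p
  have hp' : p ∈ (chartAt E p).source := mem_chart_source E p
  have hpt : φ p ∈ φ.target := φ.map_source hp
  have hφsd : MDifferentiableAt 𝓘(ℝ, E) 𝓘(ℝ, E) φ.symm (φ p) := by
    have h1 : ContMDiffOn 𝓘(ℝ, E) 𝓘(ℝ, E) ∞ φ.symm φ.target := contMDiffOn_extChartAt_symm p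
    exact (h1.contMDiffAt (extChartAt_target_mem_nhds' hpt)).mdifferentiableAt (by simp)
  have hφd : MDifferentiableAt 𝓘(ℝ, E) 𝓘(ℝ, E) φ (φ.symm (φ p)) := by
    rw [φ.left_inv hp]
    exact (contMDiffAt_extChartAt' (n := ∞) hp').mdifferentiableAt (by simp)
  have h3 := mfderiv_comp (φ p) hφd hφsd
  have h4 : φ ∘ φ.symm =ᶠ[𝓝 (φ p)] id := by
    filter_upwards [extChartAt_target_mem_nhds' hpt] with z hz
    exact φ.right_inv hz
  rw [h4.mfderiv_eq, mfderiv_id] at h3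
  have h2 : Function.Injective (mfderiv 𝓘(ℝ, E) 𝓘(ℝ, E) φ.symm (φ p)) := by
    intro v w hvw
    have h5 := congrArg (fun T => T v) h3
    have h6 := congrArg (fun T => T w) h3
    simp only [ContinuousLinearMap.comp_apply] at h5 h6
    rw [hvw] at h5
    exact h5.trans h6.symm
  intro v w hvw
  have hFd : MDifferentiableAt 𝓘(ℝ, E) 𝓘(ℝ, W) F0 p := hF.contMDiffAt.mdifferentiableAt (by simp)
  rw [fderiv_chart_eq hFd hp v, fderiv_chart_eq hFd hp w] at hvw
  exact h2 (hinj p hvw)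

/-- local smooth unit normals, codimension two with a given nowhere zero normal field `ξ` -/
theorem exists_unit_normal4 (hdim : finrank ℝ W = finrank ℝ E + 2) {F0 ξ : M → W}
    (hF : ContMDiff 𝓘(ℝ, E) 𝓘(ℝ, W) ∞ F0) (hξ : ContMDiff 𝓘(ℝ, E) 𝓘(ℝ, W) ∞ ξ)
    (hinj : ∀ p, Function.Injective (mfderiv 𝓘(ℝ, E) 𝓘(ℝ, W) F0 p)) (hξ0 : ∀ p, ξ p ≠ 0)
    (hξT : ∀ p v, ⟪ξ p, mfderiv 𝓘(ℝ, E) 𝓘(ℝ, W) F0 p v⟫ = 0) (p0 : M) :
    ∃ V : Set M, IsOpen V ∧ p0 ∈ V ∧ ∃ m : M → W, ContMDiffOn 𝓘(ℝ, E) 𝓘(ℝ, W) ∞ m V ∧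
      (∀ p ∈ V, ‖m p‖ = 1) ∧ (∀ p ∈ V, ∀ v, ⟪m p, mfderiv 𝓘(ℝ, E) 𝓘(ℝ, W) F0 p v⟫ = 0) ∧
      ∀ p ∈ V, ⟪m p, ξ p⟫ = 0 := by
  set φ := extChartAt 𝓘(ℝ, E) p0 with hφ
  have hp0s := mem_extChartAt_source (I := 𝓘(ℝ, E)) p0
  have hG : ContDiffOn ℝ ∞ (F0 ∘ φ.symm) φ.target :=
    contMDiffOn_iff_contDiffOn.1 (hF.comp_contMDiffOn (contMDiffOn_extChartAt_symm p0))
  have hX : ContDiffOn ℝ ∞ (ξ ∘ φ.symm) φ.target :=
    contMDiffOn_iff_contDiffOn.1 (hξ.comp_contMDiffOn (contMDiffOn_extChartAt_symm p0))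
  have hT0 : ContDiffOn ℝ ∞ (fderiv ℝ (F0 ∘ φ.symm)) φ.target :=
    hG.fderiv_of_isOpen (isOpen_extChartAt_target p0) (by simp)
  set T : E → ((E × ℝ) →L[ℝ] W) := fun x =>
    (fderiv ℝ (F0 ∘ φ.symm) x).comp (ContinuousLinearMap.fst ℝ E ℝ) +
      (ContinuousLinearMap.snd ℝ E ℝ).smulRight ((ξ ∘ φ.symm) x) with hTdef
  have hTa : ∀ x z, T x z = fderiv ℝ (F0 ∘ φ.symm) x z.1 + z.2 • (ξ ∘ φ.symm) x :=
    fun x z => rfl
  have hT : ContDiffOn ℝ ∞ T φ.target := by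
    have h1 : ContDiff ℝ ∞ (fun S : E →L[ℝ] W => S.comp (ContinuousLinearMap.fst ℝ E ℝ)) :=
      ((ContinuousLinearMap.compL ℝ (E × ℝ) E W).flip (ContinuousLinearMap.fst ℝ E ℝ)).contDiff
    have h2 : ContDiff ℝ ∞ (fun w : W => (ContinuousLinearMap.snd ℝ E ℝ).smulRight w) :=
      (ContinuousLinearMap.smulRightL ℝ (E × ℝ) W (ContinuousLinearMap.snd ℝ E ℝ)).contDiff
    exact (h1.comp_contDiffOn hT0).add (h2.comp_contDiffOn hX)
  have hsymm : φ.symm (φ p0) = p0 := φ.left_inv hp0s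
  have hFd : MDifferentiableAt 𝓘(ℝ, E) 𝓘(ℝ, W) F0 p0 := hF.contMDiffAt.mdifferentiableAt (by simp)
  have hinjT : Function.Injective (T (φ p0)) := by
    rw [injective_iff_map_eq_zero]
    rintro ⟨v, r⟩ hz
    rw [hTa] at hz
    simp only [Function.comp_apply, hsymm] at hz
    have h0 : ⟪ξ p0, fderiv ℝ (F0 ∘ φ.symm) (φ p0) v⟫ = 0 := by
      rw [fderiv_chart_eq hFd hp0s v]
      exact hξT p0 _
    have h1 : ⟪ξ p0, fderiv ℝ (F0 ∘ φ.symm) (φ p0) v + r • ξ p0⟫ = 0 := by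
      rw [hz, inner_zero_right]
    rw [inner_add_right, h0, zero_add, real_inner_smul_right] at h1
    have h2 : ⟪ξ p0, ξ p0⟫ ≠ 0 := by
      rw [real_inner_self_eq_norm_sq]
      exact pow_ne_zero 2 (norm_ne_zero_iff.2 (hξ0 p0))
    have hr : r = 0 := (mul_eq_zero.1 h1).resolve_right h2
    simp only [hr, zero_smul, add_zero] at hz
    have hv : v = 0 := fderiv_chart_injective hF hinj p0 (by rw [hz, map_zero])
    rw [hr, hv]
    rfl
  have hdim' : finrank ℝ W = finrank ℝ (E × ℝ) + 1 := by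
    rw [Module.finrank_prod, hdim]
    simp
  obtain ⟨V, hVo, hVs, hp0, m, hm, h⟩ := exists_local_normal_chart p0 hT hinjT hdim'
  refine ⟨V, hVo, hp0, m, hm, fun p hp => (h p hp).1, fun p hp v => ?_, fun p hp => ?_⟩
  · rw [mfderiv_eq_chart hF (hVs hp) v]
    have h1 := (h p hp).2 (mfderiv 𝓘(ℝ, E) 𝓘(ℝ, E) φ p v, 0)
    rw [hTa] at h1
    simp only [zero_smul, add_zero] at h1
    exact h1
  · have h1 := (h p hp).2 (0, 1)
    rw [hTa] at h1
    simp only [map_zero, zero_add, one_smul, Function.comp_apply] at h1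
    rwa [φ.left_inv (hVs hp)] at h1

/-- **the generic twisted phase as a smooth normal field**, general form -/
theorem exists_Psi_of_family [CompactSpace M] {F0 : M → W}
    (hF : ContMDiff 𝓘(ℝ, E) 𝓘(ℝ, W) ∞ F0)
    (hinj : ∀ p, Function.Injective (mfderiv 𝓘(ℝ, E) 𝓘(ℝ, W) F0 p))
    {ι : Type*} [Countable ι] {V : ι → Set M} (hV : ∀ i, IsOpen (V i)) (hcov : ∀ p, ∃ i, p ∈ V i)
    {m : ι → M → W} (hm : ∀ i, ContMDiffOn 𝓘(ℝ, E) 𝓘(ℝ, W) ∞ (m i) (V i))
    (hunit : ∀ i, ∀ p ∈ V i, ‖m i p‖ = 1)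
    (hsgn : ∀ i j, ∀ p ∈ V i, p ∈ V j → m j p = m i p ∨ m j p = -m i p) :
    ∃ (c : Par W) (Ψ : M → W), ContMDiff 𝓘(ℝ, E) 𝓘(ℝ, W) ∞ Ψ ∧
      (∀ i, ∀ p ∈ V i, Ψ p = psiM F0 (m i) c p • m i p) ∧
      {p : M | ∀ i, p ∈ V i → ∀ v, ⟪m i p, mfderiv 𝓘(ℝ, E) 𝓘(ℝ, W) Ψ p v⟫ = 0}.Finite := by
  classical
  let _ : MeasurableSpace (Par W) := borel _
  have : BorelSpace (Par W) := ⟨rfl⟩
  obtain ⟨c, hc⟩ := (ae_finite_crit' (MeasureTheory.Measure.addHaar (G := Par W)) hF hinj hV hcov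
    hm hunit hsgn).exists
  choose idx hidx using hcov
  set Ψ : M → W := fun p => psiM F0 (m (idx p)) c p • m (idx p) p with hΨ
  have hΨV : ∀ i, ∀ p ∈ V i, Ψ p = psiM F0 (m i) c p • m i p := by
    intro i p hp
    simp only [hΨ, psiM]
    rcases hsgn i (idx p) p hp (hidx p) with h | h
    · rw [h]
    · rw [h, inner_neg_left, neg_smul_neg]
  have hψsm : ∀ i, ContMDiffOn 𝓘(ℝ, E) 𝓘(ℝ, ℝ) ∞ (psiM F0 (m i) c) (V i) := fun i =>
    contMDiffOn_psiM hF (hm i) c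
  have hΨsm : ContMDiff 𝓘(ℝ, E) 𝓘(ℝ, W) ∞ Ψ := by
    intro p
    have h1 : ContMDiffOn 𝓘(ℝ, E) 𝓘(ℝ, W) ∞
        (fun q => psiM F0 (m (idx p)) c q • m (idx p) q) (V (idx p)) :=
      (hψsm (idx p)).smul (hm (idx p))
    have h2 := h1.contMDiffAt ((hV (idx p)).mem_nhds (hidx p))
    refine h2.congr_of_eventuallyEq ?_
    filter_upwards [(hV (idx p)).mem_nhds (hidx p)] with q hq
    exact hΨV (idx p) q hq
  refine ⟨c, Ψ, hΨsm, hΨV, hc.subset ?_⟩
  intro p hp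
  set i := idx p with hi
  have hpV : p ∈ V i := hidx p
  refine ⟨i, hpV, ?_⟩
  have hps := mem_extChartAt_source (I := 𝓘(ℝ, E)) p
  set φ := extChartAt 𝓘(ℝ, E) p with hφ
  have hsymm : φ.symm (φ p) = p := φ.left_inv hps
  have hmd : MDifferentiableAt 𝓘(ℝ, E) 𝓘(ℝ, ℝ) (psiM F0 (m i) c) p :=
    ((hψsm i).contMDiffAt ((hV i).mem_nhds hpV)).mdifferentiableAt (by simp)
  rw [mfderiv_eq_zero_iff hps hmd]
  -- smoothness in the chart
  have hφs : ContMDiffAt 𝓘(ℝ, E) 𝓘(ℝ, E) ∞ φ.symm (φ p) :=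
    (contMDiffOn_extChartAt_symm p).contMDiffAt (extChartAt_target_mem_nhds p)
  have hmc : DifferentiableAt ℝ (m i ∘ φ.symm) (φ p) := by
    have h1 : ContMDiffAt 𝓘(ℝ, E) 𝓘(ℝ, W) ∞ (m i) (φ.symm (φ p)) := by
      rw [hsymm]; exact (hm i).contMDiffAt ((hV i).mem_nhds hpV)
    exact (contMDiffAt_iff_contDiffAt.1 (h1.comp _ hφs)).differentiableAt (by simp)
  have hΨc : DifferentiableAt ℝ (Ψ ∘ φ.symm) (φ p) := by
    have h1 : ContMDiffAt 𝓘(ℝ, E) 𝓘(ℝ, W) ∞ Ψ (φ.symm (φ p)) := hΨsm _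
    exact (contMDiffAt_iff_contDiffAt.1 (h1.comp _ hφs)).differentiableAt (by simp)
  have hcont : ContinuousAt φ.symm (φ p) := hφs.continuousAt
  have hVn : φ.symm ⁻¹' V i ∈ 𝓝 (φ p) := by
    apply hcont
    rw [hsymm]
    exact (hV i).mem_nhds hpV
  have heq : psiM F0 (m i) c ∘ φ.symm =ᶠ[𝓝 (φ p)]
      fun y => ⟪(Ψ ∘ φ.symm) y, (m i ∘ φ.symm) y⟫ := by
    filter_upwards [hVn] with y hy
    simp only [Function.comp_apply]
    rw [hΨV i _ hy, real_inner_smul_left, real_inner_self_eq_norm_sq, hunit i _ hy]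
    simp
  have hone : (fun y => ⟪(m i ∘ φ.symm) y, (m i ∘ φ.symm) y⟫) =ᶠ[𝓝 (φ p)] fun _ => (1 : ℝ) := by
    filter_upwards [hVn] with y hy
    simp only [Function.comp_apply]
    rw [real_inner_self_eq_norm_sq, hunit i _ hy, one_pow]
  rw [heq.fderiv_eq]
  ext v
  rw [fderiv_inner_apply ℝ hΨc hmc v]
  have h3 : ⟪(m i ∘ φ.symm) (φ p), fderiv ℝ (m i ∘ φ.symm) (φ p) v⟫ = 0 := by
    have h4 := fderiv_inner_apply ℝ hmc hmc v
    rw [hone.fderiv_eq] at h4
    simp only [fderiv_fun_const, Pi.zero_apply, zero_apply] at h4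
    rw [real_inner_comm ((m i ∘ φ.symm) (φ p)) (fderiv ℝ (m i ∘ φ.symm) (φ p) v)] at h4
    linarith
  have h5 : ⟪(Ψ ∘ φ.symm) (φ p), fderiv ℝ (m i ∘ φ.symm) (φ p) v⟫ = 0 := by
    have h6 : (Ψ ∘ φ.symm) (φ p) = psiM F0 (m i) c p • (m i ∘ φ.symm) (φ p) := by
      simp only [Function.comp_apply, hsymm]
      exact hΨV i p hpV
    rw [h6, real_inner_smul_left, h3, mul_zero]
  have h7 : ⟪fderiv ℝ (Ψ ∘ φ.symm) (φ p) v, (m i ∘ φ.symm) (φ p)⟫ = 0 := by
    have hΨd : MDifferentiableAt 𝓘(ℝ, E) 𝓘(ℝ, W) Ψ p :=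
      (hΨsm p).mdifferentiableAt (by simp)
    rw [real_inner_comm, fderiv_chart_eq hΨd hps v]
    simp only [Function.comp_apply, hsymm]
    exact hp i hpV _
  rw [h5, h7]
  simp

/-- **PSI**, immersions into a four-dimensional space with a nowhere zero normal field -/
theorem exists_Psi4 [CompactSpace M] (hE : finrank ℝ E = 2) (hW : finrank ℝ W = 4)
    {F0 ξ : M → W} (hF : ContMDiff 𝓘(ℝ, E) 𝓘(ℝ, W) ∞ F0) (hξ : ContMDiff 𝓘(ℝ, E) 𝓘(ℝ, W) ∞ ξ)
    (hinj : ∀ p, Function.Injective (mfderiv 𝓘(ℝ, E) 𝓘(ℝ, W) F0 p)) (hξ0 : ∀ p, ξ p ≠ 0)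
    (hξT : ∀ p v, ⟪ξ p, mfderiv 𝓘(ℝ, E) 𝓘(ℝ, W) F0 p v⟫ = 0) :
    ∃ Ψ : M → W, ContMDiff 𝓘(ℝ, E) 𝓘(ℝ, W) ∞ Ψ ∧
      (∀ p v, ⟪Ψ p, mfderiv 𝓘(ℝ, E) 𝓘(ℝ, W) F0 p v⟫ = 0) ∧ (∀ p, ⟪Ψ p, ξ p⟫ = 0) ∧
      {p : M | ∀ n : W, ‖n‖ = 1 → (∀ v, ⟪n, mfderiv 𝓘(ℝ, E) 𝓘(ℝ, W) F0 p v⟫ = 0) →
        ⟪n, ξ p⟫ = 0 → ∀ v, ⟪n, mfderiv 𝓘(ℝ, E) 𝓘(ℝ, W) Ψ p v⟫ = 0}.Finite := by
  classical
  have hd : finrank ℝ W = finrank ℝ E + 2 := by rw [hE, hW]
  choose V hVo hpV m hm hu ho hx' using exists_unit_normal4 hd hF hξ hinj hξ0 hξT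
  obtain ⟨t, -, ht⟩ := (isCompact_univ (X := M)).elim_nhds_subcover V
    fun x _ => (hVo x).mem_nhds (hpV x)
  obtain ⟨c, Ψ, h1, h2, h3⟩ := exists_Psi_of_family hF hinj (ι := t)
    (V := fun i => V i) (m := fun i => m i) (fun i => hVo i)
    (fun p => by
      obtain ⟨x, hx, hpx⟩ := mem_iUnion₂.1 (ht (mem_univ p))
      exact ⟨⟨x, hx⟩, hpx⟩)
    (fun i => hm i) (fun i => hu i)
    (fun i j p hi hj => unit_normal_unique4 hE hW (T := mfderiv 𝓘(ℝ, E) 𝓘(ℝ, W) F0 p) (hinj p)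
      (hξ0 p) (hξT p) (hu i p hi) (hu j p hj) (ho i p hi) (ho j p hj) (hx' i p hi) (hx' j p hj))
  refine ⟨Ψ, h1, fun p v => ?_, fun p => ?_, h3.subset ?_⟩
  · obtain ⟨x, hx, hpx⟩ := mem_iUnion₂.1 (ht (mem_univ p))
    have h4 := ho x p hpx v
    rw [h2 ⟨x, hx⟩ p hpx]
    exact (real_inner_smul_left _ _ _).trans (by rw [h4, mul_zero])
  · obtain ⟨x, hx, hpx⟩ := mem_iUnion₂.1 (ht (mem_univ p))
    rw [h2 ⟨x, hx⟩ p hpx, real_inner_smul_left, hx' x p hpx, mul_zero]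
  · intro p hp i hi v
    exact hp (m i p) (hu i p hi) (ho i p hi) (hx' i p hi) v

end mfd

end Vale.Agent.P205.TW
end
end

section

/-!
P205, scheme T1W, data block on `M`: one small disc.

Around a point `c` we construct a truncated radial function `T` (`T = 4` outside the disc), a
cut-off coordinate `X`, a cut-off `β`, and the polar fields of `T`.
-/

noncomputable section

set_option linter.unusedSectionVars false

open scoped Manifold ContDiff Topology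
open Set Filter

namespace Vale.Agent.P205.TW.Data

open Vale.Agent.P205.F

section onedim

/-- a smooth cut-off: `1` for `t ≤ a`, `0` for `t ≥ b` -/
def cut (a b t : ℝ) : ℝ := 1 - Real.smoothTransition ((t - a) / (b - a))

lemma contDiff_cut (a b : ℝ) : ContDiff ℝ ∞ (cut a b) := by
  unfold cut
  exact contDiff_const.sub (Real.smoothTransition.contDiff.comp
    ((contDiff_id.sub contDiff_const).div_const _))

lemma cut_eq_one {a b t : ℝ} (hab : a < b) (h : t ≤ a) : cut a b t = 1 := by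
  unfold cut
  rw [Real.smoothTransition.zero_of_nonpos, sub_zero]
  exact div_nonpos_of_nonpos_of_nonneg (by linarith) (by linarith)

lemma cut_eq_zero {a b t : ℝ} (hab : a < b) (h : b ≤ t) : cut a b t = 0 := by
  unfold cut
  rw [Real.smoothTransition.one_of_one_le, sub_self]
  rw [one_le_div (by linarith)]
  linarith

/-- truncated identity: `t` for `t ≤ 3`, `4` for `t ≥ 5`, at least `3` for `t ≥ 3` -/
def kap (t : ℝ) : ℝ := t + (4 - t) * Real.smoothTransition ((t - 3) / 2)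

lemma contDiff_kap : ContDiff ℝ ∞ kap := by
  unfold kap
  exact contDiff_id.add ((contDiff_const.sub contDiff_id).mul (Real.smoothTransition.contDiff.comp
    ((contDiff_id.sub contDiff_const).div_const _)))

lemma kap_of_le {t : ℝ} (h : t ≤ 3) : kap t = t := by
  unfold kap
  rw [Real.smoothTransition.zero_of_nonpos (by linarith)]
  ring

lemma kap_of_ge {t : ℝ} (h : 5 ≤ t) : kap t = 4 := by
  unfold kap
  rw [Real.smoothTransition.one_of_one_le (by linarith)]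
  ring

lemma kap_ge {t : ℝ} (h : 3 ≤ t) : 3 ≤ kap t := by
  unfold kap
  have h1 := Real.smoothTransition.nonneg ((t - 3) / 2)
  have h2 := Real.smoothTransition.le_one ((t - 3) / 2)
  rcases le_total t 4 with h4 | h4
  · linarith only [mul_nonneg (sub_nonneg.2 h1) (sub_nonneg.2 h2), mul_nonneg (sub_nonneg.2 h1) (sub_nonneg.2 h1), mul_nonneg (sub_nonneg.2 h) (sub_nonneg.2 h2)]
  · rcases le_total 5 t with h5 | h5
    · have := Real.smoothTransition.one_of_one_le (x := (t - 3) / 2) (by linarith)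
      rw [this]; linarith
    · nlinarith

lemma le_of_kap_lt {t a : ℝ} (ha : a ≤ 3) (h : kap t < a) : t < a := by
  rcases le_total t 3 with h3 | h3
  · rwa [kap_of_le h3] at h
  · have := kap_ge h3
    linarith

/-- `1 / t` for `t ≥ 1/4`, smooth everywhere -/
def inv' (t : ℝ) : ℝ := Real.smoothTransition (8 * t - 1) * t⁻¹

lemma contDiff_inv' : ContDiff ℝ ∞ inv' := by
  rw [contDiff_iff_contDiffAt]
  intro t
  rcases lt_or_ge t (1 / 8) with h | h
  · have : inv' =ᶠ[𝓝 t] fun _ => 0 := by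
      filter_upwards [gt_mem_nhds h] with s hs
      unfold inv'
      rw [Real.smoothTransition.zero_of_nonpos (by linarith), zero_mul]
    exact contDiffAt_const.congr_of_eventuallyEq this
  · unfold inv'
    exact (Real.smoothTransition.contDiffAt.comp t
      ((contDiffAt_const.mul contDiffAt_id).sub contDiffAt_const)).mul
      (contDiffAt_inv ℝ (by linarith))

lemma inv'_eq {t : ℝ} (h : 1 / 4 ≤ t) : inv' t = t⁻¹ := by
  unfold inv'
  rw [Real.smoothTransition.one_of_one_le (by linarith), one_mul]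

end onedim

section glue

variable {E : Type*} [NormedAddCommGroup E] [NormedSpace ℝ E]
  {M : Type*} [TopologicalSpace M] [ChartedSpace E M]
  {F : Type*} [NormedAddCommGroup F] [NormedSpace ℝ F]

lemma contMDiff_glue {S Q : Set M} (hS : IsOpen S) (hQ : IsClosed Q) (hQS : Q ⊆ S) {u : M → F}
    {c : F} (hu : ContMDiffOn 𝓘(ℝ, E) 𝓘(ℝ, F) ∞ u S) (h0 : ∀ p, p ∉ Q → u p = c) :
    ContMDiff 𝓘(ℝ, E) 𝓘(ℝ, F) ∞ u := by
  intro p
  by_cases hp : p ∈ S
  · exact hu.contMDiffAt (hS.mem_nhds hp)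
  · have h1 : p ∉ Q := fun h => hp (hQS h)
    have h2 : u =ᶠ[𝓝 p] fun _ => c := by
      filter_upwards [hQ.isOpen_compl.mem_nhds h1] with q hq
      exact h0 q hq
    exact contMDiffAt_const.congr_of_eventuallyEq h2

end glue

section disc

variable {E : Type*} [NormedAddCommGroup E] [NormedSpace ℝ E]
  {M : Type*} [TopologicalSpace M] [ChartedSpace E M] [IsManifold 𝓘(ℝ, E) ∞ M]
  (K : Cov E M)
  {F : Type*} [NormedAddCommGroup F] [NormedSpace ℝ F]

/-- derivative of a function which is locally given in the chart -/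
lemma Dv_loc {A : Type*} (b : A → E) {i : Fin K.n} {p : M} (hp : p ∈ K.V i) {u : M → F}
    {g : E → F} (h : ∀ᶠ q in 𝓝 p, u q = g (K.ph i q)) (a : A) :
    K.Dv b (i, a) u p = fderiv ℝ g (K.ph i p) (b a) := by
  have hs := K.V_sub i hp
  unfold Cov.Dv
  rw [K.one i p hp, one_smul]
  have h1 : u ∘ (K.ph i).symm =ᶠ[𝓝 (K.ph i p)] g := by
    have hcs : ContinuousAt (K.ph i).symm (K.ph i p) :=
      continuousAt_extChartAt_symm' hs
    have hleft : (K.ph i).symm (K.ph i p) = p := (K.ph i).left_inv hs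
    have h2 : ∀ᶠ y in 𝓝 (K.ph i p), u ((K.ph i).symm y) = g (K.ph i ((K.ph i).symm y)) :=
      hcs.eventually (p := fun q => u q = g (K.ph i q)) (by rw [hleft]; exact h)
    filter_upwards [h2, (K.isOpen_target i).mem_nhds ((K.ph i).map_source hs)] with y hy hyt
    show u ((K.ph i).symm y) = g y
    rw [hy, (K.ph i).right_inv hyt]
  rw [h1.fderiv_eq]

/-- scaled coordinates in `E` -/
def crdE (b : Module.Basis (Fin 2) ℝ E) (yc : E) (ρ : ℝ) (a : Fin 2) (y : E) : ℝ :=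
  b.repr (y - yc) a / ρ

/-- radius in `E` -/
def radE (b : Module.Basis (Fin 2) ℝ E) (yc : E) (ρ : ℝ) (y : E) : ℝ :=
  crdE b yc ρ 0 y ^ 2 + crdE b yc ρ 1 y ^ 2

lemma hasFDerivAt_crdE (b : Module.Basis (Fin 2) ℝ E) (yc : E) (ρ : ℝ) (a : Fin 2) (y : E) :
    ∃ L : E →L[ℝ] ℝ, HasFDerivAt (crdE b yc ρ a) L y ∧ ∀ v, L v = b.repr v a / ρ := by
  have : FiniteDimensional ℝ E := b.finiteDimensional_of_finite
  let ℓ : E →L[ℝ] ℝ := LinearMap.toContinuousLinearMap (b.coord a)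
  refine ⟨ρ⁻¹ • ℓ, ?_, ?_⟩
  · have h1 : HasFDerivAt (fun y : E => y - yc) (ContinuousLinearMap.id ℝ E) y :=
      (hasFDerivAt_id y).sub_const yc
    have h2 : HasFDerivAt (fun y : E => ℓ (y - yc)) (ℓ.comp (ContinuousLinearMap.id ℝ E)) y :=
      ℓ.hasFDerivAt.comp y h1
    have h3 := h2.const_smul ρ⁻¹
    rw [ContinuousLinearMap.comp_id] at h3
    have h4 : crdE b yc ρ a = fun y => ρ⁻¹ • ℓ (y - yc) := by
      funext y
      simp only [crdE, ℓ, LinearMap.coe_toContinuousLinearMap', Module.Basis.coord_apply,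
        smul_eq_mul]
      rw [div_eq_mul_inv, mul_comm]
    rw [h4]
    exact h3
  · intro v
    simp only [ℓ, FunLike.coe_smul, Pi.smul_apply, LinearMap.coe_toContinuousLinearMap',
      Module.Basis.coord_apply, smul_eq_mul]
    rw [div_eq_mul_inv, mul_comm]

lemma contDiff_crdE (b : Module.Basis (Fin 2) ℝ E) (yc : E) (ρ : ℝ) (a : Fin 2) :
    ContDiff ℝ ∞ (crdE b yc ρ a) := by
  have : FiniteDimensional ℝ E := b.finiteDimensional_of_finite
  let ℓ : E →L[ℝ] ℝ := LinearMap.toContinuousLinearMap (b.coord a)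
  have h4 : crdE b yc ρ a = fun y => ℓ (y - yc) / ρ := by
    funext y
    simp only [crdE, ℓ, LinearMap.coe_toContinuousLinearMap', Module.Basis.coord_apply]
  rw [h4]
  exact (ℓ.contDiff.comp (contDiff_id.sub contDiff_const)).div_const _

lemma contDiff_radE (b : Module.Basis (Fin 2) ℝ E) (yc : E) (ρ : ℝ) :
    ContDiff ℝ ∞ (radE b yc ρ) :=
  ((contDiff_crdE b yc ρ 0).pow 2).add ((contDiff_crdE b yc ρ 1).pow 2)

lemma fderiv_crdE (b : Module.Basis (Fin 2) ℝ E) (yc : E) (ρ : ℝ) (a a' : Fin 2) (y : E) :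
    fderiv ℝ (crdE b yc ρ a) y (b a') = (if a = a' then 1 else 0) / ρ := by
  obtain ⟨L, hL, hv⟩ := hasFDerivAt_crdE b yc ρ a y
  rw [hL.fderiv, hv, Module.Basis.repr_self, Finsupp.single_apply]
  simp only [eq_comm]

lemma fderiv_radE (b : Module.Basis (Fin 2) ℝ E) (yc : E) (ρ : ℝ) (a : Fin 2) (y : E) :
    fderiv ℝ (radE b yc ρ) y (b a) = 2 * crdE b yc ρ a y / ρ := by
  obtain ⟨L0, hL0, hv0⟩ := hasFDerivAt_crdE b yc ρ 0 y
  obtain ⟨L1, hL1, hv1⟩ := hasFDerivAt_crdE b yc ρ 1 y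
  have h := (hL0.pow 2).add (hL1.pow 2)
  have h' : HasFDerivAt (radE b yc ρ) _ y := h
  rw [h'.fderiv]
  fin_cases a
  · simp [hv0, hv1, Module.Basis.repr_self]
    ring
  · simp [hv0, hv1, Module.Basis.repr_self]
    ring

/-- a good radius -/
lemma exists_rho [T2Space M] (b : Module.Basis (Fin 2) ℝ E) {i : Fin K.n} {c : M}
    (hc : c ∈ K.V i) {U : Set M} (hU : IsOpen U) (hcU : c ∈ U) :
    ∃ ρ : ℝ, 0 < ρ ∧ ∃ Q : Set M, IsClosed Q ∧ Q ⊆ U ∩ K.V i ∧
      ∀ p ∈ (K.ph i).source, radE b (K.ph i c) ρ (K.ph i p) < 9 → p ∈ Q := by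
  have : FiniteDimensional ℝ E := b.finiteDimensional_of_finite
  have hcs := K.V_sub i hc
  have hO : IsOpen ((K.ph i).target ∩ (K.ph i).symm ⁻¹' (U ∩ K.V i)) :=
    (continuousOn_extChartAt_symm (K.c i)).isOpen_inter_preimage (K.isOpen_target i)
      (hU.inter (K.opn i))
  have hcO : K.ph i c ∈ (K.ph i).target ∩ (K.ph i).symm ⁻¹' (U ∩ K.V i) := by
    refine ⟨(K.ph i).map_source hcs, ?_⟩
    show (K.ph i).symm (K.ph i c) ∈ U ∩ K.V i
    rw [(K.ph i).left_inv hcs]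
    exact ⟨hcU, hc⟩
  let L : E ≃L[ℝ] (Fin 2 → ℝ) := b.equivFunL
  let φ : (Fin 2 → ℝ) → E := fun z => K.ph i c + L.symm z
  have hφ : Continuous φ := continuous_const.add L.symm.continuous
  have h1 : φ ⁻¹' ((K.ph i).target ∩ (K.ph i).symm ⁻¹' (U ∩ K.V i)) ∈ 𝓝 (0 : Fin 2 → ℝ) := by
    apply (hO.preimage hφ).mem_nhds
    have h0 : φ 0 = K.ph i c := by simp [φ]
    rw [mem_preimage, h0]
    exact hcO
  obtain ⟨ε, hε, hball⟩ := Metric.nhds_basis_closedBall.mem_iff.1 h1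
  refine ⟨ε / 3, by positivity, (K.ph i).symm '' (φ '' Metric.closedBall 0 ε), ?_, ?_, ?_⟩
  · apply IsCompact.isClosed
    apply ((isCompact_closedBall _ _).image hφ).image_of_continuousOn
    apply (continuousOn_extChartAt_symm (I := 𝓘(ℝ, E)) (K.c i)).mono
    rintro _ ⟨z, hz, rfl⟩
    exact (hball hz).1
  · rintro _ ⟨_, ⟨z, hz, rfl⟩, rfl⟩
    exact (hball hz).2
  · intro p hp hr
    refine ⟨K.ph i p, ⟨L (K.ph i p - K.ph i c), ?_, ?_⟩, (K.ph i).left_inv hp⟩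
    · rw [mem_closedBall_zero_iff, pi_norm_le_iff_of_nonneg hε.le]
      intro a
      have h2 : L (K.ph i p - K.ph i c) a = b.repr (K.ph i p - K.ph i c) a := rfl
      rw [h2, Real.norm_eq_abs]
      unfold radE crdE at hr
      have h3 : (b.repr (K.ph i p - K.ph i c) a / (ε / 3)) ^ 2 ≤ 3 ^ 2 := by
        have p0 := sq_nonneg (b.repr (K.ph i p - K.ph i c) 0 / (ε / 3))
        have p1 := sq_nonneg (b.repr (K.ph i p - K.ph i c) 1 / (ε / 3))
        fin_cases a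
        · show (b.repr (K.ph i p - K.ph i c) 0 / (ε / 3)) ^ 2 ≤ 3 ^ 2
          linarith
        · show (b.repr (K.ph i p - K.ph i c) 1 / (ε / 3)) ^ 2 ≤ 3 ^ 2
          linarith only [p0, hr]
      have h4 := abs_le_of_sq_le_sq h3 (by norm_num)
      rw [abs_div, abs_of_pos (show (0 : ℝ) < ε / 3 by positivity),
        div_le_iff₀ (by positivity)] at h4
      linarith
    · simp [φ]

lemma sum_one {n : ℕ} {G : Type*} [AddCommMonoid G] (i : Fin n) (f : Fin n × Fin 2 → G)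
    (hf : ∀ j, j.1 ≠ i → f j = 0) : ∑ j, f j = f (i, 0) + f (i, 1) := by
  rw [Fintype.sum_prod_type]
  rw [Finset.sum_eq_single i]
  · rw [Fin.sum_univ_two]
  · intro i' _ hi'
    rw [Fin.sum_univ_two, hf (i', 0) hi', hf (i', 1) hi', add_zero]
  · intro h
    exact absurd (Finset.mem_univ i) h

/-- on `V i` all fields are combinations of the fields of the chart `i` -/
lemma X_comb (b : Module.Basis (Fin 2) ℝ E) {i : Fin K.n} {p : M} (hp : p ∈ K.V i)
    (j : Fin K.n × Fin 2) : ∃ c0 c1 : ℝ, K.X b j p = c0 • K.X b (i, 0) p + c1 • K.X b (i, 1) p ∧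
      ∀ {u : M → F}, ContMDiff 𝓘(ℝ, E) 𝓘(ℝ, F) ∞ u →
        K.Dv b j u p = c0 • K.Dv b (i, 0) u p + c1 • K.Dv b (i, 1) u p := by
  have h1 := K.X_span b (K.V_sub i hp) (K.X b j p)
  rw [K.one i p hp, one_smul, Fin.sum_univ_two] at h1
  refine ⟨_, _, h1, ?_⟩
  intro u hu
  rw [K.Dv_eq b hu, K.Dv_eq b hu, K.Dv_eq b hu]
  have key : ∀ (L : E →L[ℝ] F) (r s : ℝ) (x y z : E), x = r • y + s • z →
      L x = r • L y + s • L z := by
    intro L r s x y z h
    rw [h, map_add, map_smul, map_smul]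
  exact key (mfderiv 𝓘(ℝ, E) 𝓘(ℝ, F) u p) _ _ _ _ _ h1

/-- the fields of the chart `i` are independent on `V i` -/
lemma X_indep (b : Module.Basis (Fin 2) ℝ E) {i : Fin K.n} {p : M} (hp : p ∈ K.V i)
    {r s : ℝ} (h : r • K.X b (i, 0) p + s • K.X b (i, 1) p = 0) : r = 0 ∧ s = 0 := by
  have hs := K.V_sub i hp
  have h1 := mfderiv_extChartAt_comp_mfderivWithin_extChartAt_symm' (I := 𝓘(ℝ, E)) (x := K.c i) hs
  rw [ModelWithCorners.range_eq_univ, mfderivWithin_univ] at h1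
  let T : E →L[ℝ] E := mfderiv 𝓘(ℝ, E) 𝓘(ℝ, E) (K.ph i).symm (K.ph i p)
  let S : E →L[ℝ] E := mfderiv 𝓘(ℝ, E) 𝓘(ℝ, E) (K.ph i) p
  have h2 : ∀ v : E, S (T v) = v := fun v => DFunLike.congr_fun h1 v
  have h3 : (r • (K.χ i p • T (b 0)) + s • (K.χ i p • T (b 1)) : E) = 0 := h
  rw [K.one i p hp, one_smul, one_smul] at h3
  have h4 : r • b 0 + s • b 1 = 0 := by
    have h5 := congrArg S h3
    rw [map_add, map_smul, map_smul, h2, h2] at h5
    rw [h5]
    exact map_zero S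
  have h6 := (Fintype.linearIndependent_iff.1 b.linearIndependent) ![r, s] (by
    simpa [Fin.sum_univ_two] using h4)
  exact ⟨by simpa using h6 0, by simpa using h6 1⟩

/-- polar data of one disc around `c`, supported in `Q ⊆ U` -/
structure Disc (b : Module.Basis (Fin 2) ℝ E) (c : M) (U : Set M) where
  /-- truncated radial function -/
  T : M → ℝ
  /-- cut-off coordinate -/
  X : M → ℝ
  /-- cut-off -/
  χ : M → ℝ
  /-- radial field -/
  v : Fin K.n × Fin 2 → M → ℝ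
  /-- angular field -/
  w : Fin K.n × Fin 2 → M → ℝ
  /-- coefficients -/
  β : Fin K.n × Fin 2 → M → ℝ
  /-- support -/
  Q : Set M
  clQ : IsClosed Q
  QU : Q ⊆ U
  smT : ContMDiff 𝓘(ℝ, E) 𝓘(ℝ, ℝ) ∞ T
  smX : ContMDiff 𝓘(ℝ, E) 𝓘(ℝ, ℝ) ∞ X
  smχ : ContMDiff 𝓘(ℝ, E) 𝓘(ℝ, ℝ) ∞ χ
  smv : ∀ j, ContMDiff 𝓘(ℝ, E) 𝓘(ℝ, ℝ) ∞ (v j)
  smw : ∀ j, ContMDiff 𝓘(ℝ, E) 𝓘(ℝ, ℝ) ∞ (w j)
  smβ : ∀ j, ContMDiff 𝓘(ℝ, E) 𝓘(ℝ, ℝ) ∞ (β j)
  Tc : T c = 0
  T_off : ∀ p, p ∉ Q → T p = 4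
  X_off : ∀ p, p ∉ Q → X p = 0
  χ_off : ∀ p, p ∉ Q → χ p = 0
  v_off : ∀ j p, p ∉ Q → v j p = 0
  w_off : ∀ j p, p ∉ Q → w j p = 0
  β_off : ∀ j p, p ∉ Q → β j p = 0
  vT : ∀ p, 1 / 2 ≤ T p → T p ≤ 5 / 2 → ∑ j, v j p * K.Dv b j T p = 1
  wT : ∀ p, 1 / 2 ≤ T p → T p ≤ 5 / 2 → ∑ j, w j p * K.Dv b j T p = 0
  dec : ∀ p, 1 / 2 ≤ T p → T p ≤ 5 / 2 → ∀ j, K.X b j p =
    K.Dv b j T p • (∑ k, v k p • K.X b k p) + β j p • (∑ k, w k p • K.X b k p)
  wne : ∀ p, 1 / 2 ≤ T p → T p ≤ 5 / 2 → ∑ k, w k p • K.X b k p ≠ 0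
  inner : ∀ p, T p ≤ 11 / 10 → (∀ᶠ q in 𝓝 p, χ q = 1) ∧ ∃ j, K.Dv b j X p ≠ 0
  outer : ∀ p, 19 / 10 ≤ T p → ∀ᶠ q in 𝓝 p, χ q = 0

theorem exists_disc [T2Space M] (b : Module.Basis (Fin 2) ℝ E) {c : M} {U : Set M}
    (hU : IsOpen U) (hcU : c ∈ U) : Nonempty (Disc K b c U) := by
  classical
  have : FiniteDimensional ℝ E := b.finiteDimensional_of_finite
  obtain ⟨i, hc⟩ := K.cov c
  obtain ⟨ρ, hρ, Q, hQc, hQU, hQ⟩ := exists_rho K b hc hU hcU
  have hcs := K.V_sub i hc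
  -- local functions
  let yc : E := K.ph i c
  let S : Set M := (K.ph i).source
  have hS : IsOpen S := K.isOpen_source i
  have hQS : Q ⊆ S := fun p hp => K.V_sub i (hQU hp).2
  have hsm : ∀ {g : E → ℝ}, ContDiff ℝ ∞ g →
      ContMDiffOn 𝓘(ℝ, E) 𝓘(ℝ, ℝ) ∞ (fun p => g (K.ph i p)) S := by
    intro g hg
    have h1 : ContMDiffOn 𝓘(ℝ, E) 𝓘(ℝ, E) ∞ (K.ph i) S := by
      have := contMDiffOn_extChartAt (I := 𝓘(ℝ, E)) (n := ∞) (x := K.c i)
      rwa [← extChartAt_source 𝓘(ℝ, E)] at this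
    exact hg.contMDiff.comp_contMDiffOn h1
  have hglue : ∀ (g : E → ℝ) (k : ℝ), ContDiff ℝ ∞ g → (∀ y, 9 ≤ radE b yc ρ y → g y = k) →
      ContMDiff 𝓘(ℝ, E) 𝓘(ℝ, ℝ) ∞ (fun p => if p ∈ S then g (K.ph i p) else k) ∧
      ∀ p, p ∉ Q → (if p ∈ S then g (K.ph i p) else k) = k := by
    intro g k hg hk
    have hoff : ∀ p, p ∉ Q → (if p ∈ S then g (K.ph i p) else k) = k := by
      intro p hp
      by_cases hpS : p ∈ S
      · rw [if_pos hpS]
        apply hk
        by_contra hlt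
        exact hp (hQ p hpS (not_le.1 hlt))
      · rw [if_neg hpS]
    refine ⟨contMDiff_glue hS hQc hQS (c := k) ?_ hoff, hoff⟩
    apply (hsm hg).congr
    intro p hp
    rw [if_pos hp]
  -- the functions
  let gT : E → ℝ := fun y => kap (radE b yc ρ y)
  let gY : Fin 2 → E → ℝ := fun a y => cut 4 5 (radE b yc ρ y) * crdE b yc ρ a y
  let gχ : E → ℝ := fun y => cut (12 / 10) (18 / 10) (radE b yc ρ y)
  obtain ⟨smT, offT⟩ := hglue gT 4 (contDiff_kap.comp (contDiff_radE b yc ρ))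
    (fun y hy => kap_of_ge (by linarith))
  have hY : ∀ a, _ := fun a => hglue (gY a) 0
    (((contDiff_cut 4 5).comp (contDiff_radE b yc ρ)).mul (contDiff_crdE b yc ρ a))
    (fun y hy => by
      show cut 4 5 (radE b yc ρ y) * _ = 0
      rw [cut_eq_zero (by norm_num) (by linarith), zero_mul])
  obtain ⟨smχ, offχ⟩ := hglue gχ 0 ((contDiff_cut _ _).comp (contDiff_radE b yc ρ))
    (fun y hy => cut_eq_zero (by norm_num) (by linarith))
  let T : M → ℝ := fun p => if p ∈ S then gT (K.ph i p) else 4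
  let Y : Fin 2 → M → ℝ := fun a p => if p ∈ S then gY a (K.ph i p) else 0
  let χ : M → ℝ := fun p => if p ∈ S then gχ (K.ph i p) else 0
  have smY : ∀ a, ContMDiff 𝓘(ℝ, E) 𝓘(ℝ, ℝ) ∞ (Y a) := fun a => (hY a).1
  have offY : ∀ a p, p ∉ Q → Y a p = 0 := fun a => (hY a).2
  have smT' : ContMDiff 𝓘(ℝ, E) 𝓘(ℝ, ℝ) ∞ T := smT
  have offT' : ∀ p, p ∉ Q → T p = 4 := offT
  -- continuity of the radius
  have hrc : ∀ p ∈ S, ContinuousAt (fun p => radE b yc ρ (K.ph i p)) p := by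
    intro p hp
    exact ((hsm (contDiff_radE b yc ρ)).continuousOn).continuousAt (hS.mem_nhds hp)
  -- points with small `T`
  have hsmall : ∀ p, T p < 3 → p ∈ S ∧ radE b yc ρ (K.ph i p) < 3 ∧ p ∈ K.V i ∧
      T p = radE b yc ρ (K.ph i p) := by
    intro p hp
    have hpS : p ∈ S := by
      by_contra h
      have : T p = 4 := if_neg h
      linarith
    have h1 : T p = kap (radE b yc ρ (K.ph i p)) := if_pos hpS
    rw [h1] at hp
    have h2 := le_of_kap_lt le_rfl hp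
    exact ⟨hpS, h2, (hQU (hQ p hpS (by linarith))).2, by rw [h1, kap_of_le h2.le]⟩
  have hev : ∀ p, T p < 3 → ∀ᶠ q in 𝓝 p, T q = radE b yc ρ (K.ph i q) ∧
      ∀ a, Y a q = crdE b yc ρ a (K.ph i q) := by
    intro p hp
    obtain ⟨hpS, hr, -, -⟩ := hsmall p hp
    filter_upwards [hS.mem_nhds hpS, (hrc p hpS).eventually (gt_mem_nhds hr)] with q hq hqr
    refine ⟨?_, fun a => ?_⟩
    · show (if q ∈ S then gT (K.ph i q) else 4) = _
      rw [if_pos hq]
      exact kap_of_le (le_of_lt hqr)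
    · show (if q ∈ S then gY a (K.ph i q) else 0) = _
      rw [if_pos hq]
      show cut 4 5 (radE b yc ρ (K.ph i q)) * _ = _
      rw [cut_eq_one (by norm_num) (by linarith [show radE b yc ρ (K.ph i q) < 3 from hqr]), one_mul]
  have hDT : ∀ p, T p < 3 → ∀ a, K.Dv b (i, a) T p = 2 * Y a p / ρ := by
    intro p hp a
    have h1 := Dv_loc K b (hsmall p hp).2.2.1 (g := radE b yc ρ)
      ((hev p hp).mono fun q hq => hq.1) a
    rw [h1, fderiv_radE, (hev p hp).self_of_nhds.2 a]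
  have hDY : ∀ p, T p < 3 → ∀ a a', K.Dv b (i, a') (Y a) p = (if a = a' then 1 else 0) / ρ := by
    intro p hp a a'
    have h1 := Dv_loc K b (hsmall p hp).2.2.1 (g := crdE b yc ρ a)
      ((hev p hp).mono fun q hq => hq.2 a) a'
    rw [h1, fderiv_crdE]
  have hTY : ∀ p, T p < 3 → T p = Y 0 p ^ 2 + Y 1 p ^ 2 := by
    intro p hp
    have h1 := (hev p hp).self_of_nhds
    rw [h1.1, h1.2, h1.2]
    rfl
  let v : Fin K.n × Fin 2 → M → ℝ := fun j p =>
    if j.1 = i then inv' (T p) * (ρ / 2) * Y j.2 p else 0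
  let w : Fin K.n × Fin 2 → M → ℝ := fun j p =>
    if j.1 = i then (if j.2 = 0 then - Y 1 p else Y 0 p) else 0
  let β : Fin K.n × Fin 2 → M → ℝ := fun j p =>
    ρ * inv' (T p) * (Y 0 p * K.Dv b j (Y 1) p - Y 1 p * K.Dv b j (Y 0) p)
  have smI : ContMDiff 𝓘(ℝ, E) 𝓘(ℝ, ℝ) ∞ (fun p => inv' (T p)) :=
    contDiff_inv'.comp_contMDiff smT'
  have smv : ∀ j, ContMDiff 𝓘(ℝ, E) 𝓘(ℝ, ℝ) ∞ (v j) := by
    intro j
    by_cases hj : j.1 = i
    · have : v j = fun p => inv' (T p) * (ρ / 2) * Y j.2 p := by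
        funext p
        exact if_pos hj
      rw [this]
      exact (smI.mul contMDiff_const).mul (smY j.2)
    · have : v j = fun p => 0 := by
        funext p
        exact if_neg hj
      rw [this]
      exact contMDiff_const
  have smw : ∀ j, ContMDiff 𝓘(ℝ, E) 𝓘(ℝ, ℝ) ∞ (w j) := by
    intro j
    by_cases hj : j.1 = i
    · by_cases hj2 : j.2 = 0
      · have : w j = fun p => - Y 1 p := by
          funext p
          show (if j.1 = i then (if j.2 = 0 then - Y 1 p else Y 0 p) else 0) = _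
          rw [if_pos hj, if_pos hj2]
        rw [this]
        exact (smY 1).neg
      · have : w j = fun p => Y 0 p := by
          funext p
          show (if j.1 = i then (if j.2 = 0 then - Y 1 p else Y 0 p) else 0) = _
          rw [if_pos hj, if_neg hj2]
        rw [this]
        exact (smY 0)
    · have : w j = fun p => 0 := by
        funext p
        exact if_neg hj
      rw [this]
      exact contMDiff_const
  have smβ : ∀ j, ContMDiff 𝓘(ℝ, E) 𝓘(ℝ, ℝ) ∞ (β j) := by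
    intro j
    exact (contMDiff_const.mul smI).mul (((smY 0).mul (K.Dv_contMDiff b (smY 1) j)).sub
      ((smY 1).mul (K.Dv_contMDiff b (smY 0) j)))
  -- values of the fields at small points
  have hvv : ∀ p, ∀ f : Fin K.n × Fin 2 → ℝ, ∑ j, v j p * f j =
      v (i, 0) p * f (i, 0) + v (i, 1) p * f (i, 1) := by
    intro p f
    apply sum_one i
    intro j hj
    rw [show v j p = 0 from if_neg hj, zero_mul]
  have hww : ∀ p, ∀ f : Fin K.n × Fin 2 → ℝ, ∑ j, w j p * f j =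
      w (i, 0) p * f (i, 0) + w (i, 1) p * f (i, 1) := by
    intro p f
    apply sum_one i
    intro j hj
    rw [show w j p = 0 from if_neg hj, zero_mul]
  have v0 : ∀ a p, v (i, a) p = inv' (T p) * (ρ / 2) * Y a p := fun a p => if_pos rfl
  have w0 : ∀ p, w (i, 0) p = - Y 1 p := fun p => by
    show (if (i : Fin K.n) = i then (if (0 : Fin 2) = 0 then - Y 1 p else Y 0 p) else 0) = _
    rw [if_pos rfl, if_pos rfl]
  have w1 : ∀ p, w (i, 1) p = Y 0 p := fun p => by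
    show (if (i : Fin K.n) = i then (if (1 : Fin 2) = 0 then - Y 1 p else Y 0 p) else 0) = _
    rw [if_pos rfl, if_neg (by decide)]
  have hXv : ∀ p, (∑ k, v k p • K.X b k p) =
      v (i, 0) p • K.X b (i, 0) p + v (i, 1) p • K.X b (i, 1) p := by
    intro p
    apply sum_one i
    intro j hj
    rw [show v j p = 0 from if_neg hj, zero_smul]
  have hXw : ∀ p, (∑ k, w k p • K.X b k p) =
      w (i, 0) p • K.X b (i, 0) p + w (i, 1) p • K.X b (i, 1) p := by
    intro p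
    apply sum_one i
    intro j hj
    rw [show w j p = 0 from if_neg hj, zero_smul]
  refine ⟨⟨T, Y 0, χ, v, w, β, Q, hQc, fun p hp => (hQU hp).1, smT, smY 0, smχ, smv, smw, smβ,
    ?_, offT, offY 0, offχ, ?_, ?_, ?_, ?_, ?_, ?_, ?_, ?_, ?_⟩⟩
  · show (if c ∈ S then gT (K.ph i c) else 4) = 0
    rw [if_pos hcs]
    show kap (radE b yc ρ (K.ph i c)) = 0
    have : radE b yc ρ (K.ph i c) = 0 := by simp [radE, crdE, yc]
    rw [this, kap_of_le (by norm_num)]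
  · intro j p hp
    show (if j.1 = i then inv' (T p) * (ρ / 2) * Y j.2 p else 0) = 0
    rw [offY j.2 p hp, mul_zero, ite_self]
  · intro j p hp
    show (if j.1 = i then (if j.2 = 0 then - Y 1 p else Y 0 p) else 0) = 0
    rw [offY 0 p hp, offY 1 p hp, neg_zero, ite_self, ite_self]
  · intro j p hp
    show ρ * inv' (T p) * (Y 0 p * K.Dv b j (Y 1) p - Y 1 p * K.Dv b j (Y 0) p) = 0
    rw [offY 0 p hp, offY 1 p hp]
    ring
  · intro p h1 h2
    have h3 : T p < 3 := by linarith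
    have hT := hTY p h3
    rw [hvv p, hDT p h3, hDT p h3, v0, v0, inv'_eq (by linarith)]
    have hT0 : T p ≠ 0 := by linarith
    field_simp
    linarith
  · intro p h1 h2
    have h3 : T p < 3 := by linarith
    rw [hww p, hDT p h3, hDT p h3, w0, w1]
    field_simp
    ring
  · intro p h1 h2 j
    have h3 : T p < 3 := by linarith
    have hT := hTY p h3
    obtain ⟨-, -, hpV, -⟩ := hsmall p h3
    obtain ⟨c0, c1, hX, hD⟩ := X_comb K (F := ℝ) b hpV j
    have hT0 : T p ≠ 0 := by linarith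
    have e1 : K.Dv b j T p = 2 * (c0 * Y 0 p + c1 * Y 1 p) / ρ := by
      rw [hD smT', hDT p h3, hDT p h3]
      simp only [smul_eq_mul]
      ring
    have e2 : K.Dv b j (Y 0) p = c0 / ρ := by
      rw [hD (smY 0), hDY p h3, hDY p h3]
      simp
      ring
    have e3 : K.Dv b j (Y 1) p = c1 / ρ := by
      rw [hD (smY 1), hDY p h3, hDY p h3]
      simp
      ring
    have e4 : β j p = (Y 0 p * c1 - Y 1 p * c0) / T p := by
      show ρ * inv' (T p) * (Y 0 p * K.Dv b j (Y 1) p - Y 1 p * K.Dv b j (Y 0) p) = _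
      rw [e2, e3, inv'_eq (by linarith)]
      field_simp
    rw [hXv, hXw, v0, v0, w0, w1, e1, e4, inv'_eq (by linarith only [h1]), hX]
    have k0 : c0 = 2 * (c0 * Y 0 p + c1 * Y 1 p) / ρ * ((T p)⁻¹ * (ρ / 2) * Y 0 p)
        + (Y 0 p * c1 - Y 1 p * c0) / T p * (- Y 1 p) := by
      field_simp
      rw [hT]
      ring
    have k1 : c1 = 2 * (c0 * Y 0 p + c1 * Y 1 p) / ρ * ((T p)⁻¹ * (ρ / 2) * Y 1 p)
        + (Y 0 p * c1 - Y 1 p * c0) / T p * (Y 0 p) := by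
      field_simp
      rw [hT]
      ring
    have key : ∀ (x y : TangentSpace 𝓘(ℝ, E) p) (A B v0 v1 w0 w1 : ℝ), c0 = A * v0 + B * w0 →
        c1 = A * v1 + B * w1 → c0 • x + c1 • y = A • (v0 • x + v1 • y) + B • (w0 • x + w1 • y) := by
      intro x y A B v0 v1 w0 w1 hc0 hc1
      rw [hc0, hc1]
      module
    exact key _ _ _ _ _ _ _ _ k0 k1
  · intro p h1 h2 h0
    have h3 : T p < 3 := by linarith
    have hT := hTY p h3
    obtain ⟨-, -, hpV, -⟩ := hsmall p h3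
    rw [hXw] at h0
    obtain ⟨z0, z1⟩ := X_indep K b hpV h0
    rw [w0] at z0
    rw [w1] at z1
    have : T p = 0 := by
      rw [hT, z1, neg_eq_zero.1 z0]
      ring
    linarith
  · intro p h1
    have h3 : T p < 3 := by linarith
    obtain ⟨hpS, hr, hpV, hTr⟩ := hsmall p h3
    refine ⟨?_, ⟨(i, 0), ?_⟩⟩
    · have h4 : radE b yc ρ (K.ph i p) < 12 / 10 := by rw [← hTr]; linarith
      filter_upwards [hS.mem_nhds hpS, (hrc p hpS).eventually (gt_mem_nhds h4)] with q hq hqr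
      show (if q ∈ S then gχ (K.ph i q) else 0) = 1
      rw [if_pos hq]
      exact cut_eq_one (by norm_num) (le_of_lt hqr)
    · rw [hDY p h3]
      simp [hρ.ne']
  · intro p h1
    by_cases hpS : p ∈ S
    · have h4 : 18 / 10 < radE b yc ρ (K.ph i p) := by
        by_contra hlt
        push Not at hlt
        have h5 : T p = kap (radE b yc ρ (K.ph i p)) := if_pos hpS
        rw [kap_of_le (by linarith)] at h5
        linarith
      filter_upwards [hS.mem_nhds hpS, (hrc p hpS).eventually (lt_mem_nhds h4)] with q hq hqr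
      show (if q ∈ S then gχ (K.ph i q) else 0) = 0
      rw [if_pos hq]
      exact cut_eq_zero (by norm_num) (le_of_lt hqr)
    · have h4 : p ∉ Q := fun h => hpS (hQS h)
      filter_upwards [hQc.isOpen_compl.mem_nhds h4] with q hq
      exact offχ q hq

end disc

end Vale.Agent.P205.TW.Data
end
end

section

/-!
P205, scheme T1W, data block on `M`: the global data `MData`.

`N p n` : `n` is a unit vector of the line at `p` (a line field of a real inner product space `W`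
with local smooth unit sections, `LineM`).  `Ψ` is a smooth section (the twisted phase
`ψ (p, n) = ⟪Ψ p, n⟫`), `r` the radial function with polar fields `v, w`, `ν` a section which is
unit for `r < 3` (the odd local sign `e (p, n) = ⟪ν p, n⟫`).
-/

noncomputable section

set_option linter.unusedSectionVars false

open scoped Manifold ContDiff Topology RealInnerProductSpace
open Set Filter

namespace Vale.Agent.P205.TW.Data

open Vale.Agent.P205.F

section dvcalc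

variable {E : Type*} [NormedAddCommGroup E] [NormedSpace ℝ E]
  {M : Type*} [TopologicalSpace M] [ChartedSpace E M] [IsManifold 𝓘(ℝ, E) ∞ M]
  (K : Cov E M) {A : Type*} (b : A → E)
  {F : Type*} [NormedAddCommGroup F] [NormedSpace ℝ F]
  {W : Type*} [NormedAddCommGroup W] [InnerProductSpace ℝ W]

lemma Dv_congr {u v : M → F} {p : M} (h : u =ᶠ[𝓝 p] v) (j : Fin K.n × A) :
    K.Dv b j u p = K.Dv b j v p := by
  by_cases hp : p ∈ (K.ph j.1).source
  · unfold Cov.Dv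
    have hcs : ContinuousAt (K.ph j.1).symm (K.ph j.1 p) := continuousAt_extChartAt_symm' hp
    have hleft : (K.ph j.1).symm (K.ph j.1 p) = p := (K.ph j.1).left_inv hp
    have h2 : u ∘ (K.ph j.1).symm =ᶠ[𝓝 (K.ph j.1 p)] v ∘ (K.ph j.1).symm :=
      hcs.eventually (p := fun q => u q = v q) (by rw [hleft]; exact h)
    rw [h2.fderiv_eq]
  · rw [K.Dv_eq_zero b j _ hp, K.Dv_eq_zero b j _ hp]

lemma Dv_smul {f : M → ℝ} {u : M → F} (hf : ContMDiff 𝓘(ℝ, E) 𝓘(ℝ, ℝ) ∞ f)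
    (hu : ContMDiff 𝓘(ℝ, E) 𝓘(ℝ, F) ∞ u) (j : Fin K.n × A) (p : M) :
    K.Dv b j (fun p => f p • u p) p = K.Dv b j f p • u p + f p • K.Dv b j u p := by
  by_cases hp : p ∈ (K.ph j.1).source
  · have h1 : (fun p => f p • u p) ∘ (K.ph j.1).symm =
        fun y => (f ∘ (K.ph j.1).symm) y • (u ∘ (K.ph j.1).symm) y := rfl
    have hleft : (K.ph j.1).symm (K.ph j.1 p) = p := (K.ph j.1).left_inv hp
    unfold Cov.Dv
    rw [h1, fderiv_fun_smul (K.differentiableAt_symm hf hp) (K.differentiableAt_symm hu hp)]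
    simp only [Function.comp_apply, hleft, add_apply,
      ContinuousLinearMap.smulRight_apply, smul_eq_mul]
    rw [show ((f p • fderiv ℝ (u ∘ (K.ph j.1).symm) (K.ph j.1 p)) (b j.2) : F) =
      f p • (fderiv ℝ (u ∘ (K.ph j.1).symm) (K.ph j.1 p) (b j.2)) from rfl]
    module
  · rw [K.Dv_eq_zero b j _ hp, K.Dv_eq_zero b j _ hp, K.Dv_eq_zero b j _ hp]
    simp

lemma Dv_inner {u v : M → W} (hu : ContMDiff 𝓘(ℝ, E) 𝓘(ℝ, W) ∞ u)
    (hv : ContMDiff 𝓘(ℝ, E) 𝓘(ℝ, W) ∞ v) (j : Fin K.n × A) (p : M) :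
    K.Dv b j (fun p => ⟪u p, v p⟫) p = ⟪K.Dv b j u p, v p⟫ + ⟪u p, K.Dv b j v p⟫ := by
  by_cases hp : p ∈ (K.ph j.1).source
  · have h1 : (fun p => ⟪u p, v p⟫) ∘ (K.ph j.1).symm =
        fun y => ⟪(u ∘ (K.ph j.1).symm) y, (v ∘ (K.ph j.1).symm) y⟫ := rfl
    have hleft : (K.ph j.1).symm (K.ph j.1 p) = p := (K.ph j.1).left_inv hp
    unfold Cov.Dv
    rw [h1, fderiv_inner_apply ℝ (K.differentiableAt_symm hu hp) (K.differentiableAt_symm hv hp)]
    simp only [Function.comp_apply, hleft, inner_smul_left, inner_smul_right, smul_eq_mul,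
      conj_trivial]
    ring
  · rw [K.Dv_eq_zero b j _ hp, K.Dv_eq_zero b j _ hp, K.Dv_eq_zero b j _ hp]
    simp

lemma Dv_unit {u : M → W} (hu : ContMDiff 𝓘(ℝ, E) 𝓘(ℝ, W) ∞ u) {p : M}
    (h : ∀ᶠ q in 𝓝 p, ⟪u q, u q⟫ = 1) (j : Fin K.n × A) : ⟪K.Dv b j u p, u p⟫ = 0 := by
  have h1 := Dv_inner K b hu hu j p
  have h2 : K.Dv b j (fun p => ⟪u p, u p⟫) p = K.Dv b j (fun _ : M => (1 : ℝ)) p :=
    Dv_congr K b h j
  rw [h2, K.Dv_const b j (1 : ℝ), real_inner_comm (K.Dv b j u p) (u p)] at h1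
  simp only [Pi.zero_apply] at h1
  linarith

end dvcalc

section data

variable {E : Type*} [NormedAddCommGroup E] [NormedSpace ℝ E]
  {M : Type*} [TopologicalSpace M] [ChartedSpace E M] [IsManifold 𝓘(ℝ, E) ∞ M]
  {W : Type*} [NormedAddCommGroup W] [InnerProductSpace ℝ W]

/-- a line field with local smooth unit sections; `N p n`: `n` is a unit vector of the line -/
structure LineM (E : Type*) [NormedAddCommGroup E] [NormedSpace ℝ E] {M : Type*}
    [TopologicalSpace M] [ChartedSpace E M] {W : Type*} [NormedAddCommGroup W]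
    [InnerProductSpace ℝ W] (N : M → W → Prop) : Prop where
  unit : ∀ p n, N p n → ⟪n, n⟫ = 1
  loc : ∀ p0, ∃ (ν : M → W) (O : Set M), IsOpen O ∧ p0 ∈ O ∧
    ContMDiff 𝓘(ℝ, E) 𝓘(ℝ, W) ∞ ν ∧ ∀ p ∈ O, ∀ n, N p n ↔ (n = ν p ∨ n = - ν p)

/-- sections of the line field -/
def Sec (N : M → W → Prop) (Ψ : M → W) : Prop := ∀ p n, N p n → Ψ p = ⟪Ψ p, n⟫ • n

/-- the data on `M` -/
structure MData (K : Cov E M) (b : Module.Basis (Fin 2) ℝ E) (N : M → W → Prop) where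
  /-- the twisted phase -/
  Ψ : M → W
  /-- unit section for `r < 3` -/
  ν : M → W
  /-- radial function -/
  r : M → ℝ
  /-- radial field -/
  v : Fin K.n × Fin 2 → M → ℝ
  /-- angular field -/
  w : Fin K.n × Fin 2 → M → ℝ
  /-- coefficients -/
  β : Fin K.n × Fin 2 → M → ℝ
  smΨ : ContMDiff 𝓘(ℝ, E) 𝓘(ℝ, W) ∞ Ψ
  smν : ContMDiff 𝓘(ℝ, E) 𝓘(ℝ, W) ∞ ν
  smr : ContMDiff 𝓘(ℝ, E) 𝓘(ℝ, ℝ) ∞ r
  smv : ∀ j, ContMDiff 𝓘(ℝ, E) 𝓘(ℝ, ℝ) ∞ (v j)
  smw : ∀ j, ContMDiff 𝓘(ℝ, E) 𝓘(ℝ, ℝ) ∞ (w j)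
  smβ : ∀ j, ContMDiff 𝓘(ℝ, E) 𝓘(ℝ, ℝ) ∞ (β j)
  secΨ : Sec N Ψ
  secν : Sec N ν
  ν1 : ∀ p, r p < 3 → ⟪ν p, ν p⟫ = 1
  vr : ∀ p, 1 / 2 ≤ r p → r p ≤ 5 / 2 → ∑ j, v j p * K.Dv b j r p = 1
  wr : ∀ p, 1 / 2 ≤ r p → r p ≤ 5 / 2 → ∑ j, w j p * K.Dv b j r p = 0
  dec : ∀ p, 1 / 2 ≤ r p → r p ≤ 5 / 2 → ∀ j, K.X b j p =
    K.Dv b j r p • (∑ k, v k p • K.X b k p) + β j p • (∑ k, w k p • K.X b k p)
  wne : ∀ p, 1 / 2 ≤ r p → r p ≤ 5 / 2 → ∑ k, w k p • K.X b k p ≠ 0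
  nd : ∀ p, (r p ≤ 11 / 10 ∨ 19 / 10 ≤ r p) → ∀ n, N p n → ∃ j, ⟪K.Dv b j Ψ p, n⟫ ≠ 0

theorem exists_mdata [T2Space M] (K : Cov E M) (b : Module.Basis (Fin 2) ℝ E)
    {N : M → W → Prop} (hN : LineM E N) {Ψ0 : M → W} (hΨ : ContMDiff 𝓘(ℝ, E) 𝓘(ℝ, W) ∞ Ψ0)
    (hsec : Sec N Ψ0)
    (hfin : {p : M | ∀ n, N p n → ∀ v, ⟪n, mfderiv 𝓘(ℝ, E) 𝓘(ℝ, W) Ψ0 p v⟫ = 0}.Finite) :
    Nonempty (MData K b N) := by
  classical
  set C := {p : M | ∀ n, N p n → ∀ v, ⟪n, mfderiv 𝓘(ℝ, E) 𝓘(ℝ, W) Ψ0 p v⟫ = 0} with hC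
  obtain ⟨U, hU, hdisj⟩ := hfin.t2_separation
  choose ν O hO hcO smν hν using hN.loc
  have hD : ∀ c : M, Nonempty (Disc K b c (U c ∩ O c)) := fun c =>
    exists_disc K b ((hU c).2.inter (hO c)) ⟨(hU c).1, hcO c⟩
  let D : ∀ c : M, Disc K b c (U c ∩ O c) := fun c => (hD c).some
  let t : Finset M := hfin.toFinset
  have ht : ∀ c, c ∈ t ↔ c ∈ C := fun c => hfin.mem_toFinset
  -- disjointness
  have hoff : ∀ c ∈ t, ∀ c' ∈ t, c' ≠ c → ∀ q ∈ U c, q ∉ (D c').Q := by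
    intro c hc c' hc' hne q hq hq'
    have h1 := hdisj ((ht c').1 hc') ((ht c).1 hc) hne
    exact Set.disjoint_left.1 h1 ((D c').QU hq').1 hq
  -- the functions
  let r : M → ℝ := fun p => 4 + ∑ c ∈ t, ((D c).T p - 4)
  let v : Fin K.n × Fin 2 → M → ℝ := fun j p => ∑ c ∈ t, (D c).v j p
  let w : Fin K.n × Fin 2 → M → ℝ := fun j p => ∑ c ∈ t, (D c).w j p
  let β : Fin K.n × Fin 2 → M → ℝ := fun j p => ∑ c ∈ t, (D c).β j p
  let Ψ : M → W := fun p => Ψ0 p + ∑ c ∈ t, (D c).χ p • ((D c).X p • ν c p - Ψ0 p)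
  let ν' : M → W := fun p => ∑ c ∈ t, (cut 3 (7 / 2) ((D c).T p)) • ν c p
  have hr : ∀ c ∈ t, ∀ q ∈ U c, r q = (D c).T q := by
    intro c hc q hq
    show 4 + ∑ c ∈ t, ((D c).T q - 4) = _
    rw [Finset.sum_eq_single c]
    · ring
    · intro c' hc' hne
      rw [(D c').T_off q (hoff c hc c' hc' hne q hq), sub_self]
    · intro h
      exact absurd hc h
  have hv : ∀ c ∈ t, ∀ q ∈ U c, ∀ j, v j q = (D c).v j q := by
    intro c hc q hq j
    apply Finset.sum_eq_single c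
    · intro c' hc' hne
      exact (D c').v_off j q (hoff c hc c' hc' hne q hq)
    · intro h
      exact absurd hc h
  have hw : ∀ c ∈ t, ∀ q ∈ U c, ∀ j, w j q = (D c).w j q := by
    intro c hc q hq j
    apply Finset.sum_eq_single c
    · intro c' hc' hne
      exact (D c').w_off j q (hoff c hc c' hc' hne q hq)
    · intro h
      exact absurd hc h
  have hβ : ∀ c ∈ t, ∀ q ∈ U c, ∀ j, β j q = (D c).β j q := by
    intro c hc q hq j
    apply Finset.sum_eq_single c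
    · intro c' hc' hne
      exact (D c').β_off j q (hoff c hc c' hc' hne q hq)
    · intro h
      exact absurd hc h
  have hΨU : ∀ c ∈ t, ∀ q ∈ U c, Ψ q = Ψ0 q + (D c).χ q • ((D c).X q • ν c q - Ψ0 q) := by
    intro c hc q hq
    show Ψ0 q + _ = _
    congr 1
    apply Finset.sum_eq_single c
    · intro c' hc' hne
      rw [(D c').χ_off q (hoff c hc c' hc' hne q hq), zero_smul]
    · intro h
      exact absurd hc h
  have hνU : ∀ c ∈ t, ∀ q ∈ U c, ν' q = (cut 3 (7 / 2) ((D c).T q)) • ν c q := by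
    intro c hc q hq
    apply Finset.sum_eq_single c
    · intro c' hc' hne
      rw [(D c').T_off q (hoff c hc c' hc' hne q hq), cut_eq_zero (by norm_num) (by norm_num),
        zero_smul]
    · intro h
      exact absurd hc h
  have hr4 : ∀ q, (∀ c ∈ t, q ∉ (D c).Q) → r q = 4 := by
    intro q hq
    show 4 + ∑ c ∈ t, ((D c).T q - 4) = 4
    rw [Finset.sum_eq_zero, add_zero]
    intro c hc
    rw [(D c).T_off q (hq c hc), sub_self]
  have hmem : ∀ p, r p < 4 → ∃ c ∈ t, p ∈ (D c).Q := by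
    intro p hp
    by_contra hcon
    push Not at hcon
    have := hr4 p hcon
    linarith
  have hDr : ∀ c ∈ t, ∀ p ∈ U c, ∀ j, K.Dv b j r p = K.Dv b j (D c).T p := by
    intro c hc p hp j
    apply Dv_congr
    filter_upwards [(hU c).2.mem_nhds hp] with q hq
    exact hr c hc q hq
  refine ⟨⟨Ψ, ν', r, v, w, β, ?_, ?_, ?_, ?_, ?_, ?_, ?_, ?_, ?_, ?_, ?_, ?_, ?_, ?_⟩⟩
  · refine hΨ.add (contMDiff_finsetSum fun c _ => ?_)
    exact (D c).smχ.smul (((D c).smX.smul (smν c)).sub hΨ)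
  · refine contMDiff_finsetSum fun c _ => ?_
    exact ((contDiff_cut _ _).comp_contMDiff (D c).smT).smul (smν c)
  · refine contMDiff_const.add (contMDiff_finsetSum fun c _ => ?_)
    exact (D c).smT.sub contMDiff_const
  · intro j
    exact contMDiff_finsetSum fun c _ => (D c).smv j
  · intro j
    exact contMDiff_finsetSum fun c _ => (D c).smw j
  · intro j
    exact contMDiff_finsetSum fun c _ => (D c).smβ j
  · -- Ψ is a section
    intro p n hn
    have h0 := hsec p n hn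
    show Ψ0 p + ∑ c ∈ t, (D c).χ p • ((D c).X p • ν c p - Ψ0 p) =
      ⟪Ψ0 p + ∑ c ∈ t, (D c).χ p • ((D c).X p • ν c p - Ψ0 p), n⟫ • n
    rw [inner_add_left, add_smul, ← h0, sum_inner, Finset.sum_smul]
    congr 1
    apply Finset.sum_congr rfl
    intro c hc
    by_cases hp : p ∈ (D c).Q
    · have h1 := (hν c p ((D c).QU hp).2 n).1 hn
      have h2 := hN.unit p n hn
      have h3 : ν c p = ⟪ν c p, n⟫ • n := by
        rcases h1 with h1 | h1
        · rw [← h1, h2, one_smul]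
        · have : ν c p = - n := by rw [h1, neg_neg]
          rw [this, inner_neg_left, h2]
          simp
      rw [inner_smul_left, inner_sub_left, inner_smul_left]
      simp only [conj_trivial]
      rw [mul_smul, sub_smul, mul_smul, ← h3, ← h0]
    · rw [(D c).χ_off p hp, zero_smul, inner_zero_left, zero_smul]
  · intro p n hn
    show ∑ c ∈ t, (cut 3 (7 / 2) ((D c).T p)) • ν c p =
      ⟪∑ c ∈ t, (cut 3 (7 / 2) ((D c).T p)) • ν c p, n⟫ • n
    rw [sum_inner, Finset.sum_smul]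
    apply Finset.sum_congr rfl
    intro c hc
    by_cases hp : p ∈ (D c).Q
    · have h1 := (hν c p ((D c).QU hp).2 n).1 hn
      have h2 := hN.unit p n hn
      have h3 : ν c p = ⟪ν c p, n⟫ • n := by
        rcases h1 with h1 | h1
        · rw [← h1, h2, one_smul]
        · have : ν c p = - n := by rw [h1, neg_neg]
          rw [this, inner_neg_left, h2]
          simp
      rw [inner_smul_left]
      simp only [conj_trivial]
      rw [mul_smul, ← h3]
    · rw [(D c).T_off p hp, cut_eq_zero (by norm_num) (by norm_num), zero_smul, inner_zero_left,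
        zero_smul]
  · intro p hp
    obtain ⟨c, hc, hpQ⟩ := hmem p (by linarith)
    have hpU := (D c).QU hpQ
    rw [hr c hc p hpU.1] at hp
    rw [hνU c hc p hpU.1, cut_eq_one (by norm_num) hp.le, one_smul]
    exact hN.unit p _ ((hν c p hpU.2 _).2 (Or.inl rfl))
  · intro p h1 h2
    obtain ⟨c, hc, hpQ⟩ := hmem p (by linarith only [h2])
    have hpU := (D c).QU hpQ
    rw [hr c hc p hpU.1] at h1 h2
    have h3 := (D c).vT p h1 h2
    rw [← h3]
    apply Finset.sum_congr rfl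
    intro j _
    rw [hv c hc p hpU.1, hDr c hc p hpU.1]
  · intro p h1 h2
    obtain ⟨c, hc, hpQ⟩ := hmem p (by linarith)
    have hpU := (D c).QU hpQ
    rw [hr c hc p hpU.1] at h1 h2
    have h3 := (D c).wT p h1 h2
    rw [← h3]
    apply Finset.sum_congr rfl
    intro j _
    rw [hw c hc p hpU.1, hDr c hc p hpU.1]
  · intro p h1 h2 j
    obtain ⟨c, hc, hpQ⟩ := hmem p (by linarith)
    have hpU := (D c).QU hpQ
    rw [hr c hc p hpU.1] at h1 h2
    have h3 := (D c).dec p h1 h2 j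
    rw [hDr c hc p hpU.1, hβ c hc p hpU.1]
    simp only [hv c hc p hpU.1, hw c hc p hpU.1]
    exact h3
  · intro p h1 h2
    obtain ⟨c, hc, hpQ⟩ := hmem p (by linarith)
    have hpU := (D c).QU hpQ
    rw [hr c hc p hpU.1] at h1 h2
    have h3 := (D c).wne p h1 h2
    simp only [hw c hc p hpU.1]
    exact h3
  · intro p hp n hn
    rcases hp with hp | hp
    · obtain ⟨c, hc, hpQ⟩ := hmem p (by linarith)
      have hpU := (D c).QU hpQ
      rw [hr c hc p hpU.1] at hp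
      obtain ⟨hχ, j, hj⟩ := (D c).inner p hp
      have hΨp : Ψ =ᶠ[𝓝 p] fun q => (D c).X q • ν c q := by
        filter_upwards [hχ, (hU c).2.mem_nhds hpU.1] with q hq hqU
        rw [hΨU c hc q hqU, hq, one_smul]
        abel
      have hunit : ∀ᶠ q in 𝓝 p, ⟪ν c q, ν c q⟫ = 1 := by
        filter_upwards [(hO c).mem_nhds hpU.2] with q hq
        exact hN.unit q _ ((hν c q hq _).2 (Or.inl rfl))
      have hDν := Dv_unit K b (smν c) hunit
      refine ⟨j, ?_⟩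
      rw [Dv_congr K b hΨp j, Dv_smul K b (D c).smX (smν c)]
      have h1 := (hν c p hpU.2 n).1 hn
      rcases h1 with h1 | h1
      · rw [h1, inner_add_left, inner_smul_left, inner_smul_left, hDν, hunit.self_of_nhds]
        simpa using hj
      · rw [h1, inner_neg_right, inner_add_left, inner_smul_left, inner_smul_left, hDν,
          hunit.self_of_nhds]
        simpa using hj
    · have hΨp : Ψ =ᶠ[𝓝 p] Ψ0 := by
        have h1 : ∀ c ∈ t, ∀ᶠ q in 𝓝 p, (D c).χ q = 0 := by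
          intro c hc
          by_cases hpQ : p ∈ (D c).Q
          · have hpU := (D c).QU hpQ
            rw [hr c hc p hpU.1] at hp
            exact (D c).outer p hp
          · filter_upwards [(D c).clQ.isOpen_compl.mem_nhds hpQ] with q hq
            exact (D c).χ_off q hq
        have h2 : ∀ᶠ q in 𝓝 p, ∀ c ∈ t, (D c).χ q = 0 :=
          (Filter.eventually_all_finset t).2 h1
        filter_upwards [h2] with q hq
        show Ψ0 q + ∑ c ∈ t, (D c).χ q • ((D c).X q • ν c q - Ψ0 q) = Ψ0 q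
        rw [Finset.sum_eq_zero, add_zero]
        intro c hc
        rw [hq c hc, zero_smul]
      have hpC : p ∉ C := by
        intro h
        have hpt := (ht p).2 h
        have := hr p hpt p (hU p).1
        rw [(D p).Tc] at this
        linarith
      rw [hC] at hpC
      simp only [Set.mem_ofPred_eq] at hpC
      push Not at hpC
      obtain ⟨n0, hn0, ξ, hξ⟩ := hpC
      -- `n = ± n0`
      have hpm : n0 = n ∨ n0 = -n := by
        have a1 := (hν p p (hcO p) n).1 hn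
        have a2 := (hν p p (hcO p) n0).1 hn0
        rcases a1 with a1 | a1 <;> rcases a2 with a2 | a2
        · left; rw [a1, a2]
        · right; rw [a1, a2]
        · right; rw [a1, a2, neg_neg]
        · left; rw [a1, a2]
      by_contra hcon
      push Not at hcon
      apply hξ
      obtain ⟨i, hi⟩ := K.cov p
      obtain ⟨cc, hcc⟩ := K.Dv_span b (F := W) hi ξ
      rw [hcc hΨ, inner_sum]
      apply Finset.sum_eq_zero
      intro a _
      rw [inner_smul_right]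
      have h3 := hcon (i, a)
      rw [Dv_congr K b hΨp, real_inner_comm] at h3
      rcases hpm with h4 | h4
      · rw [h4, h3, mul_zero]
      · rw [h4, inner_neg_left, h3, neg_zero, mul_zero]

end data

end Vale.Agent.P205.TW.Data
end
end

section

/-!
P205, scheme T1W: the data `MData` on `M` for a pair `(F, ξ)` (`ImmN E M`), glue between
`exists_Psi4` (generic twisted phase), `okM` (the line field of the pair) and `exists_mdata`.
-/

noncomputable section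

open scoped Manifold ContDiff Topology RealInnerProductSpace
open Set Filter

namespace Vale.Agent.P205.TW

open Vale.Agent.P205.F

section glue

variable {E : Type*} [NormedAddCommGroup E] [NormedSpace ℝ E]
  {M : Type*} [TopologicalSpace M] [ChartedSpace E M] (K : Cov E M)
  (b : Module.Basis (Fin 2) ℝ E) [IsManifold 𝓘(ℝ, E) ∞ M] (H : ImmN E M)

/-- the line field of the pair, for vectors of `EuclideanSpace ℝ (Fin 4)` -/
def NM (p : M) (n : EuclideanSpace ℝ (Fin 4)) : Prop := okM K b H p (fun k => n k)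

/-- unit vectors orthogonal to `dF` and to `ξ` belong to the line -/
lemma NM_of {p : M} {n : EuclideanSpace ℝ (Fin 4)} (h1 : ‖n‖ = 1)
    (h2 : ∀ v : TangentSpace 𝓘(ℝ, E) p,
      inner ℝ n (mfderiv 𝓘(ℝ, E) 𝓘(ℝ, EuclideanSpace ℝ (Fin 4)) H.F p v :
        EuclideanSpace ℝ (Fin 4)) = 0)
    (h3 : inner ℝ n (H.ξ p) = 0) : NM K b H p n := by
  refine ⟨?_, ?_, fun j => ?_⟩
  · rw [← inner_eq_dt4, real_inner_self_eq_norm_sq, h1, one_pow]
  · rw [inner_eq_dt4] at h3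
    exact h3
  · have h4 := h2 (K.X b j p)
    have h5 : inner ℝ n (K.Dv b j H.F p) = 0 := by
      rw [K.Dv_eq b H.smF j p]
      exact h4
    rw [inner_eq_dt4] at h5
    exact h5

/-- the local unit normal of the chart `i`, as a vector -/
def mv (i : Fin K.n) (p : M) : EuclideanSpace ℝ (Fin 4) := WithLp.toLp 2 fun k => mr K b H i k p

lemma sm_mv (i : Fin K.n) :
    ContMDiff 𝓘(ℝ, E) 𝓘(ℝ, EuclideanSpace ℝ (Fin 4)) ∞ (mv K b H i) := by
  have h1 : ContMDiff 𝓘(ℝ, E) 𝓘(ℝ, Fin 4 → ℝ) ∞ (fun p => fun k => mr K b H i k p) :=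
    contMDiff_pi_space.2 fun k => sm_mr K b H i k
  exact (PiLp.continuousLinearEquiv 2 ℝ (fun _ : Fin 4 => ℝ)).symm.contDiff.comp_contMDiff h1

lemma NM_iff {i : Fin K.n} {p : M} (hp : p ∈ K.V i) (n : EuclideanSpace ℝ (Fin 4)) :
    NM K b H p n ↔ (n = mv K b H i p ∨ n = -mv K b H i p) := by
  rw [NM, okM_iff K b H hp]
  constructor
  · rintro (h | h)
    · left; ext k; exact h k
    · right; ext k; exact h k
  · rintro (h | h)
    · left; intro k; rw [h]; rfl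
    · right; intro k; rw [h]; rfl

lemma lineM_NM : Data.LineM E (NM K b H) where
  unit p n h := by
    rw [inner_eq_dt4]
    exact h.1
  loc p0 := by
    obtain ⟨i, hi⟩ := K.cov p0
    exact ⟨mv K b H i, K.V i, K.opn i, hi, sm_mv K b H i, fun p hp n => NM_iff K b H hp n⟩

/-- a normal vector field is a section of the line -/
lemma sec_NM {Ψ : M → EuclideanSpace ℝ (Fin 4)}
    (h2 : ∀ (p : M) (v : TangentSpace 𝓘(ℝ, E) p),
      inner ℝ (Ψ p) (mfderiv 𝓘(ℝ, E) 𝓘(ℝ, EuclideanSpace ℝ (Fin 4)) H.F p v :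
        EuclideanSpace ℝ (Fin 4)) = 0)
    (h3 : ∀ p, inner ℝ (Ψ p) (H.ξ p) = 0) : Data.Sec (NM K b H) Ψ := by
  intro p n hn
  by_cases h0 : Ψ p = 0
  · rw [h0]; simp
  have hpos : ‖Ψ p‖ ≠ 0 := norm_ne_zero_iff.2 h0
  set m : EuclideanSpace ℝ (Fin 4) := ‖Ψ p‖⁻¹ • Ψ p with hm
  have hmN : NM K b H p m := by
    refine NM_of K b H ?_ (fun v => ?_) ?_
    · rw [hm, norm_smul, norm_inv, norm_norm, inv_mul_cancel₀ hpos]
    · have h4 := h2 p v
      exact (real_inner_smul_left _ _ _).trans (by rw [h4, mul_zero])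
    · rw [hm, real_inner_smul_left, h3 p, mul_zero]
  obtain ⟨i, hi⟩ := K.cov p
  have hn1 : inner ℝ n n = 1 := (lineM_NM K b H).unit p n hn
  have hmn : m = n ∨ m = -n := by
    rw [NM_iff K b H hi] at hn hmN
    rcases hn with h | h <;> rcases hmN with h' | h' <;> rw [h, h'] <;> simp
  have hΨ : Ψ p = ‖Ψ p‖ • m := by
    rw [hm, smul_smul, mul_inv_cancel₀ hpos, one_smul]
  rcases hmn with h | h
  · rw [h] at hΨ
    have h5 : inner ℝ (Ψ p) n = ‖Ψ p‖ := by
      conv_lhs => rw [hΨ]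
      rw [real_inner_smul_left, hn1, mul_one]
    rw [h5]
    exact hΨ
  · rw [h] at hΨ
    have h5 : inner ℝ (Ψ p) n = -‖Ψ p‖ := by
      conv_lhs => rw [hΨ]
      rw [real_inner_smul_left, inner_neg_left, hn1]
      ring
    rw [h5, neg_smul, ← smul_neg]
    exact hΨ

/-- **the data on `M` for a pair** -/
theorem exists_mdataN [T2Space M] [CompactSpace M] : Nonempty (Data.MData K b (NM K b H)) := by
  have : FiniteDimensional ℝ E := Module.Basis.finiteDimensional_of_finite b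
  have hE : Module.finrank ℝ E = 2 := by
    rw [Module.finrank_eq_card_basis b]; simp
  have hW : Module.finrank ℝ (EuclideanSpace ℝ (Fin 4)) = 4 := finrank_euclideanSpace_fin
  have hξ0 : ∀ p, H.ξ p ≠ 0 := fun p h => by
    have := H.unit p
    rw [h, norm_zero] at this
    exact zero_ne_one this
  obtain ⟨Ψ, h1, h2, h3, h4⟩ := exists_Psi4 hE hW H.smF H.smξ H.imm hξ0 H.perp
  refine Data.exists_mdata K b (lineM_NM K b H) h1 (sec_NM K b H h2 h3) (h4.subset ?_)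
  intro p hp n hn1 hn2 hn3 v
  exact hp n (NM_of K b H hn1 hn2 hn3) v

end glue

end Vale.Agent.P205.TW
end
end

section

/-!
P205, scheme T1W, data block on `M`: decomposition of positive tensors into primitive ones,
`T j k = ∑ a² D_j φ D_k φ`, with local unit sections of a line field near the supports.
-/

noncomputable section

set_option linter.unusedSectionVars false

open scoped Manifold ContDiff Topology RealInnerProductSpace
open Set Filter

namespace Vale.Agent.P205.TW.Data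

open Vale.Agent.P205.F

/-- the four covectors -/
def cvec (s : ℝ) : Fin 4 → Fin 2 → ℝ := ![![1, s], ![0, 1], ![1, s + 1], ![1, s - 1]]

/-- the coefficients of `A dx² + 2 B dx dy + C dy²` in the four covectors -/
def lco (s k A B C : ℝ) : Fin 4 → ℝ :=
  ![A - 2 * k, C - 2 * B * s + A * s ^ 2 - 2 * k, k + (B - A * s) / 2, k - (B - A * s) / 2]

lemma lco_sum (s k A B C x0 x1 y0 y1 : ℝ) :
    ∑ m, lco s k A B C m * ((cvec s m 0 * x0 + cvec s m 1 * x1) *
      (cvec s m 0 * y0 + cvec s m 1 * y1)) =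
      A * (x0 * y0) + B * (x0 * y1 + x1 * y0) + C * (x1 * y1) := by
  simp only [Fin.sum_univ_four, lco, cvec, Matrix.cons_val]
  ring

lemma lco_pos {A B C : ℝ} (hA : 0 < A) (hd : 0 < A * C - B ^ 2) :
    ∃ s k : ℝ, ∀ m, 0 < lco s k A B C m := by
  have h1 : 0 < C - B ^ 2 / A := by
    rw [sub_pos, div_lt_iff₀ hA]
    linarith
  refine ⟨B / A, min A (C - B ^ 2 / A) / 4, ?_⟩
  have h2 : 0 < min A (C - B ^ 2 / A) := lt_min hA h1
  have h3 := min_le_left A (C - B ^ 2 / A)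
  have h4 := min_le_right A (C - B ^ 2 / A)
  have h5 : B - A * (B / A) = 0 := by
    field_simp
    ring
  have h6 : C - 2 * B * (B / A) + A * (B / A) ^ 2 = C - B ^ 2 / A := by
    field_simp
    ring
  intro m
  fin_cases m
  · show 0 < A - 2 * (min A (C - B ^ 2 / A) / 4)
    linarith only [h3, h2]
  · show 0 < C - 2 * B * (B / A) + A * (B / A) ^ 2 - 2 * (min A (C - B ^ 2 / A) / 4)
    rw [h6]
    linarith only [h4, h2]
  · show 0 < min A (C - B ^ 2 / A) / 4 + (B - A * (B / A)) / 2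
    rw [h5]
    linarith
  · show 0 < min A (C - B ^ 2 / A) / 4 - (B - A * (B / A)) / 2
    rw [h5]
    linarith only [h2]

section prim

variable {E : Type*} [NormedAddCommGroup E] [NormedSpace ℝ E]
  {M : Type*} [TopologicalSpace M] [ChartedSpace E M] [IsManifold 𝓘(ℝ, E) ∞ M]
  (K : Cov E M) (b : Module.Basis (Fin 2) ℝ E)
  {W : Type*} [NormedAddCommGroup W] [InnerProductSpace ℝ W]

/-- the cut-off coordinates of the chart `i` -/
def crdM (i : Fin K.n) (a : Fin 2) (p : M) : ℝ := K.χ i p * crdE b 0 1 a (K.ph i p)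

lemma contMDiff_crdM (i : Fin K.n) (a : Fin 2) :
    ContMDiff 𝓘(ℝ, E) 𝓘(ℝ, ℝ) ∞ (crdM K b i a) := by
  refine contMDiff_of_tsupport fun p hp => ?_
  have h1 : p ∈ (K.ph i).source := K.tsupport_sub i (tsupport_mul_subset_left hp)
  have h2 : ContMDiffOn 𝓘(ℝ, E) 𝓘(ℝ, E) ∞ (K.ph i) (K.ph i).source := by
    have := contMDiffOn_extChartAt (I := 𝓘(ℝ, E)) (n := ∞) (x := K.c i)
    rwa [← extChartAt_source 𝓘(ℝ, E)] at this
  have h3 : ContMDiffAt 𝓘(ℝ, E) 𝓘(ℝ, ℝ) ∞ (fun p => crdE b 0 1 a (K.ph i p)) p :=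
    ((contDiff_crdE b 0 1 a).contMDiff.comp_contMDiffOn h2).contMDiffAt
      ((K.isOpen_source i).mem_nhds h1)
  exact (K.sm i).contMDiffAt.mul h3

lemma Dv_crdM {i : Fin K.n} {p : M} (hp : p ∈ K.V i) (a a' : Fin 2) :
    K.Dv b (i, a') (crdM K b i a) p = if a = a' then 1 else 0 := by
  have h1 := Dv_loc K b hp (u := crdM K b i a) (g := crdE b 0 1 a) (by
    filter_upwards [(K.opn i).mem_nhds hp] with q hq
    show K.χ i q * _ = _
    rw [K.one i q hq, one_mul]) a'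
  rw [h1, fderiv_crdE]
  simp

/-- all derivatives on `V i` in terms of the coordinates -/
lemma Dv_expand {F : Type*} [NormedAddCommGroup F] [NormedSpace ℝ F] {i : Fin K.n} {p : M}
    (hp : p ∈ K.V i) (j : Fin K.n × Fin 2) {u : M → F}
    (hu : ContMDiff 𝓘(ℝ, E) 𝓘(ℝ, F) ∞ u) :
    K.Dv b j u p = K.Dv b j (crdM K b i 0) p • K.Dv b (i, 0) u p +
      K.Dv b j (crdM K b i 1) p • K.Dv b (i, 1) u p := by
  have h1 := K.X_span b (K.V_sub i hp) (K.X b j p)
  rw [K.one i p hp, one_smul, Fin.sum_univ_two] at h1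
  have key : ∀ (L : E →L[ℝ] F) (r s : ℝ)
      (x y z : E), x = r • y + s • z → L x = r • L y + s • L z := by
    intro L r s x y z h
    rw [h, map_add, map_smul, map_smul]
  have key0 : ∀ (L : E →L[ℝ] ℝ) (r s : ℝ)
      (x y z : E), x = r • y + s • z → L x = r • L y + s • L z := by
    intro L r s x y z h
    rw [h, map_add, map_smul, map_smul]
  have h2 : ∀ a, K.Dv b j (crdM K b i a) p =
      (b.repr (mfderiv 𝓘(ℝ, E) 𝓘(ℝ, E) (K.ph i) p (K.X b j p) : E) a) := by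
    intro a
    have h3 := key0 (mfderiv 𝓘(ℝ, E) 𝓘(ℝ, ℝ) (crdM K b i a) p) _ _ _ _ _ h1
    have e0 := K.Dv_eq b (contMDiff_crdM K b i a) j p
    have e1 := K.Dv_eq b (contMDiff_crdM K b i a) (i, 0) p
    have e2 := K.Dv_eq b (contMDiff_crdM K b i a) (i, 1) p
    have h4 : K.Dv b j (crdM K b i a) p =
        (b.repr (mfderiv 𝓘(ℝ, E) 𝓘(ℝ, E) (K.ph i) p (K.X b j p) : E) 0) •
          K.Dv b (i, 0) (crdM K b i a) p +
        (b.repr (mfderiv 𝓘(ℝ, E) 𝓘(ℝ, E) (K.ph i) p (K.X b j p) : E) 1) •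
          K.Dv b (i, 1) (crdM K b i a) p := by
      rw [e0, e1, e2]
      exact h3
    rw [h4, Dv_crdM K b hp, Dv_crdM K b hp]
    fin_cases a <;> simp
  rw [h2, h2, K.Dv_eq b hu, K.Dv_eq b hu, K.Dv_eq b hu]
  exact key (mfderiv 𝓘(ℝ, E) 𝓘(ℝ, F) u p) _ _ _ _ _ h1

/-- linearity of the derivations -/
lemma Dv_lin2 {x y : M → ℝ} (hx : ContMDiff 𝓘(ℝ, E) 𝓘(ℝ, ℝ) ∞ x)
    (hy : ContMDiff 𝓘(ℝ, E) 𝓘(ℝ, ℝ) ∞ y) (r s : ℝ) (j : Fin K.n × Fin 2) (p : M) :
    K.Dv b j (fun p => r * x p + s * y p) p = r * K.Dv b j x p + s * K.Dv b j y p := by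
  have h1 := Dv_smul K b (f := fun _ => r) (u := x) contMDiff_const hx j p
  have h2 := Dv_smul K b (f := fun _ => s) (u := y) contMDiff_const hy j p
  have h3 := congrFun (K.Dv_add b (u := fun p => r • x p) (v := fun p => s • y p)
    (contMDiff_const.mul hx) (contMDiff_const.mul hy) j) p
  rw [K.Dv_const b j r] at h1
  rw [K.Dv_const b j s] at h2
  rw [Pi.add_apply, h1, h2] at h3
  simp only [Pi.zero_apply, zero_mul, zero_add, smul_eq_mul] at h3
  exact h3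

/-- the tensors under consideration -/
structure TenM (T : Fin K.n × Fin 2 → Fin K.n × Fin 2 → M → ℝ) : Prop where
  sm : ∀ j k, ContMDiff 𝓘(ℝ, E) 𝓘(ℝ, ℝ) ∞ (T j k)
  symm : ∀ j k p, T j k p = T k j p
  rel : ∀ p (c : Fin K.n × Fin 2 → ℝ), (∀ u : M → ℝ, ContMDiff 𝓘(ℝ, E) 𝓘(ℝ, ℝ) ∞ u →
    ∑ j, c j * K.Dv b j u p = 0) → ∀ k, ∑ j, c j * T j k p = 0
  pos : ∀ p (ξ : Fin K.n × Fin 2 → ℝ), (∃ u : M → ℝ, ContMDiff 𝓘(ℝ, E) 𝓘(ℝ, ℝ) ∞ u ∧
    ∑ j, ξ j * K.Dv b j u p ≠ 0) → 0 < ∑ j, ∑ k, T j k p * ξ j * ξ k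

variable {T : Fin K.n × Fin 2 → Fin K.n × Fin 2 → M → ℝ}

lemma TenM.row (hT : TenM K b T) {i : Fin K.n} {p : M} (hp : p ∈ K.V i)
    (j k : Fin K.n × Fin 2) : T j k p = K.Dv b j (crdM K b i 0) p * T (i, 0) k p +
      K.Dv b j (crdM K b i 1) p * T (i, 1) k p := by
  classical
  have h := hT.rel p (fun l => (if l = j then 1 else 0) -
    (K.Dv b j (crdM K b i 0) p * (if l = (i, 0) then 1 else 0) +
      K.Dv b j (crdM K b i 1) p * (if l = (i, 1) then 1 else 0))) (by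
      intro u hu
      have h1 := Dv_expand K b hp j hu
      simp only [sub_mul, add_mul, mul_assoc, Finset.sum_sub_distrib, Finset.sum_add_distrib,
        ← Finset.mul_sum, ite_mul, one_mul, zero_mul, Finset.sum_ite_eq', Finset.mem_univ, if_true]
      rw [h1]
      simp only [smul_eq_mul]
      ring) k
  simp only [sub_mul, add_mul, mul_assoc, Finset.sum_sub_distrib, Finset.sum_add_distrib,
    ← Finset.mul_sum, ite_mul, one_mul, zero_mul, Finset.sum_ite_eq', Finset.mem_univ, if_true] at h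
  linarith

lemma TenM.expand (hT : TenM K b T) {i : Fin K.n} {p : M} (hp : p ∈ K.V i)
    (j k : Fin K.n × Fin 2) : T j k p =
      T (i, 0) (i, 0) p * (K.Dv b j (crdM K b i 0) p * K.Dv b k (crdM K b i 0) p) +
      T (i, 0) (i, 1) p * (K.Dv b j (crdM K b i 0) p * K.Dv b k (crdM K b i 1) p +
        K.Dv b j (crdM K b i 1) p * K.Dv b k (crdM K b i 0) p) +
      T (i, 1) (i, 1) p * (K.Dv b j (crdM K b i 1) p * K.Dv b k (crdM K b i 1) p) := by
  have h1 := hT.row K b hp j k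
  have h2 := hT.row K b hp k (i, 0)
  have h3 := hT.row K b hp k (i, 1)
  rw [h1, hT.symm (i, 0) k, hT.symm (i, 1) k, h2, h3, hT.symm (i, 1) (i, 0)]
  ring

lemma sum_two {n : ℕ} (i : Fin n) (r s : ℝ) (f : Fin n × Fin 2 → ℝ) :
    ∑ j, (if j.1 = i then (if j.2 = 0 then r else s) else 0) * f j =
      r * f (i, 0) + s * f (i, 1) := by
  rw [sum_one i]
  · simp
  · intro j hj
    rw [if_neg hj, zero_mul]

lemma TenM.pos2 (hT : TenM K b T) {i : Fin K.n} {p : M} (hp : p ∈ K.V i) :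
    0 < T (i, 0) (i, 0) p ∧
      0 < T (i, 0) (i, 0) p * T (i, 1) (i, 1) p - T (i, 0) (i, 1) p ^ 2 := by
  have hgen : ∀ r s : ℝ, (r ≠ 0 ∨ s ≠ 0) → 0 < T (i, 0) (i, 0) p * r ^ 2 +
      2 * T (i, 0) (i, 1) p * (r * s) + T (i, 1) (i, 1) p * s ^ 2 := by
    intro r s hrs
    have h1 := hT.pos p (fun j => if j.1 = i then (if j.2 = 0 then r else s) else 0) (by
      rcases hrs with h | h
      · refine ⟨crdM K b i 0, contMDiff_crdM K b i 0, ?_⟩
        rw [sum_two, Dv_crdM K b hp, Dv_crdM K b hp]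
        simpa using h
      · refine ⟨crdM K b i 1, contMDiff_crdM K b i 1, ?_⟩
        rw [sum_two, Dv_crdM K b hp, Dv_crdM K b hp]
        simpa using h)
    have h2 : ∀ j : Fin K.n × Fin 2, ∑ k, T j k p *
        (if j.1 = i then (if j.2 = 0 then r else s) else 0) *
        (if k.1 = i then (if k.2 = 0 then r else s) else 0) =
        (if j.1 = i then (if j.2 = 0 then r else s) else 0) *
          (r * T j (i, 0) p + s * T j (i, 1) p) := by
      intro j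
      rw [← sum_two i r s (fun k => T j k p), Finset.mul_sum]
      apply Finset.sum_congr rfl
      intro k _
      ring
    simp only [h2] at h1
    rw [sum_two i r s, hT.symm (i, 1) (i, 0)] at h1
    linarith [h1]
  have hA : 0 < T (i, 0) (i, 0) p := by
    have := hgen 1 0 (Or.inl one_ne_zero)
    linarith
  refine ⟨hA, ?_⟩
  have h1 := hgen (T (i, 0) (i, 1) p) (- T (i, 0) (i, 0) p) (Or.inr (neg_ne_zero.2 hA.ne'))
  have h2 : T (i, 0) (i, 0) p * T (i, 0) (i, 1) p ^ 2 +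
      2 * T (i, 0) (i, 1) p * (T (i, 0) (i, 1) p * - T (i, 0) (i, 0) p) +
      T (i, 1) (i, 1) p * (- T (i, 0) (i, 0) p) ^ 2 = T (i, 0) (i, 0) p *
        (T (i, 0) (i, 0) p * T (i, 1) (i, 1) p - T (i, 0) (i, 1) p ^ 2) := by ring
  rw [h2] at h1
  exact (mul_pos_iff_of_pos_left hA).1 h1

/-- local form of the decomposition -/
lemma TenM.local [T2Space M] (hT : TenM K b T) {N : M → W → Prop} (hN : LineM E N) (p0 : M) :
    ∃ O : Set M, IsOpen O ∧ p0 ∈ O ∧ ∃ (lam φ : Fin 4 → M → ℝ) (ν : M → W),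
      (∀ m, ContMDiff 𝓘(ℝ, E) 𝓘(ℝ, ℝ) ∞ (lam m)) ∧ (∀ m, ContMDiff 𝓘(ℝ, E) 𝓘(ℝ, ℝ) ∞ (φ m)) ∧
      ContMDiff 𝓘(ℝ, E) 𝓘(ℝ, W) ∞ ν ∧ Sec N ν ∧ (∀ q ∈ O, ⟪ν q, ν q⟫ = 1) ∧
      (∀ q ∈ O, ∀ m, 0 < lam m q) ∧
      ∀ q ∈ O, ∀ j k, T j k q = ∑ m, lam m q * (K.Dv b j (φ m) q * K.Dv b k (φ m) q) := by
  have : FiniteDimensional ℝ E := b.finiteDimensional_of_finite
  obtain ⟨i, hi⟩ := K.cov p0
  obtain ⟨hA, hd⟩ := hT.pos2 K b hi
  obtain ⟨s, k, hsk⟩ := lco_pos hA hd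
  let lam : Fin 4 → M → ℝ := fun m q =>
    lco s k (T (i, 0) (i, 0) q) (T (i, 0) (i, 1) q) (T (i, 1) (i, 1) q) m
  have slam : ∀ m, ContMDiff 𝓘(ℝ, E) 𝓘(ℝ, ℝ) ∞ (lam m) := by
    have a := hT.sm (i, 0) (i, 0)
    have b' := hT.sm (i, 0) (i, 1)
    have c := hT.sm (i, 1) (i, 1)
    have hc : ∀ r : ℝ, ContMDiff 𝓘(ℝ, E) 𝓘(ℝ, ℝ) ∞ (fun _ : M => r) := fun r => contMDiff_const
    intro m
    fin_cases m
    · exact a.sub (hc (2 * k))
    · exact ((c.sub (((hc 2).mul b').mul (hc s))).add (a.mul (hc (s ^ 2)))).sub (hc (2 * k))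
    · exact (hc k).add ((b'.sub (a.mul (hc s))).div_const 2)
    · exact (hc k).sub ((b'.sub (a.mul (hc s))).div_const 2)
  obtain ⟨ν0, O0, hO0, hpO0, hν0, hN0⟩ := hN.loc p0
  -- a bump function
  have hbump := (SmoothBumpFunction.nhds_basis_support (I := 𝓘(ℝ, E)) (c := p0)
    (hO0.mem_nhds hpO0)).ex_mem
  obtain ⟨f, hf⟩ := hbump
  have hev : ∀ᶠ q in 𝓝 p0, q ∈ K.V i ∧ q ∈ O0 ∧ f q = 1 ∧ ∀ m, 0 < lam m q := by
    have e1 : ∀ᶠ q in 𝓝 p0, q ∈ K.V i := (K.opn i).mem_nhds hi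
    have e2 : ∀ᶠ q in 𝓝 p0, q ∈ O0 := hO0.mem_nhds hpO0
    have e3 : ∀ᶠ q in 𝓝 p0, f q = 1 := f.eventuallyEq_one
    have e4 : ∀ᶠ q in 𝓝 p0, ∀ m, 0 < lam m q := by
      rw [Filter.eventually_all]
      intro m
      exact (slam m).continuous.continuousAt.eventually (lt_mem_nhds (hsk m))
    exact e1.and (e2.and (e3.and e4))
  obtain ⟨O, hO, hOo, hp0⟩ := eventually_nhds_iff.1 hev
  refine ⟨O, hOo, hp0, lam, fun m q => cvec s m 0 * crdM K b i 0 q + cvec s m 1 * crdM K b i 1 q,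
    fun q => f q • ν0 q, slam, ?_, f.contMDiff.smul hν0, ?_, ?_, ?_, ?_⟩
  · intro m
    exact (contMDiff_const.mul (contMDiff_crdM K b i 0)).add
      (contMDiff_const.mul (contMDiff_crdM K b i 1))
  · intro p n hn
    by_cases hfp : f p = 0
    · simp [hfp]
    · have hpO : p ∈ O0 := hf (subset_tsupport _ hfp)
      have h1 := (hN0 p hpO n).1 hn
      have h2 := hN.unit p n hn
      have h3 : ν0 p = ⟪ν0 p, n⟫ • n := by
        rcases h1 with h1 | h1
        · rw [← h1, h2, one_smul]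
        · have : ν0 p = - n := by rw [h1, neg_neg]
          rw [this, inner_neg_left, h2]
          simp
      rw [inner_smul_left]
      simp only [conj_trivial]
      rw [mul_smul, ← h3]
  · intro q hq
    obtain ⟨-, h2, h3, -⟩ := hO q hq
    simp only [h3, one_smul]
    exact hN.unit q _ ((hN0 q h2 _).2 (Or.inl rfl))
  · intro q hq m
    exact (hO q hq).2.2.2 m
  · intro q hq j l
    obtain ⟨h1, -, -, -⟩ := hO q hq
    have h4 : ∀ m (j : Fin K.n × Fin 2), K.Dv b j (fun q => cvec s m 0 * crdM K b i 0 q +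
        cvec s m 1 * crdM K b i 1 q) q =
        cvec s m 0 * K.Dv b j (crdM K b i 0) q + cvec s m 1 * K.Dv b j (crdM K b i 1) q := by
      intro m j
      exact Dv_lin2 K b (contMDiff_crdM K b i 0) (contMDiff_crdM K b i 1) _ _ j q
    simp only [h4]
    rw [lco_sum, hT.expand K b h1 j l]

/-- **PRIM on `M`** -/
theorem exists_prim [T2Space M] [CompactSpace M] (hT : TenM K b T) {N : M → W → Prop}
    (hN : LineM E N) :
    ∃ (n : ℕ) (a φ : Fin n → M → ℝ) (ν : Fin n → M → W),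
      (∀ m, ContMDiff 𝓘(ℝ, E) 𝓘(ℝ, ℝ) ∞ (a m)) ∧ (∀ m, ContMDiff 𝓘(ℝ, E) 𝓘(ℝ, ℝ) ∞ (φ m)) ∧
      (∀ m, ContMDiff 𝓘(ℝ, E) 𝓘(ℝ, W) ∞ (ν m)) ∧ (∀ m, Sec N (ν m)) ∧
      (∀ m p, a m p ≠ 0 → ∀ᶠ q in 𝓝 p, ⟪ν m q, ν m q⟫ = 1) ∧
      ∀ j k p, T j k p = ∑ m, a m p ^ 2 * (K.Dv b j (φ m) p * K.Dv b k (φ m) p) := by
  classical
  have : FiniteDimensional ℝ E := b.finiteDimensional_of_finite
  choose O hO hpO lam φ ν slam sφ sν secν ν1 lpos hdec using hT.local K b hN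
  have hbump : ∀ p0 : M, ∃ f : SmoothBumpFunction 𝓘(ℝ, E) p0, tsupport f ⊆ O p0 := fun p0 =>
    (SmoothBumpFunction.nhds_basis_support (I := 𝓘(ℝ, E)) (c := p0)
      ((hO p0).mem_nhds (hpO p0))).ex_mem
  choose f hf using hbump
  obtain ⟨t, ht⟩ := CompactSpace.elim_nhds_subcover (fun p : M => Function.support (f p))
    (fun p => (f p).support_mem_nhds)
  let s : M → ℝ := fun q => ∑ p ∈ t, f p q ^ 2
  have hs : ∀ q, 0 < s q := by
    intro q
    have hq : q ∈ ⋃ p ∈ t, Function.support (f p) := by rw [ht]; trivial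
    simp only [mem_iUnion] at hq
    obtain ⟨p, hp, hqp⟩ := hq
    apply Finset.sum_pos' (fun p _ => sq_nonneg _)
    exact ⟨p, hp, lt_of_le_of_ne (sq_nonneg _) (Ne.symm (pow_ne_zero 2 hqp))⟩
  have ss : ContMDiff 𝓘(ℝ, E) 𝓘(ℝ, ℝ) ∞ s :=
    contMDiff_finsetSum fun p _ => (f p).contMDiff.pow 2
  let a : M → Fin 4 → M → ℝ := fun p m q => f p q * (√(lam p m q) * (√(s q))⁻¹)
  have sa : ∀ p m, ContMDiff 𝓘(ℝ, E) 𝓘(ℝ, ℝ) ∞ (a p m) := by
    intro p m
    refine contMDiff_of_tsupport fun q hq => ?_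
    have h1 : q ∈ O p := hf p (tsupport_mul_subset_left hq)
    have h2 : ContMDiffAt 𝓘(ℝ, E) 𝓘(ℝ, ℝ) ∞ (fun q => √(lam p m q)) q :=
      (Real.contDiffAt_sqrt (lpos p q h1 m).ne').contMDiffAt.comp q (slam p m).contMDiffAt
    have h3 : ContMDiffAt 𝓘(ℝ, E) 𝓘(ℝ, ℝ) ∞ (fun q => (√(s q))⁻¹) q := by
      have h4 : ContMDiffAt 𝓘(ℝ, E) 𝓘(ℝ, ℝ) ∞ (fun q => √(s q)) q :=
        (Real.contDiffAt_sqrt (hs q).ne').contMDiffAt.comp q ss.contMDiffAt
      exact (contDiffAt_inv ℝ (Real.sqrt_pos.2 (hs q)).ne').contMDiffAt.comp q h4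
    exact (f p).contMDiff.contMDiffAt.mul (h2.mul h3)
  have hasq : ∀ p m q, f p q ≠ 0 → a p m q ^ 2 = f p q ^ 2 / s q * lam p m q := by
    intro p m q hq
    have h1 : q ∈ O p := hf p (subset_tsupport _ hq)
    show (f p q * (√(lam p m q) * (√(s q))⁻¹)) ^ 2 = _
    rw [mul_pow, mul_pow, inv_pow, Real.sq_sqrt (lpos p q h1 m).le, Real.sq_sqrt (hs q).le]
    field_simp
  let e := Fintype.equivFin (t × Fin 4)
  refine ⟨Fintype.card (t × Fin 4), fun l => a (e.symm l).1 (e.symm l).2,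
    fun l => φ (e.symm l).1 (e.symm l).2, fun l => ν (e.symm l).1, fun l => sa _ _,
    fun l => sφ _ _, fun l => sν _, fun l => secν _, ?_, ?_⟩
  · intro l q hq
    have h1 : f (e.symm l).1 q ≠ 0 := by
      intro h
      apply hq
      show f (e.symm l).1 q * _ = 0
      rw [h, zero_mul]
    have h2 : q ∈ O (e.symm l).1 := hf _ (subset_tsupport _ h1)
    filter_upwards [(hO _).mem_nhds h2] with q' hq'
    exact ν1 _ q' hq'
  · intro j k q
    rw [e.symm.sum_comp (fun x : t × Fin 4 => a x.1 x.2 q ^ 2 *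
      (K.Dv b j (φ x.1 x.2) q * K.Dv b k (φ x.1 x.2) q)), Fintype.sum_prod_type]
    have h1 : ∀ x : t, ∑ m, a x m q ^ 2 * (K.Dv b j (φ x m) q * K.Dv b k (φ x m) q) =
        f (x : M) q ^ 2 / s q * T j k q := by
      intro x
      by_cases hx : f (x : M) q = 0
      · rw [hx]
        simp only [ne_eq, OfNat.ofNat_ne_zero, not_false_eq_true, zero_pow, zero_div, zero_mul]
        apply Finset.sum_eq_zero
        intro m _
        have : a x m q = 0 := by
          show f (x : M) q * _ = 0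
          rw [hx, zero_mul]
        rw [this]
        ring
      · have h2 : q ∈ O x := hf _ (subset_tsupport _ hx)
        rw [hdec x q h2 j k, Finset.mul_sum]
        apply Finset.sum_congr rfl
        intro m _
        rw [hasq x m q hx]
        ring
    simp only [h1]
    rw [← Finset.sum_mul, ← Finset.sum_div]
    have h3 : ∑ x : t, f (x : M) q ^ 2 = s q := Finset.sum_coe_sort t (fun p => f p q ^ 2)
    rw [h3, div_self (hs q).ne', one_mul]

end prim

end Vale.Agent.P205.TW.Data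
end
end

section

/-!
From a pair (immersion into `ℝ⁴`, nowhere zero normal field) to the data `ImmN`, and from an
immersion into `ℝ³` to the same data.
-/

noncomputable section

open scoped Manifold ContDiff Topology
open Set Filter

namespace Vale.Agent.P205.TW

variable {E : Type*} [NormedAddCommGroup E] [NormedSpace ℝ E]
  {M : Type*} [TopologicalSpace M] [ChartedSpace E M]

/-- a nowhere zero normal field can be normalised -/
theorem immN_of_pair (f ξ : M → EuclideanSpace ℝ (Fin 4))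
    (hf : ContMDiff 𝓘(ℝ, E) 𝓘(ℝ, EuclideanSpace ℝ (Fin 4)) ∞ f)
    (hinj : ∀ p, Function.Injective (mfderiv 𝓘(ℝ, E) 𝓘(ℝ, EuclideanSpace ℝ (Fin 4)) f p))
    (hξ : ContMDiff 𝓘(ℝ, E) 𝓘(ℝ, EuclideanSpace ℝ (Fin 4)) ∞ ξ)
    (hperp : ∀ (p : M) (v : TangentSpace 𝓘(ℝ, E) p),
      inner ℝ (ξ p) (mfderiv 𝓘(ℝ, E) 𝓘(ℝ, EuclideanSpace ℝ (Fin 4)) f p v :
        EuclideanSpace ℝ (Fin 4)) = 0)
    (h0 : ∀ p, ξ p ≠ 0) : Nonempty (ImmN E M) := by
  have hn : ContMDiff 𝓘(ℝ, E) 𝓘(ℝ, ℝ) ∞ (fun p => ‖ξ p‖) := by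
    intro p
    have h1 : ContDiffAt ℝ ∞ (fun x : EuclideanSpace ℝ (Fin 4) => ‖x‖) (ξ p) :=
      contDiffAt_norm ℝ (h0 p)
    exact h1.contMDiffAt.comp p (hξ p)
  have hi : ContMDiff 𝓘(ℝ, E) 𝓘(ℝ, ℝ) ∞ (fun p => ‖ξ p‖⁻¹) := by
    intro p
    have h1 : ContDiffAt ℝ ∞ (fun x : ℝ => x⁻¹) ‖ξ p‖ :=
      contDiffAt_inv ℝ (norm_ne_zero_iff.2 (h0 p))
    exact h1.contMDiffAt.comp p (hn p)
  refine ⟨⟨f, fun p => ‖ξ p‖⁻¹ • ξ p, hf, ?_, hinj, ?_, ?_⟩⟩
  · exact hi.smul hξ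
  · intro p
    rw [norm_smul, norm_inv, norm_norm, inv_mul_cancel₀ (norm_ne_zero_iff.2 (h0 p))]
  · intro p v
    exact (real_inner_smul_left (ξ p)
      (mfderiv 𝓘(ℝ, E) 𝓘(ℝ, EuclideanSpace ℝ (Fin 4)) f p v : EuclideanSpace ℝ (Fin 4))
      (‖ξ p‖⁻¹)).trans ((congrArg (fun t => ‖ξ p‖⁻¹ * t) (hperp p v)).trans (mul_zero _))

end Vale.Agent.P205.TW
end
end
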