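import Mathlib
import Vale.Agent.P205.Bdl.B1

set_option linter.all false

section

/-!
Absorption of the slow part of the quadratic term: the iteration in abstract form.
-/

noncomputable section

namespace Vale.Agent.P205.F

universe u

variable {P : Type u} {κ : Type} [Fintype κ] {S : DAlg P κ}

/-! ### tensors -/

/-- the relations between the derivations at `p` -/
def DAlg.Ann (S : DAlg P κ) (p : P) (c : κ → ℂ) : Prop :=
  ∀ u, S.Sm u → ∑ j, c j * S.D j u p = 0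

theorem DAlg.IsT.sub {T T' : κ → κ → P → ℂ} (h : S.IsT T) (h' : S.IsT T') :
    S.IsT (fun j k p => T j k p - T' j k p) := by
  refine ⟨fun j k => ?_, fun p c hc k => ?_⟩
  · funext p
    simp only [h.1 j k, h'.1 j k]
  · simp only [mul_sub, Finset.sum_sub_distrib]
    rw [h.2 p c hc k, h'.2 p c hc k, sub_zero]

/-- the derivatives of the conjugates -/
theorem DAlg.Ann.conj {p : P} {c : κ → ℂ} (hc : S.Ann p c) {u : P → ℂ} (hu : S.Sm u) :
    ∑ j, c j * (starRingEnd ℂ) (S.D j u p) = 0 := by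
  have h := hc _ (S.sm_conj hu)
  rw [← h]
  refine Finset.sum_congr rfl fun j _ => ?_
  rw [S.D_conj j hu]

/-! ### the abstract operator -/

variable {ι : Type u} {Q : Type} [Fintype Q]

/-- abstract form of the map `α ↦ kerB α` -/
structure KOp (S : DAlg P κ) (θ x : ι → ℝ) (R : ι → Q → Set P)
    (K : Q → κ → Fin 4 → (ι → P → ℂ) → ι → P → ℂ) (dΨ : Q → κ → ι → P → ℂ)
    (E : Q → Fin 4 → ι → P → ℂ) : Prop where
  sub : ∀ a j b (α β : ι → P → ℂ), (∀ i, S.Sm (α i)) → (∀ i, S.Sm (β i)) →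
    (∀ i, S.Zs (R i a) (α i)) → (∀ i, S.Zs (R i a) (β i)) → ∀ i p,
    K a j b (fun i => α i - β i) i p = K a j b α i p - K a j b β i p
  ann : ∀ a b (α : ι → P → ℂ), (∀ i, S.Sm (α i)) → (∀ i, S.Zs (R i a) (α i)) → ∀ i p c,
    S.Ann p c → ∑ j, c j * K a j b α i p = 0
  annc : ∀ a b (α : ι → P → ℂ), (∀ i, S.Sm (α i)) → (∀ i, S.Zs (R i a) (α i)) → ∀ i p c,
    S.Ann p c → ∑ j, c j * (starRingEnd ℂ) (K a j b α i p) = 0
  bd : ∀ a j b (s : ι → ℝ) (α : ι → P → ℂ), (∀ i, 0 ≤ s i) → (∀ i, S.Zs (R i a) (α i)) →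
    S.FO θ s α →
    S.FO θ (fun i => s i * x i) (fun i p => K a j b α i p - α i p * dΨ a j i p * E a b i p)
  EE : ∀ a i, ∀ p ∈ R i a, ∑ b, E a b i p * E a b i p = 1
  rE : ∀ a b i, Rl (E a b i)
  rΨ : ∀ a j i, Rl (dΨ a j i)
  fE : ∀ a b, S.FO θ (fun _ => 1) (E a b)
  fΨ : ∀ a j, S.FO θ (fun _ => 1) (dΨ a j)

variable {θ x : ι → ℝ} {R : ι → Q → Set P}
  {K : Q → κ → Fin 4 → (ι → P → ℂ) → ι → P → ℂ} {dΨ : Q → κ → ι → P → ℂ}
  {E : Q → Fin 4 → ι → P → ℂ}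

/-- polarised slow part -/
def Bf (K : Q → κ → Fin 4 → (ι → P → ℂ) → ι → P → ℂ) (α β : Q → ι → P → ℂ) (j k : κ) :
    ι → P → ℂ :=
  fun i p => ∑ a, ∑ b, (K a j b (α a) i p * (starRingEnd ℂ) (K a k b (β a) i p)
    + (starRingEnd ℂ) (K a j b (α a) i p) * K a k b (β a) i p) / 4

theorem Bf_real (α : Q → ι → P → ℂ) (j k : κ) (i : ι) : Rl (Bf K α α j k i) := by
  intro p
  unfold Bf
  rw [Complex.im_sum]
  refine Finset.sum_eq_zero fun a _ => ?_
  rw [Complex.im_sum]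
  refine Finset.sum_eq_zero fun b _ => ?_
  have h : ((K a j b (α a) i p * (starRingEnd ℂ) (K a k b (α a) i p)
    + (starRingEnd ℂ) (K a j b (α a) i p) * K a k b (α a) i p)).im = 0 := by
    simp only [Complex.add_im, Complex.mul_im, Complex.conj_re, Complex.conj_im]
    ring
  rw [Complex.div_im]
  simp only [Complex.re_ofNat, Complex.im_ofNat, h]
  ring

/-- amplitudes -/
structure Amp (S : DAlg P κ) (R : ι → Q → Set P) (α : Q → ι → P → ℂ) : Prop where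
  sm : ∀ a i, S.Sm (α a i)
  rl : ∀ a i, Rl (α a i)
  zs : ∀ a i, S.Zs (R i a) (α a i)

theorem Amp.sub {α β : Q → ι → P → ℂ} (h : Amp S R α) (h' : Amp S R β) :
    Amp S R (fun a i => α a i - β a i) :=
  ⟨fun a i => S.sm_sub (h.sm a i) (h'.sm a i), fun a i => (h.rl a i).sub (h'.rl a i),
    fun a i => DAlg.Zs.sub (h.sm a i) (h'.sm a i) (h.zs a i) (h'.zs a i)⟩

theorem Bf_isT (hK : KOp S θ x R K dΨ E) {α : Q → ι → P → ℂ} (h : Amp S R α) (i : ι) :
    S.IsT (fun j k => Bf K α α j k i) := by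
  refine ⟨fun j k => ?_, fun p c hc k => ?_⟩
  · funext p
    unfold Bf
    refine Finset.sum_congr rfl fun a _ => Finset.sum_congr rfl fun b _ => ?_
    ring
  · unfold Bf
    simp only [Finset.mul_sum]
    rw [Finset.sum_comm]
    refine Finset.sum_eq_zero fun a _ => ?_
    rw [Finset.sum_comm]
    refine Finset.sum_eq_zero fun b _ => ?_
    have h1 := hK.ann a b (α a) (h.sm a) (h.zs a) i p c hc
    have h2 := hK.annc a b (α a) (h.sm a) (h.zs a) i p c hc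
    have e : ∀ j, c j * ((K a j b (α a) i p * (starRingEnd ℂ) (K a k b (α a) i p)
        + (starRingEnd ℂ) (K a j b (α a) i p) * K a k b (α a) i p) / 4)
        = (c j * K a j b (α a) i p) * ((starRingEnd ℂ) (K a k b (α a) i p) / 4)
          + (c j * (starRingEnd ℂ) (K a j b (α a) i p)) * (K a k b (α a) i p / 4) :=
      fun j => by ring
    simp only [e, Finset.sum_add_distrib, ← Finset.sum_mul]
    rw [h1, h2]
    ring

/-- bound of the operator -/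
theorem KOp.fo (hK : KOp S θ x R K dΨ E) (hx0 : ∀ i, 0 ≤ x i) (hx1 : ∀ i, x i ≤ 1)
    (hθ : ∀ i, 0 ≤ θ i) (a : Q) (j : κ) (b : Fin 4) {s : ι → ℝ} {α : ι → P → ℂ}
    (hs : ∀ i, 0 ≤ s i) (hz : ∀ i, S.Zs (R i a) (α i)) (hα : S.FO θ s α) :
    S.FO θ s (K a j b α) := by
  have h1 := (hK.bd a j b s α hs hz hα).mono_s' (s' := s)
    (fun i => mul_le_of_le_one_right (hs i) (hx1 i)) hθ
  have h2 : S.FO θ s (fun i => α i * dΨ a j i * E a b i) :=
    ((hα.mul (hK.fΨ a j)).mul (hK.fE a b)).congr_s fun i => by ring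
  refine (h1.add h2).congr fun i p => ?_
  simp only [Pi.add_apply, Pi.mul_apply]
  ring

/-- bound of the polarised slow part -/
theorem Bf_fo (hK : KOp S θ x R K dΨ E) (hx0 : ∀ i, 0 ≤ x i) (hx1 : ∀ i, x i ≤ 1)
    (hθ : ∀ i, 0 ≤ θ i) {s s' : ι → ℝ} {α β : Q → ι → P → ℂ} (hs : ∀ i, 0 ≤ s i)
    (hs' : ∀ i, 0 ≤ s' i) (hα : Amp S R α) (hβ : Amp S R β) (fα : ∀ a, S.FO θ s (α a))
    (fβ : ∀ a, S.FO θ s' (β a)) (j k : κ) :
    S.FO θ (fun i => s i * s' i) (Bf K α β j k) := by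
  have h : ∀ a b, S.FO θ (fun i => s i * s' i) (fun i p =>
      (1 / 4 : ℂ) * ((K a j b (α a) i p * (starRingEnd ℂ) (K a k b (β a) i p)
    + (starRingEnd ℂ) (K a j b (α a) i p) * K a k b (β a) i p))) := by
    intro a b
    have h1 := hK.fo hx0 hx1 hθ a j b hs (hα.zs a) (fα a)
    have h2 := hK.fo hx0 hx1 hθ a k b hs' (hβ.zs a) (fβ a)
    exact ((h1.mul h2.conj).add (h1.conj.mul h2)).const_mul (1 / 4)
  have h3 := DAlg.FO.sum' (S := S) (A := (Finset.univ : Finset Q))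
    (u := fun a i p => ∑ b ∈ (Finset.univ : Finset (Fin 4)), (1 / 4 : ℂ) *
      ((K a j b (α a) i p * (starRingEnd ℂ) (K a k b (β a) i p)
    + (starRingEnd ℂ) (K a j b (α a) i p) * K a k b (β a) i p)))
    fun a _ => DAlg.FO.sum' (S := S) (A := (Finset.univ : Finset (Fin 4))) fun b _ => h a b
  refine h3.congr fun i p => ?_
  unfold Bf
  refine Finset.sum_congr rfl fun a _ => Finset.sum_congr rfl fun b _ => ?_
  ring

/-- leading part of the polarised slow part -/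
def Lf (dΨ : Q → κ → ι → P → ℂ) (α β : Q → ι → P → ℂ) (j k : κ) : ι → P → ℂ :=
  fun i p => ∑ a, (1 / 2 : ℂ) * (α a i p * β a i p * (dΨ a j i p * dΨ a k i p))

theorem Bf_lead (hK : KOp S θ x R K dΨ E) (hx0 : ∀ i, 0 ≤ x i) (hx1 : ∀ i, x i ≤ 1)
    (hθ : ∀ i, 0 ≤ θ i) {s s' : ι → ℝ} {α β : Q → ι → P → ℂ} (hs : ∀ i, 0 ≤ s i)
    (hs' : ∀ i, 0 ≤ s' i) (hα : Amp S R α) (hβ : Amp S R β) (fα : ∀ a, S.FO θ s (α a))
    (fβ : ∀ a, S.FO θ s' (β a)) (j k : κ) :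
    S.FO θ (fun i => s i * s' i * x i)
      (fun i p => Bf K α β j k i p - Lf dΨ α β j k i p) := by
  -- errors and leading terms
  set lα : Q → κ → Fin 4 → ι → P → ℂ := fun a j b i p => α a i p * dΨ a j i p * E a b i p
    with hlα
  set lβ : Q → κ → Fin 4 → ι → P → ℂ := fun a j b i p => β a i p * dΨ a j i p * E a b i p
    with hlβ
  have h : ∀ a b, S.FO θ (fun i => s i * s' i * x i) (fun i p =>
      (1 / 4 : ℂ) * (((K a j b (α a) i p - lα a j b i p) * (starRingEnd ℂ) (K a k b (β a) i p)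
        + lα a j b i p * (starRingEnd ℂ) (K a k b (β a) i p - lβ a k b i p))
        + ((starRingEnd ℂ) (K a j b (α a) i p - lα a j b i p) * K a k b (β a) i p
        + (starRingEnd ℂ) (lα a j b i p) * (K a k b (β a) i p - lβ a k b i p)))) := by
    intro a b
    have e1 := hK.bd a j b s (α a) hs (hα.zs a) (fα a)
    have e2 := hK.bd a k b s' (β a) hs' (hβ.zs a) (fβ a)
    have h2 := hK.fo hx0 hx1 hθ a k b hs' (hβ.zs a) (fβ a)
    have l1 : S.FO θ s (lα a j b) :=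
      (((fα a).mul (hK.fΨ a j)).mul (hK.fE a b)).congr_s fun i => by ring
    have t1 := (e1.mul h2.conj).congr_s (s' := fun i => s i * s' i * x i) fun i => by ring
    have t2 := (l1.mul e2.conj).congr_s (s' := fun i => s i * s' i * x i) fun i => by ring
    have t3 := (e1.conj.mul h2).congr_s (s' := fun i => s i * s' i * x i) fun i => by ring
    have t4 := (l1.conj.mul e2).congr_s (s' := fun i => s i * s' i * x i) fun i => by ring
    exact ((t1.add t2).add (t3.add t4)).const_mul (1 / 4)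
  have h3 := DAlg.FO.sum' (S := S) (A := (Finset.univ : Finset Q))
    fun a _ => DAlg.FO.sum' (S := S) (A := (Finset.univ : Finset (Fin 4))) fun b _ => h a b
  refine h3.congr fun i p => ?_
  -- pointwise identity
  have key : Lf dΨ α β j k i p = ∑ a, ∑ b, (1 / 4 : ℂ) *
      (lα a j b i p * (starRingEnd ℂ) (lβ a k b i p)
        + (starRingEnd ℂ) (lα a j b i p) * lβ a k b i p) := by
    unfold Lf
    refine Finset.sum_congr rfl fun a _ => ?_
    have c1 : (starRingEnd ℂ) (α a i p) = α a i p := Complex.conj_eq_iff_im.2 (hα.rl a i p)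
    have c2 : (starRingEnd ℂ) (β a i p) = β a i p := Complex.conj_eq_iff_im.2 (hβ.rl a i p)
    have c3 : ∀ j, (starRingEnd ℂ) (dΨ a j i p) = dΨ a j i p := fun j =>
      Complex.conj_eq_iff_im.2 (hK.rΨ a j i p)
    have c4 : ∀ b, (starRingEnd ℂ) (E a b i p) = E a b i p := fun b =>
      Complex.conj_eq_iff_im.2 (hK.rE a b i p)
    by_cases hp : p ∈ R i a
    · have hE := hK.EE a i p hp
      have e : ∀ b, (1 / 4 : ℂ) * (lα a j b i p * (starRingEnd ℂ) (lβ a k b i p)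
          + (starRingEnd ℂ) (lα a j b i p) * lβ a k b i p)
          = (1 / 2 : ℂ) * (α a i p * β a i p * (dΨ a j i p * dΨ a k i p))
            * (E a b i p * E a b i p) := by
        intro b
        simp only [hlα, hlβ, map_mul, c1, c2, c3, c4]
        ring
      simp only [e]
      rw [← Finset.mul_sum, hE, mul_one]
    · have z : α a i p = 0 := (hα.zs a i).apply hp
      simp [hlα, z]
  rw [key]
  unfold Bf
  rw [← Finset.sum_sub_distrib]
  refine Finset.sum_congr rfl fun a _ => ?_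
  rw [← Finset.sum_sub_distrib]
  refine Finset.sum_congr rfl fun b _ => ?_
  simp only [map_sub]
  ring

end Vale.Agent.P205.F
end
end

section

/-!
P205, scheme T1W, block C5: parity of the explicit map and descent along a covering.
-/

noncomputable section

namespace Vale.Agent.P205.TW

open Vale.Agent.P205.F

universe u

variable {P : Type u} {κ : Type} [Fintype κ] {S : DAlg P κ}

theorem D_even {τ : P → P} (hτ : IsInv S τ) {u : P → ℂ} (hu : S.Sm u) (he : Evn τ u) (j : κ) :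
    Evn τ (S.D j u) := fun p => by
  rw [← hτ.D j u hu p]
  congr 1
  funext q
  exact he q

theorem D_odd {τ : P → P} (hτ : IsInv S τ) {u : P → ℂ} (hu : S.Sm u) (he : Odd' τ u) (j : κ) :
    Odd' τ (S.D j u) := fun p => by
  rw [← hτ.D j u hu p]
  have : (fun q => u (τ q)) = -u := funext fun q => he q
  rw [this, S.D_neg_apply j hu]

/-- parities of the data of the formula -/
structure TData.Par (d : TData P κ) (τ : P → P) : Prop where
  X : ∀ a, Evn τ (d.X a)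
  q1 : ∀ a, Evn τ (d.q1 a)
  q2 : ∀ a, Odd' τ (d.q2 a)
  ψ : Odd' τ d.ψ
  t : ∀ j, Evn τ (d.r.t j)
  w : ∀ j, Evn τ (d.r.w j)
  iG : Evn τ d.iG
  σ : Evn τ d.σ
  C : Evn τ d.C
  Sn : Odd' τ d.Sn

/-- the explicit map is even -/
theorem TData.Par.f_even {d : TData P κ} {τ : P → P} (h : d.Par τ) (hτ : IsInv S τ)
    (smX : ∀ a, S.Sm (d.X a)) (smψ : S.Sm d.ψ) (ρ μ : ℝ) (a : Fin 4) :
    Evn τ (d.f S ρ μ a) := by
  intro p
  have hDX : ∀ j a, S.D j (d.X a) (τ p) = S.D j (d.X a) p := fun j a =>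
    D_even hτ (smX a) (h.X a) j p
  have hDψ : ∀ j, S.D j d.ψ (τ p) = - S.D j d.ψ p := fun j => D_odd hτ smψ h.ψ j p
  have hXt : ∀ a, d.Xt S a (τ p) = d.Xt S a p := fun a => by
    simp only [TData.Xt, DAlg.dirv, DAlg.dir, hDX, h.t _ p]
  have hXw : ∀ a, d.Xw S a (τ p) = d.Xw S a p := fun a => by
    simp only [TData.Xw, DAlg.dirv, DAlg.dir, hDX, h.w _ p]
  have hψt : d.ψt S (τ p) = - d.ψt S p := by
    simp only [TData.ψt, DAlg.dir, hDψ, h.t _ p, mul_neg, Finset.sum_neg_distrib]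
  have hψw : d.ψw S (τ p) = - d.ψw S p := by
    simp only [TData.ψw, DAlg.dir, hDψ, h.w _ p, mul_neg, Finset.sum_neg_distrib]
  have hEtt : d.Ett S (τ p) = d.Ett S p := by simp only [TData.Ett, dot, hXt]
  have hEtw : d.Etw S (τ p) = d.Etw S p := by simp only [TData.Etw, dot, hXt, hXw]
  have hEww : d.Eww S (τ p) = d.Eww S p := by simp only [TData.Eww, dot, hXw]
  have hdX : d.dX S (τ p) = d.dX S p := by simp only [TData.dX, hEtt, hEtw, hEww]
  have hGtw : d.Gtw S ρ (τ p) = d.Gtw S ρ p := by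
    simp only [TData.Gtw, hEtw, hψt, hψw, neg_mul_neg]
  have hbt : d.bt S ρ (τ p) = d.bt S ρ p := by simp only [TData.bt, hGtw, h.iG p]
  have ha2 : d.a2 S ρ (τ p) = d.a2 S ρ p := by simp only [TData.a2, hbt]
  have ha3 : d.a3 S ρ (τ p) = - d.a3 S ρ p := by simp only [TData.a3, hbt, hψt, hψw]; ring
  have hb1 : d.b1 S ρ (τ p) = - d.b1 S ρ p := by
    simp only [TData.b1, hψt, hψw, h.σ p, hEtw, hEww]; ring
  have hb2 : d.b2 S ρ (τ p) = - d.b2 S ρ p := by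
    simp only [TData.b2, hψt, hψw, h.σ p, hEtw, hEtt]; ring
  have hb3 : d.b3 S (τ p) = d.b3 S p := by simp only [TData.b3, h.σ p, hdX]
  have hc1 : d.c1 S ρ (τ p) = d.c1 S ρ p := by
    simp only [TData.c1, h.C p, h.Sn p, hb1, neg_mul_neg]
  have hc2 : d.c2 S ρ (τ p) = d.c2 S ρ p := by
    simp only [TData.c2, h.C p, h.Sn p, hb2, ha2, neg_mul_neg]
  have hΓ : d.Γz S ρ (τ p) = - d.Γz S ρ p := by
    simp only [TData.Γz, h.C p, h.Sn p, ha3, hb3]; ring
  have hΦ : d.Φ S ρ μ (τ p) = - d.Φ S ρ μ p := by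
    simp only [TData.Φ, hΓ, h.ψ p]; ring
  have hco : co (d.Φ S ρ μ) (τ p) = co (d.Φ S ρ μ) p := by
    simp only [co, hΦ, Complex.neg_re, Real.cos_neg]
  have hsi : si (d.Φ S ρ μ) (τ p) = - si (d.Φ S ρ μ) p := by
    simp only [si, hΦ, Complex.neg_re, Real.sin_neg, Complex.ofReal_neg]
  have hE : ∀ a, d.E S ρ μ a (τ p) = d.E S ρ μ a p := fun a => by
    simp only [TData.E, hco, hsi, h.q1 a p, h.q2 a p, neg_mul_neg]
  simp only [TData.f, h.X a p, hc1, hc2, hXt, hXw, hE]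

/-- `π : P' → P` is compatible with the two differential function spaces -/
structure IsCov {P' : Type*} (S' : DAlg P' κ) (S : DAlg P κ) (π : P' → P) : Prop where
  surj : Function.Surjective π
  sm : ∀ u, S'.Sm (fun x => u (π x)) → S.Sm u
  D : ∀ j u, S'.D j (fun x => u (π x)) = fun x => S.D j u (π x)

section cov

variable {P' : Type*} {S' : DAlg P' κ} {π : P' → P} (h : IsCov S' S π)
include h

theorem IsCov.wd (w : List κ) (u : P → ℂ) :
    S'.wd w (fun x => u (π x)) = fun x => S.wd w u (π x) := by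
  induction w with
  | nil => rfl
  | cons j w ih => rw [DAlg.wd_cons, ih, h.D, DAlg.wd_cons]

theorem IsCov.fo {ι : Type*} {μ s : ι → ℝ} {u : ι → P → ℂ}
    (hu : S'.FO μ s (fun i x => u i (π x))) : S.FO μ s u := by
  refine ⟨fun i => h.sm _ (hu.1 i), fun k => ?_⟩
  obtain ⟨C, hC, h1⟩ := hu.2 k
  refine ⟨C, hC, fun i w hw p => ?_⟩
  obtain ⟨x, rfl⟩ := h.surj p
  have h2 := h1 i w hw x
  rw [h.wd] at h2
  exact h2

theorem IsCov.rl {u : P → ℂ} (hu : Rl (fun x => u (π x))) : Rl u := fun p => by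
  obtain ⟨x, rfl⟩ := h.surj p
  exact hu x

theorem IsCov.Dv (j : κ) (f : Fin 4 → P → ℂ) :
    S'.Dv j (fun a x => f a (π x)) = fun a x => S.Dv j f a (π x) := by
  funext a
  exact h.D j (f a)

theorem IsCov.met (f : Fin 4 → P → ℂ) (j k : κ) (x : P') :
    S'.met (fun a x => f a (π x)) j k x = S.met f j k (π x) := by
  simp only [DAlg.met, h.Dv, dot]

theorem IsCov.gram (f : Fin 4 → P → ℂ) (a b j l : κ) (x : P') :
    gram3 (S'.Dv a (fun a x => f a (π x))) (S'.Dv b (fun a x => f a (π x)))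
      (S'.Dv j (S'.Dv l (fun a x => f a (π x)))) x =
    gram3 (S.Dv a f) (S.Dv b f) (S.Dv j (S.Dv l f)) (π x) := by
  have e : S'.Dv j (S'.Dv l (fun a x => f a (π x))) = fun a x => S.Dv j (S.Dv l f) a (π x) := by
    rw [h.Dv, h.Dv]
  rw [e, h.Dv, h.Dv]
  simp only [gram3, dot]

end cov

end Vale.Agent.P205.TW
end
end

section

/-!
P205, scheme T1W: pointwise tensor algebra (block C5, part Tens).
-/

noncomputable section

namespace Vale.Agent.P205.TW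

open Vale.Agent.P205.F

universe u

variable {P : Type u} {κ : Type} [Fintype κ] (S : DAlg P κ)

/-- the (real) bilinear form of a tensor at `p` -/
def rt (T : κ → κ → P → ℂ) (p : P) (c c' : κ → ℝ) : ℝ :=
  ∑ j, ∑ k, c j * c' k * (T j k p).re

/-- the (real) quadratic form of a tensor at `p` -/
def qf (T : κ → κ → P → ℂ) (p : P) (ξ : κ → ℝ) : ℝ := rt T p ξ ξ

/-- `D j = A j t + B j w` at `p` -/
def Bas (p : P) (t w A B : κ → ℝ) : Prop := ∀ u, S.Sm u → ∀ j,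
  S.D j u p = (A j : ℂ) * ∑ l, (t l : ℂ) * S.D l u p + (B j : ℂ) * ∑ l, (w l : ℂ) * S.D l u p

variable {S}

theorem rt_add (T : κ → κ → P → ℂ) (p : P) (c c' d : κ → ℝ) :
    rt T p (fun j => c j + c' j) d = rt T p c d + rt T p c' d := by
  simp only [rt, ← Finset.sum_add_distrib]
  exact Finset.sum_congr rfl fun j _ => Finset.sum_congr rfl fun k _ => by ring

theorem rt_smul (T : κ → κ → P → ℂ) (p : P) (x : ℝ) (c d : κ → ℝ) :
    rt T p (fun j => x * c j) d = x * rt T p c d := by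
  simp only [rt, Finset.mul_sum]
  exact Finset.sum_congr rfl fun j _ => Finset.sum_congr rfl fun k _ => by ring

theorem qfm_eq (T : κ → κ → P → ℂ) (p : P) (ξ : κ → ℝ) : qfm T p ξ = qf T p ξ := by
  simp only [qfm, qf, rt]
  exact Finset.sum_congr rfl fun j _ => Finset.sum_congr rfl fun k _ => by ring

theorem rt_symm {T : κ → κ → P → ℂ} (hT : ∀ j k, T j k = T k j) (p : P) (c d : κ → ℝ) :
    rt T p c d = rt T p d c := by
  simp only [rt]
  rw [Finset.sum_comm]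
  exact Finset.sum_congr rfl fun j _ => Finset.sum_congr rfl fun k _ => by rw [hT j k]; ring

/-- a linear relation kills the tensor -/
theorem IsT.re_zero {T : κ → κ → P → ℂ} (hT : S.IsT T) {p : P} {c : κ → ℝ}
    (h : ∀ u, S.Sm u → ∑ j, (c j : ℂ) * S.D j u p = 0) (k : κ) :
    ∑ j, c j * (T j k p).re = 0 := by
  have h1 := hT.2 p (fun j => (c j : ℂ)) h k
  have h2 := congrArg Complex.re h1
  simpa [Complex.re_sum] using h2

variable [DecidableEq κ]

theorem Bas.row {T : κ → κ → P → ℂ} (hT : S.IsT T) {p : P} {t w A B : κ → ℝ}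
    (hb : Bas S p t w A B) (j k : κ) :
    (T j k p).re = A j * ∑ l, t l * (T l k p).re + B j * ∑ l, w l * (T l k p).re := by
  have h := IsT.re_zero hT (p := p) (c := fun l => (if l = j then 1 else 0) - A j * t l - B j * w l)
    (fun u hu => by
      have h1 := hb u hu j
      have : ∑ l, (((if l = j then (1 : ℝ) else 0) - A j * t l - B j * w l : ℝ) : ℂ) * S.D l u p
          = S.D j u p - (A j : ℂ) * ∑ l, (t l : ℂ) * S.D l u p
            - (B j : ℂ) * ∑ l, (w l : ℂ) * S.D l u p := by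
        rw [Finset.mul_sum, Finset.mul_sum]
        have h2 : S.D j u p = ∑ l, (if l = j then (1 : ℂ) else 0) * S.D l u p := by
          simp
        rw [h2, ← Finset.sum_sub_distrib, ← Finset.sum_sub_distrib]
        refine Finset.sum_congr rfl fun l _ => ?_
        push_cast
        split_ifs <;> simp <;> ring
      rw [this, h1]; ring) k
  have h3 : ∑ l, ((if l = j then (1 : ℝ) else 0) - A j * t l - B j * w l) * (T l k p).re
      = (T j k p).re - A j * ∑ l, t l * (T l k p).re - B j * ∑ l, w l * (T l k p).re := by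
    rw [Finset.mul_sum, Finset.mul_sum]
    have h2 : (T j k p).re = ∑ l, (if l = j then (1 : ℝ) else 0) * (T l k p).re := by simp
    rw [h2, ← Finset.sum_sub_distrib, ← Finset.sum_sub_distrib]
    exact Finset.sum_congr rfl fun l _ => by ring
  linarith

theorem Bas.rt_left {T : κ → κ → P → ℂ} (hT : S.IsT T) {p : P} {t w A B : κ → ℝ}
    (hb : Bas S p t w A B) (c d : κ → ℝ) :
    rt T p c d = (∑ j, A j * c j) * rt T p t d + (∑ j, B j * c j) * rt T p w d := by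
  simp only [rt]
  have : ∀ j k, c j * d k * (T j k p).re =
      (A j * c j) * (∑ l, t l * d k * (T l k p).re)
      + (B j * c j) * (∑ l, w l * d k * (T l k p).re) := by
    intro j k
    rw [hb.row hT j k]
    have e1 : ∑ l, t l * d k * (T l k p).re = d k * ∑ l, t l * (T l k p).re := by
      rw [Finset.mul_sum]; exact Finset.sum_congr rfl fun _ _ => by ring
    have e2 : ∑ l, w l * d k * (T l k p).re = d k * ∑ l, w l * (T l k p).re := by
      rw [Finset.mul_sum]; exact Finset.sum_congr rfl fun _ _ => by ring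
    rw [e1, e2]; ring
  rw [Finset.sum_congr rfl fun j _ => Finset.sum_congr rfl fun k _ => this j k]
  simp only [Finset.sum_add_distrib, ← Finset.mul_sum]
  rw [← Finset.sum_mul, ← Finset.sum_mul]
  congr 2
  · rw [Finset.sum_comm]
  · rw [Finset.sum_comm]

theorem Bas.qf {T : κ → κ → P → ℂ} (hT : S.IsT T) {p : P} {t w A B : κ → ℝ}
    (hb : Bas S p t w A B) (ξ : κ → ℝ) :
    TW.qf T p ξ = (∑ j, A j * ξ j) ^ 2 * rt T p t t
      + 2 * (∑ j, A j * ξ j) * (∑ j, B j * ξ j) * rt T p t w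
      + (∑ j, B j * ξ j) ^ 2 * rt T p w w := by
  have hs := hT.1
  rw [TW.qf, hb.rt_left hT ξ ξ, rt_symm hs p t ξ, rt_symm hs p w ξ, hb.rt_left hT ξ t,
    hb.rt_left hT ξ w, rt_symm hs p w t]
  ring

/-- entries from the form -/
theorem rt_single (T : κ → κ → P → ℂ) (p : P) (j k : κ) :
    rt T p (Pi.single j 1) (Pi.single k 1) = (T j k p).re := by
  simp [rt, Pi.single_apply, Finset.sum_ite_eq']

theorem Pl.bas {g : κ → κ → P → ℂ} {c : ℝ} (h : Pl S g c) (p : P) :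
    ∃ (a b : κ) (α β : κ → ℝ), c ≤ (g a a p).re * (g b b p).re - (g a b p).re ^ 2 ∧
      (∀ j, |α j| ≤ 1 / c ∧ |β j| ≤ 1 / c) ∧
      Bas S p (Pi.single a 1) (Pi.single b 1) α β := by
  obtain ⟨a, b, α, β, h1, h2, h2', h3⟩ := h p
  refine ⟨a, b, α, β, h1, fun j => ⟨h2 j, h2' j⟩, fun u hu j => ?_⟩
  have e : ∀ x : κ, ∑ l, ((Pi.single x (1 : ℝ) : κ → ℝ) l : ℂ) * S.D l u p = S.D x u p := by
    intro x
    rw [Finset.sum_eq_single x]
    · simp
    · intro l _ hl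
      simp [Pi.single_eq_of_ne hl]
    · simp
  rw [h3 j u hu, e, e]

/-! ### two dimensional forms -/

/-- a positive form is at least `det / trace` -/
theorem form_lower {E F G c Bd A B : ℝ} (hE : 0 ≤ E) (hG : 0 ≤ G) (hc : 0 < c)
    (hd : c ≤ E * G - F ^ 2) (hEB : E ≤ Bd) (hGB : G ≤ Bd) :
    c / (2 * Bd) * (A ^ 2 + B ^ 2) ≤ A ^ 2 * E + 2 * A * B * F + B ^ 2 * G := by
  have hEG : 0 < E * G := by linarith only [sq_nonneg F, hd, hc]
  have hE0 : 0 < E := by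
    rcases hE.lt_or_eq with h | h
    · exact h
    · rw [← h] at hEG; simp at hEG
  have hBd : 0 < Bd := hE0.trans_le hEB
  have h1 : (E + G) * (A ^ 2 * E + 2 * A * B * F + B ^ 2 * G) =
      (E * A + F * B) ^ 2 + (F * A + G * B) ^ 2 + (E * G - F ^ 2) * (A ^ 2 + B ^ 2) := by ring
  have h2 : c * (A ^ 2 + B ^ 2) ≤ (E + G) * (A ^ 2 * E + 2 * A * B * F + B ^ 2 * G) := by
    rw [h1]
    have := mul_le_mul_of_nonneg_right hd (by positivity : 0 ≤ A ^ 2 + B ^ 2)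
    linarith only [sq_nonneg (F * A + G * B), sq_nonneg (E * A + F * B), this]
  have h3 : 0 ≤ A ^ 2 * E + 2 * A * B * F + B ^ 2 * G := by
    have h4 : 0 ≤ (E + G) * (A ^ 2 * E + 2 * A * B * F + B ^ 2 * G) :=
      le_trans (by positivity) h2
    exact nonneg_of_mul_nonneg_right h4 (by linarith)
  have h4 : (E + G) * (A ^ 2 * E + 2 * A * B * F + B ^ 2 * G) ≤
      (2 * Bd) * (A ^ 2 * E + 2 * A * B * F + B ^ 2 * G) :=
    mul_le_mul_of_nonneg_right (by linarith) h3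
  rw [div_mul_eq_mul_div, div_le_iff₀ (by positivity)]
  linarith

/-- monotonicity of the determinant -/
theorem det_mono {m e f g E F G : ℝ} (hm : 0 ≤ m) (he : 0 ≤ e) (hg : 0 ≤ g)
    (hd : 0 ≤ e * g - f ^ 2)
    (h : ∀ A B : ℝ, m * (A ^ 2 * e + 2 * A * B * f + B ^ 2 * g) ≤
      A ^ 2 * E + 2 * A * B * F + B ^ 2 * G) :
    m ^ 2 * (e * g - f ^ 2) ≤ E * G - F ^ 2 := by
  have hp : 0 ≤ E - m * e := by have := h 1 0; simp at this; linarith
  have hs : 0 ≤ G - m * g := by have := h 0 1; simp at this; linarith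
  have hq : (F - m * f) ^ 2 ≤ (E - m * e) * (G - m * g) := by
    have h1 : ∀ x : ℝ, 0 ≤ (E - m * e) * (x * x) + (2 * (F - m * f)) * x + (G - m * g) := by
      intro x
      have := h x 1
      linarith only [this]
    have := discrim_le_zero h1
    unfold discrim at this
    linarith only [this]
  have hx : 2 * (F - m * f) * (m * f) ≤ (E - m * e) * (m * g) + (G - m * g) * (m * e) := by
    set a := E - m * e
    set b := F - m * f
    set c := G - m * g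
    have h1 : (b * f) ^ 2 ≤ (a * g + c * e) ^ 2 / 4 := by
      have h2 : (b * f) ^ 2 ≤ (a * c) * (e * g) := by
        rw [mul_pow]
        exact mul_le_mul hq (by linarith) (sq_nonneg _) (mul_nonneg hp hs)
      linarith only [sq_nonneg (a * g - c * e), h2]
    have h3 : 2 * (b * f) ≤ a * g + c * e := by
      have h4 : 0 ≤ a * g + c * e := by positivity
      have h5 : (2 * (b * f)) ^ 2 ≤ (a * g + c * e) ^ 2 := by linarith only [h1]
      exact le_trans (le_abs_self _) (abs_le_of_sq_le_sq h5 h4)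
    linarith only [mul_le_mul_of_nonneg_left h3 hm]
  linarith only [hx, hq]

/-- **(T1)** small tensors are small compared with `g` -/
theorem Pl.abs_qf_le {g T : κ → κ → P → ℂ} {c Bd η : ℝ} (hg : S.IsT g) (hT : S.IsT T)
    (hp : Pl S g c) (hc : 0 < c) (hpos : ∀ j p, 0 ≤ (g j j p).re)
    (hBd : ∀ j p, (g j j p).re ≤ Bd) (p : P) (hη : ∀ j k, |(T j k p).re| ≤ η) (ξ : κ → ℝ) :
    |qf T p ξ| ≤ 4 * Bd / c * η * qf g p ξ := by
  obtain ⟨a, b, α, β, h1, -, h3⟩ := hp.bas p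
  rw [h3.qf hT ξ, h3.qf hg ξ]
  simp only [rt_single]
  set A := ∑ j, α j * ξ j
  set B := ∑ j, β j * ξ j
  have hl := form_lower (A := A) (B := B) (hpos a p) (hpos b p) hc h1 (hBd a p) (hBd b p)
  have hη0 : 0 ≤ η := (abs_nonneg _).trans (hη a a)
  have hE0 : 0 < (g a a p).re * (g b b p).re := by linarith only [sq_nonneg (g a b p).re, h1, hc]
  have hBd0 : 0 < Bd := by
    rcases (hpos a p).lt_or_eq with h | h
    · exact h.trans_le (hBd a p)
    · rw [← h] at hE0; simp at hE0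
  have hup : |A ^ 2 * (T a a p).re + 2 * A * B * (T a b p).re + B ^ 2 * (T b b p).re|
      ≤ 2 * η * (A ^ 2 + B ^ 2) := by
    have e1 : |A ^ 2 * (T a a p).re| ≤ A ^ 2 * η := by
      rw [abs_mul, abs_of_nonneg (sq_nonneg A)]
      exact mul_le_mul_of_nonneg_left (hη a a) (sq_nonneg A)
    have e2 : |B ^ 2 * (T b b p).re| ≤ B ^ 2 * η := by
      rw [abs_mul, abs_of_nonneg (sq_nonneg B)]
      exact mul_le_mul_of_nonneg_left (hη b b) (sq_nonneg B)
    have e3 : |2 * A * B * (T a b p).re| ≤ (A ^ 2 + B ^ 2) * η := by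
      rw [abs_mul]
      refine mul_le_mul ?_ (hη a b) (abs_nonneg _) (by positivity)
      rw [abs_le]
      constructor <;> nlinarith [sq_nonneg (A + B), sq_nonneg (A - B)]
    calc _ ≤ |A ^ 2 * (T a a p).re| + |2 * A * B * (T a b p).re| + |B ^ 2 * (T b b p).re| :=
          abs_add_three _ _ _
      _ ≤ _ := by linarith
  refine hup.trans ?_
  have h5 : 4 * Bd / c * η * (c / (2 * Bd) * (A ^ 2 + B ^ 2)) = 2 * η * (A ^ 2 + B ^ 2) := by
    field_simp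
    ring
  rw [← h5]
  exact mul_le_mul_of_nonneg_left hl (by positivity)

/-! ### symmetric tensors -/

omit [DecidableEq κ] in
theorem isT_sub {T T' : κ → κ → P → ℂ} (h : S.IsT T) (h' : S.IsT T') :
    S.IsT (fun j k p => T j k p - T' j k p) := by
  refine ⟨fun j k => ?_, fun p c hc k => ?_⟩
  · funext p
    simp only [h.1 j k, h'.1 j k]
  · simp only [mul_sub, Finset.sum_sub_distrib]
    rw [h.2 p c hc k, h'.2 p c hc k, sub_zero]

omit [DecidableEq κ] in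
theorem isT_smul {T : κ → κ → P → ℂ} (a : P → ℂ) (h : S.IsT T) :
    S.IsT (fun j k p => a p * T j k p) := by
  refine ⟨fun j k => ?_, fun p c hc k => ?_⟩
  · funext p
    simp only [h.1 j k]
  · have : ∑ j, c j * (a p * T j k p) = a p * ∑ j, c j * T j k p := by
      rw [Finset.mul_sum]; exact Finset.sum_congr rfl fun _ _ => by ring
    rw [this, h.2 p c hc k, mul_zero]

omit [DecidableEq κ] in
theorem isT_dd {φ : P → ℂ} (h : S.Sm φ) : S.IsT (fun j k p => S.D j φ p * S.D k φ p) := by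
  refine ⟨fun j k => ?_, fun p c hc k => ?_⟩
  · funext p; ring
  · have : ∑ j, c j * (S.D j φ p * S.D k φ p) = S.D k φ p * ∑ j, c j * S.D j φ p := by
      rw [Finset.mul_sum]; exact Finset.sum_congr rfl fun _ _ => by ring
    rw [this, hc φ h, mul_zero]

omit [DecidableEq κ] in
theorem isT_met {X : Fin 4 → P → ℂ} (h : ∀ a, S.Sm (X a)) : S.IsT (S.met X) := by
  refine ⟨fun j k => ?_, fun p c hc k => ?_⟩
  · funext p
    simp only [DAlg.met, dot]
    exact Finset.sum_congr rfl fun _ _ => by ring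
  · have : ∑ j, c j * S.met X j k p = ∑ a, S.Dv k X a p * ∑ j, c j * S.D j (X a) p := by
      simp only [DAlg.met, dot, Finset.mul_sum]
      rw [Finset.sum_comm]
      refine Finset.sum_congr rfl fun a _ => Finset.sum_congr rfl fun j _ => ?_
      simp only [DAlg.Dv]
      ring
    rw [this]
    exact Finset.sum_eq_zero fun a _ => by rw [hc _ (h a), mul_zero]

end Vale.Agent.P205.TW
end
end

section

/-!
P205, scheme T1W: the slow metric (block C5, part Slow).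

`gS δ = (1 - δ) (g - (1 - V²) M_g dr²) - ρ² dψ²`, `M_g = g_tt - g_tw² / g_ww`, `V = 1 - k²`.
-/

noncomputable section

namespace Vale.Agent.P205.TW

open Vale.Agent.P205.F

universe u

variable {P : Type u} {κ : Type} [Fintype κ]

/-- complex bilinear form -/
def gv (T : κ → κ → P → ℂ) (c d : κ → P → ℂ) : P → ℂ := fun p =>
  ∑ j, ∑ k, c j p * d k p * T j k p

/-- real part of a coefficient vector -/
def rv (c : κ → P → ℂ) (p : P) : κ → ℝ := fun j => (c j p).re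

theorem gv_eq {T : κ → κ → P → ℂ} (hT : ∀ j k, Rl (T j k)) {c d : κ → P → ℂ}
    (hc : ∀ j, Rl (c j)) (hd : ∀ j, Rl (d j)) (p : P) :
    gv T c d p = ((rt T p (rv c p) (rv d p) : ℝ) : ℂ) := by
  simp only [gv, rt, rv]
  push_cast
  refine Finset.sum_congr rfl fun j _ => Finset.sum_congr rfl fun k _ => ?_
  rw [Rl.ofReal_re (hc j), Rl.ofReal_re (hd k), Rl.ofReal_re (hT j k)]

theorem dot_dirv (S : DAlg P κ) (X : Fin 4 → P → ℂ) (c d : κ → P → ℂ) (p : P) :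
    dot (S.dirv c X) (S.dirv d X) p = gv (S.met X) c d p := by
  have h : ∀ a : Fin 4, S.dirv c X a p * S.dirv d X a p =
      ∑ j, ∑ k, c j p * d k p * (S.D j (X a) p * S.D k (X a) p) := by
    intro a
    simp only [DAlg.dirv, DAlg.dir, Finset.sum_mul_sum]
    exact Finset.sum_congr rfl fun j _ => Finset.sum_congr rfl fun k _ => by ring
  simp only [dot, gv, h]
  rw [Finset.sum_comm]
  refine Finset.sum_congr rfl fun j _ => ?_
  rw [Finset.sum_comm]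
  refine Finset.sum_congr rfl fun k _ => ?_
  simp only [DAlg.met, dot, DAlg.Dv, Finset.mul_sum]

theorem gv_dd (S : DAlg P κ) (φ : P → ℂ) (c d : κ → P → ℂ) (p : P) :
    gv (fun j k p => S.D j φ p * S.D k φ p) c d p = S.dir c φ p * S.dir d φ p := by
  simp only [gv, DAlg.dir, Finset.sum_mul_sum]
  exact Finset.sum_congr rfl fun j _ => Finset.sum_congr rfl fun k _ => by ring

theorem gv_add (T T' : κ → κ → P → ℂ) (c d : κ → P → ℂ) (p : P) :
    gv (fun j k p => T j k p + T' j k p) c d p = gv T c d p + gv T' c d p := by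
  simp only [gv, mul_add, Finset.sum_add_distrib]

theorem gv_sub (T T' : κ → κ → P → ℂ) (c d : κ → P → ℂ) (p : P) :
    gv (fun j k p => T j k p - T' j k p) c d p = gv T c d p - gv T' c d p := by
  simp only [gv, mul_sub, Finset.sum_sub_distrib]

theorem gv_smul (a : P → ℂ) (T : κ → κ → P → ℂ) (c d : κ → P → ℂ) (p : P) :
    gv (fun j k p => a p * T j k p) c d p = a p * gv T c d p := by
  simp only [gv, Finset.mul_sum]
  exact Finset.sum_congr rfl fun j _ => Finset.sum_congr rfl fun k _ => by ring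

theorem gv_norm_le {T : κ → κ → P → ℂ} {c d : κ → P → ℂ} {p : P} {B η : ℝ}
    (hB : 0 ≤ B) (hη : 0 ≤ η)
    (hc : ∀ j, ‖c j p‖ ≤ B) (hd : ∀ j, ‖d j p‖ ≤ B) (hT : ∀ j k, ‖T j k p‖ ≤ η) :
    ‖gv T c d p‖ ≤ (Fintype.card κ : ℝ) ^ 2 * B ^ 2 * η := by
  simp only [gv]
  calc ‖∑ j, ∑ k, c j p * d k p * T j k p‖
      ≤ ∑ j, ∑ k, ‖c j p * d k p * T j k p‖ :=
        (norm_sum_le _ _).trans (Finset.sum_le_sum fun j _ => norm_sum_le _ _)
    _ ≤ ∑ _j : κ, ∑ _k : κ, B * B * η := by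
        refine Finset.sum_le_sum fun j _ => Finset.sum_le_sum fun k _ => ?_
        rw [norm_mul, norm_mul]
        exact mul_le_mul (mul_le_mul (hc j) (hd k) (norm_nonneg _) hB) (hT j k) (norm_nonneg _)
          (mul_nonneg hB hB)
    _ = _ := by
        simp only [Finset.sum_const, Finset.card_univ, nsmul_eq_mul]
        ring

/-- data for the slow metric -/
structure SlowD (S : DAlg P κ) (g : κ → κ → P → ℂ) where
  /-- short map -/
  X0 : Fin 4 → P → ℂ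
  /-- phase -/
  ψ : P → ℂ
  /-- radius -/
  r : Ray P κ
  /-- `1 - k²` -/
  V : P → ℂ
  /-- `1 / g_ww` on `K` -/
  ig : P → ℂ
  /-- helix radius -/
  ρ : ℝ
  /-- constant -/
  c : ℝ
  cpos : 0 < c
  ray : r.Ok S
  gT : S.IsT g
  smg : ∀ j k, S.Sm (g j k)
  rg : ∀ j k, Rl (g j k)
  gpos : ∀ j p, 0 ≤ (g j j p).re
  pl : Pl S g c
  smV : S.Sm V
  rV : Rl V
  V0 : ∀ p, 0 ≤ (V p).re
  V1 : ∀ p, (V p).re ≤ 1
  V2 : ∀ p, 7 / 8 ≤ (V p).re ^ 2
  VK : ∀ p, p ∉ r.K → V p = 1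
  smig : S.Sm ig
  rig : Rl ig
  igg : ∀ p ∈ r.K, ig p * gv g r.w r.w p = 1
  gww : ∀ p ∈ r.K, c ≤ (gv g r.w r.w p).re
  smψ : S.Sm ψ
  rψ : Rl ψ
  ψs : ∀ p ξ, ρ ^ 2 * (∑ j, (S.D j ψ p).re * ξ j) ^ 2 ≤ 1 / 4 * qf g p ξ
  smX : ∀ a, S.Sm (X0 a)
  rX : ∀ a, Rl (X0 a)
  X0s : ∀ p ξ, qf (S.met X0) p ξ ≤ 1 / 8 * qf g p ξ

namespace SlowD

variable {S : DAlg P κ} {g : κ → κ → P → ℂ} (D : SlowD S g) (δ : ℝ)

/-- `g_tt - g_tw² / g_ww` -/
def Mg : P → ℂ := fun p => gv g D.r.t D.r.t p - gv g D.r.t D.r.w p * gv g D.r.t D.r.w p * D.ig p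

/-- the metric `G' = gS + ρ² dψ²` -/
def Gp (j k : κ) : P → ℂ := fun p =>
  (1 - δ) * (g j k p - (1 - D.V p ^ 2) * D.Mg p * (S.D j D.r.Ψ p * S.D k D.r.Ψ p))

/-- **the slow metric** -/
def gS (j k : κ) : P → ℂ := fun p =>
  D.Gp δ j k p - (D.ρ : ℂ) ^ 2 * (S.D j D.ψ p * S.D k D.ψ p)

theorem sm_gv {T : κ → κ → P → ℂ} (hT : ∀ j k, S.Sm (T j k)) {c d : κ → P → ℂ}
    (hc : ∀ j, S.Sm (c j)) (hd : ∀ j, S.Sm (d j)) : S.Sm (gv T c d) :=
  S.sm_sum' fun j _ => S.sm_sum' fun k _ => S.sm_mul (S.sm_mul (hc j) (hd k)) (hT j k)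

theorem rl_gv {T : κ → κ → P → ℂ} (hT : ∀ j k, Rl (T j k)) {c d : κ → P → ℂ}
    (hc : ∀ j, Rl (c j)) (hd : ∀ j, Rl (d j)) : Rl (gv T c d) := by
  intro p
  rw [gv_eq hT hc hd]
  exact Complex.ofReal_im _

theorem smMg : S.Sm D.Mg :=
  S.sm_sub (sm_gv D.smg D.ray.smt D.ray.smt)
    (S.sm_mul (S.sm_mul (sm_gv D.smg D.ray.smt D.ray.smw) (sm_gv D.smg D.ray.smt D.ray.smw))
      D.smig)

theorem rlMg : Rl D.Mg :=
  Rl.sub (rl_gv D.rg D.ray.rt D.ray.rt)
    (Rl.mul (Rl.mul (rl_gv D.rg D.ray.rt D.ray.rw') (rl_gv D.rg D.ray.rt D.ray.rw')) D.rig)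

theorem rlD {u : P → ℂ} (hu : S.Sm u) (hr : Rl u) (j : κ) : Rl (S.D j u) := by
  intro p
  have h := congrFun (S.D_conj j hu) p
  have e : (fun p => (starRingEnd ℂ) (u p)) = u := by
    funext q
    exact Complex.conj_eq_iff_im.2 (hr q)
  rw [e] at h
  exact Complex.conj_eq_iff_im.1 h.symm

theorem sm_1V : S.Sm (fun p => 1 - D.V p ^ 2) := by
  have h := S.sm_sub (S.sm_const 1) (S.sm_mul D.smV D.smV)
  have e : ((fun _ => (1 : ℂ)) - D.V * D.V) = fun p => 1 - D.V p ^ 2 := by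
    funext p; simp [sq]
  rwa [e] at h

theorem rl_1V : Rl (fun p => 1 - D.V p ^ 2) := by
  intro p
  have h := D.rV p
  simp [sq, Complex.mul_im, h]

theorem smGp (j k : κ) : S.Sm (D.Gp δ j k) := by
  refine S.sm_smul (1 - δ : ℂ) (u := fun p => g j k p - (1 - D.V p ^ 2) * D.Mg p *
    (S.D j D.r.Ψ p * S.D k D.r.Ψ p)) ?_
  exact S.sm_sub (D.smg j k) (S.sm_mul (S.sm_mul D.sm_1V D.smMg)
    (S.sm_mul (S.sm_D j D.ray.smΨ) (S.sm_D k D.ray.smΨ)))

theorem rlGp (j k : κ) : Rl (D.Gp δ j k) := by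
  refine Rl.smul (c := (1 - δ : ℂ)) (by simp) (u := fun p => g j k p - (1 - D.V p ^ 2) * D.Mg p *
    (S.D j D.r.Ψ p * S.D k D.r.Ψ p)) ?_
  exact Rl.sub (D.rg j k) (Rl.mul (Rl.mul D.rl_1V D.rlMg)
    (Rl.mul (rlD D.ray.smΨ D.ray.rΨ j) (rlD D.ray.smΨ D.ray.rΨ k)))

theorem smgS (j k : κ) : S.Sm (D.gS δ j k) :=
  S.sm_sub (D.smGp δ j k) (S.sm_smul ((D.ρ : ℂ) ^ 2)
    (S.sm_mul (S.sm_D j D.smψ) (S.sm_D k D.smψ)))

theorem rlgS (j k : κ) : Rl (D.gS δ j k) :=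
  Rl.sub (D.rlGp δ j k) (Rl.smul (c := (D.ρ : ℂ) ^ 2) (by simp [sq])
    (Rl.mul (rlD D.smψ D.rψ j) (rlD D.smψ D.rψ k)))

theorem isT_Gp : S.IsT (D.Gp δ) := by
  have h := isT_smul (fun _ => (1 - δ : ℂ)) (isT_sub D.gT
    (isT_smul (fun p => (1 - D.V p ^ 2) * D.Mg p) (isT_dd D.ray.smΨ)))
  exact h

theorem isT_gS : S.IsT (D.gS δ) :=
  isT_sub (D.isT_Gp δ) (isT_smul (fun _ => (D.ρ : ℂ) ^ 2) (isT_dd D.smψ))

/-! ### positivity -/

variable [DecidableEq κ]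

theorem bas {p : P} (hp : p ∈ D.r.K) : Bas S p (rv D.r.t p) (rv D.r.w p)
    (fun j => (S.D j D.r.Ψ p).re) (fun j => (D.r.β j p).re) := by
  intro u hu j
  rw [D.ray.dec u hu j p hp]
  simp only [DAlg.dir, rv]
  rw [Rl.ofReal_re (rlD D.ray.smΨ D.ray.rΨ j), Rl.ofReal_re (D.ray.rβ j)]
  congr 2
  · exact Finset.sum_congr rfl fun l _ => by rw [Rl.ofReal_re (D.ray.rt l)]
  · exact Finset.sum_congr rfl fun l _ => by rw [Rl.ofReal_re (D.ray.rw' l)]

/-- `M_g dr² ≤ g` on `K` -/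
theorem Mg_le {p : P} (hp : p ∈ D.r.K) (ξ : κ → ℝ) :
    (D.Mg p).re * (∑ j, (S.D j D.r.Ψ p).re * ξ j) ^ 2 ≤ qf g p ξ := by
  rw [(D.bas hp).qf D.gT ξ]
  set A := ∑ j, (S.D j D.r.Ψ p).re * ξ j
  set B := ∑ j, (D.r.β j p).re * ξ j
  set gtt := rt g p (rv D.r.t p) (rv D.r.t p) with hgtt
  set gtw := rt g p (rv D.r.t p) (rv D.r.w p) with hgtw
  set gw := rt g p (rv D.r.w p) (rv D.r.w p) with hgw
  have e1 : gv g D.r.t D.r.t p = (gtt : ℂ) := gv_eq D.rg D.ray.rt D.ray.rt p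
  have e2 : gv g D.r.t D.r.w p = (gtw : ℂ) := gv_eq D.rg D.ray.rt D.ray.rw' p
  have e3 : gv g D.r.w D.r.w p = (gw : ℂ) := gv_eq D.rg D.ray.rw' D.ray.rw' p
  have h0 : 0 < gw := by
    have := D.gww p hp
    rw [e3, Complex.ofReal_re] at this
    exact D.cpos.trans_le this
  have e4 : D.ig p = ((gw⁻¹ : ℝ) : ℂ) := by
    have := D.igg p hp
    rw [e3] at this
    rw [Complex.ofReal_inv]
    exact eq_inv_of_mul_eq_one_left this
  have e5 : (D.Mg p).re = gtt - gtw * gtw * gw⁻¹ := by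
    simp only [Mg, e1, e2, e4]
    rw [← Complex.ofReal_mul, ← Complex.ofReal_mul, ← Complex.ofReal_sub, Complex.ofReal_re]
  rw [e5]
  have h1 : A ^ 2 * gtt + 2 * A * B * gtw + B ^ 2 * gw - (gtt - gtw * gtw * gw⁻¹) * A ^ 2
      = gw⁻¹ * (gtw * A + gw * B) ^ 2 := by
    field_simp
    ring
  have h2 : 0 ≤ gw⁻¹ * (gtw * A + gw * B) ^ 2 := by (clear * - h0; positivity)
  linarith only [h2, h1]

omit [DecidableEq κ] in
theorem qf_sub (T T' : κ → κ → P → ℂ) (p : P) (ξ : κ → ℝ) :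
    qf (fun j k p => T j k p - T' j k p) p ξ = qf T p ξ - qf T' p ξ := by
  simp only [qf, rt, Complex.sub_re, mul_sub, Finset.sum_sub_distrib]

omit [DecidableEq κ] in
theorem qf_dd {φ : P → ℂ} (h : S.Sm φ) (hr : Rl φ) (p : P) (ξ : κ → ℝ) :
    qf (fun j k p => S.D j φ p * S.D k φ p) p ξ = (∑ j, (S.D j φ p).re * ξ j) ^ 2 := by
  simp only [qf, rt]
  rw [sq, Finset.sum_mul_sum]
  refine Finset.sum_congr rfl fun j _ => Finset.sum_congr rfl fun k _ => ?_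
  have h1 := rlD h hr j p
  have h2 := rlD h hr k p
  simp only [Complex.mul_re, h1, h2]
  ring

omit [DecidableEq κ] in
theorem qf_smul {a : P → ℂ} (ha : Rl a) {T : κ → κ → P → ℂ} (p : P) (ξ : κ → ℝ) :
    qf (fun j k p => a p * T j k p) p ξ = (a p).re * qf T p ξ := by
  simp only [qf, rt, Finset.mul_sum]
  refine Finset.sum_congr rfl fun j _ => Finset.sum_congr rfl fun k _ => ?_
  have h1 := ha p
  simp only [Complex.mul_re, h1]
  ring

include D in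
theorem qf_nonneg (p : P) (ξ : κ → ℝ) : 0 ≤ qf g p ξ := by
  obtain ⟨a, b, α, β, h1, -, h3⟩ := D.pl.bas p
  rw [h3.qf D.gT ξ]
  simp only [rt_single]
  refine le_trans ?_ (form_lower (Bd := max (g a a p).re (g b b p).re) (D.gpos a p) (D.gpos b p)
    D.cpos h1 (le_max_left _ _) (le_max_right _ _))
  have : 0 ≤ max (g a a p).re (g b b p).re := (D.gpos a p).trans (le_max_left _ _)
  have := D.cpos
  positivity

omit [DecidableEq κ] in
theorem qf_gS (p : P) (ξ : κ → ℝ) :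
    qf (D.gS δ) p ξ = (1 - δ) * (qf g p ξ - (1 - (D.V p).re ^ 2) * (D.Mg p).re *
      (∑ j, (S.D j D.r.Ψ p).re * ξ j) ^ 2) - D.ρ ^ 2 * (∑ j, (S.D j D.ψ p).re * ξ j) ^ 2 := by
  have h0 : D.gS δ = fun j k p => D.Gp δ j k p
      - (fun _ : P => (D.ρ : ℂ) ^ 2) p * (S.D j D.ψ p * S.D k D.ψ p) := rfl
  have h1 : D.Gp δ = fun j k p => (fun _ : P => (1 - δ : ℂ)) p * (fun j k p =>
      g j k p - (fun p => (1 - D.V p ^ 2) * D.Mg p) p * (fun j k p =>
        S.D j D.r.Ψ p * S.D k D.r.Ψ p) j k p) j k p := rfl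
  rw [h0, qf_sub, qf_smul (T := fun j k p => S.D j D.ψ p * S.D k D.ψ p)
    (fun p => by simp [sq]), qf_dd D.smψ D.rψ, h1, qf_smul (fun p => by simp), qf_sub,
    qf_smul (a := fun p => (1 - D.V p ^ 2) * D.Mg p) (Rl.mul D.rl_1V D.rlMg), qf_dd D.ray.smΨ D.ray.rΨ]
  have e1 : ((D.ρ : ℂ) ^ 2).re = D.ρ ^ 2 := by rw [← Complex.ofReal_pow, Complex.ofReal_re]
  have e2 : ((1 : ℂ) - δ).re = 1 - δ := by simp
  have e3 : ((1 - D.V p ^ 2) * D.Mg p).re = (1 - (D.V p).re ^ 2) * (D.Mg p).re := by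
    have h2 := D.rl_1V p
    have h3 := D.rV p
    rw [Complex.mul_re]
    simp only at h2
    rw [h2]
    simp [sq, Complex.mul_re, h3]
  rw [e1, e2, e3]

/-- **(T2)** -/
theorem qf_gS_ge (h0 : 0 ≤ δ) (h1 : δ ≤ 1 / 4) (p : P) (ξ : κ → ℝ) :
    13 / 32 * qf g p ξ ≤ qf (D.gS δ) p ξ := by
  rw [D.qf_gS]
  have hq := D.qf_nonneg p ξ
  have hψ := D.ψs p ξ
  have h2 : (1 - (D.V p).re ^ 2) * (D.Mg p).re * (∑ j, (S.D j D.r.Ψ p).re * ξ j) ^ 2
      ≤ 1 / 8 * qf g p ξ := by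
    by_cases hp : p ∈ D.r.K
    · have h3 := D.Mg_le hp ξ
      have h4 := D.V2 p
      have h5 : 0 ≤ 1 - (D.V p).re ^ 2 := by
        have := D.V1 p
        have := D.V0 p
        nlinarith
      rw [mul_assoc]
      calc _ ≤ (1 - (D.V p).re ^ 2) * qf g p ξ := mul_le_mul_of_nonneg_left h3 h5
        _ ≤ _ := mul_le_mul_of_nonneg_right (by linarith only [h4]) hq
    · rw [D.VK p hp]
      simp
      positivity
  nlinarith

theorem qf_gS_sub (h0 : 0 ≤ δ) (h1 : δ ≤ 1 / 4) (p : P) (ξ : κ → ℝ) :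
    1 / 4 * qf g p ξ ≤ qf (fun j k p => D.gS δ j k p - S.met D.X0 j k p) p ξ := by
  rw [qf_sub]
  have h2 := D.qf_gS_ge δ h0 h1 p ξ
  have h3 := D.X0s p ξ
  have hq := D.qf_nonneg p ξ
  linarith only [hq, h3, h2]

end SlowD

end Vale.Agent.P205.TW
end
end

section

/-!
P205, scheme T1W: maps close to the slow metric (block C5, parts T3 and T4).
-/

noncomputable section

namespace Vale.Agent.P205.TW

open Vale.Agent.P205.F

universe u

variable {P : Type u} {κ : Type} [Fintype κ] {S : DAlg P κ}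

/-- finitely many smooth functions have a common bound -/
theorem bdd_fin {α : Type*} [Finite α] {u : α → P → ℂ} (hu : ∀ a, S.Sm (u a)) :
    ∃ C : ℝ, 1 ≤ C ∧ ∀ a p, ‖u a p‖ ≤ C := by
  have := Fintype.ofFinite α
  choose C hC using fun a => S.bdd (hu a)
  refine ⟨1 + ∑ a, |C a|, ?_, fun a p => ?_⟩
  · have : 0 ≤ ∑ a, |C a| := Finset.sum_nonneg fun a _ => abs_nonneg _
    linarith
  · have h : |C a| ≤ ∑ a, |C a| :=
      Finset.single_le_sum (f := fun a => |C a|) (fun a _ => abs_nonneg _) (Finset.mem_univ a)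
    have := hC a p
    have := le_abs_self (C a)
    linarith

theorem qf_lin (T : κ → κ → P → ℂ) (hT : ∀ j k, T j k = T k j) (p : P) (A B : ℝ) (c d : κ → ℝ) :
    qf T p (fun j => A * c j + B * d j) =
      A ^ 2 * rt T p c c + 2 * A * B * rt T p c d + B ^ 2 * rt T p d d := by
  have h1 : ∀ x : κ → ℝ, rt T p (fun j => A * c j + B * d j) x =
      A * rt T p c x + B * rt T p d x := fun x => by
    rw [rt_add, rt_smul, rt_smul]
  rw [qf, h1, rt_symm hT p c, rt_symm hT p d, h1, h1, rt_symm hT p d c]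
  ring

/-- determinants of comparable forms -/
theorem det_cmp {T g : κ → κ → P → ℂ} (hT : ∀ j k, T j k = T k j) (hg : ∀ j k, g j k = g k j)
    {p : P} {m : ℝ} (hm : 0 ≤ m) (hg0 : ∀ ξ, 0 ≤ qf g p ξ) (h : ∀ ξ, m * qf g p ξ ≤ qf T p ξ)
    (c d : κ → ℝ) :
    m ^ 2 * (rt g p c c * rt g p d d - rt g p c d ^ 2) ≤
      rt T p c c * rt T p d d - rt T p c d ^ 2 := by
  have e : 0 ≤ rt g p c c := hg0 c
  have f : 0 ≤ rt g p d d := hg0 d
  have hd : 0 ≤ rt g p c c * rt g p d d - rt g p c d ^ 2 := by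
    have := det_mono (m := 0) (e := 0) (f := 0) (g := 0) (E := rt g p c c) (F := rt g p c d)
      (G := rt g p d d) le_rfl le_rfl le_rfl (by simp) (fun A B => by
        have := hg0 (fun j => A * c j + B * d j)
        rw [qf_lin g hg] at this
        simpa using this)
    simpa using this
  refine det_mono hm e f hd fun A B => ?_
  have := h (fun j => A * c j + B * d j)
  rwa [qf_lin g hg, qf_lin T hT] at this

/-- entries in a basis -/
theorem Bas.entry [DecidableEq κ] {T : κ → κ → P → ℂ} (hT : S.IsT T) {p : P} {t w A B : κ → ℝ}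
    (hb : Bas S p t w A B) (a b : κ) :
    (T a b p).re = A a * A b * rt T p t t + (A a * B b + A b * B a) * rt T p t w
      + B a * B b * rt T p w w := by
  have hs := hT.1
  have h1 : ∀ x : κ, (∑ j, A j * (Pi.single x (1 : ℝ) : κ → ℝ) j) = A x := fun x => by
    simp [Pi.single_apply]
  have h2 : ∀ x : κ, (∑ j, B j * (Pi.single x (1 : ℝ) : κ → ℝ) j) = B x := fun x => by
    simp [Pi.single_apply]
  have e1 := hb.rt_left hT (Pi.single a (1 : ℝ)) (Pi.single b (1 : ℝ))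
  have e2 := hb.rt_left hT (Pi.single b (1 : ℝ)) t
  have e3 := hb.rt_left hT (Pi.single b (1 : ℝ)) w
  rw [h1, h2] at e1 e2 e3
  rw [← rt_single T p a b, e1, rt_symm hs p t (Pi.single b (1 : ℝ)),
    rt_symm hs p w (Pi.single b (1 : ℝ)), e2, e3, rt_symm hs p w t]
  ring

theorem Bas.det [DecidableEq κ] {T : κ → κ → P → ℂ} (hT : S.IsT T) {p : P} {t w A B : κ → ℝ}
    (hb : Bas S p t w A B) (a b : κ) :
    (T a a p).re * (T b b p).re - (T a b p).re ^ 2 =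
      (A a * B b - A b * B a) ^ 2 * (rt T p t t * rt T p w w - rt T p t w ^ 2) := by
  rw [hb.entry hT, hb.entry hT, hb.entry hT]
  ring

namespace SlowD

variable {g : κ → κ → P → ℂ} (D : SlowD S g)

/-- constants for the slow metric (independent of `V`) -/
structure Bds (Bd Br Bβ BM Bψ : ℝ) : Prop where
  d1 : 1 ≤ Bd
  r1 : 1 ≤ Br
  β1 : 1 ≤ Bβ
  M1 : 1 ≤ BM
  ψ1 : 1 ≤ Bψ
  d : ∀ j k p, ‖g j k p‖ ≤ Bd
  r : ∀ j p, ‖S.D j D.r.Ψ p‖ ≤ Br
  β : ∀ j p, ‖D.r.β j p‖ ≤ Bβ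
  M : ∀ p, ‖D.Mg p‖ ≤ BM
  ψ : ∀ j k p, ‖(D.ρ : ℂ) ^ 2 * (S.D j D.ψ p * S.D k D.ψ p)‖ ≤ Bψ

theorem exists_bds : ∃ Bd Br Bβ BM Bψ : ℝ, D.Bds Bd Br Bβ BM Bψ := by
  obtain ⟨Bd, h1, h1'⟩ := bdd_fin (S := S) (u := fun x : κ × κ => g x.1 x.2)
    (fun x => D.smg x.1 x.2)
  obtain ⟨Br, h2, h2'⟩ := bdd_fin (S := S) (u := fun j => S.D j D.r.Ψ)
    (fun j => S.sm_D j D.ray.smΨ)
  obtain ⟨Bβ, h3, h3'⟩ := bdd_fin (S := S) (u := D.r.β) D.ray.smβ
  obtain ⟨BM, h4, h4'⟩ := bdd_fin (S := S) (u := fun _ : Unit => D.Mg) (fun _ => D.smMg)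
  obtain ⟨Bψ, h5, h5'⟩ := bdd_fin (S := S) (u := fun x : κ × κ => fun p =>
    (D.ρ : ℂ) ^ 2 * (S.D x.1 D.ψ p * S.D x.2 D.ψ p))
    (fun x => S.sm_smul ((D.ρ : ℂ) ^ 2) (S.sm_mul (S.sm_D x.1 D.smψ) (S.sm_D x.2 D.smψ)))
  exact ⟨Bd, Br, Bβ, BM, Bψ, h1, h2, h3, h4, h5, fun j k => h1' (j, k), h2', h3', h4' (),
    fun j k => h5' (j, k)⟩

variable {D}

theorem Bds.Gp_le {Bd Br Bβ BM Bψ : ℝ} (hB : D.Bds Bd Br Bβ BM Bψ) {δ : ℝ} (h0 : 0 ≤ δ)
    (hδ : δ ≤ 1 / 4) (j k : κ) (p : P) : ‖D.Gp δ j k p‖ ≤ Bd + BM * Br ^ 2 := by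
  have e5 : ‖(1 - δ : ℂ)‖ ≤ 1 := by
    rw [show (1 - δ : ℂ) = ((1 - δ : ℝ) : ℂ) by push_cast; ring, Complex.norm_real,
      Real.norm_eq_abs, abs_of_nonneg (by linarith)]
    linarith
  have e6 : ‖1 - D.V p ^ 2‖ ≤ 1 := by
    have h1 : (1 : ℂ) - D.V p ^ 2 = ((1 - (D.V p).re ^ 2 : ℝ) : ℂ) := by
      have := Rl.ofReal_re D.rV p
      push_cast
      rw [this]
    have h2 := D.V0 p
    have h3 := D.V1 p
    rw [h1, Complex.norm_real, Real.norm_eq_abs, abs_of_nonneg (by linarith only [mul_nonneg (sub_nonneg.2 h3) (sub_nonneg.2 h3), mul_nonneg (sub_nonneg.2 h2) (sub_nonneg.2 h3)])]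
    linarith only [sq_nonneg (D.V p).re]
  have hBr0 : 0 ≤ Br := by linarith [hB.r1]
  have hBM0 : 0 ≤ BM := by linarith [hB.M1]
  have e7 : ‖(1 - D.V p ^ 2) * D.Mg p * (S.D j D.r.Ψ p * S.D k D.r.Ψ p)‖ ≤ BM * Br ^ 2 := by
    rw [norm_mul, norm_mul, norm_mul]
    calc _ ≤ 1 * BM * (Br * Br) :=
          mul_le_mul (mul_le_mul e6 (hB.M p) (norm_nonneg _) (by norm_num))
            (mul_le_mul (hB.r j p) (hB.r k p) (norm_nonneg _) hBr0) (by positivity)
            (by positivity)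
      _ = _ := by ring
  simp only [Gp]
  rw [norm_mul]
  calc _ ≤ 1 * (Bd + BM * Br ^ 2) := by
        refine mul_le_mul e5 ?_ (norm_nonneg _) (by norm_num)
        exact (norm_sub_le _ _).trans (add_le_add (hB.d j k p) e7)
    _ = _ := one_mul _

theorem Bds.gS_le {Bd Br Bβ BM Bψ : ℝ} (hB : D.Bds Bd Br Bβ BM Bψ) {δ : ℝ} (h0 : 0 ≤ δ)
    (hδ : δ ≤ 1 / 4) (j k : κ) (p : P) : ‖D.gS δ j k p‖ ≤ Bd + BM * Br ^ 2 + Bψ :=
  (norm_sub_le _ _).trans (add_le_add (hB.Gp_le h0 hδ j k p) (hB.ψ j k p))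

/-- **(T4)** lower bound of the form -/
theorem Bds.qf_met_ge {Bd Br Bβ BM Bψ : ℝ} (hB : D.Bds Bd Br Bβ BM Bψ) {δ : ℝ} (h0 : 0 ≤ δ)
    (h1 : δ ≤ 1 / 4) {X : Fin 4 → P → ℂ} (hX : ∀ a, S.Sm (X a))
    (hm : ∀ j k p, ‖S.met X j k p - D.gS δ j k p‖ ≤ 5 / 32 * (D.c / (4 * Bd))) (p : P)
    (ξ : κ → ℝ) : 1 / 4 * qf g p ξ ≤ qf (S.met X) p ξ := by
  classical
  have hBd : ∀ j p, (g j j p).re ≤ Bd := fun j p =>
    (Complex.re_le_norm _).trans (hB.d j j p)
  have hc := D.cpos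
  have hBd0 : 0 < Bd := by linarith [hB.d1]
  have hT : S.IsT (fun j k p => S.met X j k p - D.gS δ j k p) :=
    isT_sub (isT_met hX) (D.isT_gS δ)
  have h2 := Pl.abs_qf_le D.gT hT D.pl hc D.gpos hBd p
    (fun j k => (Complex.abs_re_le_norm _).trans (hm j k p)) ξ
  rw [qf_sub] at h2
  have h3 := D.qf_gS_ge δ h0 h1 p ξ
  have hq := D.qf_nonneg p ξ
  have h4 : 4 * Bd / D.c * (5 / 32 * (D.c / (4 * Bd))) = 5 / 32 := by field_simp
  rw [h4] at h2
  have h5 := abs_le.1 h2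
  linarith only [h5.1, h3]

/-- **(T4)** lower bounds and bounds for maps close to the slow metric -/
theorem Bds.bounds {Bd Br Bβ BM Bψ : ℝ} (hB : D.Bds Bd Br Bβ BM Bψ) {δ : ℝ} (h0 : 0 ≤ δ)
    (hδ : δ ≤ 1 / 4) {X : Fin 4 → P → ℂ} (hX : ∀ a, S.Sm (X a)) (hrX : ∀ a, Rl (X a))
    (hm : ∀ j k p, ‖S.met X j k p - D.gS δ j k p‖ ≤ min (5 / 32 * (D.c / (4 * Bd))) 1) :
    (∀ p ∈ D.r.K, min (D.c / 16) (1 / 16 * (D.c / (2 * (Br * Bβ)) ^ 2)) ≤
      (gv (S.met X) D.r.w D.r.w p).re) ∧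
    (∀ p ∈ D.r.K, min (D.c / 16) (1 / 16 * (D.c / (2 * (Br * Bβ)) ^ 2)) ≤
      (gv (S.met X) D.r.t D.r.t p * gv (S.met X) D.r.w D.r.w p
      - gv (S.met X) D.r.t D.r.w p * gv (S.met X) D.r.t D.r.w p).re) ∧
    (∀ p, ∃ a b, min (D.c / 16) (1 / 16 * (D.c / (2 * (Br * Bβ)) ^ 2)) ≤
      (S.met X a a p * S.met X b b p - S.met X a b p ^ 2).re) ∧
    (∀ j a p, ‖S.D j (X a) p‖ ≤ Bd + BM * Br ^ 2 + Bψ + 1) := by
  classical
  have hc := D.cpos
  have hBr := hB.r1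
  have hBβ := hB.β1
  have hr := hB.r
  have hβ := hB.β
  set L := 2 * (Br * Bβ) with hL
  have hL0 : 0 < L := by positivity
  have hm0 : ∀ j k p, ‖S.met X j k p - D.gS δ j k p‖ ≤ 5 / 32 * (D.c / (4 * Bd)) :=
    fun j k p => (hm j k p).trans (min_le_left _ _)
  have hm1 : ∀ j k p, ‖S.met X j k p - D.gS δ j k p‖ ≤ 1 := fun j k p =>
    (hm j k p).trans (min_le_right _ _)
  have hqX := hB.qf_met_ge h0 hδ hX hm0
  have hT := isT_met (S := S) hX
  have rlmet : ∀ j k, Rl (S.met X j k) := fun j k =>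
    Rl.dot (fun a => rlD (hX a) (hrX a) j) (fun a => rlD (hX a) (hrX a) k)
  have eg := fun c d hc hd p => gv_eq D.rg (c := c) (d := d) hc hd p
  have eX := fun c d hc hd p => gv_eq rlmet (c := c) (d := d) hc hd p
  have hq0 : ∀ p ξ, 0 ≤ qf g p ξ := D.qf_nonneg
  have hdet := fun p c d => det_cmp (T := S.met X) (g := g) hT.1 D.gT.1 (p := p)
    (m := 1 / 4) (by norm_num) (hq0 p) (hqX p) c d
  refine ⟨fun p hp => ?_, fun p hp => ?_, fun p => ?_, fun j a p => ?_⟩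
  · rw [eX _ _ D.ray.rw' D.ray.rw', Complex.ofReal_re]
    have h3 := D.gww p hp
    rw [eg _ _ D.ray.rw' D.ray.rw', Complex.ofReal_re] at h3
    have h4 := hqX p (rv D.r.w p)
    simp only [qf] at h4
    refine (min_le_left _ _).trans ?_
    linarith only [h4, h3, hc]
  · rw [eX _ _ D.ray.rt D.ray.rt, eX _ _ D.ray.rw' D.ray.rw', eX _ _ D.ray.rt D.ray.rw',
      ← Complex.ofReal_mul, ← Complex.ofReal_mul, ← Complex.ofReal_sub, Complex.ofReal_re]
    have h3 := hdet p (rv D.r.t p) (rv D.r.w p)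
    obtain ⟨a, b, α, β, h4, -, -⟩ := D.pl.bas p
    rw [(D.bas hp).det D.gT a b] at h4
    set x := (S.D a D.r.Ψ p).re * (D.r.β b p).re - (S.D b D.r.Ψ p).re * (D.r.β a p).re with hx
    set dt := rt g p (rv D.r.t p) (rv D.r.t p) * rt g p (rv D.r.w p) (rv D.r.w p)
      - rt g p (rv D.r.t p) (rv D.r.w p) ^ 2 with hdt
    have hx2 : x ^ 2 ≤ L ^ 2 := by
      have b1 : ∀ a b, |(S.D a D.r.Ψ p).re * (D.r.β b p).re| ≤ Br * Bβ := fun a b => by
        rw [abs_mul]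
        exact mul_le_mul ((Complex.abs_re_le_norm _).trans (hr a p))
          ((Complex.abs_re_le_norm _).trans (hβ b p)) (abs_nonneg _) (by linarith only [hBr])
      have b2 : |x| ≤ L := by
        have := abs_sub ((S.D a D.r.Ψ p).re * (D.r.β b p).re)
          ((S.D b D.r.Ψ p).re * (D.r.β a p).re)
        have h5 := b1 a b
        have h6 := b1 b a
        rw [hL]
        linarith only [h6, h5, this]
      exact sq_le_sq' (by linarith only [(abs_le.1 b2).1]) (abs_le.1 b2).2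
    have hdt0 : 0 < dt := by
      by_contra hneg
      push Not at hneg
      have : x ^ 2 * dt ≤ 0 := mul_nonpos_of_nonneg_of_nonpos (sq_nonneg x) hneg
      linarith
    have h5 : D.c / L ^ 2 ≤ dt := by
      rw [div_le_iff₀ (by positivity)]
      calc D.c ≤ x ^ 2 * dt := h4
        _ ≤ L ^ 2 * dt := mul_le_mul_of_nonneg_right hx2 hdt0.le
        _ = dt * L ^ 2 := mul_comm _ _
    refine (min_le_right _ _).trans ?_
    linarith only [h5, h3]
  · obtain ⟨a, b, α, β, h4, -, -⟩ := D.pl.bas p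
    refine ⟨a, b, ?_⟩
    have h3 := hdet p (Pi.single a 1) (Pi.single b 1)
    simp only [rt_single] at h3
    have e : (S.met X a a p * S.met X b b p - S.met X a b p ^ 2).re =
        (S.met X a a p).re * (S.met X b b p).re - (S.met X a b p).re ^ 2 := by
      simp only [sq, Complex.sub_re, Complex.mul_re, rlmet a a p, rlmet b b p, rlmet a b p]
      ring
    rw [e]
    refine (min_le_left _ _).trans ?_
    linarith only [h3, h4]
  · have e1 : (S.met X j j p).re = ∑ a, (S.D j (X a) p).re ^ 2 := by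
      simp only [DAlg.met, dot, DAlg.Dv, Complex.re_sum]
      refine Finset.sum_congr rfl fun a _ => ?_
      have := rlD (hX a) (hrX a) j p
      rw [Complex.mul_re, this]; ring
    have e2 : (S.D j (X a) p).re ^ 2 ≤ (S.met X j j p).re := by
      rw [e1]
      exact Finset.single_le_sum (f := fun a => (S.D j (X a) p).re ^ 2)
        (fun a _ => sq_nonneg _) (Finset.mem_univ a)
    have e3 : ‖D.gS δ j j p‖ ≤ Bd + BM * Br ^ 2 + Bψ := hB.gS_le h0 hδ j j p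
    have e7 : (S.met X j j p).re ≤ Bd + BM * Br ^ 2 + Bψ + 1 := by
      have e8 : ‖S.met X j j p‖ ≤ ‖S.met X j j p - D.gS δ j j p‖ + ‖D.gS δ j j p‖ := by
        have := norm_add_le (S.met X j j p - D.gS δ j j p) (D.gS δ j j p)
        simpa using this
      have := Complex.re_le_norm (S.met X j j p)
      linarith [hm1 j j p]
    have e9 : ‖S.D j (X a) p‖ = |(S.D j (X a) p).re| := by
      rw [← Rl.ofReal_re (rlD (hX a) (hrX a) j) p, Complex.norm_real, Real.norm_eq_abs,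
        Complex.ofReal_re]
    rw [e9]
    set W := Bd + BM * Br ^ 2 + Bψ + 1 with hW
    have hW1 : 1 ≤ W := by
      have := hB.d1
      have := hB.M1
      have := hB.ψ1
      have : 0 ≤ BM * Br ^ 2 := by positivity
      rw [hW]
      linarith
    refine abs_le_of_sq_le_sq ?_ (by linarith)
    (by_contra nlg; linarith only [nlg, mul_nonneg (sub_nonneg.2 e7) (sub_nonneg.2 hW1), mul_nonneg (sub_nonneg.2 e2) (sub_nonneg.2 hW1), mul_nonneg (sub_nonneg.2 hδ) (sub_nonneg.2 e7), mul_nonneg (sub_nonneg.2 hδ) (sub_nonneg.2 e2), mul_nonneg (sub_nonneg.2 h0) (sub_nonneg.2 e7), mul_nonneg (sub_nonneg.2 h0) (sub_nonneg.2 e2), mul_nonneg (le_of_lt (sub_pos.2 (not_le.1 nlg))) (sub_nonneg.2 e7), mul_nonneg (le_of_lt (sub_pos.2 (not_le.1 nlg))) (sub_nonneg.2 e2), mul_pos (sub_pos.2 (not_le.1 nlg)) (sub_pos.2 (not_le.1 nlg)), mul_nonneg (sq_nonneg (W : ℝ)) (sub_nonneg.2 hW1), mul_nonneg (sq_nonneg (W : ℝ)) (le_of_lt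 (sub_pos.2 (not_le.1 nlg)))])

end SlowD

end Vale.Agent.P205.TW
end
end

section

/-!
P205, scheme T1W: the slow metric is solved up to a small error (block C5, part T3).
-/

noncomputable section

namespace Vale.Agent.P205.TW

open Vale.Agent.P205.F

universe u

variable {P : Type u} {κ : Type} [Fintype κ] {S : DAlg P κ}

namespace SlowD

variable {g : κ → κ → P → ℂ} (D : SlowD S g)

theorem gv_Gp (δ : ℝ) (c d : κ → P → ℂ) (p : P) :
    gv (D.Gp δ) c d p = (1 - δ) * (gv g c d p - (1 - D.V p ^ 2) * D.Mg p *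
      (S.dir c D.r.Ψ p * S.dir d D.r.Ψ p)) := by
  have h1 : D.Gp δ = fun j k p => (fun _ : P => (1 - δ : ℂ)) p * (fun j k p =>
      g j k p - (fun p => (1 - D.V p ^ 2) * D.Mg p) p * (fun j k p =>
        S.D j D.r.Ψ p * S.D k D.r.Ψ p) j k p) j k p := rfl
  rw [h1, gv_smul, gv_sub, gv_smul, gv_dd]

theorem gv_G (d : TData P κ) (ρ : ℝ) (c c' : κ → P → ℂ) (p : P) :
    gv (fun j k p => S.met d.X j k p + (ρ : ℂ) ^ 2 * (S.D j d.ψ p * S.D k d.ψ p)) c c' p =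
      gv (S.met d.X) c c' p + (ρ : ℂ) ^ 2 * (S.dir c d.ψ p * S.dir c' d.ψ p) := by
  rw [gv_add]
  have := gv_smul (fun _ : P => (ρ : ℂ) ^ 2) (fun j k p => S.D j d.ψ p * S.D k d.ψ p) c c' p
  rw [gv_dd] at this
  rw [← this]

theorem M2_sub {Gtt Gtw Gww Gtt' Gtw' Gww' iG iG' : ℂ} (h1 : iG * Gww = 1)
    (h2 : iG' * Gww' = 1) :
    (Gtt - Gtw * Gtw * iG) - (Gtt' - Gtw' * Gtw' * iG') = (Gtt - Gtt')
      - (Gtw - Gtw') * (Gtw + Gtw') * iG
      - Gtw' * Gtw' * (iG * iG' * (Gww' - Gww)) := by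
  have h3 : iG * iG' * (Gww' - Gww) = iG - iG' := by linear_combination iG * h2 - iG' * h1
  rw [h3]
  ring

theorem M2_norm {Gtt Gtw Gww Gtt' Gtw' Gww' iG iG' : ℂ} {E L I J : ℝ} (h1 : iG * Gww = 1)
    (h2 : iG' * Gww' = 1) (hE : 0 ≤ E) (hL : 0 ≤ L) (hI : 0 ≤ I) (hJ : 0 ≤ J)
    (d1 : ‖Gtt - Gtt'‖ ≤ E) (d2 : ‖Gtw - Gtw'‖ ≤ E) (d3 : ‖Gww - Gww'‖ ≤ E)
    (l1 : ‖Gtw‖ ≤ L) (l2 : ‖Gtw'‖ ≤ L) (i1 : ‖iG‖ ≤ I) (i2 : ‖iG'‖ ≤ J) :
    ‖(Gtt - Gtw * Gtw * iG) - (Gtt' - Gtw' * Gtw' * iG')‖ ≤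
      E * (1 + 2 * L * I + L ^ 2 * (I * J)) := by
  rw [M2_sub h1 h2]
  have n1 : ‖(Gtw - Gtw') * (Gtw + Gtw') * iG‖ ≤ E * (2 * L) * I := by
    rw [norm_mul, norm_mul]
    refine mul_le_mul (mul_le_mul d2 ?_ (norm_nonneg _) hE) i1 (norm_nonneg _) (by positivity)
    exact (norm_add_le _ _).trans (by linarith)
  have n2 : ‖Gtw' * Gtw' * (iG * iG' * (Gww' - Gww))‖ ≤ L * L * (I * J * E) := by
    rw [norm_mul, norm_mul, norm_mul, norm_mul]
    have hd3 : ‖Gww' - Gww‖ ≤ E := by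
      rw [norm_sub_rev]; exact d3
    refine mul_le_mul (mul_le_mul l2 l2 (norm_nonneg _) hL) ?_ (by positivity) (by positivity)
    exact mul_le_mul (mul_le_mul i1 i2 (norm_nonneg _) hI) hd3 (norm_nonneg _) (by positivity)
  calc _ ≤ E + E * (2 * L) * I + L * L * (I * J * E) :=
        (norm_sub_le _ _).trans (add_le_add ((norm_sub_le _ _).trans (add_le_add d1 n1)) n2)
    _ = _ := by ring

theorem iv_norm {x V : ℂ} (h : x * V = 1) (hV : 7 / 8 ≤ V.re ^ 2) : ‖x ^ 2 - 1‖ ≤ 5 := by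
  have h1 : ‖x‖ ^ 2 * ‖V‖ ^ 2 = 1 := by
    rw [← mul_pow, ← norm_mul, h, norm_one, one_pow]
  have h2 : 7 / 8 ≤ ‖V‖ ^ 2 := by
    refine hV.trans ?_
    have h3 : |V.re| ^ 2 ≤ ‖V‖ ^ 2 :=
      pow_le_pow_left₀ (abs_nonneg _) (Complex.abs_re_le_norm V) 2
    rwa [sq_abs] at h3
  have h3 : ‖x‖ ^ 2 ≤ 4 := by
    have := mul_le_mul_of_nonneg_left h2 (sq_nonneg ‖x‖)
    linarith only [this, h1]
  calc _ ≤ ‖x ^ 2‖ + ‖(1 : ℂ)‖ := norm_sub_le _ _
    _ ≤ _ := by rw [norm_pow, norm_one]; linarith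

theorem fin_norm {A x m r1 r2 : ℂ} {η m0 B : ℝ} (hA : ‖A‖ ≤ η) (hx : ‖x‖ ≤ 5) (hm : ‖m‖ ≤ m0)
    (h1 : ‖r1‖ ≤ B) (h2 : ‖r2‖ ≤ B) : ‖A + x * m * (r1 * r2)‖ ≤ η + 5 * m0 * (B * B) := by
  have hB0 : 0 ≤ B := (norm_nonneg _).trans h1
  have hm0 : 0 ≤ m0 := (norm_nonneg _).trans hm
  refine (norm_add_le _ _).trans (add_le_add hA ?_)
  rw [norm_mul, norm_mul, norm_mul]
  exact mul_le_mul (mul_le_mul hx hm (norm_nonneg _) (by norm_num))
    (mul_le_mul h1 h2 (norm_nonneg _) hB0) (by positivity) (by positivity)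

/-- **(T3)** -/
theorem err {Bd Br' Bβ BM Bψ : ℝ} (hBds : D.Bds Bd Br' Bβ BM Bψ) :
    ∃ C : ℝ, 0 < C ∧ ∀ (δ : ℝ), 0 ≤ δ → δ ≤ 1 / 4 →
    ∀ d : TData P κ, (∀ a, S.Sm (d.X a)) → (∀ a, Rl (d.X a)) → d.r = D.r → d.ψ = D.ψ →
    (∀ p ∈ D.r.K, d.iG p * d.Gww S D.ρ p = 1) → (∀ p ∈ D.r.K, d.iv p * D.V p = 1) →
    (∀ p, p ∉ D.r.K → d.iv p = 1) → ∀ η : ℝ, η ≤ min (5 / 32 * (D.c / (4 * Bd))) 1 →
    (∀ j k p, ‖S.met d.X j k p - D.gS δ j k p‖ ≤ η) →
    ∀ j k p, ‖d.Q S D.ρ j k p - (1 - δ) * g j k p‖ ≤ C * η := by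
  classical
  set c0 := min (D.c / 16) (1 / 16 * (D.c / (2 * (Br' * Bβ)) ^ 2)) with hc0'
  have hc0 : 0 < c0 := by
    have := D.cpos
    have := hBds.r1
    have := hBds.β1
    positivity
  set B1 := Bd + BM * Br' ^ 2 with hB1'
  have hB1 : 1 ≤ B1 := by
    have := hBds.d1
    have := hBds.M1
    have : 0 ≤ BM * Br' ^ 2 := by positivity
    linarith
  obtain ⟨Bt, hBt, bt⟩ := bdd_fin (S := S) (u := D.r.t) D.ray.smt
  obtain ⟨Bw, hBw, bw⟩ := bdd_fin (S := S) (u := D.r.w) D.ray.smw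
  obtain ⟨Br, hBr, br⟩ := bdd_fin (S := S) (u := fun j => S.D j D.r.Ψ)
    (fun j => S.sm_D j D.ray.smΨ)
  obtain ⟨Bi, hBi, bi⟩ := bdd_fin (S := S) (u := fun _ : Unit => D.ig) (fun _ => D.smig)
  set B := Bt + Bw + Br with hB
  have hB0 : 0 < B := by positivity
  set N := (Fintype.card κ : ℝ) ^ 2 * B ^ 2 with hN
  have hN0 : 0 ≤ N := by (clear * - hBt hBw hBr; positivity)
  set L := N * B1 + N with hL
  have hL0 : 0 ≤ L := by (clear * - hBt hBw hBr hB1; positivity)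
  have ht : ∀ p j, ‖D.r.t j p‖ ≤ B := fun p j => (bt j p).trans (by rw [hB]; linarith)
  have hw : ∀ p j, ‖D.r.w j p‖ ≤ B := fun p j => (bw j p).trans (by rw [hB]; linarith)
  have hr : ∀ p j, ‖S.D j D.r.Ψ p‖ ≤ B := fun p j => (br j p).trans (by rw [hB]; linarith)
  refine ⟨1 + 5 * (N * (1 + 2 * L / c0 + 2 * L ^ 2 * Bi / c0)) * B ^ 2, by (clear * - hBt hBw hBr hB1 hc0 hBi; positivity), fun δ h0 hδ d hX hrX hdr hdψ hiG hiv hiv1 η hη hm j k p => ?_⟩
  have hη00 := hη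
  have hη1 : η ≤ 1 := hη.trans (min_le_right _ _)
  have hη : 0 ≤ η := (norm_nonneg _).trans (hm j k p)
  obtain ⟨hE, -, -, -⟩ := hBds.bounds h0 hδ hX hrX fun j k p => (hm j k p).trans hη00
  have hGp : ∀ j k p, ‖D.Gp δ j k p‖ ≤ B1 := fun j k p => hBds.Gp_le h0 hδ j k p
  -- the metric `G` and its difference to `G'`
  set G : κ → κ → P → ℂ := fun j k p =>
    S.met d.X j k p + (D.ρ : ℂ) ^ 2 * (S.D j d.ψ p * S.D k d.ψ p) with hG
  have hdG : ∀ j k p, ‖G j k p - D.Gp δ j k p‖ ≤ η := fun j k p => by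
    have : G j k p - D.Gp δ j k p = S.met d.X j k p - D.gS δ j k p := by
      simp only [hG, gS, hdψ]; ring
    rw [this]; exact hm j k p
  by_cases hp : p ∈ D.r.K
  swap
  · have e1 : d.Q S D.ρ j k p - (1 - δ) * g j k p = S.met d.X j k p - D.gS δ j k p := by
      simp only [TData.Q, gS, Gp, hiv1 p hp, D.VK p hp, hdψ]; ring
    rw [e1]
    refine (hm j k p).trans (le_mul_of_one_le_left hη ?_)
    have : 0 ≤ 5 * (N * (1 + 2 * L / c0 + 2 * L ^ 2 * Bi / c0)) * B ^ 2 := by (clear * - hBt hBw hBr hB1 hc0 hBi; positivity)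
    linarith only [this]
  have htr : S.dir D.r.t D.r.Ψ p = 1 := D.ray.tΨ p hp
  have hwr : S.dir D.r.w D.r.Ψ p = 0 := D.ray.wΨ p hp
  -- the components of `G'`
  have hδ1 : (1 - δ : ℂ) ≠ 0 := by
    have : (1 - δ : ℂ) = ((1 - δ : ℝ) : ℂ) := by push_cast; ring
    rw [this]
    exact_mod_cast (show (1 - δ : ℝ) ≠ 0 by linarith)
  set gtt := gv g D.r.t D.r.t p with hgtt
  set gtw := gv g D.r.t D.r.w p with hgtw
  set gw := gv g D.r.w D.r.w p with hgw
  have e1 : gv (D.Gp δ) D.r.t D.r.t p = (1 - δ) * (gtt - (1 - D.V p ^ 2) * D.Mg p) := by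
    rw [D.gv_Gp, htr]; ring
  have e2 : gv (D.Gp δ) D.r.t D.r.w p = (1 - δ) * gtw := by
    rw [D.gv_Gp, hwr]; ring
  have e3 : gv (D.Gp δ) D.r.w D.r.w p = (1 - δ) * gw := by
    rw [D.gv_Gp, hwr]; ring
  have eig : D.ig p * gw = 1 := D.igg p hp
  set iG' := D.ig p / (1 - δ : ℂ) with hiG'
  have e4 : iG' * gv (D.Gp δ) D.r.w D.r.w p = 1 := by
    rw [e3, hiG']
    field_simp
    exact eig
  have e5 : gv (D.Gp δ) D.r.t D.r.t p - gv (D.Gp δ) D.r.t D.r.w p * gv (D.Gp δ) D.r.t D.r.w p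
      * iG' = (1 - δ) * D.V p ^ 2 * D.Mg p := by
    rw [e1, e2, hiG']
    have : D.Mg p = gtt - gtw * gtw * D.ig p := rfl
    rw [this]
    field_simp
    ring
  -- the components of `G`
  have f1 : d.Gtt S D.ρ p = gv G D.r.t D.r.t p := by
    rw [hG, gv_G, ← dot_dirv]
    simp only [TData.Gtt, TData.Ett, TData.Xt, TData.ψt, hdr]
  have f2 : d.Gtw S D.ρ p = gv G D.r.t D.r.w p := by
    rw [hG, gv_G, ← dot_dirv]
    simp only [TData.Gtw, TData.Etw, TData.Xt, TData.Xw, TData.ψt, TData.ψw, hdr]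
  have f3 : d.Gww S D.ρ p = gv G D.r.w D.r.w p := by
    rw [hG, gv_G, ← dot_dirv]
    simp only [TData.Gww, TData.Eww, TData.Xw, TData.ψw, hdr]
  have f4 : d.iG p * gv G D.r.w D.r.w p = 1 := by rw [← f3]; exact hiG p hp
  have f5 : d.M2 S D.ρ p = gv G D.r.t D.r.t p - gv G D.r.t D.r.w p * gv G D.r.t D.r.w p
      * d.iG p := by
    simp only [TData.M2, f1, f2]
  -- differences
  have dn : ∀ c c' : κ → P → ℂ, (∀ j, ‖c j p‖ ≤ B) → (∀ j, ‖c' j p‖ ≤ B) →
      ‖gv G c c' p - gv (D.Gp δ) c c' p‖ ≤ N * η := fun c c' hc hc' => by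
    rw [← gv_sub]
    exact gv_norm_le hB0.le hη hc hc' fun j k => hdG j k p
  have d1 := dn _ _ (ht p) (ht p)
  have d2 := dn _ _ (ht p) (hw p)
  have d3 := dn _ _ (hw p) (hw p)
  have g2 : ‖gv (D.Gp δ) D.r.t D.r.w p‖ ≤ L := by
    refine (gv_norm_le hB0.le (by linarith) (ht p) (hw p) fun j k => hGp j k p).trans ?_
    rw [hL]
    linarith
  have g3 : ‖gv G D.r.t D.r.w p‖ ≤ L := by
    have h1 : ‖gv (D.Gp δ) D.r.t D.r.w p‖ ≤ N * B1 :=
      gv_norm_le hB0.le (by linarith) (ht p) (hw p) fun j k => hGp j k p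
    have h2 : ‖gv G D.r.t D.r.w p‖ ≤ ‖gv G D.r.t D.r.w p - gv (D.Gp δ) D.r.t D.r.w p‖
        + ‖gv (D.Gp δ) D.r.t D.r.w p‖ := by
      have := norm_add_le (gv G D.r.t D.r.w p - gv (D.Gp δ) D.r.t D.r.w p)
        (gv (D.Gp δ) D.r.t D.r.w p)
      simpa using this
    have h3 : N * η ≤ N := by
      have := mul_le_mul_of_nonneg_left hη1 hN0
      linarith
    rw [hL]
    linarith
  have g4 : ‖d.iG p‖ ≤ 1 / c0 := by
    have h1 : c0 ≤ ‖gv G D.r.w D.r.w p‖ := by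
      refine le_trans ?_ (Complex.re_le_norm _)
      rw [hG, gv_G, Complex.add_re]
      have h2 := hE p hp
      have h3 : 0 ≤ ((D.ρ : ℂ) ^ 2 * (S.dir D.r.w d.ψ p * S.dir D.r.w d.ψ p)).re := by
        have h4 : (S.dir D.r.w d.ψ p).im = 0 := by
          rw [hdψ]; exact Rl.dir D.ray.rw' D.smψ D.rψ p
        have h5 : ((D.ρ : ℂ) ^ 2 * (S.dir D.r.w d.ψ p * S.dir D.r.w d.ψ p)).re =
            D.ρ ^ 2 * (S.dir D.r.w d.ψ p).re ^ 2 := by
          rw [← Complex.ofReal_pow, Complex.re_ofReal_mul, Complex.mul_re, h4]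
          ring
        rw [h5]
        (clear * -; positivity)
      linarith
    have h2 : ‖d.iG p‖ * ‖gv G D.r.w D.r.w p‖ = 1 := by rw [← norm_mul, f4, norm_one]
    rw [le_div_iff₀ hc0]
    calc _ ≤ ‖d.iG p‖ * ‖gv G D.r.w D.r.w p‖ := mul_le_mul_of_nonneg_left h1 (norm_nonneg _)
      _ = 1 := h2
  have g5 : ‖iG'‖ ≤ 2 * Bi := by
    rw [hiG', norm_div]
    have h1 : ‖(1 - δ : ℂ)‖ = 1 - δ := by
      rw [show (1 - δ : ℂ) = ((1 - δ : ℝ) : ℂ) by push_cast; ring, Complex.norm_real,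
        Real.norm_eq_abs, abs_of_nonneg (by linarith)]
    rw [h1, div_le_iff₀ (by linarith)]
    have h2 : ‖D.ig p‖ ≤ Bi := bi () p
    (by_contra nlg; linarith only [nlg, mul_nonneg (sub_nonneg.2 hη) (sub_nonneg.2 h2), mul_nonneg (sub_nonneg.2 hη1) (sub_nonneg.2 h2), mul_nonneg (sub_nonneg.2 hδ) (sub_nonneg.2 hη), mul_nonneg (sub_nonneg.2 hδ) (sub_nonneg.2 hη1), mul_nonneg (sub_nonneg.2 hBi) (sub_nonneg.2 hη), mul_nonneg (sub_nonneg.2 hBi) (sub_nonneg.2 hη1), mul_nonneg (sub_nonneg.2 hBi) (sub_nonneg.2 hδ), mul_nonneg (le_of_lt (sub_pos.2 (not_le.1 nlg))) (sub_nonneg.2 hη), mul_nonneg (le_of_lt (sub_pos.2 (not_le.1 nlg))) (sub_nonneg.2 hη1)])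
  -- `M2`
  have m1 : ‖d.M2 S D.ρ p - (1 - δ) * D.V p ^ 2 * D.Mg p‖ ≤
      N * η * (1 + 2 * L / c0 + 2 * L ^ 2 * Bi / c0) := by
    rw [f5, ← e5]
    refine (M2_norm f4 e4 (by (clear * - hBt hBw hBr hη; positivity)) hL0 (by positivity) (by positivity) d1 d2 d3 g3 g2 g4
      g5).trans (le_of_eq ?_)
    ring
  have hiv2 : d.iv p ^ 2 * D.V p ^ 2 = 1 := by
    rw [← mul_pow, hiv p hp, one_pow]
  have m2 : ‖d.iv p ^ 2 - 1‖ ≤ 5 := iv_norm (hiv p hp) (D.V2 p)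
  have key : d.Q S D.ρ j k p - (1 - δ) * g j k p = (G j k p - D.Gp δ j k p)
      + (d.iv p ^ 2 - 1) * (d.M2 S D.ρ p - (1 - δ) * D.V p ^ 2 * D.Mg p)
        * (S.D j D.r.Ψ p * S.D k D.r.Ψ p) := by
    simp only [TData.Q, hG, Gp, hdr]
    linear_combination ((1 - δ : ℂ) * D.Mg p * (S.D j D.r.Ψ p * S.D k D.r.Ψ p)) * hiv2
  rw [key]
  refine (fin_norm (hdG j k p) m2 m1 (hr p j) (hr p k)).trans (le_of_eq ?_)
  ring

end SlowD

end Vale.Agent.P205.TW
end
end
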