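import Mathlib
import Vale.Agent.P205.Bdl.B1

set_option linter.all false

section

/-!
A smooth function with bounded derivatives which is the inverse square root on `[1, ∞)`, and the
inverse square root of a family bounded below on a set.
-/

noncomputable section

open scoped ContDiff

namespace Vale.Agent.P205.F

/-- equal to `y` for `y ≥ 1`, at least `1/2` -/
def kf (y : ℝ) : ℝ := 1 / 2 + (y - 1 / 2) * Real.smoothTransition (4 * y - 3)

theorem kf_of_one_le {y : ℝ} (hy : 1 ≤ y) : kf y = y := by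
  unfold kf
  rw [Real.smoothTransition.one_of_one_le (by linarith)]
  ring

theorem kf_of_le {y : ℝ} (hy : y ≤ 3 / 4) : kf y = 1 / 2 := by
  unfold kf
  rw [Real.smoothTransition.zero_of_nonpos (by linarith)]
  ring

theorem half_le_kf (y : ℝ) : 1 / 2 ≤ kf y := by
  rcases le_total y (3 / 4) with h | h
  · rw [kf_of_le h]
  · unfold kf
    have h1 := Real.smoothTransition.nonneg (4 * y - 3)
    have h2 : 0 ≤ (y - 1 / 2) * Real.smoothTransition (4 * y - 3) :=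
      mul_nonneg (by linarith [h]) h1
    linarith only [h2]

theorem kf_smooth : ContDiff ℝ ∞ kf := by
  unfold kf
  have h1 : ContDiff ℝ ∞ (fun y : ℝ => Real.smoothTransition (4 * y - 3)) :=
    Real.smoothTransition.contDiff.comp ((contDiff_const.mul contDiff_id).sub contDiff_const)
  exact contDiff_const.add ((contDiff_id.sub contDiff_const).mul h1)

/-- derivative of `kf` as a complex function -/
def kg (y : ℝ) : ℂ := ((deriv kf y : ℝ) : ℂ)

theorem kf'_smooth : ContDiff ℝ ∞ (deriv kf) := by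
  have h2 := kf_smooth
  rw [show (∞ : WithTop ℕ∞) = ∞ + 1 from rfl] at h2
  exact (contDiff_succ_iff_deriv.1 h2).2.2

theorem kg_smooth : ContDiff ℝ ∞ kg := Complex.ofRealCLM.contDiff.comp kf'_smooth

theorem kf'_of_lt {y : ℝ} (hy : y < 3 / 4) : deriv kf y = 0 := by
  have h : kf =ᶠ[nhds y] fun _ => 1 / 2 := by
    filter_upwards [Iio_mem_nhds hy] with z hz
    exact kf_of_le (le_of_lt hz)
  rw [h.deriv_eq]
  exact deriv_const y _

theorem kf'_of_gt {y : ℝ} (hy : 1 < y) : deriv kf y = 1 := by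
  have h : kf =ᶠ[nhds y] fun z => z := by
    filter_upwards [Ioi_mem_nhds hy] with z hz
    exact kf_of_one_le (le_of_lt hz)
  rw [h.deriv_eq]
  exact deriv_id y

theorem kg_bf : BF kg := by
  have hc : HasCompactSupport (deriv kg) := by
    refine HasCompactSupport.intro (isCompact_Icc (a := (3 / 4 : ℝ)) (b := 1)) fun y hy => ?_
    rw [Set.mem_Icc, not_and_or, not_le, not_le] at hy
    rcases hy with hy | hy
    · have h : kg =ᶠ[nhds y] fun _ => 0 := by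
        filter_upwards [Iio_mem_nhds hy] with z hz
        unfold kg
        rw [kf'_of_lt hz]
        simp
      rw [h.deriv_eq]
      exact deriv_const y _
    · have h : kg =ᶠ[nhds y] fun _ => 1 := by
        filter_upwards [Ioi_mem_nhds hy] with z hz
        unfold kg
        rw [kf'_of_gt hz]
        simp
      rw [h.deriv_eq]
      exact deriv_const y _
  obtain ⟨B, hB⟩ := (isCompact_Icc (a := (3 / 4 : ℝ)) (b := 1)).exists_bound_of_continuousOn
    (f := kg) kg_smooth.continuous.continuousOn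
  refine BF.of_deriv_compact kg_smooth hc (B := max B 1) fun y => ?_
  by_cases hy : y ∈ Set.Icc (3 / 4 : ℝ) 1
  · exact (hB y hy).trans (le_max_left _ _)
  · rw [Set.mem_Icc, not_and_or, not_le, not_le] at hy
    refine le_trans ?_ (le_max_right _ _)
    rcases hy with hy | hy
    · unfold kg
      rw [kf'_of_lt hy]
      simp
    · unfold kg
      rw [kf'_of_gt hy]
      simp

/-- inverse square root on `[1, ∞)` -/
def kh (y : ℝ) : ℝ := (Real.sqrt (kf y))⁻¹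

theorem kf_pos (y : ℝ) : 0 < kf y := lt_of_lt_of_le (by norm_num) (half_le_kf y)

theorem kh_smooth : ContDiff ℝ ∞ kh := by
  unfold kh
  exact (kf_smooth.sqrt fun y => (kf_pos y).ne').inv fun y => (Real.sqrt_pos.2 (kf_pos y)).ne'

/-- complex version -/
def kH (y : ℝ) : ℂ := ((kh y : ℝ) : ℂ)

theorem kH_smooth : ContDiff ℝ ∞ kH := Complex.ofRealCLM.contDiff.comp kh_smooth

theorem kH_deriv : deriv kH = fun y => (-1 / 2 : ℂ) * (kg y * (kH y * (kH y * kH y))) := by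
  funext y
  have h0 := kf_pos y
  have hs : Real.sqrt (kf y) ≠ 0 := (Real.sqrt_pos.2 h0).ne'
  have h1 : HasDerivAt kf (deriv kf y) y :=
    (kf_smooth.differentiable (by simp) y).hasDerivAt
  have h2 : HasDerivAt kh (-(deriv kf y / (2 * Real.sqrt (kf y))) / (Real.sqrt (kf y)) ^ 2) y :=
    (h1.sqrt h0.ne').inv hs
  have h3 : HasDerivAt kH
      (((-(deriv kf y / (2 * Real.sqrt (kf y))) / (Real.sqrt (kf y)) ^ 2 : ℝ)) : ℂ) y :=
    h2.ofReal_comp
  rw [h3.deriv]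
  have e : (-(deriv kf y / (2 * Real.sqrt (kf y))) / (Real.sqrt (kf y)) ^ 2 : ℝ)
      = (-1 / 2) * (deriv kf y * (kh y * (kh y * kh y))) := by
    unfold kh
    field_simp
  rw [e]
  unfold kg kH
  push_cast
  ring

theorem kH_norm_le (y : ℝ) : ‖kH y‖ ≤ 2 := by
  unfold kH kh
  rw [Complex.norm_real, Real.norm_eq_abs, abs_of_nonneg (inv_nonneg.2 (Real.sqrt_nonneg _))]
  rw [inv_le_comm₀ (Real.sqrt_pos.2 (kf_pos y)) (by norm_num)]
  rw [Real.le_sqrt' (by norm_num)]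
  have := half_le_kf y
  linarith

theorem kH_bf : BF kH := by
  intro k
  induction k with
  | zero =>
    exact ⟨2, fun j hj x => by
      have : j = 0 := by omega
      subst this
      rw [iteratedDeriv_zero]
      exact kH_norm_le x⟩
  | succ k ih =>
    obtain ⟨B, hB⟩ := ih
    obtain ⟨C, hC⟩ := kg_bf k
    obtain ⟨A1, h1⟩ := hB.mul kH_smooth kH_smooth hB
    obtain ⟨A2, h2⟩ := hB.mul kH_smooth (kH_smooth.mul kH_smooth) h1
    obtain ⟨A3, h3⟩ := hC.mul kg_smooth (kH_smooth.mul (kH_smooth.mul kH_smooth)) h2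
    obtain ⟨D, hD⟩ := BF.const (-1 / 2 : ℂ) k
    obtain ⟨A4, h4⟩ := hD.mul contDiff_const
      (kg_smooth.mul (kH_smooth.mul (kH_smooth.mul kH_smooth))) h3
    refine ⟨_, BFn.of_deriv kH_norm_le (C := A4) ?_⟩
    rw [kH_deriv]
    exact h4

theorem kH_sq {y : ℝ} (hy : 1 ≤ y) : kH y ^ 2 * (y : ℂ) = 1 := by
  unfold kH kh
  rw [kf_of_one_le hy]
  have h0 : (0 : ℝ) < y := by linarith
  have h : (Real.sqrt y)⁻¹ ^ 2 * y = 1 := by
    rw [inv_pow, Real.sq_sqrt h0.le]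
    exact inv_mul_cancel₀ h0.ne'
  exact_mod_cast h

theorem kH_im (y : ℝ) : (kH y).im = 0 := Complex.ofReal_im _

variable {P κ : Type*} {S : DAlg P κ} {ι : Type*} {μ L s : ι → ℝ} {u : ι → P → ℂ}

/-- inverse square root of a real family `u = O(s)` with `1 / L ≤ u` on `K`:
`σ = O(√L)` at scale `L s μ` and `σ² u = 1` on `K` -/
theorem DAlg.FO.exists_invSqrt (hu : S.FO μ s u) (hμ : ∀ i, 0 ≤ μ i) (hL : ∀ i, 1 ≤ L i)
    (hs : ∀ i, 1 ≤ s i) (hr : ∀ i, Rl (u i)) (K : ι → Set P)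
    (hK : ∀ i, ∀ p ∈ K i, 1 / L i ≤ (u i p).re) :
    ∃ σ : ι → P → ℂ, (∀ i, Rl (σ i)) ∧ S.FO (fun i => μ i * (L i * s i)) L σ ∧
      ∀ i, ∀ p ∈ K i, σ i p ^ 2 * u i p = 1 := by
  have hLs : ∀ i, 1 ≤ L i * s i := fun i => one_le_mul_of_one_le_of_one_le (hL i) (hs i)
  have hu1 : S.FO μ (fun i => L i * s i) (fun i p => (L i : ℂ) * u i p) :=
    DAlg.FO.real_mul (fun i => by linarith [hL i]) hu
  have hr1 : ∀ i, Rl (fun p => (L i : ℂ) * u i p) := fun i =>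
    Rl.smul (Complex.ofReal_im _) (hr i)
  have h1 := DAlg.FO.comp kH_smooth kH_bf hu1 hμ hLs hr1
  have hsq : ∀ i, 0 ≤ Real.sqrt (L i) := fun i => Real.sqrt_nonneg _
  have h2 := DAlg.FO.real_mul (r := fun i => Real.sqrt (L i)) hsq h1
  refine ⟨fun i p => ((Real.sqrt (L i) : ℝ) : ℂ) * kH ((L i : ℂ) * u i p).re, fun i => ?_, ?_,
    fun i p hp => ?_⟩
  · exact Rl.smul (Complex.ofReal_im _) fun p => kH_im _
  · refine h2.mono_s' (fun i => ?_) fun i =>
      mul_nonneg (hμ i) (by linarith [hLs i])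
    rw [mul_one]
    have := hL i
    rw [Real.sqrt_le_left (by linarith)]
    (by_contra nlg; linarith [mul_pos (sub_pos.2 (not_le.1 nlg)) (sub_pos.2 (not_le.1 nlg)), mul_nonneg (sq_nonneg (L i : ℝ)) (sub_nonneg.2 this), mul_nonneg (sq_nonneg (L i : ℝ)) (le_of_lt (sub_pos.2 (not_le.1 nlg)))])
  · have hLi : (0 : ℝ) < L i := by linarith [hL i]
    have h3 := hK i p hp
    have h4 : u i p = ((u i p).re : ℂ) := (Rl.ofReal_re (hr i) p).symm
    have h5 : ((L i : ℂ) * u i p).re = L i * (u i p).re := by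
      rw [Complex.re_ofReal_mul]
    have h6 : 1 ≤ L i * (u i p).re := by
      rw [div_le_iff₀ hLi] at h3
      linarith
    have h7 := kH_sq h6
    have h8 : (((Real.sqrt (L i) : ℝ) : ℂ)) ^ 2 = ((L i : ℝ) : ℂ) := by
      rw [← Complex.ofReal_pow, Real.sq_sqrt hLi.le]
    change (((Real.sqrt (L i) : ℝ) : ℂ) * kH ((L i : ℂ) * u i p).re) ^ 2 * u i p = 1
    rw [h5, mul_pow, h8]
    calc ((L i : ℝ) : ℂ) * kH (L i * (u i p).re) ^ 2 * u i p
        = kH (L i * (u i p).re) ^ 2 * (((L i : ℝ) : ℂ) * u i p) := by ring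
      _ = kH (L i * (u i p).re) ^ 2 * ((L i * (u i p).re : ℝ) : ℂ) := by
          rw [Complex.ofReal_mul, ← h4]
      _ = 1 := h7

end Vale.Agent.P205.F
end
end

section

/-!
The moving frame with bounds (P205).
-/

set_option linter.all false

namespace Vale.Agent.P205.F

universe u

variable {P : Type u} {κ : Type} (S : DAlg P κ)

namespace DAlg


/-- polynomial bounds: `u = O(Λ ^ d)` at scale `μ` -/
def PO {ι : Type*} (μ Λ : ι → ℝ) (d : ℕ) (u : ι → P → ℂ) : Prop :=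
  S.FO μ (fun i => Λ i ^ d) u

section
variable {ι : Type*} {μ Λ : ι → ℝ} (hμ : ∀ i, 1 ≤ μ i) (hΛ : ∀ i, 1 ≤ Λ i)
include hμ hΛ

theorem PO.mono {d d' : ℕ} {u : ι → P → ℂ} (hd : d ≤ d') (h : S.PO μ Λ d u) :
    S.PO μ Λ d' u :=
  DAlg.FO.mono_s' h (fun i => pow_le_pow_right₀ (hΛ i) hd)
    (fun i => zero_le_one.trans (hμ i))

theorem PO.mul {d d' : ℕ} {u v : ι → P → ℂ} (h : S.PO μ Λ d u) (h' : S.PO μ Λ d' v) :
    S.PO μ Λ (d + d') (fun i => u i * v i) := by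
  have := DAlg.FO.mul h h'
  simpa only [PO, pow_add] using this

end

section
variable {ι : Type*} {μ Λ : ι → ℝ}

theorem PO.add {d : ℕ} {u v : ι → P → ℂ} (h : S.PO μ Λ d u) (h' : S.PO μ Λ d v) :
    S.PO μ Λ d (fun i => u i + v i) := DAlg.FO.add h h'

theorem PO.sub {d : ℕ} {u v : ι → P → ℂ} (h : S.PO μ Λ d u) (h' : S.PO μ Λ d v) :
    S.PO μ Λ d (fun i => u i - v i) := DAlg.FO.sub h h'

theorem PO.neg {d : ℕ} {u : ι → P → ℂ} (h : S.PO μ Λ d u) :
    S.PO μ Λ d (fun i => - u i) := DAlg.FO.neg h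

end

section
variable {ι : Type*} {μ Λ : ι → ℝ} (hμ : ∀ i, 1 ≤ μ i) (hΛ : ∀ i, 1 ≤ Λ i)
include hμ hΛ

theorem PO.dot {d d' : ℕ} {X Y : ι → Fin 4 → P → ℂ} (hX : ∀ a, S.PO μ Λ d (fun i => X i a))
    (hY : ∀ a, S.PO μ Λ d' (fun i => Y i a)) :
    S.PO μ Λ (d + d') (fun i => dot (X i) (Y i)) := by
  simp only [dot_eq]
  exact PO.add S (PO.add S (PO.add S (PO.mul S hμ hΛ (hX 0) (hY 0))
    (PO.mul S hμ hΛ (hX 1) (hY 1))) (PO.mul S hμ hΛ (hX 2) (hY 2)))
    (PO.mul S hμ hΛ (hX 3) (hY 3))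

variable {X Y Z : ι → Fin 4 → P → ℂ} (hX : ∀ a, S.PO μ Λ 1 (fun i => X i a))
  (hY : ∀ a, S.PO μ Λ 1 (fun i => Y i a)) (hZ : ∀ a, S.PO μ Λ 1 (fun i => Z i a))
include hX hY hZ

theorem PO.gr : S.PO μ Λ 6 (fun i => gr (X i) (Y i) (Z i)) := by
  have dXX := PO.dot S hμ hΛ hX hX
  have dYY := PO.dot S hμ hΛ hY hY
  have dZZ := PO.dot S hμ hΛ hZ hZ
  have dXY := PO.dot S hμ hΛ hX hY
  have dXZ := PO.dot S hμ hΛ hX hZ
  have dYZ := PO.dot S hμ hΛ hY hZ
  simp only [F.gr, two_mul]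
  have m3 := fun {u v w : ι → P → ℂ} (h1 : S.PO μ Λ 2 u) (h2 : S.PO μ Λ 2 v)
    (h3 : S.PO μ Λ 2 w) => PO.mul S hμ hΛ h1 (PO.mul S hμ hΛ h2 h3)
  have m3' := fun {u v w : ι → P → ℂ} (h1 : S.PO μ Λ 2 u) (h2 : S.PO μ Λ 2 v)
    (h3 : S.PO μ Λ 2 w) => PO.mul S hμ hΛ (PO.mul S hμ hΛ h1 h2) h3
  exact PO.sub S (PO.sub S (PO.sub S (PO.add S (m3' dXX dYY dZZ)
    (PO.add S (m3' dXY dYZ dXZ) (m3' dXY dYZ dXZ))) (m3 dXX dYZ dYZ)) (m3 dYY dXZ dXZ))
    (m3 dZZ dXY dXY)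

theorem PO.cr4 (a : Fin 4) : S.PO μ Λ 3 (fun i => cr4 (X i) (Y i) (Z i) a) := by
  have m1 := fun (a b c : Fin 4) => PO.mul S hμ hΛ (hX a)
    (PO.sub S (PO.mul S hμ hΛ (hY b) (hZ c)) (PO.mul S hμ hΛ (hY c) (hZ b)))
  fin_cases a
  · exact PO.add S (PO.sub S (m1 1 2 3) (m1 2 1 3)) (m1 3 1 2)
  · exact PO.neg S (PO.add S (PO.sub S (m1 0 2 3) (m1 2 0 3)) (m1 3 0 2))
  · exact PO.add S (PO.sub S (m1 0 1 3) (m1 1 0 3)) (m1 3 0 1)
  · exact PO.neg S (PO.add S (PO.sub S (m1 0 1 2) (m1 1 0 2)) (m1 2 0 1))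

omit hX hY hZ in
theorem PO.lc3 {d : ℕ} {A B C : ι → P → ℂ} (hA : S.PO μ Λ d A) (hB : S.PO μ Λ d B)
    (hC : S.PO μ Λ d C) (hX : ∀ a, S.PO μ Λ 1 (fun i => X i a))
    (hY : ∀ a, S.PO μ Λ 1 (fun i => Y i a)) (hZ : ∀ a, S.PO μ Λ 1 (fun i => Z i a))
    (a : Fin 4) :
    S.PO μ Λ (d + 1) (fun i => lc3 (A i) (B i) (C i) (X i) (Y i) (Z i) a) :=
  PO.add S (PO.add S (PO.mul S hμ hΛ hA (hX a)) (PO.mul S hμ hΛ hB (hY a)))
    (PO.mul S hμ hΛ hC (hZ a))

omit hX hY hZ in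
theorem PO.dd {X1 X2 X3 X4 Y1 Y2 Y3 Y4 : ι → Fin 4 → P → ℂ}
    (h1 : ∀ a, S.PO μ Λ 1 (fun i => X1 i a)) (h2 : ∀ a, S.PO μ Λ 1 (fun i => X2 i a))
    (h3 : ∀ a, S.PO μ Λ 1 (fun i => X3 i a)) (h4 : ∀ a, S.PO μ Λ 1 (fun i => X4 i a))
    (h5 : ∀ a, S.PO μ Λ 1 (fun i => Y1 i a)) (h6 : ∀ a, S.PO μ Λ 1 (fun i => Y2 i a))
    (h7 : ∀ a, S.PO μ Λ 1 (fun i => Y3 i a)) (h8 : ∀ a, S.PO μ Λ 1 (fun i => Y4 i a)) :
    S.PO μ Λ 4 (fun i => F.dot (X1 i) (X2 i) * F.dot (X3 i) (X4 i)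
      - F.dot (Y1 i) (Y2 i) * F.dot (Y3 i) (Y4 i)) :=
  PO.sub S (PO.mul S hμ hΛ (PO.dot S hμ hΛ h1 h2) (PO.dot S hμ hΛ h3 h4))
    (PO.mul S hμ hΛ (PO.dot S hμ hΛ h5 h6) (PO.dot S hμ hΛ h7 h8))

theorem PO.cf1 (a : Fin 4) : S.PO μ Λ 5 (fun i => cf1 (X i) (Y i) (Z i) a) :=
  PO.lc3 S hμ hΛ (PO.dd S hμ hΛ hY hY hZ hZ hY hZ hY hZ)
    (PO.dd S hμ hΛ hX hZ hY hZ hX hY hZ hZ) (PO.dd S hμ hΛ hX hY hY hZ hX hZ hY hY)
    hX hY hZ a

theorem PO.cf2 (a : Fin 4) : S.PO μ Λ 5 (fun i => cf2 (X i) (Y i) (Z i) a) :=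
  PO.lc3 S hμ hΛ (PO.dd S hμ hΛ hX hZ hY hZ hX hY hZ hZ)
    (PO.dd S hμ hΛ hX hX hZ hZ hX hZ hX hZ) (PO.dd S hμ hΛ hX hZ hX hY hX hX hY hZ)
    hX hY hZ a

theorem PO.cf3 (a : Fin 4) : S.PO μ Λ 5 (fun i => cf3 (X i) (Y i) (Z i) a) :=
  PO.lc3 S hμ hΛ (PO.dd S hμ hΛ hX hY hY hZ hX hZ hY hY)
    (PO.dd S hμ hΛ hX hZ hX hY hX hX hY hZ) (PO.dd S hμ hΛ hX hX hY hY hX hY hX hY)
    hX hY hZ a

end

/-- the moving frame along `K` -/
structure FrameOn (K : Set P) (X Y Z E N P1 P2 : Fin 4 → P → ℂ) : Prop where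
  EE : ∀ p ∈ K, dot E E p = 1
  EX : ∀ p, dot E X p = 0
  EY : ∀ p, dot E Y p = 0
  EZ : ∀ p, dot E Z p = 0
  PX : ∀ p ∈ K, dot P1 X p = 1
  PY : ∀ p, dot P1 Y p = 0
  PZ : ∀ p, dot P1 Z p = 0
  QX : ∀ p, dot P2 X p = 0
  QY : ∀ p ∈ K, dot P2 Y p = 1
  QZ : ∀ p, dot P2 Z p = 0
  NX : ∀ p, dot N X p = 0
  NY : ∀ p, dot N Y p = 0
  NZ : ∀ p ∈ K, dot N Z p = 1
  PE : ∀ p, dot P1 E p = 0
  QE : ∀ p, dot P2 E p = 0
  NE : ∀ p, dot N E p = 0

theorem frame {ι : Type*} {μ Λ : ι → ℝ} (hμ : ∀ i, 1 ≤ μ i) (hΛ : ∀ i, 1 ≤ Λ i)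
    {X Y Z : ι → Fin 4 → P → ℂ} (hX : ∀ a, S.FO μ Λ (fun i => X i a))
    (hY : ∀ a, S.FO μ Λ (fun i => Y i a)) (hZ : ∀ a, S.FO μ Λ (fun i => Z i a))
    (rX : ∀ i a, Rl (X i a)) (rY : ∀ i a, Rl (Y i a)) (rZ : ∀ i a, Rl (Z i a))
    (K : ι → Set P) (hK : ∀ i, ∀ p ∈ K i, 1 / Λ i ≤ (gr (X i) (Y i) (Z i) p).re) :
    ∃ E N P1 P2 : ι → Fin 4 → P → ℂ,
      (∀ a, S.FO (fun i => μ i * Λ i ^ 12) (fun i => Λ i ^ 17) (fun i => E i a)) ∧
      (∀ a, S.FO (fun i => μ i * Λ i ^ 12) (fun i => Λ i ^ 17) (fun i => N i a)) ∧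
      (∀ a, S.FO (fun i => μ i * Λ i ^ 12) (fun i => Λ i ^ 17) (fun i => P1 i a)) ∧
      (∀ a, S.FO (fun i => μ i * Λ i ^ 12) (fun i => Λ i ^ 17) (fun i => P2 i a)) ∧
      (∀ i a, Rl (E i a) ∧ Rl (N i a) ∧ Rl (P1 i a) ∧ Rl (P2 i a)) ∧
      ∀ i, FrameOn (K i) (X i) (Y i) (Z i) (E i) (N i) (P1 i) (P2 i) := by
  have hX' : ∀ a, S.PO μ Λ 1 (fun i => X i a) := fun a => by
    simpa only [PO, pow_one] using hX a
  have hY' : ∀ a, S.PO μ Λ 1 (fun i => Y i a) := fun a => by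
    simpa only [PO, pow_one] using hY a
  have hZ' : ∀ a, S.PO μ Λ 1 (fun i => Z i a) := fun a => by
    simpa only [PO, pow_one] using hZ a
  have rmul : ∀ {u v : P → ℂ}, Rl u → Rl v → Rl (u * v) := fun {u v} h h' p => by
    simp [Complex.mul_im, h p, h' p]
  have radd : ∀ {u v : P → ℂ}, Rl u → Rl v → Rl (u + v) := fun {u v} h h' p => by
    simp [h p, h' p]
  have rsub : ∀ {u v : P → ℂ}, Rl u → Rl v → Rl (u - v) := fun {u v} h h' p => by
    simp [h p, h' p]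
  have rneg : ∀ {u : P → ℂ}, Rl u → Rl (-u) := fun {u} h p => by
    simp [h p]
  have rdot : ∀ {V W : Fin 4 → P → ℂ}, (∀ a, Rl (V a)) → (∀ a, Rl (W a)) →
      Rl (dot V W) := fun {V W} h h' => by
    rw [dot_eq]
    exact radd (radd (radd (rmul (h 0) (h' 0)) (rmul (h 1) (h' 1))) (rmul (h 2) (h' 2)))
      (rmul (h 3) (h' 3))
  have rgr : ∀ i, Rl (F.gr (X i) (Y i) (Z i)) := fun i => by
    have a1 := rdot (rX i) (rX i)
    have a2 := rdot (rY i) (rY i)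
    have a3 := rdot (rZ i) (rZ i)
    have a4 := rdot (rX i) (rY i)
    have a5 := rdot (rX i) (rZ i)
    have a6 := rdot (rY i) (rZ i)
    have h2 : Rl (2 : P → ℂ) := fun p => by simp
    exact rsub (rsub (rsub (radd (rmul (rmul a1 a2) a3) (rmul h2 (rmul (rmul a4 a6) a5)))
      (rmul a1 (rmul a6 a6))) (rmul a2 (rmul a5 a5))) (rmul a3 (rmul a4 a4))
  have hb : ∀ i, 1 ≤ Λ i ^ 6 := fun i => one_le_pow₀ (hΛ i)
  have hK' : ∀ i, ∀ p ∈ K i, 1 / Λ i ^ 6 ≤ (F.gr (X i) (Y i) (Z i) p).re := by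
    intro i p hp
    refine le_trans ?_ (hK i p hp)
    exact one_div_le_one_div_of_le (zero_lt_one.trans_le (hΛ i))
      (le_self_pow₀ (hΛ i) (by norm_num))
  obtain ⟨q, rq, fq, eq⟩ := DAlg.FO.exists_invSqrt (PO.gr S hμ hΛ hX' hY' hZ')
    (fun i => zero_le_one.trans (hμ i)) hb hb rgr K hK'
  have hμ' : ∀ i, 1 ≤ μ i * Λ i ^ 12 := fun i =>
    one_le_mul_of_one_le_of_one_le (hμ i) (one_le_pow₀ (hΛ i))
  have hle : ∀ i, μ i ≤ μ i * Λ i ^ 12 := fun i =>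
    le_mul_of_one_le_right (zero_le_one.trans (hμ i)) (one_le_pow₀ (hΛ i))
  have hup : ∀ {d : ℕ} {u : ι → P → ℂ}, S.PO μ Λ d u →
      S.PO (fun i => μ i * Λ i ^ 12) Λ d u := fun {d u} h =>
    DAlg.FO.mono_mu h hle (fun i => zero_le_one.trans (hμ i))
      (fun i => pow_nonneg (zero_le_one.trans (hΛ i)) d)
  have fq' : S.PO (fun i => μ i * Λ i ^ 12) Λ 6 q := by
    have : (fun i => μ i * (Λ i ^ 6 * Λ i ^ 6)) = fun i => μ i * Λ i ^ 12 := by
      funext i; ring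
    rw [this] at fq
    exact fq
  have fv' : S.PO (fun i => μ i * Λ i ^ 12) Λ 12 (fun i => q i * q i) :=
    PO.mul S hμ' hΛ fq' fq'
  have hcf : ∀ {V : ι → Fin 4 → P → ℂ}, (∀ a, S.PO μ Λ 5 (fun i => V i a)) →
      ∀ a, S.FO (fun i => μ i * Λ i ^ 12) (fun i => Λ i ^ 17) (fun i => (q i * q i) * V i a) :=
    fun {V} h a => PO.mono S hμ' hΛ (by norm_num) (PO.mul S hμ' hΛ fv' (hup (h a)))
  have rlc : ∀ i {A B C : P → ℂ}, Rl A → Rl B → Rl C → ∀ a,
      Rl (lc3 A B C (X i) (Y i) (Z i) a) := fun i {A B C} hA hB hC a =>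
    radd (radd (rmul hA (rX i a)) (rmul hB (rY i a))) (rmul hC (rZ i a))
  have rcr : ∀ i a, Rl (F.cr4 (X i) (Y i) (Z i) a) := by
    intro i a
    have m1 := fun (a b c : Fin 4) => rmul (rX i a)
      (rsub (rmul (rY i b) (rZ i c)) (rmul (rY i c) (rZ i b)))
    fin_cases a
    · exact radd (rsub (m1 1 2 3) (m1 2 1 3)) (m1 3 1 2)
    · exact rneg (radd (rsub (m1 0 2 3) (m1 2 0 3)) (m1 3 0 2))
    · exact radd (rsub (m1 0 1 3) (m1 1 0 3)) (m1 3 0 1)
    · exact rneg (radd (rsub (m1 0 1 2) (m1 1 0 2)) (m1 2 0 1))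
  have rd : ∀ {X1 X2 X3 X4 Y1 Y2 Y3 Y4 : Fin 4 → P → ℂ}, (∀ a, Rl (X1 a)) →
      (∀ a, Rl (X2 a)) → (∀ a, Rl (X3 a)) → (∀ a, Rl (X4 a)) → (∀ a, Rl (Y1 a)) →
      (∀ a, Rl (Y2 a)) → (∀ a, Rl (Y3 a)) → (∀ a, Rl (Y4 a)) →
      Rl (dot X1 X2 * dot X3 X4 - dot Y1 Y2 * dot Y3 Y4) :=
    fun {_ _ _ _ _ _ _ _} h1 h2 h3 h4 h5 h6 h7 h8 =>
      rsub (rmul (rdot h1 h2) (rdot h3 h4)) (rmul (rdot h5 h6) (rdot h7 h8))
  have rv : ∀ i, Rl (q i * q i) := fun i => rmul (rq i) (rq i)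
  have ev : ∀ i, ∀ p ∈ K i, q i p * q i p * F.gr (X i) (Y i) (Z i) p = 1 := fun i p hp => by
    rw [← eq i p hp]; ring
  refine ⟨fun i a => q i * F.cr4 (X i) (Y i) (Z i) a,
    fun i a => (q i * q i) * F.cf3 (X i) (Y i) (Z i) a,
    fun i a => (q i * q i) * F.cf1 (X i) (Y i) (Z i) a,
    fun i a => (q i * q i) * F.cf2 (X i) (Y i) (Z i) a, ?_, ?_, ?_, ?_, ?_, ?_⟩
  · intro a
    exact PO.mono S hμ' hΛ (by norm_num)
      (PO.mul S hμ' hΛ fq' (hup (PO.cr4 S hμ hΛ hX' hY' hZ' a)))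
  · exact hcf (PO.cf3 S hμ hΛ hX' hY' hZ')
  · exact hcf (PO.cf1 S hμ hΛ hX' hY' hZ')
  · exact hcf (PO.cf2 S hμ hΛ hX' hY' hZ')
  · intro i a
    refine ⟨rmul (rq i) (rcr i a), rmul (rv i) ?_, rmul (rv i) ?_,
      rmul (rv i) ?_⟩
    · exact rlc i (rd (rX i) (rY i) (rY i) (rZ i) (rX i) (rZ i) (rY i) (rY i))
        (rd (rX i) (rZ i) (rX i) (rY i) (rX i) (rX i) (rY i) (rZ i))
        (rd (rX i) (rX i) (rY i) (rY i) (rX i) (rY i) (rX i) (rY i)) a
    · exact rlc i (rd (rY i) (rY i) (rZ i) (rZ i) (rY i) (rZ i) (rY i) (rZ i))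
        (rd (rX i) (rZ i) (rY i) (rZ i) (rX i) (rY i) (rZ i) (rZ i))
        (rd (rX i) (rY i) (rY i) (rZ i) (rX i) (rZ i) (rY i) (rY i)) a
    · exact rlc i (rd (rX i) (rZ i) (rY i) (rZ i) (rX i) (rY i) (rZ i) (rZ i))
        (rd (rX i) (rX i) (rZ i) (rZ i) (rX i) (rZ i) (rX i) (rZ i))
        (rd (rX i) (rZ i) (rX i) (rY i) (rX i) (rX i) (rY i) (rZ i)) a
  · intro i
    have zero : ∀ {u : P → ℂ}, u = 0 → ∀ p, u p = 0 := fun h p => by rw [h]; rfl
    have cfE : ∀ A B C : P → ℂ, dot (lc3 A B C (X i) (Y i) (Z i))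
        (F.cr4 (X i) (Y i) (Z i)) = 0 := fun A B C => by
      rw [dot_lc3, dot_comm (X i), dot_comm (Y i), dot_comm (Z i), cr4_X, cr4_Y, cr4_Z]
      ring
    refine ⟨?_, ?_, ?_, ?_, ?_, ?_, ?_, ?_, ?_, ?_, ?_, ?_, ?_, ?_, ?_, ?_⟩
    · intro p hp
      rw [dot_smul_left, dot_smul_right, cr4_sq]
      have e1 := ev i p hp
      simp only [Pi.mul_apply]
      rw [← e1]; ring
    · exact zero (by rw [dot_smul_left, cr4_X, mul_zero])
    · exact zero (by rw [dot_smul_left, cr4_Y, mul_zero])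
    · exact zero (by rw [dot_smul_left, cr4_Z, mul_zero])
    · intro p hp
      rw [dot_smul_left, cf1_X]; exact ev i p hp
    · exact zero (by rw [dot_smul_left, cf1_Y, mul_zero])
    · exact zero (by rw [dot_smul_left, cf1_Z, mul_zero])
    · exact zero (by rw [dot_smul_left, cf2_X, mul_zero])
    · intro p hp
      rw [dot_smul_left, cf2_Y]; exact ev i p hp
    · exact zero (by rw [dot_smul_left, cf2_Z, mul_zero])
    · exact zero (by rw [dot_smul_left, cf3_X, mul_zero])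
    · exact zero (by rw [dot_smul_left, cf3_Y, mul_zero])
    · intro p hp
      rw [dot_smul_left, cf3_Z]; exact ev i p hp
    · exact zero (by rw [dot_smul_left, dot_smul_right, F.cf1, cfE, mul_zero, mul_zero])
    · exact zero (by rw [dot_smul_left, dot_smul_right, F.cf2, cfE, mul_zero, mul_zero])
    · exact zero (by rw [dot_smul_left, dot_smul_right, F.cf3, cfE, mul_zero, mul_zero])

theorem gram3_eq (X Y Z : Fin 4 → P → ℂ) : gram3 X Y Z = F.gr X Y Z := by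
  funext p
  simp only [gram3, F.gr, Pi.sub_apply, Pi.add_apply, Pi.mul_apply, Pi.ofNat_apply]
  ring

/-- a constant factor in the frequency does not matter -/
theorem FO.mu_const {ι : Type*} {μ s : ι → ℝ} {A : ℝ} (hA : 1 ≤ A) {u : ι → P → ℂ}
    (hμ : ∀ i, 0 ≤ μ i) (hs : ∀ i, 0 ≤ s i) (h : S.FO (fun i => μ i * A) s u) :
    S.FO μ s u := by
  refine ⟨h.1, fun k => ?_⟩
  obtain ⟨C, hC, hb⟩ := h.2 k
  have hA0 : 0 ≤ A := zero_le_one.trans hA
  refine ⟨C * A ^ k, mul_nonneg hC (pow_nonneg hA0 k), fun i w hw p => ?_⟩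
  refine (hb i w hw p).trans ?_
  have h1 : A ^ w.length ≤ A ^ k := pow_le_pow_right₀ hA hw
  have h2 : 0 ≤ C * s i * μ i ^ w.length :=
    mul_nonneg (mul_nonneg hC (hs i)) (pow_nonneg (hμ i) _)
  calc C * s i * (μ i * A) ^ w.length = (C * s i * μ i ^ w.length) * A ^ w.length := by
        rw [mul_pow]; ring
    _ ≤ (C * s i * μ i ^ w.length) * A ^ k := mul_le_mul_of_nonneg_left h1 h2
    _ = C * A ^ k * s i * μ i ^ w.length := by ring

/-- a constant factor in the size does not matter -/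
theorem FO.s_const {ι : Type*} {μ : ι → ℝ} {A : ℝ} {u : ι → P → ℂ} (hA : 0 ≤ A)
    (h : S.FO μ (fun _ => A) u) : S.FO μ (fun _ => 1) u := by
  refine ⟨h.1, fun k => ?_⟩
  obtain ⟨C, hC, hb⟩ := h.2 k
  exact ⟨C * A, mul_nonneg hC hA, fun i => by rw [mul_one]; exact hb i⟩

/-- the frame for three vectors of size one with Gram determinant bounded below -/
theorem frameU {ι : Type*} {μ : ι → ℝ} {c0 : ℝ} (hμ : ∀ i, 1 ≤ μ i) (hc : 0 < c0)
    {X Y Z : ι → Fin 4 → P → ℂ} (hX : ∀ a, S.FO μ (fun _ => 1) (fun i => X i a))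
    (hY : ∀ a, S.FO μ (fun _ => 1) (fun i => Y i a))
    (hZ : ∀ a, S.FO μ (fun _ => 1) (fun i => Z i a))
    (rX : ∀ i a, Rl (X i a)) (rY : ∀ i a, Rl (Y i a)) (rZ : ∀ i a, Rl (Z i a))
    (K : ι → Set P) (hK : ∀ i, ∀ p ∈ K i, c0 ≤ (gr (X i) (Y i) (Z i) p).re) :
    ∃ E N P1 P2 : ι → Fin 4 → P → ℂ,
      (∀ a, S.FO μ (fun _ => 1) (fun i => E i a)) ∧
      (∀ a, S.FO μ (fun _ => 1) (fun i => N i a)) ∧
      (∀ a, S.FO μ (fun _ => 1) (fun i => P1 i a)) ∧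
      (∀ a, S.FO μ (fun _ => 1) (fun i => P2 i a)) ∧
      (∀ i a, Rl (E i a) ∧ Rl (N i a) ∧ Rl (P1 i a) ∧ Rl (P2 i a)) ∧
      ∀ i, FrameOn (K i) (X i) (Y i) (Z i) (E i) (N i) (P1 i) (P2 i) := by
  set A : ℝ := max 1 (1 / c0) with hA
  have hA1 : 1 ≤ A := le_max_left _ _
  have hA0 : 0 < A := zero_lt_one.trans_le hA1
  have hμ0 : ∀ i, 0 ≤ μ i := fun i => zero_le_one.trans (hμ i)
  have up : ∀ {u : ι → P → ℂ}, S.FO μ (fun _ => 1) u → S.FO μ (fun _ => A) u := fun {u} h =>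
    h.mono_s' (fun _ => hA1) hμ0
  have hA2 : 1 / A ≤ c0 := by
    rw [div_le_iff₀ hA0]
    have h1 : 1 / c0 ≤ A := le_max_right _ _
    rw [div_le_iff₀ hc] at h1
    linarith
  obtain ⟨E, N, P1, P2, hE, hN, hP1, hP2, hr, hF⟩ :=
    S.frame (μ := μ) (Λ := fun _ => A) hμ (fun _ => hA1) (fun a => up (hX a))
      (fun a => up (hY a)) (fun a => up (hZ a)) rX rY rZ K
      (fun i p hp => hA2.trans (hK i p hp))
  have dn : ∀ {u : ι → P → ℂ}, S.FO (fun i => μ i * A ^ 12) (fun _ => A ^ 17) u →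
      S.FO μ (fun _ => 1) u := fun {u} h =>
    FO.mu_const S (one_le_pow₀ hA1) hμ0 (fun _ => zero_le_one)
      (FO.s_const S (pow_nonneg hA0.le _) h)
  exact ⟨E, N, P1, P2, fun a => dn (hE a), fun a => dn (hN a), fun a => dn (hP1 a),
    fun a => dn (hP2 a), hr, hF⟩

theorem gr_smul (a : P → ℂ) (X Y Z : Fin 4 → P → ℂ) :
    gr X Y (fun i => a * Z i) = a * a * gr X Y Z := by
  simp only [F.gr, dot_eq]; ring

/-- the frame along rays, scale invariant form: `X_ww = O(b)`, Gram determinant `≥ c0 b²` -/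
theorem frame_rayU [Fintype κ] {ι : Type*} {μ b : ι → ℝ} {c0 : ℝ} (hμ : ∀ i, 1 ≤ μ i)
    (hb : ∀ i, 1 ≤ b i) (hc : 0 < c0) {r : ι → Ray P κ} {X : ι → Fin 4 → P → ℂ}
    (hX : ∀ a, S.FO μ (fun _ => 1) (fun i => S.dirv (r i).t (X i) a))
    (hY : ∀ a, S.FO μ (fun _ => 1) (fun i => S.dirv (r i).w (X i) a))
    (hZ : ∀ a, S.FO μ b (fun i => S.dirv (r i).w (S.dirv (r i).w (X i)) a))
    (rX : ∀ i a, Rl (S.dirv (r i).t (X i) a)) (rY : ∀ i a, Rl (S.dirv (r i).w (X i) a))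
    (rZ : ∀ i a, Rl (S.dirv (r i).w (S.dirv (r i).w (X i)) a))
    (hK : ∀ i, ∀ p ∈ (r i).K, c0 * b i ^ 2 ≤ (gram3 (S.dirv (r i).t (X i))
      (S.dirv (r i).w (X i)) (S.dirv (r i).w (S.dirv (r i).w (X i))) p).re) :
    ∃ F : ι → Frm P, (∀ i, (F i).Ok S (r i) (X i)) ∧
      (∀ a, S.FO μ (fun _ => 1) (fun i => (F i).E a)) ∧
      (∀ a, S.FO μ (fun i => 1 / b i) (fun i => (F i).N a)) ∧
      (∀ a, S.FO μ (fun _ => 1) (fun i => (F i).P1 a)) ∧
      (∀ a, S.FO μ (fun _ => 1) (fun i => (F i).P2 a)) ∧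
      (∀ i p, dot (F i).P1 (F i).E p = 0) ∧ (∀ i p, dot (F i).P2 (F i).E p = 0) ∧
      (∀ i p, dot (F i).N (F i).E p = 0) := by
  have hb0 : ∀ i, 0 < b i := fun i => zero_lt_one.trans_le (hb i)
  have hib : ∀ i, ‖(((b i)⁻¹ : ℝ) : ℂ)‖ ≤ 1 * (1 / b i) := fun i => by
    rw [Complex.norm_real, Real.norm_eq_abs, abs_of_pos (inv_pos.2 (hb0 i)), one_mul,
      one_div]
  have hib0 : ∀ i, 0 ≤ 1 / b i := fun i => (one_div_pos.2 (hb0 i)).le
  have hZ' : ∀ a, S.FO μ (fun _ => 1) (fun i => (fun _ => (((b i)⁻¹ : ℝ) : ℂ))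
      * S.dirv (r i).w (S.dirv (r i).w (X i)) a) := fun a => by
    refine (DAlg.FO.smul (S := S) hib hib0 (hZ a)).congr_s fun i => ?_
    exact one_div_mul_cancel (hb0 i).ne'
  obtain ⟨E, N, P1, P2, hE, hN, hP1, hP2, hr, hF⟩ :=
    S.frameU (Z := fun i a => (fun _ => (((b i)⁻¹ : ℝ) : ℂ))
      * S.dirv (r i).w (S.dirv (r i).w (X i)) a) hμ hc hX hY hZ' rX rY
      (fun i a => Rl.mul (fun _ => Complex.ofReal_im _) (rZ i a)) (fun i => (r i).K)
      (fun i p hp => by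
        rw [gr_smul]
        have h1 := hK i p hp
        rw [gram3_eq] at h1
        simp only [Pi.mul_apply]
        rw [← Complex.ofReal_mul, Complex.re_ofReal_mul]
        have h2 : 0 < (b i)⁻¹ * (b i)⁻¹ := mul_pos (inv_pos.2 (hb0 i)) (inv_pos.2 (hb0 i))
        calc c0 = (b i)⁻¹ * (b i)⁻¹ * (c0 * b i ^ 2) := by
              have := (hb0 i).ne'
              field_simp
          _ ≤ _ := mul_le_mul_of_nonneg_left h1 h2.le)
  have hbc : ∀ i, (((b i)⁻¹ : ℝ) : ℂ) ≠ 0 := fun i => by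
    exact_mod_cast (inv_pos.2 (hb0 i)).ne'
  have z3 : ∀ i (V : Fin 4 → P → ℂ) p,
      dot V (fun a => (fun _ => (((b i)⁻¹ : ℝ) : ℂ))
        * S.dirv (r i).w (S.dirv (r i).w (X i)) a) p
      = (((b i)⁻¹ : ℝ) : ℂ) * dot V (S.dirv (r i).w (S.dirv (r i).w (X i))) p := by
    intro i V p
    rw [dot_smul_right]; rfl
  have n3 : ∀ i (V : Fin 4 → P → ℂ) p,
      dot (fun a => (fun _ => (((b i)⁻¹ : ℝ) : ℂ)) * N i a) V p
      = (((b i)⁻¹ : ℝ) : ℂ) * dot (N i) V p := by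
    intro i V p
    rw [dot_smul_left]; rfl
  refine ⟨fun i => ⟨E i, fun a => (fun _ => (((b i)⁻¹ : ℝ) : ℂ)) * N i a, P1 i, P2 i⟩,
    fun i => ?_, hE, ?_, hP1, hP2, fun i => (hF i).PE, fun i => (hF i).QE, ?_⟩
  · have h := hF i
    have zz : ∀ (V : Fin 4 → P → ℂ) p, dot V (fun a => (fun _ => (((b i)⁻¹ : ℝ) : ℂ))
        * S.dirv (r i).w (S.dirv (r i).w (X i)) a) p = 0 →
        dot V (S.dirv (r i).w (S.dirv (r i).w (X i))) p = 0 := fun V p h0 => by
      rw [z3] at h0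
      exact (mul_eq_zero.1 h0).resolve_left (hbc i)
    exact
      { smE := fun a => (hE a).1 i
        smN := fun a => S.sm_mul (S.sm_const _) ((hN a).1 i)
        smP1 := fun a => (hP1 a).1 i
        smP2 := fun a => (hP2 a).1 i
        rE := fun a => (hr i a).1
        rN := fun a => Rl.mul (fun _ => Complex.ofReal_im _) (hr i a).2.1
        rP1 := fun a => (hr i a).2.2.1
        rP2 := fun a => (hr i a).2.2.2
        EE := h.EE
        Et := fun p _ => h.EX p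
        Ew := fun p _ => h.EY p
        Eww := fun p _ => zz _ p (h.EZ p)
        Nt := fun p _ => by rw [n3, h.NX p, mul_zero]
        Nw := fun p _ => by rw [n3, h.NY p, mul_zero]
        Nww := fun p hp => by rw [n3, ← z3]; exact h.NZ p hp
        P1t := h.PX
        P1w := fun p _ => h.PY p
        P1ww := fun p _ => zz _ p (h.PZ p)
        P2t := fun p _ => h.QX p
        P2w := h.QY
        P2ww := fun p _ => zz _ p (h.QZ p) }
  · intro a
    refine (DAlg.FO.smul (S := S) hib hib0 (hN a)).congr_s fun i => ?_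
    exact mul_one _
  · intro i p
    show dot (fun a => (fun _ => (((b i)⁻¹ : ℝ) : ℂ)) * N i a) (E i) p = 0
    rw [n3, (hF i).NE p, mul_zero]

end DAlg

end Vale.Agent.P205.F
end

section

/-!
Preparation of a stage (P205, block PREP): frames along all used rays, and the bounds for
everything that enters the WKB solutions.
-/

set_option linter.all false

noncomputable section

namespace Vale.Agent.P205.F

universe u

variable {P : Type u} {κ : Type} [Fintype κ] (S : DAlg P κ)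

namespace DAlg

section
variable {ι : Type*} {b θ : ι → ℝ} {c e : ι → κ → P → ℂ} {X : ι → Fin 4 → P → ℂ}

/-- first derivative along a field -/
theorem fo_dir1 (hc : ∀ j, S.FO θ (fun _ => 1) (fun i => c i j))
    (h1 : ∀ j a, S.FO θ (fun _ => 1) (fun i => S.D j (X i a))) (a : Fin 4) :
    S.FO θ (fun _ => 1) (fun i => S.dirv (c i) (X i) a) := by
  have h := DAlg.FO.sum' (S := S) (μ := θ) (s := fun i => 1 * 1)
    (A := (Finset.univ : Finset κ)) (u := fun j i => c i j * S.D j (X i a))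
    fun j _ => (hc j).mul (h1 j a)
  exact h.congr_s fun i => by ring

/-- second derivative along two fields -/
theorem fo_dir2 (hb : ∀ i, 1 ≤ b i) (hθ : ∀ i, 1 ≤ θ i)
    (hc : ∀ j, S.FO (fun _ => 1) (fun _ => 1) (fun i => c i j))
    (he : ∀ j, S.FO (fun _ => 1) (fun _ => 1) (fun i => e i j))
    (sX : ∀ i a, S.Sm (X i a))
    (h1 : ∀ j a, S.FO θ (fun _ => 1) (fun i => S.D j (X i a)))
    (h2 : ∀ j k a, S.FO θ b (fun i => S.D j (S.D k (X i a)))) (a : Fin 4) :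
    S.FO θ b (fun i => S.dirv (e i) (S.dirv (c i) (X i)) a) := by
  have hθ0 : ∀ i, 0 ≤ θ i := fun i => zero_le_one.trans (hθ i)
  have up : ∀ {u : ι → P → ℂ}, S.FO (fun _ => 1) (fun _ => 1) u → S.FO θ (fun _ => 1) u :=
    fun {u} h => h.mono_mu hθ (fun _ => zero_le_one) (fun _ => zero_le_one)
  have hD : ∀ j k, S.FO θ (fun _ => 1) (fun i => S.D j (c i k)) := fun j k =>
    up (((hc k).D j).congr_s fun i => by ring)
  have hin : ∀ j, S.FO θ b (fun i => S.D j (S.dirv (c i) (X i) a)) := by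
    intro j
    have t1 : S.FO θ b (fun i p => ∑ k, (S.D j (c i k) * S.D k (X i a)) p) :=
      DAlg.FO.sum' (S := S) (u := fun k i => S.D j (c i k) * S.D k (X i a))
        fun k _ => ((hD j k).mul (h1 k a)).mono_s' (fun i => by
          rw [one_mul]; exact hb i) hθ0
    have t2 : S.FO θ b (fun i p => ∑ k, (c i k * S.D j (S.D k (X i a))) p) :=
      DAlg.FO.sum' (S := S) (u := fun k i => c i k * S.D j (S.D k (X i a)))
        fun k _ => ((up (hc k)).mul (h2 j k a)).congr_s fun i => by ring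
    refine (t1.add t2).congr fun i p => ?_
    have := S.D_dir j (fun l => (hc l).1 i) (sX i a) p
    rw [DAlg.dirv, this]
    rfl
  have h := DAlg.FO.sum' (S := S) (μ := θ) (s := fun i => 1 * b i)
    (A := (Finset.univ : Finset κ)) (u := fun j i => e i j * S.D j (S.dirv (c i) (X i) a))
    fun j _ => (up (he j)).mul (hin j)
  exact h.congr_s fun i => by ring

end

/-- **(PREP)** -/
theorem prep (Q : Type) [Fintype Q] : S.Prep Q := by
  intro ι θ b c0 d X hc hb hθ hd hB hN sX rX h1 h2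
  have hθ1 : ∀ i, 1 ≤ θ i := fun i => (hb i).trans (hθ i)
  have up : ∀ {u : ι → P → ℂ}, S.FO (fun _ => 1) (fun _ => 1) u → S.FO θ (fun _ => 1) u :=
    fun {u} h => h.mono_mu hθ1 (fun _ => zero_le_one) (fun _ => zero_le_one)
  have hok : ∀ x, usedRay x → ∀ i, ((d i).rays x).Ok S := by
    intro x hx i
    rcases x with a | ⟨a, b, σ⟩
    · exact (hd i).ray a
    · exact (hd i).pr a b σ hx
  have key : ∀ x, usedRay x → ∃ F : ι → Frm P, (∀ i, (F i).Ok S ((d i).rays x) (X i)) ∧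
      (∀ a, S.FO θ (fun _ => 1) (fun i => (F i).E a)) ∧
      (∀ a, S.FO θ (fun i => 1 / b i) (fun i => (F i).N a)) ∧
      (∀ a, S.FO θ (fun _ => 1) (fun i => (F i).P1 a)) ∧
      (∀ a, S.FO θ (fun _ => 1) (fun i => (F i).P2 a)) := by
    intro x hx
    have ht := hB.t x hx
    have hw := hB.w x hx
    have Xt := S.fo_dir1 (fun j => up (ht j)) h1
    have Xw := S.fo_dir1 (fun j => up (hw j)) h1
    have ww := S.fo_dir2 hb hθ1 hw hw sX h1 h2
    have rt : ∀ i a, Rl (S.dirv ((d i).rays x).t (X i) a) := fun i a =>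
      Rl.dir (hok x hx i).rt (sX i a) (rX i a)
    have rw' : ∀ i a, Rl (S.dirv ((d i).rays x).w (X i) a) := fun i a =>
      Rl.dir (hok x hx i).rw' (sX i a) (rX i a)
    have rww : ∀ i a, Rl (S.dirv ((d i).rays x).w (S.dirv ((d i).rays x).w (X i)) a) :=
      fun i a => Rl.dir (hok x hx i).rw' (S.sm_dir (hok x hx i).smw (sX i a)) (rw' i a)
    obtain ⟨F, hF, hE, hNN, hP1, hP2, -, -, -⟩ :=
      S.frame_rayU hθ1 hb hc (r := fun i => (d i).rays x) (X := X) Xt Xw ww rt rw' rww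
        (fun i p hp => hN i x hx p hp)
    exact ⟨F, hF, hE, hNN, hP1, hP2⟩
  classical
  have key' : ∀ x, ∃ F : ι → Frm P, usedRay x → (∀ i, (F i).Ok S ((d i).rays x) (X i)) ∧
      (∀ a, S.FO θ (fun _ => 1) (fun i => (F i).E a)) ∧
      (∀ a, S.FO θ (fun i => 1 / b i) (fun i => (F i).N a)) ∧
      (∀ a, S.FO θ (fun _ => 1) (fun i => (F i).P1 a)) ∧
      (∀ a, S.FO θ (fun _ => 1) (fun i => (F i).P2 a)) := by
    intro x
    by_cases hx : usedRay x
    · obtain ⟨F, hF⟩ := key x hx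
      exact ⟨F, fun _ => hF⟩
    · exact ⟨fun _ => ⟨0, 0, 0, 0⟩, fun h => absurd h hx⟩
  choose F hF using key'
  exact ⟨fun i x => F x i,
    { ok := fun i x hx => (hF x hx).1 i
      E := fun x hx => (hF x hx).2.1
      N := fun x hx => (hF x hx).2.2.1
      P1 := fun x hx => (hF x hx).2.2.2.1
      P2 := fun x hx => (hF x hx).2.2.2.2
      tt := fun x hx => S.fo_dir2 hb hθ1 (hB.t x hx) (hB.t x hx) sX h1 h2
      wt := fun x hx => S.fo_dir2 hb hθ1 (hB.t x hx) (hB.w x hx) sX h1 h2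
      tw := fun x hx => S.fo_dir2 hb hθ1 (hB.w x hx) (hB.t x hx) sX h1 h2 }⟩

end DAlg

end Vale.Agent.P205.F
end
end

section

/-!
P205, scheme T1W, block C5 (assembly): choice of the frequencies.

`exists_mu`: a finite list of sequences of smooth functions with uniform `C⁰` bounds is slow
(`SL S μ ε`) as soon as the frequencies `μ i` are large enough (`μ i = 2 π n i`).

`iv1`, `is1`: smooth inverse and inverse square root of a function bounded below on a set.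
-/

noncomputable section

open scoped ContDiff

namespace Vale.Agent.P205.TW

open Vale.Agent.P205.F

universe u

variable {P : Type u} {κ : Type} [Fintype κ] (S : DAlg P κ)

/-- all derivatives of order at most `k` of finitely many smooth functions are bounded -/
theorem bdd_words {u : P → ℂ} (hu : S.Sm u) (k : ℕ) :
    ∃ C : ℝ, 0 ≤ C ∧ ∀ w : List κ, w.length ≤ k → ∀ p, ‖S.wd w u p‖ ≤ C := by
  have hfin : {w : List κ | w.length ≤ k}.Finite := List.finite_length_le κ k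
  have h1 : ∀ w : List κ, ∃ C : ℝ, 0 ≤ C ∧ ∀ p, ‖S.wd w u p‖ ≤ C := fun w => by
    obtain ⟨C, hC⟩ := S.bdd (S.sm_wd w hu)
    exact ⟨max C 0, le_max_right _ _, fun p => (hC p).trans (le_max_left _ _)⟩
  choose C hC0 hC using h1
  refine ⟨∑ w ∈ hfin.toFinset, C w, Finset.sum_nonneg fun w _ => hC0 w, fun w hw p => ?_⟩
  refine (hC w p).trans ?_
  exact Finset.single_le_sum (f := C) (fun w _ => hC0 w) (by simpa using hw)

/-- one sequence -/
theorem exists_mu1 {u : ℕ → P → ℂ} (hu : ∀ i, S.Sm (u i)) (hb : ∃ C : ℝ, ∀ i p, ‖u i p‖ ≤ C) :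
    ∃ m0 : ℕ → ℝ, ∀ μ ε : ℕ → ℝ, (∀ i, 1 ≤ μ i) → (∀ i, ε i ≤ 1) → (∀ i, 1 ≤ ε i * μ i) →
      (∀ i, m0 i ≤ ε i * μ i) → SL S μ ε u := by
  obtain ⟨C, hC⟩ := hb
  choose W hW0 hW using fun i k => bdd_words S (hu i) k
  refine ⟨fun i => W i (i + 1), fun μ ε hμ hε h1 hm => ?_⟩
  have hμ0 : ∀ i, 0 ≤ μ i := fun i => le_trans zero_le_one (hμ i)
  have hpow : ∀ i n, 1 ≤ μ i ^ n := fun i n => one_le_pow₀ (hμ i)
  have hle : ∀ i, ε i * μ i ≤ μ i := fun i => by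
    have := mul_le_mul_of_nonneg_right (hε i) (hμ0 i)
    linarith
  refine ⟨⟨hu, fun k => ?_⟩, fun j => ⟨fun i => S.sm_D j (hu i), fun k => ?_⟩⟩
  · -- order `≤ k`
    refine ⟨max C 0 + 1 + ∑ i ∈ Finset.range k, W i k, ?_, fun i w hw p => ?_⟩
    · have : 0 ≤ ∑ i ∈ Finset.range k, W i k := Finset.sum_nonneg fun i _ => hW0 i k
      have := le_max_right C 0
      linarith
    have hs : 0 ≤ ∑ i ∈ Finset.range k, W i k := Finset.sum_nonneg fun i _ => hW0 i k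
    have hc0 := le_max_right C 0
    rw [mul_one]
    by_cases hik : i < k
    · have h2 : W i k ≤ ∑ i ∈ Finset.range k, W i k :=
        Finset.single_le_sum (f := fun i => W i k) (fun i _ => hW0 i k) (Finset.mem_range.2 hik)
      have h3 : W i k ≤ max C 0 + 1 + ∑ i ∈ Finset.range k, W i k := by linarith
      calc _ ≤ W i k := hW i k w hw p
        _ ≤ max C 0 + 1 + ∑ i ∈ Finset.range k, W i k := h3
        _ ≤ _ := le_mul_of_one_le_right (by linarith) (hpow i _)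
    · push Not at hik
      rcases w with _ | ⟨j, w⟩
      · simp only [DAlg.wd_nil, List.length_nil, pow_zero, mul_one]
        calc _ ≤ C := hC i p
          _ ≤ max C 0 := le_max_left _ _
          _ ≤ _ := by linarith
      · have hl : (j :: w).length ≤ i + 1 := by omega
        have h2 : μ i ≤ μ i ^ (j :: w).length := by
          have := pow_le_pow_right₀ (hμ i) (show 1 ≤ (j :: w).length by simp)
          simpa using this
        calc _ ≤ W i (i + 1) := hW i (i + 1) _ hl p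
          _ ≤ ε i * μ i := hm i
          _ ≤ μ i := hle i
          _ ≤ 1 * μ i ^ (j :: w).length := by rw [one_mul]; exact h2
          _ ≤ _ := mul_le_mul_of_nonneg_right (by linarith) (by linarith [hpow i (j :: w).length])
  · refine ⟨1 + ∑ i ∈ Finset.range k, W i (k + 1), ?_, fun i w hw p => ?_⟩
    · have : 0 ≤ ∑ i ∈ Finset.range k, W i (k + 1) := Finset.sum_nonneg fun i _ => hW0 i _
      linarith
    have hs : 0 ≤ ∑ i ∈ Finset.range k, W i (k + 1) := Finset.sum_nonneg fun i _ => hW0 i _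
    have hεμ : 0 ≤ ε i * μ i := le_trans zero_le_one (h1 i)
    have e : S.wd w (S.D j (u i)) = S.wd (w ++ [j]) (u i) := by rw [DAlg.wd_snoc]
    have hlen : (w ++ [j]).length = w.length + 1 := by simp
    rw [e]
    by_cases hik : i < k
    · have h2 : W i (k + 1) ≤ ∑ i ∈ Finset.range k, W i (k + 1) :=
        Finset.single_le_sum (f := fun i => W i (k + 1)) (fun i _ => hW0 i _)
          (Finset.mem_range.2 hik)
      calc _ ≤ W i (k + 1) := hW i (k + 1) _ (by rw [hlen]; omega) p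
        _ ≤ 1 + ∑ i ∈ Finset.range k, W i (k + 1) := by linarith
        _ ≤ (1 + ∑ i ∈ Finset.range k, W i (k + 1)) * (ε i * μ i) :=
          le_mul_of_one_le_right (by linarith) (h1 i)
        _ ≤ _ := le_mul_of_one_le_right (mul_nonneg (by linarith) hεμ) (hpow i _)
    · push Not at hik
      calc _ ≤ W i (i + 1) := hW i (i + 1) _ (by rw [hlen]; omega) p
        _ ≤ ε i * μ i := hm i
        _ ≤ (1 + ∑ i ∈ Finset.range k, W i (k + 1)) * (ε i * μ i) :=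
          le_mul_of_one_le_left hεμ (by linarith)
        _ ≤ _ := le_mul_of_one_le_right (mul_nonneg (by linarith) hεμ) (hpow i _)

/-- **choice of the frequencies** for a finite list of sequences -/
theorem exists_mu {α : Type*} [Finite α] {u : α → ℕ → P → ℂ} (hu : ∀ a i, S.Sm (u a i))
    (hb : ∀ a, ∃ C : ℝ, ∀ i p, ‖u a i p‖ ≤ C) (ε : ℕ → ℝ) (hε : ∀ i, 0 < ε i)
    (hε1 : ∀ i, ε i ≤ 1) :
    ∃ n0 : ℕ → ℕ, ∀ n : ℕ → ℕ, (∀ i, n0 i ≤ n i) →
      (∀ i, 1 ≤ 2 * Real.pi * (n i : ℝ)) ∧ (∀ i, 1 ≤ ε i * (2 * Real.pi * (n i : ℝ))) ∧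
      ∀ a, SL S (fun i => 2 * Real.pi * (n i : ℝ)) ε (u a) := by
  have := Fintype.ofFinite α
  choose m0 hm0 using fun a => exists_mu1 S (hu a) (hb a)
  refine ⟨fun i => ⌈(1 + ∑ a, |m0 a i|) / ε i⌉₊, fun n hn => ?_⟩
  have key : ∀ i, 1 + ∑ a, |m0 a i| ≤ ε i * (2 * Real.pi * (n i : ℝ)) := fun i => by
    have h1 : (1 + ∑ a, |m0 a i|) / ε i ≤ (n i : ℝ) := by
      refine (Nat.le_ceil _).trans ?_
      exact_mod_cast hn i
    rw [div_le_iff₀ (hε i)] at h1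
    have hpi : (1 : ℝ) ≤ 2 * Real.pi := by linarith [Real.pi_gt_three]
    have h2 : (n i : ℝ) ≤ 2 * Real.pi * (n i : ℝ) :=
      le_mul_of_one_le_left (Nat.cast_nonneg _) hpi
    calc _ ≤ (n i : ℝ) * ε i := h1
      _ = ε i * (n i : ℝ) := mul_comm _ _
      _ ≤ _ := mul_le_mul_of_nonneg_left h2 (hε i).le
  have hs : ∀ i, 0 ≤ ∑ a, |m0 a i| := fun i => Finset.sum_nonneg fun a _ => abs_nonneg _
  have h1 : ∀ i, 1 ≤ ε i * (2 * Real.pi * (n i : ℝ)) := fun i => by linarith [key i, hs i]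
  have h0 : ∀ i, 0 ≤ 2 * Real.pi * (n i : ℝ) := fun i => by positivity
  have h2 : ∀ i, 1 ≤ 2 * Real.pi * (n i : ℝ) := fun i => by
    have := mul_le_mul_of_nonneg_right (hε1 i) (h0 i)
    linarith [h1 i]
  refine ⟨h2, h1, fun a => hm0 a _ _ h2 hε1 h1 fun i => ?_⟩
  have h3 : |m0 a i| ≤ ∑ a, |m0 a i| :=
    Finset.single_le_sum (f := fun a => |m0 a i|) (fun a _ => abs_nonneg _) (Finset.mem_univ a)
  linarith [key i, le_abs_self (m0 a i)]

/-- constant sequences -/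
theorem const_bdd {u : P → ℂ} (hu : S.Sm u) : ∃ C : ℝ, ∀ (i : ℕ) p, ‖(fun _ : ℕ => u) i p‖ ≤ C := by
  obtain ⟨C, hC⟩ := S.bdd hu
  exact ⟨C, fun _ p => hC p⟩

variable {S}

section inv

/-- `1 / u` where `c ≤ u` -/
def iv1 (c : ℝ) (u : P → ℂ) : P → ℂ := fun p =>
  ((1 / c : ℝ) : ℂ) * (kH (c⁻¹ * (u p).re) * kH (c⁻¹ * (u p).re))

/-- `1 / √u` where `c ≤ u` -/
def is1 (c : ℝ) (u : P → ℂ) : P → ℂ := fun p =>
  ((1 / Real.sqrt c : ℝ) : ℂ) * kH (c⁻¹ * (u p).re)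

variable {c : ℝ} {u : P → ℂ}

theorem sm_kHc (c : ℝ) (hu : S.Sm u) (hr : Rl u) : S.Sm (fun p => kH (c⁻¹ * (u p).re)) :=
  S.sm_comp (F := fun y => kH (c⁻¹ * y)) (kH_smooth.comp (contDiff_const.mul contDiff_id)) hu hr

theorem sm_iv1 (hu : S.Sm u) (hr : Rl u) : S.Sm (iv1 c u) :=
  S.sm_smul _ (S.sm_mul (sm_kHc c hu hr) (sm_kHc c hu hr))

theorem sm_is1 (hu : S.Sm u) (hr : Rl u) : S.Sm (is1 c u) := S.sm_smul _ (sm_kHc c hu hr)

theorem rl_is1 : Rl (is1 c u) := Rl.smul (Complex.ofReal_im _) fun p => kH_im _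

theorem rl_iv1 : Rl (iv1 c u) := Rl.smul (Complex.ofReal_im _) fun p => by
  rw [Complex.mul_im, kH_im]; ring

theorem iv1_bd (hc : 0 < c) (p : P) : ‖iv1 c u p‖ ≤ 4 / c := by
  unfold iv1
  rw [norm_mul, norm_mul, Complex.norm_real, Real.norm_eq_abs, abs_of_pos (by positivity)]
  have h := kH_norm_le (c⁻¹ * (u p).re)
  have h0 := norm_nonneg (kH (c⁻¹ * (u p).re))
  have h2 : ‖kH (c⁻¹ * (u p).re)‖ * ‖kH (c⁻¹ * (u p).re)‖ ≤ 4 := by linarith only [mul_nonneg (sub_nonneg.2 h) (sub_nonneg.2 h0), mul_nonneg (sub_nonneg.2 h) (sub_nonneg.2 h)]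
  calc _ ≤ 1 / c * 4 := mul_le_mul_of_nonneg_left h2 (by positivity)
    _ = _ := by ring

theorem is1_bd (hc : 0 < c) (p : P) : ‖is1 c u p‖ ≤ 2 / Real.sqrt c := by
  unfold is1
  rw [norm_mul, Complex.norm_real, Real.norm_eq_abs, abs_of_nonneg (by positivity)]
  have h := kH_norm_le (c⁻¹ * (u p).re)
  calc _ ≤ 1 / Real.sqrt c * 2 := mul_le_mul_of_nonneg_left h (by positivity)
    _ = _ := by ring

theorem kHc_sq (hc : 0 < c) {p : P} (hr : (u p).im = 0) (h : c ≤ (u p).re) :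
    kH (c⁻¹ * (u p).re) ^ 2 * (((c⁻¹ : ℝ) : ℂ) * u p) = 1 := by
  have h1 : 1 ≤ c⁻¹ * (u p).re := by
    rw [inv_mul_eq_div, le_div_iff₀ hc]; linarith
  have h2 := kH_sq h1
  have h3 : u p = (((u p).re : ℝ) : ℂ) := Complex.ext (by simp) (by simp [hr])
  have h4 : ((c⁻¹ : ℝ) : ℂ) * u p = ((c⁻¹ * (u p).re : ℝ) : ℂ) := by
    rw [Complex.ofReal_mul, ← h3]
  rw [h4]; exact h2

theorem iv1_mul (hc : 0 < c) {p : P} (hr : (u p).im = 0) (h : c ≤ (u p).re) :
    iv1 c u p * u p = 1 := by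
  have h1 := kHc_sq hc hr h
  unfold iv1
  rw [one_div]
  linear_combination h1

theorem is1_sq (hc : 0 < c) {p : P} (hr : (u p).im = 0) (h : c ≤ (u p).re) :
    is1 c u p ^ 2 * u p = 1 := by
  have h1 := kHc_sq hc hr h
  have h2 : (((1 / Real.sqrt c : ℝ)) : ℂ) ^ 2 = ((c⁻¹ : ℝ) : ℂ) := by
    rw [← Complex.ofReal_pow, div_pow, Real.sq_sqrt hc.le, one_pow, one_div]
  unfold is1
  rw [mul_pow, h2]
  linear_combination h1

theorem iv1_comp (τ : P → P) (h : ∀ p, u (τ p) = u p) (p : P) : iv1 c u (τ p) = iv1 c u p := by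
  simp only [iv1, h]

theorem is1_comp (τ : P → P) (h : ∀ p, u (τ p) = u p) (p : P) : is1 c u (τ p) = is1 c u p := by
  simp only [is1, h]

end inv

end Vale.Agent.P205.TW
end
end

section

/-!
P205, scheme T1W, block C5: the data of the formula from the geometric data, a slow map with its
normal frame, and the loop functions: `mkT`, validity (`mkT_ok`), classes (`mkT_cls`), parities.
-/

noncomputable section

namespace Vale.Agent.P205.TW

open Vale.Agent.P205.F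

universe u

variable {P : Type u} {κ : Type} [Fintype κ] {S : DAlg P κ}

/-- slow part of the data -/
def pre (ψ : P → ℂ) (r : Ray P κ) (X : Fin 4 → P → ℂ) : TData P κ where
  X := X
  q1 := X
  q2 := X
  ψ := ψ
  r := r
  iG := 0
  σ := 0
  c := 0
  s := 0
  h := 0
  iv := 0
  C := 0
  Sn := 0

variable (S)

/-- `G_ww` -/
def Gw (ψ : P → ℂ) (r : Ray P κ) (X : Fin 4 → P → ℂ) : P → ℂ := (pre ψ r X).Gww S 1

/-- `det_X G_ww` -/
def Gd (ψ : P → ℂ) (r : Ray P κ) (X : Fin 4 → P → ℂ) : P → ℂ := fun p =>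
  (pre ψ r X).dX S p * (pre ψ r X).Gww S 1 p

/-- the data of the formula -/
def mkT (ψ e v : P → ℂ) (r : Ray P κ) (cG cσ : ℝ) (X q1 q2 : Fin 4 → P → ℂ)
    (c s h A B : P → ℂ) : TData P κ where
  X := X
  q1 := q1
  q2 := q2
  ψ := ψ
  r := r
  iG := iv1 cG (Gw S ψ r X)
  σ := is1 cσ (Gd S ψ r X)
  c := c
  s := fun p => e p * s p
  h := fun p => e p * h p
  iv := iv1 (15 / 16) v
  C := fun p => A p * iv1 (15 / 16) v p
  Sn := fun p => e p * (B p * iv1 (15 / 16) v p)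

variable {S}

section pw

variable {ψ : P → ℂ} {r : Ray P κ} {X : Fin 4 → P → ℂ}

theorem sm_dirv {c : κ → P → ℂ} (hc : ∀ j, S.Sm (c j)) (hX : ∀ a, S.Sm (X a)) (a : Fin 4) :
    S.Sm (S.dirv c X a) := S.sm_dir hc (hX a)

theorem rl_dirv {c : κ → P → ℂ} (hc : ∀ j, Rl (c j)) (hX : ∀ a, S.Sm (X a))
    (hr : ∀ a, Rl (X a)) (a : Fin 4) : Rl (S.dirv c X a) := Rl.dir hc (hX a) (hr a)

theorem sm_Gw (hr : r.Ok S) (hψ : S.Sm ψ) (hX : ∀ a, S.Sm (X a)) : S.Sm (Gw S ψ r X) := by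
  have h1 := sm_dirv (S := S) hr.smw hX
  have h2 := S.sm_dir hr.smw hψ
  exact S.sm_add (S.sm_dot h1 h1) (S.sm_smul _ (S.sm_mul h2 h2))

theorem sm_dX (hr : r.Ok S) (hX : ∀ a, S.Sm (X a)) : S.Sm ((pre ψ r X).dX S) := by
  have h1 := sm_dirv (S := S) hr.smw hX
  have h2 := sm_dirv (S := S) hr.smt hX
  exact S.sm_sub (S.sm_mul (S.sm_dot h2 h2) (S.sm_dot h1 h1))
    (S.sm_mul (S.sm_dot h2 h1) (S.sm_dot h2 h1))

theorem sm_Gd (hr : r.Ok S) (hψ : S.Sm ψ) (hX : ∀ a, S.Sm (X a)) : S.Sm (Gd S ψ r X) :=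
  S.sm_mul (sm_dX hr hX) (sm_Gw hr hψ hX)

theorem rl_Gw (hr : r.Ok S) (hψ : S.Sm ψ) (hrψ : Rl ψ) (hX : ∀ a, S.Sm (X a))
    (hrX : ∀ a, Rl (X a)) : Rl (Gw S ψ r X) := by
  have h1 := rl_dirv (S := S) hr.rw' hX hrX
  have h2 := Rl.dir (S := S) hr.rw' hψ hrψ
  refine (Rl.dot h1 h1).add (Rl.smul ?_ (h2.mul h2))
  simp

theorem rl_dX (hr : r.Ok S) (hX : ∀ a, S.Sm (X a)) (hrX : ∀ a, Rl (X a)) :
    Rl ((pre ψ r X).dX S) := by
  have h1 := rl_dirv (S := S) hr.rw' hX hrX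
  have h2 := rl_dirv (S := S) hr.rt hX hrX
  exact ((Rl.dot h2 h2).mul (Rl.dot h1 h1)).sub ((Rl.dot h2 h1).mul (Rl.dot h2 h1))

theorem rl_Gd (hr : r.Ok S) (hψ : S.Sm ψ) (hrψ : Rl ψ) (hX : ∀ a, S.Sm (X a))
    (hrX : ∀ a, Rl (X a)) : Rl (Gd S ψ r X) :=
  (rl_dX hr hX hrX).mul (rl_Gw hr hψ hrψ hX hrX)

end pw

/-- hypotheses on the fixed data -/
structure Fix (S : DAlg P κ) (ψ e v : P → ℂ) (r : Ray P κ) : Prop where
  ray : r.Ok S
  rK : r.K = KrC r.Ψ
  smψ : S.Sm ψ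
  rψ : Rl ψ
  sme : S.Sm e
  re : Rl e
  esq : ∀ p, (r.Ψ p).re ≤ 5 / 2 → e p * e p = 1
  eD : ∀ p, (r.Ψ p).re ≤ 5 / 2 → ∀ j, S.D j e p = 0
  smv : S.Sm v
  rv : Rl v
  v1 : ∀ p, 15 / 16 ≤ (v p).re ∧ (v p).re ≤ 1
  zv : S.Zs (Kc r.Ψ) (fun p => v p - 1)

/-- hypotheses on the slow map -/
structure Slo (S : DAlg P κ) (ψ : P → ℂ) (r : Ray P κ) (cG cσ : ℝ)
    (X q1 q2 : Fin 4 → P → ℂ) : Prop where
  smX : ∀ a, S.Sm (X a)
  rX : ∀ a, Rl (X a)
  nf : CNFr S X q1 q2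
  hG : ∀ p ∈ r.K, cG ≤ (Gw S ψ r X p).re
  hσ : ∀ p ∈ r.K, cσ ≤ (Gd S ψ r X p).re

section ok

variable {ψ e v : P → ℂ} {r : Ray P κ} {cG cσ : ℝ} {X q1 q2 : Fin 4 → P → ℂ}

theorem Fix.Kc_sub (hF : Fix S ψ e v r) {p : P} (hp : p ∈ Kc r.Ψ) : p ∈ r.K := by
  rw [hF.rK]
  exact ⟨by linarith [hp.1], by linarith [hp.2]⟩

theorem Fix.le_of_Kc (hF : Fix S ψ e v r) {p : P} (hp : p ∈ Kc r.Ψ) : (r.Ψ p).re ≤ 5 / 2 := by
  linarith [hp.2]

theorem Fix.iv_mul (hF : Fix S ψ e v r) (p : P) : iv1 (15 / 16) v p * v p = 1 :=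
  iv1_mul (by norm_num) (hF.rv p) (hF.v1 p).1

theorem Fix.smiv (hF : Fix S ψ e v r) : S.Sm (iv1 (15 / 16) v) := sm_iv1 hF.smv hF.rv

theorem Fix.v_off (hF : Fix S ψ e v r) {p : P} (hp : p ∉ Kc r.Ψ) : v p = 1 := by
  have h := hF.zv.apply hp
  linear_combination h

theorem Fix.iv_off (hF : Fix S ψ e v r) {p : P} (hp : p ∉ Kc r.Ψ) : iv1 (15 / 16) v p = 1 := by
  have h := hF.iv_mul p
  rw [hF.v_off hp, mul_one] at h
  exact h

/-- `e² = 1` where `s ≠ 0` -/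
theorem Fix.e2 (hF : Fix S ψ e v r) {s : P → ℂ} (hs : S.Zs (Kc r.Ψ) s) (p : P) :
    e p * e p * s p = s p := by
  by_cases hp : p ∈ Kc r.Ψ
  · rw [hF.esq p (hF.le_of_Kc hp), one_mul]
  · rw [hs.apply hp, mul_zero]

theorem Fix.eD0 (hF : Fix S ψ e v r) {s : P → ℂ} (hs : S.Zs (Kc r.Ψ) s) (j : κ) (p : P) :
    S.D j e p * s p = 0 := by
  by_cases hp : p ∈ Kc r.Ψ
  · rw [hF.eD p (hF.le_of_Kc hp), zero_mul]
  · rw [hs.apply hp, mul_zero]

theorem mkT_ok (hF : Fix S ψ e v r) (hcG : 0 < cG) (hcσ : 0 < cσ) (hS : Slo S ψ r cG cσ X q1 q2)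
    {ι : Type} {Λ : ι → ℝ} {τ0 c1 : ℝ} (L : LoopC S Λ r.Ψ v τ0 c1) (i : ι) :
    (mkT S ψ e v r cG cσ X q1 q2 (L.c i) (L.s i) (L.h i) (L.A i) (L.B i)).Ok S 1 where
  ray := hF.ray
  smX := hS.smX
  smq1 := hS.nf.s1
  smq2 := hS.nf.s2
  smψ := hF.smψ
  smiG := sm_iv1 (sm_Gw hF.ray hF.smψ hS.smX) (rl_Gw hF.ray hF.smψ hF.rψ hS.smX hS.rX)
  smσ := sm_is1 (sm_Gd hF.ray hF.smψ hS.smX) (rl_Gd hF.ray hF.smψ hF.rψ hS.smX hS.rX)
  smc := L.fc.1 i
  sms := S.sm_mul hF.sme (L.fs.1 i)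
  smh := S.sm_mul hF.sme (L.fh.1 i)
  smiv := hF.smiv
  smC := S.sm_mul (L.fA.1 i) hF.smiv
  smSn := S.sm_mul hF.sme (S.sm_mul (L.fB.1 i) hF.smiv)
  rX := hS.rX
  rq1 := hS.nf.r1
  rq2 := hS.nf.r2
  rψ := hF.rψ
  riG := rl_iv1
  rσ := rl_is1
  rc := L.rc i
  rs := hF.re.mul (L.rs i)
  rh := hF.re.mul (L.rh i)
  riv := rl_iv1
  rC := (L.rA i).mul rl_iv1
  rSn := hF.re.mul ((L.rB i).mul rl_iv1)
  q1X := hS.nf.t1
  q2X := hS.nf.t2
  q11 := hS.nf.n11
  q12 := hS.nf.n12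
  q22 := hS.nf.n22
  iGG := fun p hp => iv1_mul hcG (rl_Gw hF.ray hF.smψ hF.rψ hS.smX hS.rX p) (hS.hG p hp)
  σσ := fun p hp => is1_sq hcσ (rl_Gd hF.ray hF.smψ hF.rψ hS.smX hS.rX p) (hS.hσ p hp)
  cs := fun p => by
    have h1 := L.circ i p
    have h2 := hF.e2 (L.zs i) p
    show L.c i p ^ 2 + (e p * L.s i p) ^ 2 = 1
    linear_combination h1 + L.s i p * h2
  zc := fun p hp => by
    have h := (L.zc i).apply (p := p) (fun h => hp (hF.Kc_sub h))
    show L.c i p = 1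
    linear_combination h
  zs := fun p hp => by
    show e p * L.s i p = 0
    rw [(L.zs i).apply (p := p) (fun h => hp (hF.Kc_sub h)), mul_zero]
  zh := fun p hp => by
    show e p * L.h i p = 0
    rw [(L.zh i).apply (p := p) (fun h => hp (hF.Kc_sub h)), mul_zero]
  ziv := fun p hp => hF.iv_off (fun h => hp (hF.Kc_sub h))
  zC := fun p hp => by
    show L.A i p * _ = 0
    rw [(L.zA i).apply (p := p) (fun h => hp (hF.Kc_sub h)), zero_mul]
  zSn := fun p hp => by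
    show e p * (L.B i p * _) = 0
    rw [(L.zB i).apply (p := p) (fun h => hp (hF.Kc_sub h)), zero_mul, mul_zero]

end ok

section cls

variable {ψ e v : P → ℂ} {r : Ray P κ} {cG cσ : ℝ} {X q1 q2 : ℕ → Fin 4 → P → ℂ}
  {μ ε : ℕ → ℝ} {τ0 c1 : ℝ}

/-- classes of the slow data -/
structure SloC (S : DAlg P κ) (μ ε : ℕ → ℝ) (ψ e v : P → ℂ) (r : Ray P κ) (cG cσ : ℝ)
    (X q1 q2 : ℕ → Fin 4 → P → ℂ) : Prop where
  DX : ∀ j a, SL S μ ε (fun i => S.D j (X i a))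
  q1 : ∀ a, SL S μ ε (fun i => q1 i a)
  q2 : ∀ a, SL S μ ε (fun i => q2 i a)
  Dψ : ∀ j, SL S μ ε (fun _ => S.D j ψ)
  Dr : ∀ j, SL S μ ε (fun _ => S.D j r.Ψ)
  t : ∀ j, SL S μ ε (fun _ => r.t j)
  w : ∀ j, SL S μ ε (fun _ => r.w j)
  iG : SL S μ ε (fun i => iv1 cG (Gw S ψ r (X i)))
  σ : SL S μ ε (fun i => is1 cσ (Gd S ψ r (X i)))
  iv : SL S μ ε (fun _ => iv1 (15 / 16) v)
  e : SL S μ ε (fun _ => e)

theorem mkT_cls (hF : Fix S ψ e v r) (hμ : ∀ i, 1 ≤ μ i) (hεμ : ∀ i, 1 ≤ ε i * μ i)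
    (hC : SloC S μ ε ψ e v r cG cσ X q1 q2) (L : LoopC S μ r.Ψ v τ0 c1) :
    TData.Cls S (fun i => mkT S ψ e v r cG cσ (X i) (q1 i) (q2 i)
      (L.c i) (L.s i) (L.h i) (L.A i) (L.B i)) μ ε := by
  have hμ0 : ∀ i, 0 ≤ μ i := fun i => le_trans zero_le_one (hμ i)
  have up : ∀ {u : ℕ → P → ℂ}, S.FO μ (fun _ => 1) u → S.FO μ (fun i => ε i * μ i) u :=
    fun hu => hu.mono_s' hεμ hμ0
  refine ⟨hC.DX, hC.q1, hC.q2, hC.Dψ, hC.Dr, hC.t, hC.w, hC.iG, hC.σ, hC.iv, L.fc,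
    fo_mul hC.e.1 L.fs, fo_mul hC.e.1 L.fh, fo_mul L.fA hC.iv.1,
    fo_mul hC.e.1 (fo_mul L.fB hC.iv.1), fun j => ?_, fun j => ?_, fun j => ?_, fun j => ?_⟩
  · refine (up (L.dc j)).congr fun i p => ?_
    have h := hF.e2 (L.zs i) p
    show _ = S.D j (L.c i) p + μ i * ((e p * L.s i p) * (e p * L.h i p) * S.D j r.Ψ p)
    linear_combination (-(μ i : ℂ) * L.h i p * S.D j r.Ψ p) * h
  · refine (fo_mul hC.e.1 (up (L.ds j))).congr fun i p => ?_
    have h := S.D_mul_apply j hF.sme (L.fs.1 i) p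
    have h0 := hF.eD0 (L.zs i) j p
    have h' : S.D j (fun p => e p * L.s i p) p = S.D j e p * L.s i p + e p * S.D j (L.s i) p := h
    show _ = S.D j (fun p => e p * L.s i p) p - μ i * (L.c i p * (e p * L.h i p) * S.D j r.Ψ p)
    rw [h']
    linear_combination -h0
  · refine ((up (fo_mul (L.dA j) hC.iv.1)).add (fo_mul L.fA (hC.iv.2 j))).congr fun i p => ?_
    have h := S.D_mul_apply j (L.fA.1 i) hF.smiv p
    have h' : S.D j (fun p => L.A i p * iv1 (15 / 16) v p) p =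
      S.D j (L.A i) p * iv1 (15 / 16) v p + L.A i p * S.D j (iv1 (15 / 16) v) p := h
    have h1 := hF.iv_mul p
    show (S.D j (L.A i) p - μ i * ((L.c i p - v p) * S.D j r.Ψ p)) * iv1 (15 / 16) v p
      + L.A i p * S.D j (iv1 (15 / 16) v) p = S.D j (fun p => L.A i p * iv1 (15 / 16) v p) p
        - μ i * ((L.c i p * iv1 (15 / 16) v p - 1) * S.D j r.Ψ p)
    rw [h']
    linear_combination ((μ i : ℂ) * S.D j r.Ψ p) * h1
  · refine (fo_mul hC.e.1 ((up (fo_mul (L.dB j) hC.iv.1)).add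
      (fo_mul L.fB (hC.iv.2 j)))).congr fun i p => ?_
    have hB := S.D_mul_apply j (L.fB.1 i) hF.smiv p
    have hB' : S.D j (fun p => L.B i p * iv1 (15 / 16) v p) p =
      S.D j (L.B i) p * iv1 (15 / 16) v p + L.B i p * S.D j (iv1 (15 / 16) v) p := hB
    have h := S.D_mul_apply j hF.sme (S.sm_mul (L.fB.1 i) hF.smiv) p
    have h' : S.D j (fun p => e p * (L.B i p * iv1 (15 / 16) v p)) p =
      S.D j e p * (L.B i p * iv1 (15 / 16) v p)
        + e p * S.D j (fun p => L.B i p * iv1 (15 / 16) v p) p := h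
    have h0 := hF.eD0 (L.zB i) j p
    show e p * ((S.D j (L.B i) p - μ i * (L.s i p * S.D j r.Ψ p)) * iv1 (15 / 16) v p
      + L.B i p * S.D j (iv1 (15 / 16) v) p) =
      S.D j (fun p => e p * (L.B i p * iv1 (15 / 16) v p)) p
        - μ i * (((e p * L.s i p) * iv1 (15 / 16) v p) * S.D j r.Ψ p)
    rw [h', hB']
    linear_combination (-iv1 (15 / 16) v p) * h0

end cls

end Vale.Agent.P205.TW
end
end

section

/-!
# P205, T1U iteration: nondegeneracy is stable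
-/

open scoped ContDiff

noncomputable section

namespace Vale.Agent.P205.F

namespace It

universe u

variable {P : Type u} {κ : Type} {S : DAlg P κ}

lemma g3_scale (x y z : Fin 4 → ℂ) (b : ℂ) :
    g3 x y (fun a => b * z a) = b ^ 2 * g3 x y z := by
  have h1 : ∀ v : Fin 4 → ℂ, dt v (fun a => b * z a) = b * dt v z := by
    intro v
    unfold dt
    rw [Finset.mul_sum]
    exact Finset.sum_congr rfl fun a _ => by ring
  have h2 : dt (fun a => b * z a) (fun a => b * z a) = b ^ 2 * dt z z := by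
    unfold dt
    rw [Finset.mul_sum]
    exact Finset.sum_congr rfl fun a _ => by ring
  unfold g3
  rw [h2, h1 x, h1 y]
  ring

lemma rays_ok [Fintype κ] {Q : Type} [Fintype Q] {d : PData P κ Q} (hd : d.Ok S)
    (x : Q ⊕ (Q × Q × Bool)) (hx : usedRay x) : (d.rays x).Ok S := by
  rcases x with a | ⟨a, b, σ⟩
  · exact hd.ray a
  · exact hd.pr a b σ hx

/-- second derivative along a field -/
lemma dirv2 [Fintype κ] {w : κ → P → ℂ} (hw : ∀ j, S.Sm (w j)) {X : Fin 4 → P → ℂ}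
    (hX : ∀ a, S.Sm (X a)) (a : Fin 4) (p : P) :
    S.dirv w (S.dirv w X) a p =
      ∑ j, w j p * ∑ k, (S.D j (w k) p * S.D k (X a) p + w k p * S.D j (S.D k (X a)) p) := by
  have e : S.dir w (X a) = fun p => ∑ k, w k p * S.D k (X a) p := rfl
  change ∑ j, w j p * S.D j (S.dir w (X a)) p = _
  refine Finset.sum_congr rfl fun j _ => ?_
  congr 1
  rw [e, D_sum j Finset.univ (f := fun k p => w k p * S.D k (X a) p)
    fun k _ => S.sm_mul (hw k) (S.sm_D k (hX a))]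
  refine Finset.sum_congr rfl fun k _ => ?_
  have := congrFun (S.D_mul j (hw k) (S.sm_D k (hX a))) p
  exact this

lemma sum_bd [Fintype κ] {c v : κ → ℂ} {M e : ℝ} (hM : 0 ≤ M) (hc : ∀ j, ‖c j‖ ≤ M)
    (hv : ∀ j, ‖v j‖ ≤ e) : ‖∑ j, c j * v j‖ ≤ Fintype.card κ * (M * e) := by
  refine (norm_sum_le _ _).trans ?_
  have : ∀ j ∈ (Finset.univ : Finset κ), ‖c j * v j‖ ≤ M * e := fun j _ => by
    rw [norm_mul]
    exact mul_le_mul (hc j) (hv j) (norm_nonneg _) hM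
  refine (Finset.sum_le_sum this).trans (le_of_eq ?_)
  simp

/-- the Gram determinant along a ray depends continuously on the map -/
lemma gram_near [Fintype κ] {t w : κ → P → ℂ} (hw : ∀ j, S.Sm (w j)) {X f : Fin 4 → P → ℂ}
    (hX : ∀ a, S.Sm (X a)) (hf : ∀ a, S.Sm (f a)) {M A b e : ℝ} (hM : 0 ≤ M) (hA : 0 ≤ A)
    (hb : 1 ≤ b) (he : 0 ≤ e) (he1 : e ≤ 1) {p : P} (mt : ∀ j, ‖t j p‖ ≤ M)
    (mw : ∀ j, ‖w j p‖ ≤ M)
    (mdw : ∀ j k, ‖S.D j (w k) p‖ ≤ M) (f1 : ∀ j a, ‖S.D j (f a) p‖ ≤ A)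
    (f2 : ∀ j k a, ‖S.D j (S.D k (f a)) p‖ ≤ A * b)
    (x1 : ∀ j a, ‖S.D j (X a) p - S.D j (f a) p‖ ≤ e)
    (x2 : ∀ j k a, ‖S.D j (S.D k (X a)) p - S.D j (S.D k (f a)) p‖ ≤ e * b) :
    ‖gram3 (S.dirv t X) (S.dirv w X) (S.dirv w (S.dirv w X)) p
      - gram3 (S.dirv t f) (S.dirv w f) (S.dirv w (S.dirv w f)) p‖ ≤
      2304 * ((2 * ((Fintype.card κ + 1) ^ 2 * (M + 1) ^ 2) * (A + 1)) ^ 5 *
        (2 * ((Fintype.card κ + 1) ^ 2 * (M + 1) ^ 2) * e)) * b ^ 2 := by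
  set n : ℝ := (Fintype.card κ : ℝ) with hn
  have hn0 : 0 ≤ n := Nat.cast_nonneg _
  set H : ℝ := 2 * ((n + 1) ^ 2 * (M + 1) ^ 2) with hH
  have hb0 : 0 < b := by linarith
  have hbc : (b : ℂ) ≠ 0 := by exact_mod_cast hb0.ne'
  -- sizes
  have hnM : n * M ≤ H := by rw [hH]; (by_contra nlg; linarith only [nlg, mul_nonneg (sub_nonneg.2 (mul_nonneg hn0 hM)) (sub_nonneg.2 (mul_nonneg hn0 hM)), mul_nonneg (sub_nonneg.2 hn0) (sub_nonneg.2 (mul_nonneg hn0 hM)), mul_nonneg (sub_nonneg.2 hn0) (sub_nonneg.2 hn0), mul_nonneg (sub_nonneg.2 he1) (sq_nonneg (M + 1)), mul_nonneg (sub_nonneg.2 he1) (sub_nonneg.2 hn0), mul_nonneg (sub_nonneg.2 he) (sq_nonneg (M + 1)), mul_nonneg (sub_nonneg.2 he) (sub_nonneg.2 hn0), mul_nonneg (sub_nonneg.2 hM) (sq_nonneg (n + 1)), mul_nonneg (sub_nonneg.2 hM) (sub_nonneg.2 (mul_nonneg hn0 hM)), mul_nonneg (sub_nonneg.2 hM) (sub_nonneg.2 hM), mul_nonneg (le_of_lt (sub_pos.2 (not_le.1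 nlg))) (sub_nonneg.2 he1), mul_nonneg (le_of_lt (sub_pos.2 (not_le.1 nlg))) (sub_nonneg.2 he)])
  have hnM2 : 2 * (n * (M * (n * M))) ≤ H := by
    rw [hH]
    have h1 : n * M ≤ (n + 1) * (M + 1) := by linarith only [hn0, hM]
    have h2 : 0 ≤ n * M := mul_nonneg hn0 hM
    have h3 : (n * M) * (n * M) ≤ ((n + 1) * (M + 1)) * ((n + 1) * (M + 1)) :=
      mul_le_mul h1 h1 h2 (h2.trans h1)
    linarith only [h3]
  have hH0 : 0 ≤ H := (mul_nonneg hn0 hM).trans hnM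
  -- first derivatives
  have gen1 : ∀ (v : κ → ℂ) (e' : ℝ) (c : κ → P → ℂ), 0 ≤ e' → (∀ j, ‖c j p‖ ≤ M) →
      (∀ j, ‖v j‖ ≤ e') → ‖∑ j, c j p * v j‖ ≤ H * e' := by
    intro v e' c he' hc hv
    refine (sum_bd hM hc hv).trans ?_
    calc n * (M * e') = (n * M) * e' := by ring
      _ ≤ H * e' := by gcongr
  have X1 : ∀ j a, ‖S.D j (X a) p‖ ≤ A + 1 := by
    intro j a
    have h1 := x1 j a
    have h2 := f1 j a
    have h3 : S.D j (X a) p = (S.D j (X a) p - S.D j (f a) p) + S.D j (f a) p := by ring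
    rw [h3]
    exact (norm_add_le _ _).trans (by linarith)
  have X2 : ∀ j k a, ‖S.D j (S.D k (X a)) p‖ ≤ (A + 1) * b := by
    intro j k a
    have h1 := x2 j k a
    have h2 := f2 j k a
    have h3 : S.D j (S.D k (X a)) p =
      (S.D j (S.D k (X a)) p - S.D j (S.D k (f a)) p) + S.D j (S.D k (f a)) p := by ring
    rw [h3]
    refine (norm_add_le _ _).trans ?_
    linarith only [mul_nonneg (sub_nonneg.2 he1) (sub_nonneg.2 h2), mul_nonneg (sub_nonneg.2 he1) (sub_nonneg.2 h1), mul_nonneg (sub_nonneg.2 he1) (le_of_lt (sub_pos.2 hb0)), mul_nonneg (sub_nonneg.2 he) (sub_nonneg.2 h2), mul_nonneg (sub_nonneg.2 he) (sub_nonneg.2 h1)]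
  have tX : ∀ a, ‖S.dirv t X a p‖ ≤ H * (A + 1) := fun a =>
    gen1 _ _ t (by linarith) mt (fun j => X1 j a)
  have wX : ∀ a, ‖S.dirv w X a p‖ ≤ H * (A + 1) := fun a =>
    gen1 _ _ w (by linarith) mw (fun j => X1 j a)
  have tf : ∀ a, ‖S.dirv t f a p‖ ≤ H * (A + 1) := fun a =>
    gen1 _ _ t (by linarith) mt (fun j => (f1 j a).trans (by linarith))
  have wf : ∀ a, ‖S.dirv w f a p‖ ≤ H * (A + 1) := fun a =>
    gen1 _ _ w (by linarith) mw (fun j => (f1 j a).trans (by linarith))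
  have td : ∀ a, ‖S.dirv t X a p - S.dirv t f a p‖ ≤ H * e := by
    intro a
    have e1 : S.dirv t X a p - S.dirv t f a p =
        ∑ j, t j p * (S.D j (X a) p - S.D j (f a) p) := by
      simp only [DAlg.dirv, DAlg.dir, ← Finset.sum_sub_distrib, mul_sub]
    rw [e1]
    exact gen1 _ _ t he mt (fun j => x1 j a)
  have wd' : ∀ a, ‖S.dirv w X a p - S.dirv w f a p‖ ≤ H * e := by
    intro a
    have e1 : S.dirv w X a p - S.dirv w f a p =
        ∑ j, w j p * (S.D j (X a) p - S.D j (f a) p) := by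
      simp only [DAlg.dirv, DAlg.dir, ← Finset.sum_sub_distrib, mul_sub]
    rw [e1]
    exact gen1 _ _ w he mw (fun j => x1 j a)
  -- second derivatives
  have gen2 : ∀ (v1 : κ → ℂ) (v2 : κ → κ → ℂ) (e' : ℝ), 0 ≤ e' → (∀ k, ‖v1 k‖ ≤ e') →
      (∀ j k, ‖v2 j k‖ ≤ e' * b) →
      ‖∑ j, w j p * ∑ k, (S.D j (w k) p * v1 k + w k p * v2 j k)‖ ≤ H * e' * b := by
    intro v1 v2 e' he' h1 h2
    have h3 : ∀ j, ‖∑ k, (S.D j (w k) p * v1 k + w k p * v2 j k)‖ ≤ 2 * (n * M * (e' * b)) := by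
      intro j
      rw [Finset.sum_add_distrib]
      refine (norm_add_le _ _).trans ?_
      have a1 := sum_bd (v := v1) hM (mdw j) h1
      have a2 := sum_bd (v := v2 j) hM mw (h2 j)
      have a3 : n * (M * e') ≤ n * M * (e' * b) := by
        have : 0 ≤ n * M * e' := by positivity
        linarith only [mul_nonneg (sub_nonneg.2 hb) (sub_nonneg.2 this)]
      have a4 : n * (M * (e' * b)) = n * M * (e' * b) := by ring
      linarith
    refine (sum_bd hM mw h3).trans ?_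
    calc n * (M * (2 * (n * M * (e' * b)))) = 2 * (n * (M * (n * M))) * (e' * b) := by ring
      _ ≤ H * (e' * b) := by gcongr
      _ = H * e' * b := by ring
  set zX : Fin 4 → ℂ := fun a => (b : ℂ)⁻¹ * S.dirv w (S.dirv w X) a p with hzX
  set zf : Fin 4 → ℂ := fun a => (b : ℂ)⁻¹ * S.dirv w (S.dirv w f) a p with hzf
  have nb : ∀ v : ℂ, ‖(b : ℂ)⁻¹ * v‖ = b⁻¹ * ‖v‖ := by
    intro v
    rw [norm_mul, norm_inv, Complex.norm_real, Real.norm_of_nonneg hb0.le]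
  have nzX : ∀ a, ‖zX a‖ ≤ H * (A + 1) := by
    intro a
    rw [hzX]
    simp only []
    rw [nb, dirv2 hw hX, inv_mul_le_iff₀ hb0]
    refine (gen2 (fun k => S.D k (X a) p) (fun j k => S.D j (S.D k (X a)) p) (A + 1)
      (by linarith) (fun k => X1 k a) (fun j k => X2 j k a)).trans (le_of_eq (by ring))
  have nzf : ∀ a, ‖zf a‖ ≤ H * (A + 1) := by
    intro a
    rw [hzf]
    simp only []
    rw [nb, dirv2 hw hf, inv_mul_le_iff₀ hb0]
    refine (gen2 (fun k => S.D k (f a) p) (fun j k => S.D j (S.D k (f a)) p) (A + 1)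
      (by linarith) (fun k => (f1 k a).trans (by linarith))
      (fun j k => (f2 j k a).trans (by nlinarith))).trans (le_of_eq (by ring))
  have ndz : ∀ a, ‖zX a - zf a‖ ≤ H * e := by
    intro a
    rw [hzX, hzf]
    simp only []
    rw [← mul_sub, nb, dirv2 hw hX, dirv2 hw hf, ← Finset.sum_sub_distrib,
      inv_mul_le_iff₀ hb0]
    have e1 : ∑ j, (w j p * ∑ k, (S.D j (w k) p * S.D k (X a) p + w k p * S.D j (S.D k (X a)) p)
        - w j p * ∑ k, (S.D j (w k) p * S.D k (f a) p + w k p * S.D j (S.D k (f a)) p)) =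
        ∑ j, w j p * ∑ k, (S.D j (w k) p * (S.D k (X a) p - S.D k (f a) p) +
          w k p * (S.D j (S.D k (X a)) p - S.D j (S.D k (f a)) p)) := by
      refine Finset.sum_congr rfl fun j _ => ?_
      rw [← mul_sub, ← Finset.sum_sub_distrib]
      congr 1
      exact Finset.sum_congr rfl fun k _ => by ring
    rw [e1]
    refine (gen2 (fun k => S.D k (X a) p - S.D k (f a) p)
      (fun j k => S.D j (S.D k (X a)) p - S.D j (S.D k (f a)) p) e
      he (fun k => x1 k a) (fun j k => x2 j k a)).trans (le_of_eq (by ring))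
  have key := g3_sub (by positivity : 0 ≤ H * (A + 1)) (by positivity : 0 ≤ H * e)
    tX wX nzX tf wf nzf td wd' ndz
  have sX : (fun a => S.dirv w (S.dirv w X) a p) = fun a => (b : ℂ) * zX a := by
    funext a; rw [hzX]; field_simp
  have sf : (fun a => S.dirv w (S.dirv w f) a p) = fun a => (b : ℂ) * zf a := by
    funext a; rw [hzf]; field_simp
  rw [gram3_eq, gram3_eq, sX, sf, g3_scale _ _ zX, g3_scale _ _ zf, ← mul_sub, norm_mul]
  have nb2 : ‖(b : ℂ) ^ 2‖ = b ^ 2 := by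
    rw [norm_pow, Complex.norm_real, Real.norm_of_nonneg hb0.le]
  rw [nb2, mul_comm]
  exact mul_le_mul_of_nonneg_right key (by positivity)

/-- nondegeneracy is stable -/
lemma nondeg_near [Fintype κ] {Q : Type} [Fintype Q] {d : PData P κ Q} (hd : d.Ok S)
    {X f : Fin 4 → P → ℂ}
    (hX : ∀ a, S.Sm (X a)) (hf : ∀ a, S.Sm (f a)) {M A b e c1 : ℝ} (hM : 0 ≤ M) (hA : 0 ≤ A)
    (hb : 1 ≤ b) (he : 0 ≤ e) (he1 : e ≤ 1)
    (mt : ∀ x, usedRay x → ∀ j p, ‖(d.rays x).t j p‖ ≤ M)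
    (mw : ∀ x, usedRay x → ∀ j p, ‖(d.rays x).w j p‖ ≤ M)
    (mdw : ∀ x, usedRay x → ∀ j k p, ‖S.D j ((d.rays x).w k) p‖ ≤ M)
    (f1 : ∀ j a p, ‖S.D j (f a) p‖ ≤ A)
    (f2 : ∀ j k a p, ‖S.D j (S.D k (f a)) p‖ ≤ A * b)
    (x1 : ∀ j a p, ‖S.D j (X a) p - S.D j (f a) p‖ ≤ e)
    (x2 : ∀ j k a p, ‖S.D j (S.D k (X a)) p - S.D j (S.D k (f a)) p‖ ≤ e * b)
    (hc : 2304 * ((2 * ((Fintype.card κ + 1) ^ 2 * (M + 1) ^ 2) * (A + 1)) ^ 5 *
        (2 * ((Fintype.card κ + 1) ^ 2 * (M + 1) ^ 2) * e)) ≤ c1 / 2)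
    (hn : d.Nondeg S c1 b f) : d.Nondeg S (c1 / 2) b X := by
  intro x hx p hp
  have h1 := hn x hx p hp
  have hok := rays_ok hd x hx
  have h2 := gram_near (t := (d.rays x).t) (w := (d.rays x).w) hok.smw hX hf hM hA hb he he1
    (p := p) (fun j => mt x hx j p) (fun j => mw x hx j p) (fun j k => mdw x hx j k p)
    (fun j a => f1 j a p) (fun j k a => f2 j k a p) (fun j a => x1 j a p)
    (fun j k a => x2 j k a p)
  have h3 : ‖gram3 (S.dirv (d.rays x).t X) (S.dirv (d.rays x).w X)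
      (S.dirv (d.rays x).w (S.dirv (d.rays x).w X)) p
      - gram3 (S.dirv (d.rays x).t f) (S.dirv (d.rays x).w f)
        (S.dirv (d.rays x).w (S.dirv (d.rays x).w f)) p‖ ≤ c1 / 2 * b ^ 2 :=
    h2.trans (mul_le_mul_of_nonneg_right hc (by positivity))
  have h4 := (Complex.abs_re_le_norm _).trans h3
  rw [Complex.sub_re, abs_le] at h4
  have h5 := h4.1
  have h6 : c1 * b ^ 2 - c1 / 2 * b ^ 2 = c1 / 2 * b ^ 2 := by ring
  linarith

end It

end Vale.Agent.P205.F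
end
end

section

/-!
# P205, T1U iteration: the first step and the general step
-/

open scoped ContDiff

noncomputable section

namespace Vale.Agent.P205.F

namespace It

universe u

variable {P : Type u} {κ : Type} {S : DAlg P κ}

/-! ### families -/

lemma fo_re {ι J : Type*} {μ s : ι → ℝ} {u : ι → P → ℂ} (h : S.FO μ s u) (g : J → ι) :
    S.FO (fun x => μ (g x)) (fun x => s (g x)) (fun x => u (g x)) :=
  ⟨fun x => h.1 (g x), fun k => by
    obtain ⟨C, hC, h'⟩ := h.2 k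
    exact ⟨C, hC, fun x => h' (g x)⟩⟩

lemma fo_mono {ι : Type*} {μ μ' s : ι → ℝ} {u : ι → P → ℂ} (h : S.FO μ s u)
    (h0 : ∀ x, 0 ≤ μ x) (hμ : ∀ x, μ x ≤ μ' x) (hs : ∀ x, 0 ≤ s x) : S.FO μ' s u :=
  ⟨h.1, fun k => by
    obtain ⟨C, hC, h'⟩ := h.2 k
    exact ⟨C, hC, fun x => Bd.mono (h' x) le_rfl (h0 x) (hμ x) (mul_nonneg hC (hs x)) le_rfl⟩⟩

lemma fbd_re {Q : Type} {ι J : Type*} {d : ι → PData P κ Q} {θ : ι → ℝ}
    (h : PData.FBd S d θ) (g : J → ι) {θ' : J → ℝ} (h0 : ∀ x, 0 ≤ θ (g x))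
    (hθ : ∀ x, θ (g x) ≤ θ' x) : PData.FBd S (fun x => d (g x)) θ' where
  Ψ := fun x hx j => fo_re (h.Ψ x hx j) g
  t := fun x hx j => fo_re (h.t x hx j) g
  w := fun x hx j => fo_re (h.w x hx j) g
  β := fun x hx j => fo_re (h.β x hx j) g
  χ := fun a => fo_mono (fo_re (h.χ a) g) h0 hθ (fun _ => zero_le_one)
  ℓ := fun a j k => fo_re (h.ℓ a j k) g

/-- pointwise bounds from `FO` at scale one -/
lemma fo_pt {ι α : Type*} [Finite α] {μ : ι → ℝ} {u : α → ι → P → ℂ}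
    (h : ∀ a, S.FO μ (fun _ => 1) (u a)) :
    ∃ C, 1 ≤ C ∧ ∀ a i p, ‖u a i p‖ ≤ C := by
  refine unif (fun a C C' h h' i p => (h' i p).trans h) fun a => ?_
  obtain ⟨C, -, h'⟩ := (h a).2 0
  refine ⟨C, fun i p => ?_⟩
  have := h' i [] (by simp) p
  simpa [DAlg.wd] using this

/-! ### the new state -/

lemma new_inv {G : κ → κ → P → ℂ} {f X y : Fin 4 → P → ℂ} {A0 b C z θ μ e' s E δ' : ℝ} {N : ℕ}
    (hA0 : 0 ≤ A0) (hb : 1 ≤ b) (hC : 0 ≤ C) (hz : 2 * C + 2 ≤ z) (hθ1 : 1 ≤ θ)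
    (hθμ : θ ≤ μ * z ^ 2) (hs : s ≤ z⁻¹) (he1 : e' + s ≤ 1)
    (hE0 : 0 ≤ E)
    (hX : ∀ a, S.Sm (X a)) (hXr : ∀ a, Rl (X a)) (hy : ∀ a, S.Sm (y a)) (hyr : ∀ a, Rl (y a))
    (f1 : ∀ j a p, ‖S.D j (f a) p‖ ≤ A0) (f2 : ∀ j k a p, ‖S.D j (S.D k (f a)) p‖ ≤ A0 * b)
    (X1 : ∀ j a, S.Bd θ N C (S.D j (X a))) (X2 : ∀ j k a, S.Bd θ N (C * b) (S.D j (S.D k (X a))))
    (y0 : ∀ a, S.Bd (θ * z ^ 2) N s (y a)) (y1 : ∀ j a, S.Bd (θ * z ^ 2) N s (S.D j (y a)))
    (y2 : ∀ j k a, S.Bd (θ * z ^ 2) N (s * b) (S.D j (S.D k (y a))))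
    (c0 : ∀ a p, ‖X a p - f a p‖ ≤ e') (c1 : ∀ j a p, ‖S.D j (X a) p - S.D j (f a) p‖ ≤ e')
    (c2 : ∀ j k a p, ‖S.D j (S.D k (X a)) p - S.D j (S.D k (f a)) p‖ ≤ e' * b)
    (hE : ∀ j k, S.Bd (θ * z ^ 2) N E
        (fun p => G j k p - S.met (fun a p => X a p + y a p) j k p - (δ' : ℂ) * G j k p)) :
    Inv S G f b (A0 + 1) N δ' E (μ * z ^ 4) (e' + s) (fun a p => X a p + y a p) := by
  have hz2 : 2 ≤ z := by linarith
  have hz0 : 0 < z := by linarith
  have hz1 : 1 ≤ z := by linarith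
  have hb0 : 0 < b := by linarith
  have hθ0 : 0 < θ := by linarith
  have hν1 : 1 ≤ θ * z ^ 2 := by
    have : 1 ≤ z ^ 2 := one_le_pow₀ hz1
    nlinarith
  have hν0 : 0 ≤ θ * z ^ 2 := by linarith
  have hνμ : θ * z ^ 2 ≤ μ * z ^ 4 := by
    calc θ * z ^ 2 ≤ μ * z ^ 2 * z ^ 2 := by gcongr
      _ = _ := by ring
  have D1 : ∀ j a, S.D j (fun p => X a p + y a p) = fun p => S.D j (X a) p + S.D j (y a) p :=
    fun j a => S.D_add j (hX a) (hy a)
  have D2 : ∀ j k a, S.D j (S.D k (fun p => X a p + y a p)) =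
      fun p => S.D j (S.D k (X a)) p + S.D j (S.D k (y a)) p := fun j k a => by
    rw [D1]; exact S.D_add j (S.sm_D k (hX a)) (S.sm_D k (hy a))
  have nil : ∀ {μ C : ℝ} {u : P → ℂ}, S.Bd μ N C u → ∀ p, ‖u p‖ ≤ C := by
    intro μ C u h p
    simpa [DAlg.wd] using h [] (by simp) p
  have q1 : ∀ j a p, ‖S.D j (X a) p + S.D j (y a) p - S.D j (f a) p‖ ≤ e' + s := by
    intro j a p
    have : S.D j (X a) p + S.D j (y a) p - S.D j (f a) p =
      (S.D j (X a) p - S.D j (f a) p) + S.D j (y a) p := by ring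
    rw [this]
    exact (norm_add_le _ _).trans (add_le_add (c1 j a p) (nil (y1 j a) p))
  have q2 : ∀ j k a p, ‖S.D j (S.D k (X a)) p + S.D j (S.D k (y a)) p
      - S.D j (S.D k (f a)) p‖ ≤ (e' + s) * b := by
    intro j k a p
    have : S.D j (S.D k (X a)) p + S.D j (S.D k (y a)) p - S.D j (S.D k (f a)) p =
      (S.D j (S.D k (X a)) p - S.D j (S.D k (f a)) p) + S.D j (S.D k (y a)) p := by ring
    rw [this]
    refine (norm_add_le _ _).trans ((add_le_add (c2 j k a p) (nil (y2 j k a) p)).trans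
      (le_of_eq (by ring)))
  -- high orders
  have high : ∀ (B : ℝ) (u v : P → ℂ), 1 ≤ B → S.Sm u → S.Sm v → S.Bd θ N (C * B) u →
      S.Bd (θ * z ^ 2) N (s * B) v → (∀ p, ‖u p + v p‖ ≤ (A0 + 1) * B) →
      S.Bd (μ * z ^ 4) N ((A0 + 1) * B) (fun p => u p + v p) := by
    intro B u v hB su sv bu bv h0 w hw p
    have hB0 : 0 < B := by linarith
    by_cases hw0 : w.length = 0
    · obtain rfl := List.eq_nil_of_length_eq_zero hw0
      simpa [DAlg.wd] using h0 p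
    · have e : S.wd w (fun p => u p + v p) = S.wd w u + S.wd w v := wd_add w su sv
      rw [e]
      have hk : 1 ≤ w.length := by omega
      have r1 : θ ^ w.length ≤ z⁻¹ * (θ * z ^ 2) ^ w.length := by
        rw [mul_pow, ← pow_mul]
        have : z * 1 ≤ z ^ (2 * w.length) := by
          rw [mul_one]
          calc z = z ^ 1 := (pow_one z).symm
            _ ≤ _ := pow_le_pow_right₀ hz1 (by omega)
        calc θ ^ w.length = z⁻¹ * (θ ^ w.length * (z * 1)) := by field_simp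
          _ ≤ _ := by gcongr
      have r2 : C * z⁻¹ ≤ 1 / 2 := by
        rw [← div_eq_mul_inv, div_le_iff₀ hz0]; linarith
      have r3 : s ≤ 1 / 2 := by
        refine hs.trans ?_
        rw [inv_le_comm₀ hz0 (by norm_num)]; linarith
      have r4 : (θ * z ^ 2) ^ w.length ≤ (μ * z ^ 4) ^ w.length :=
        pow_le_pow_left₀ hν0 hνμ _
      have r5 : 0 ≤ (θ * z ^ 2) ^ w.length := by positivity
      calc ‖(S.wd w u + S.wd w v) p‖ ≤ ‖S.wd w u p‖ + ‖S.wd w v p‖ := norm_add_le _ _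
        _ ≤ C * B * θ ^ w.length + s * B * (θ * z ^ 2) ^ w.length :=
          add_le_add (bu w hw p) (bv w hw p)
        _ ≤ C * B * (z⁻¹ * (θ * z ^ 2) ^ w.length) + s * B * (θ * z ^ 2) ^ w.length := by
          gcongr
        _ = (C * z⁻¹ + s) * (B * (θ * z ^ 2) ^ w.length) := by ring
        _ ≤ 1 * (B * (θ * z ^ 2) ^ w.length) := by
          gcongr; linarith
        _ ≤ (A0 + 1) * (B * (μ * z ^ 4) ^ w.length) := by
          gcongr; linarith
        _ = _ := by ring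
  refine ⟨fun a => S.sm_add (hX a) (hy a), fun a p => ?_, fun j a => ?_, fun j k a => ?_,
    fun j k => ?_, fun a p => ?_, fun j a p => ?_, fun j k a p => ?_⟩
  · rw [Complex.add_im, hXr a p, hyr a p, add_zero]
  · rw [D1]
    have := high 1 (S.D j (X a)) (S.D j (y a)) le_rfl (S.sm_D j (hX a)) (S.sm_D j (hy a))
      (by simpa using X1 j a) (by simpa using y1 j a) (fun p => by
        have h1 := q1 j a p
        have h2 := f1 j a p
        have h3 : S.D j (X a) p + S.D j (y a) p =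
          (S.D j (X a) p + S.D j (y a) p - S.D j (f a) p) + S.D j (f a) p := by ring
        rw [h3]
        exact (norm_add_le _ _).trans (by linarith))
    simpa using this
  · rw [D2]
    exact high b (S.D j (S.D k (X a))) (S.D j (S.D k (y a))) hb (S.sm_D j (S.sm_D k (hX a)))
      (S.sm_D j (S.sm_D k (hy a))) (X2 j k a) (y2 j k a) (fun p => by
        have h1 := q2 j k a p
        have h2 := f2 j k a p
        have h3 : S.D j (S.D k (X a)) p + S.D j (S.D k (y a)) p =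
          (S.D j (S.D k (X a)) p + S.D j (S.D k (y a)) p - S.D j (S.D k (f a)) p)
            + S.D j (S.D k (f a)) p := by ring
        rw [h3]
        have h4 : (e' + s) * b ≤ 1 * b := by gcongr
        exact (norm_add_le _ _).trans (by linarith))
  · exact Bd.mono (hE j k) le_rfl hν0 hνμ hE0 le_rfl
  · have h1 := c0 a p
    have h2 := nil (y0 a) p
    have h3 : X a p + y a p - f a p = (X a p - f a p) + y a p := by ring
    rw [h3]
    exact (norm_add_le _ _).trans (add_le_add h1 h2)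
  · rw [D1]; exact q1 j a p
  · rw [D2]; exact q2 j k a p

/-! ### the context of the iteration -/

/-- the fixed data of the iteration -/
structure Ctx (S : DAlg P κ) [Fintype κ] {ι : Type u} {Q : Type} [Fintype Q]
    (G : κ → κ → P → ℂ) (f : ι → Fin 4 → P → ℂ) (b : ι → ℝ) (d : ι → PData P κ Q)
    (A0 M c1 κ1 e0 : ℝ) : Prop where
  hA0 : 0 ≤ A0
  hM : 0 ≤ M
  hc1 : 0 < c1
  hκ1 : 0 < κ1
  he0 : 0 < e0
  he1 : 2 * e0 ≤ 1
  iG : S.IsT G
  rG : ∀ j k, Rl (G j k)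
  sG : ∀ j k, S.Sm (G j k)
  hb : ∀ i, 1 ≤ b i
  sf : ∀ i a, S.Sm (f i a)
  rf : ∀ i a, Rl (f i a)
  f0 : ∀ i a p, ‖f i a p‖ ≤ A0
  f1 : ∀ i j a p, ‖S.D j (f i a) p‖ ≤ A0
  f2 : ∀ i j k a p, ‖S.D j (S.D k (f i a)) p‖ ≤ A0 * b i
  F1 : ∀ j a, S.FO b (fun _ => 1) (fun i => S.D j (f i a))
  F2 : ∀ j k a, S.FO b b (fun i => S.D j (S.D k (f i a)))
  hd : ∀ i, (d i).Ok S
  hF : PData.FBd S d b
  hn : ∀ i, (d i).Nondeg S c1 (b i) (f i)
  mt : ∀ i x, usedRay x → ∀ j p, ‖((d i).rays x).t j p‖ ≤ M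
  mw : ∀ i x, usedRay x → ∀ j p, ‖((d i).rays x).w j p‖ ≤ M
  mdw : ∀ i x, usedRay x → ∀ j k p, ‖S.D j (((d i).rays x).w k) p‖ ≤ M
  hc : 2304 * ((2 * ((Fintype.card κ + 1) ^ 2 * (M + 1) ^ 2) * (A0 + 1)) ^ 5 *
        (2 * ((Fintype.card κ + 1) ^ 2 * (M + 1) ^ 2) * (2 * e0))) ≤ c1 / 2
  hell : ∀ i a (T : κ → κ → P → ℂ), (∀ j k p, ‖T j k p - G j k p‖ ≤ κ1) →
    ∀ p ∈ ((d i).ray a).K, c1 ≤ ((d i).ell a T p).re

section Main

variable [Fintype κ] {ι : Type u} {Q : Type} [Fintype Q] {G : κ → κ → P → ℂ}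
  {f : ι → Fin 4 → P → ℂ} {b : ι → ℝ} {d : ι → PData P κ Q} {A0 M c1 κ1 e0 : ℝ}

/-- **the general step** -/
theorem step (hSt : S.StageF Q) (c : Ctx S G f b d A0 M c1 κ1 e0) {t : ℕ} (ht : 3 ≤ t)
    (Sm : S.Smoothing (1200 * t)) : Step S G f b (A0 + 1) e0 t := by
  intro N
  have hA : 1 ≤ A0 + 1 := by linarith [c.hA0]
  obtain ⟨C1, hC1, H1⟩ := xt_appr' (G := G) (f := f) (b := b) (e0 := e0) (by omega : 1 ≤ t) Sm hA
  obtain ⟨C2, hC2, H2⟩ := ten_near (G := G) (f := f) (b := b) (e0 := e0) (by omega : 1 ≤ t) Sm hA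
    c.sG
  have he0 := c.he0
  have hκ1 := c.hκ1
  set z1 : ℝ := 2 + C1 / e0 + C1 + C2 / κ1 with hz1
  have hz1_1 : 1 ≤ z1 := by
    have h1 : 0 ≤ C1 / e0 := by positivity
    have h2 : 0 ≤ C2 / κ1 := by positivity
    rw [hz1]; linarith
  -- smallness for z ≥ z1
  have small : ∀ z, z1 ≤ z → ∀ n, 1 ≤ n → C1 * (z ^ n)⁻¹ ≤ e0 ∧ C2 * (z ^ n)⁻¹ ≤ κ1 := by
    intro z hz n hn
    have h1 : 0 ≤ C1 / e0 := by positivity
    have h2 : 0 ≤ C2 / κ1 := by positivity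
    have hz1' : 1 ≤ z := by linarith only [h2, h1, hz, hC1]
    have hz0 : 0 < z := by linarith only [h2, h1, hz, hC1]
    have h3 : (z ^ n)⁻¹ ≤ z⁻¹ := by
      have := inv_pow_le hz1' (b := n) (c := 1) hn
      simpa using this
    have h4 : C1 / e0 ≤ z := by linarith only [h2, hz, hC1]
    have h5 : C2 / κ1 ≤ z := by linarith
    rw [div_le_iff₀ he0] at h4
    rw [div_le_iff₀ hκ1] at h5
    constructor
    · calc C1 * (z ^ n)⁻¹ ≤ C1 * z⁻¹ := by gcongr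
        _ ≤ e0 := by rw [← div_eq_mul_inv, div_le_iff₀ hz0]; linarith
    · calc C2 * (z ^ n)⁻¹ ≤ C2 * z⁻¹ := by gcongr
        _ ≤ κ1 := by rw [← div_eq_mul_inv, div_le_iff₀ hz0]; linarith
  let J : Type u := {x : ι × ℝ × ℝ × (Fin 4 → P → ℂ) // z1 ≤ x.2.1 ∧
    Adm S G f b (A0 + 1) e0 t x.1 x.2.1 x.2.2.1 x.2.2.2}
  let zz : J → ℝ := fun x => x.1.2.1
  let μμ : J → ℝ := fun x => x.1.2.2.1
  let XX : J → Fin 4 → P → ℂ := fun x => xt Sm x.1.2.1 x.1.2.2.1 x.1.2.2.2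
  have adm : ∀ x : J, Adm S G f b (A0 + 1) e0 t x.1.1 (zz x) (μμ x) x.1.2.2.2 := fun x => x.2.2
  have hzz1 : ∀ x : J, z1 ≤ zz x := fun x => x.2.1
  have hzz : ∀ x : J, 1 ≤ zz x := fun x => (adm x).hz
  have hμμ : ∀ x : J, 1 ≤ μμ x := fun x => (adm x).hμ1
  have hzz2 : ∀ x : J, 1 ≤ zz x ^ 2 := fun x => one_le_pow₀ (hzz x)
  -- closeness of the smoothed map
  have cl1 : ∀ (x : J) j a p, ‖S.D j (XX x a) p - S.D j (f x.1.1 a) p‖ ≤ 2 * e0 := by
    intro x j a p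
    have h1 := (H1 _ _ _ _ (adm x)).2.1 j a [] (by simp) p
    have h2 := (adm x).inv.c1 j a p
    simp only [DAlg.wd, List.length_nil, pow_zero, mul_one] at h1
    have h3 := h1.trans (small _ (hzz1 x) _ (by omega)).1
    rw [D_sub j ((adm x).inv.sm a) ((adm x).sm Sm a)] at h3
    have h4 : S.D j (XX x a) p - S.D j (f x.1.1 a) p =
      (S.D j (x.1.2.2.2 a) p - S.D j (f x.1.1 a) p) -
        (S.D j (x.1.2.2.2 a) p - S.D j (XX x a) p) := by ring
    rw [h4]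
    refine (norm_sub_le _ _).trans ?_
    have h5 : ‖S.D j (x.1.2.2.2 a) p - S.D j (XX x a) p‖ ≤ e0 := h3
    linarith only [h5, h2]
  have cl2 : ∀ (x : J) j k a p,
      ‖S.D j (S.D k (XX x a)) p - S.D j (S.D k (f x.1.1 a)) p‖ ≤ 2 * e0 * b x.1.1 := by
    intro x j k a p
    have hb := (adm x).hb
    have h1 := (H1 _ _ _ _ (adm x)).2.2 j k a [] (by simp) p
    have h2 := (adm x).inv.c2 j k a p
    simp only [DAlg.wd, List.length_nil, pow_zero, mul_one] at h1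
    have h3 := h1.trans (mul_le_mul_of_nonneg_right (small _ (hzz1 x) _ (by omega)).1
      (by linarith : 0 ≤ b x.1.1))
    rw [D_sub k ((adm x).inv.sm a) ((adm x).sm Sm a),
      D_sub j (S.sm_D k ((adm x).inv.sm a)) (S.sm_D k ((adm x).sm Sm a))] at h3
    have h4 : S.D j (S.D k (XX x a)) p - S.D j (S.D k (f x.1.1 a)) p =
      (S.D j (S.D k (x.1.2.2.2 a)) p - S.D j (S.D k (f x.1.1 a)) p) -
        (S.D j (S.D k (x.1.2.2.2 a)) p - S.D j (S.D k (XX x a)) p) := by ring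
    rw [h4]
    refine (norm_sub_le _ _).trans ?_
    have h5 : ‖S.D j (S.D k (x.1.2.2.2 a)) p - S.D j (S.D k (XX x a)) p‖ ≤ e0 * b x.1.1 := h3
    linarith only [h5, h2]
  have hcore := core (S := S) hSt ht (J := J) c.sG zz (fun x => b x.1.1)
    (fun x => μμ x * zz x ^ 2) (fun x => d x.1.1) XX (c1 / 2) (by linarith [c.hc1]) hzz
    (fun x => c.hb _)
    (fun x => by
      have h1 := (adm x).hμb
      have h2 := hzz2 x
      have h3 := hμμ x
      linarith only [mul_nonneg (sub_nonneg.2 h2) (sub_nonneg.2 h3), h2, h1])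
    (fun x => by
      have h1 := (adm x).hμ
      calc μμ x * zz x ^ 2 ≤ b x.1.1 * zz x ^ 32 * zz x ^ 2 := by
            have := hzz x
            gcongr
        _ = _ := by ring)
    (fun x => c.hd _)
    (fbd_re c.hF (fun x : J => x.1.1) (fun x => by linarith [c.hb x.1.1])
      (fun x => by
        have h1 := (adm x).hμb
        have h2 := hzz2 x
        have h3 := hμμ x
        linarith only [mul_nonneg (sub_nonneg.2 h2) (sub_nonneg.2 h3), h2, h1]))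
    (fun x => nondeg_near (c.hd _) ((adm x).sm Sm) (c.sf _) c.hM c.hA0 (c.hb _)
      (by linarith : (0 : ℝ) ≤ 2 * e0) c.he1 (c.mt _) (c.mw _) (c.mdw _) (c.f1 _) (c.f2 _)
      (cl1 x) (cl2 x) c.hc (c.hn _))
    (fun x => (adm x).sm Sm) (fun x => (adm x).rl Sm)
    (fun j a => ⟨fun x => S.sm_D j ((adm x).sm Sm a), fun k => by
      obtain ⟨C, hC, h⟩ := xt_bd (G := G) (f := f) (b := b) (e0 := e0) (t := t) Sm hA k
      refine ⟨C, by linarith, fun x => ?_⟩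
      have h1 := hzz x
      have h2 := hμμ x
      exact Bd.mono ((h _ _ _ _ (adm x)).2.1 j a) le_rfl (by positivity)
        (by nlinarith [mul_pos (by linarith : 0 < μμ x) (by linarith : 0 < zz x)])
        (by linarith) (by linarith)⟩)
    (fun j k a => ⟨fun x => S.sm_D j (S.sm_D k ((adm x).sm Sm a)), fun k' => by
      obtain ⟨C, hC, h⟩ := xt_bd (G := G) (f := f) (b := b) (e0 := e0) (t := t) Sm hA k'
      refine ⟨C, by linarith, fun x => ?_⟩
      have h1 := hzz x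
      have h2 := hμμ x
      have h3 := c.hb x.1.1
      exact Bd.mono ((h _ _ _ _ (adm x)).2.2 j k a) le_rfl (by positivity)
        (by nlinarith [mul_pos (by linarith : 0 < μμ x) (by linarith : 0 < zz x)])
        (by positivity) le_rfl⟩)
    (fun x => ten_isT c.iG ((adm x).sm Sm) _ _)
    (fun x => ten_rl c.rG ((adm x).sm Sm) ((adm x).rl Sm) _ _)
    (fun j k => ⟨fun x => ten_sm c.sG ((adm x).sm Sm) _ _ j k, fun k' => by
      obtain ⟨C, hC, h⟩ := ten_fo (G := G) (f := f) (b := b) (e0 := e0) (by omega : 1 ≤ t) Sm hA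
        c.sG k'
      refine ⟨C, by linarith, fun x => ?_⟩
      rw [mul_one]
      exact h _ _ _ _ (adm x) j k⟩)
    (fun x a p hp => by
      have h1 := c.hell x.1.1 a (ten S G ((zz x ^ (400 * t))⁻¹) ((zz x ^ (500 * t))⁻¹) (XX x))
        (fun j k q => by
          have h2 := H2 _ _ _ _ (adm x) j k [] (by simp) q
          simp only [DAlg.wd, List.length_nil, pow_zero, mul_one] at h2
          exact h2.trans (small _ (hzz1 x) _ (by omega)).2) p hp
      linarith [c.hc1]) (N + 400 * t)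
  obtain ⟨z2, hz2, hcore⟩ := hcore
  obtain ⟨C3, hC3, H3⟩ := xt_bd (G := G) (f := f) (b := b) (e0 := e0) (t := t) Sm hA N
  refine ⟨z1 + z2 + 2 * C3 + 2, by linarith, fun i z μ e X hz hbμ hμ he hee hinv => ?_⟩
  have hz_1 : 1 ≤ z := by linarith
  have hz_2 : 2 ≤ z := by linarith
  have hz0 : 0 < z := by linarith
  have hzz1' : z1 ≤ z := by linarith
  have hpos : 0 ≤ (z ^ (100 * t))⁻¹ := by positivity
  have hb := c.hb i
  have hadm : Adm S G f b (A0 + 1) e0 t i z μ X := by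
    refine ⟨hb, hz_1, hbμ, hμ, hinv.mono le_rfl (by positivity) le_rfl (by linarith)
      (by linarith) (by linarith) (by linarith), fun a p => ?_⟩
    have h1 := hinv.c0 a p
    have h2 := c.f0 i a p
    have h3 : X a p = (X a p - f i a p) + f i a p := by ring
    rw [h3]
    have h4 := c.he1
    exact (norm_add_le _ _).trans (by linarith)
  obtain ⟨y, ys, yr, y0, y1, y2, yE⟩ := hcore ⟨(i, z, μ, X), hzz1', hadm⟩ (by
    change z2 ≤ z
    linarith)
  change ∀ a, S.Bd (μ * z ^ 2 * z ^ 2) (N + 400 * t) ((z ^ (170 * t))⁻¹) (y a) at y0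
  change ∀ j a, S.Bd (μ * z ^ 2 * z ^ 2) (N + 400 * t) ((z ^ (170 * t))⁻¹) (S.D j (y a)) at y1
  change ∀ j k a, S.Bd (μ * z ^ 2 * z ^ 2) (N + 400 * t) ((z ^ (170 * t))⁻¹ * b i)
    (S.D j (S.D k (y a))) at y2
  change ∀ j k, S.Bd (μ * z ^ 2 * z ^ 2) (N + 400 * t) ((z ^ (505 * t))⁻¹)
        (fun p => G j k p - S.met (fun a p => xt Sm z μ X a p + y a p) j k p
          - ((z ^ (500 * t))⁻¹ : ℝ) * G j k p) at yE
  have hμ1 := hadm.hμ1
  have hμ0 : 0 < μ := by linarith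
  have hν : 0 ≤ μ * z ^ 2 * z ^ 2 := by positivity
  -- numerical bounds
  have n1 : C1 * (z ^ (1200 * t))⁻¹ ≤ (z ^ (170 * t))⁻¹ := by
    have h1 : C1 ≤ z := by
      have h2 : 0 ≤ C1 / e0 := by positivity
      have h3 : 0 ≤ C2 / κ1 := by positivity
      linarith only [h3, h2, hz, hC3, hz2]
    calc C1 * (z ^ (1200 * t))⁻¹ ≤ z ^ 1 * (z ^ (1200 * t))⁻¹ := by
          rw [pow_one]; gcongr
      _ ≤ _ := pow_mul_inv_le hz_1 (by omega)
  have n2 : 2 * (z ^ (170 * t))⁻¹ ≤ (z ^ (160 * t))⁻¹ := by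
    calc 2 * (z ^ (170 * t))⁻¹ ≤ z ^ 1 * (z ^ (170 * t))⁻¹ := by
          rw [pow_one]; gcongr
      _ ≤ _ := pow_mul_inv_le hz_1 (by omega)
  have n3 : (z ^ (160 * t))⁻¹ ≤ (z ^ (100 * t))⁻¹ := inv_pow_le hz_1 (by omega)
  have n4 : (z ^ (170 * t))⁻¹ ≤ z⁻¹ := by
    have := inv_pow_le hz_1 (b := 170 * t) (c := 1) (by omega)
    simpa using this
  have hE1 := H1 _ _ _ _ hadm
  set s := (z ^ (170 * t))⁻¹ with hs
  have hs0 : 0 ≤ s := by positivity
  have nil : ∀ {μ C : ℝ} {M : ℕ} {u : P → ℂ}, S.Bd μ M C u → ∀ p, ‖u p‖ ≤ C := by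
    intro μ C M u h p
    simpa [DAlg.wd] using h [] (by simp) p
  have hmono : ∀ {C : ℝ} {u : P → ℂ}, 0 ≤ C → S.Bd (μ * z ^ 2 * z ^ 2) (N + 400 * t) C u →
      S.Bd (μ * z ^ 2 * z ^ 2) N C u := fun hC h => Bd.mono h (by omega) hν le_rfl hC le_rfl
  have hxt := H3 _ _ _ _ hadm
  have hθ := hadm.hθ
  have hz2' : z ≤ z ^ 2 := by (by_contra nlg; linarith only [nlg, mul_pos (sub_pos.2 hz0) (sub_pos.2 hz0), mul_pos (sub_pos.2 (not_le.1 nlg)) (sub_pos.2 hz0), mul_nonneg (sq_nonneg (z : ℝ)) (sub_nonneg.2 hz_2)])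
  have hθ2 : μ * z ≤ μ * z ^ 2 := by gcongr
  have hinv' := new_inv (S := S) (G := G) (f := f i) (X := xt Sm z μ X) (y := y) (A0 := A0)
    (b := b i) (C := C3) (z := z) (θ := μ * z ^ 2) (μ := μ) (e' := e + s) (s := s)
    (E := (z ^ (505 * t))⁻¹) (δ' := (z ^ (500 * t))⁻¹) (N := N) c.hA0 hb (by linarith)
    (by linarith) (hθ.trans hθ2) le_rfl n4 (by
      have := c.he1
      linarith) (by positivity)
    (hadm.sm Sm) (hadm.rl Sm) ys yr (c.f1 i) (c.f2 i)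
    (fun j a => Bd.mono (hxt.2.1 j a) le_rfl (by positivity) hθ2 (by linarith only [hC3]) le_rfl)
    (fun j k a => Bd.mono (hxt.2.2 j k a) le_rfl (by positivity) hθ2 (by positivity) le_rfl)
    (fun a => hmono hs0 (y0 a)) (fun j a => hmono hs0 (y1 j a))
    (fun j k a => hmono (by positivity) (y2 j k a))
    (fun a p => by
      have h1 := nil (hE1.1 a) p
      have h2 := hinv.c0 a p
      have h4 : xt Sm z μ X a p - f i a p = (X a p - f i a p) - (X a p - xt Sm z μ X a p) := by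
        ring
      rw [h4]
      exact (norm_sub_le _ _).trans (by linarith only [h2, h1, n1]))
    (fun j a p => by
      have h1 := nil (hE1.2.1 j a) p
      rw [D_sub j (hadm.inv.sm a) (hadm.sm Sm a)] at h1
      have h2 := hinv.c1 j a p
      have h4 : S.D j (xt Sm z μ X a) p - S.D j (f i a) p = (S.D j (X a) p - S.D j (f i a) p) -
        (S.D j (X a) p - S.D j (xt Sm z μ X a) p) := by ring
      rw [h4]
      exact (norm_sub_le _ _).trans (by linarith))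
    (fun j k a p => by
      have h1 := nil (hE1.2.2 j k a) p
      rw [D_sub k (hadm.inv.sm a) (hadm.sm Sm a),
        D_sub j (S.sm_D k (hadm.inv.sm a)) (S.sm_D k (hadm.sm Sm a))] at h1
      have h2 := hinv.c2 j k a p
      have h4 : S.D j (S.D k (xt Sm z μ X a)) p - S.D j (S.D k (f i a)) p =
        (S.D j (S.D k (X a)) p - S.D j (S.D k (f i a)) p) -
        (S.D j (S.D k (X a)) p - S.D j (S.D k (xt Sm z μ X a)) p) := by ring
      rw [h4]
      have h5 : C1 * (z ^ (1200 * t))⁻¹ * b i ≤ s * b i := by gcongr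
      exact (norm_sub_le _ _).trans (by linarith only [h5, h2, h1]))
    (fun j k => hmono (by positivity) (yE j k))
  refine ⟨fun a p => xt Sm z μ X a p + y a p, ?_, fun a => ?_⟩
  · exact hinv'.mono le_rfl (by positivity) le_rfl (by linarith only [n2, n3]) (by linarith only [hb])
      (by linarith only [c.hA0]) (by positivity)
  · have hμz : μ ≤ μ * z ^ 4 := by
      have : 1 ≤ z ^ 4 := one_le_pow₀ hz_1
      (by_contra nlg; linarith only [nlg, mul_nonneg (sub_nonneg.2 hz2') (sub_nonneg.2 hθ2), mul_nonneg (sub_nonneg.2 hμ1) (sub_nonneg.2 hz2'), mul_pos (sub_pos.2 hz0) (sub_pos.2 hμ0), mul_pos (sub_pos.2 hz0) (sub_pos.2 hz0), mul_nonneg (sub_nonneg.2 hz) (sub_nonneg.2 hθ2), mul_nonneg (sub_nonneg.2 hz) (sub_nonneg.2 hν), mul_nonneg (sub_nonneg.2 hz) (le_of_lt (sub_pos.2 hz0)), mul_nonneg (sub_nonneg.2 hC3) (sub_nonneg.2 hθ2), mul_nonneg (sub_nonneg.2 hC3) (sub_nonneg.2 hν), mul_nonneg (sub_nonneg.2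 hC3) (le_of_lt (sub_pos.2 hz0)), mul_nonneg (sub_nonneg.2 hz2) (sub_nonneg.2 hθ2), mul_nonneg (sub_nonneg.2 hz2) (sub_nonneg.2 hν), mul_nonneg (sub_nonneg.2 hz2) (le_of_lt (sub_pos.2 hz0)), mul_nonneg (sub_nonneg.2 hz1_1) (sub_nonneg.2 hθ2), mul_nonneg (sub_nonneg.2 hz1_1) (sub_nonneg.2 hν), mul_nonneg (sub_nonneg.2 hz1_1) (le_of_lt (sub_pos.2 hz0)), mul_pos (sub_pos.2 (not_le.1 nlg)) (sub_pos.2 hz0)])
    have h1 := Bd.mono (hE1.1 a) le_rfl hμ0.le hμz (by positivity) n1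
    have h2 : S.Bd (μ * z ^ 4) (400 * t) s (y a) := by
      have e : μ * z ^ 2 * z ^ 2 = μ * z ^ 4 := by ring
      rw [← e]
      exact Bd.mono (y0 a) (by omega) hν le_rfl hs0 le_rfl
    have h3 := Bd.sub (ys a) (sm_sub (hadm.inv.sm a) (hadm.sm Sm a)) h2 h1
    have e : (fun p => y a p - (X a p - xt Sm z μ X a p)) =
        fun p => xt Sm z μ X a p + y a p - X a p := by
      funext p; ring
    rw [e] at h3
    exact Bd.monoC h3 (by positivity) (by linarith)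

/-- **the first step** -/
theorem first (hSt : S.StageF Q) (c : Ctx S G f b d A0 M c1 κ1 e0) {δ : ι → ℝ}
    (hδ : ∀ i, 0 < δ i)
    (hnear : ∀ i j k p, ‖G j k p - S.met (f i) j k p - δ i * G j k p‖ ≤ κ1 / 2 * δ i)
    (hfo : ∀ j k, S.FO b δ (fun i p => G j k p - S.met (f i) j k p)) :
    First S G f b δ (A0 + 1) := by
  intro N
  have hκ1 := c.hκ1
  obtain ⟨CG, hCG1, hCG⟩ := unif (α := κ × κ) (p := fun x C => ∀ p, ‖G x.1 x.2 p‖ ≤ C)
    (fun a C C' h h' p => (h' p).trans h) (fun x => S.bdd (c.sG x.1 x.2))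
  set z1 : ℝ := 2 + 2 * CG / κ1 with hz1
  have hz1_1 : 2 ≤ z1 := by
    have h1 : 0 ≤ 2 * CG / κ1 := by positivity
    rw [hz1]; linarith
  let J : Type u := {x : ι × ℝ // z1 ≤ x.2 ∧ δ x.1 * x.2 ^ (400 * 10) = 1}
  let zz : J → ℝ := fun x => x.1.2
  have hzz1 : ∀ x : J, z1 ≤ zz x := fun x => x.2.1
  have hzz : ∀ x : J, 1 ≤ zz x := fun x => by linarith [hzz1 x]
  have hzz0 : ∀ x : J, 0 < zz x := fun x => by linarith [hzz1 x]
  have hδz : ∀ x : J, (zz x ^ (400 * 10))⁻¹ = δ x.1.1 := fun x => by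
    exact (eq_inv_of_mul_eq_one_left x.2.2).symm
  have hδz' : ∀ x : J, ((zz x ^ (400 * 10))⁻¹)⁻¹ * δ x.1.1 = 1 := fun x => by
    rw [hδz]; exact inv_mul_cancel₀ (hδ _).ne'
  have hcore := core (S := S) hSt (t := 10) (by norm_num) (J := J) c.sG zz (fun x => b x.1.1)
    (fun x => b x.1.1) (fun x => d x.1.1) (fun x => f x.1.1) (c1 / 2) (by linarith [c.hc1]) hzz
    (fun x => c.hb _) (fun x => le_rfl)
    (fun x => by
      have h1 : 1 ≤ zz x ^ 34 := one_le_pow₀ (hzz x)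
      have h2 := c.hb x.1.1
      linarith only [mul_nonneg (sub_nonneg.2 h1) (sub_nonneg.2 h2), h1])
    (fun x => c.hd _)
    (fbd_re c.hF (fun x : J => x.1.1) (fun x => by linarith [c.hb x.1.1]) (fun x => le_rfl))
    (fun x y hy p hp => by
      have h1 := c.hn x.1.1 y hy p hp
      have h2 : 0 ≤ c1 * b x.1.1 ^ 2 := by have := c.hc1; positivity
      linarith)
    (fun x => c.sf _) (fun x => c.rf _)
    (fun j a => fo_re (c.F1 j a) (fun x : J => x.1.1))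
    (fun j k a => fo_re (c.F2 j k a) (fun x : J => x.1.1))
    (fun x => ten_isT c.iG (c.sf _) _ _)
    (fun x => ten_rl c.rG (c.sf _) (c.rf _) _ _)
    (fun j k => ⟨fun x => ten_sm c.sG (c.sf _) _ _ j k, fun k' => by
      obtain ⟨C, hC, h⟩ := (hfo j k).2 k'
      obtain ⟨C', hC', h'⟩ := sm_bd (c.sG j k) k'
      refine ⟨C + C', by linarith, fun x => ?_⟩
      have hb := c.hb x.1.1
      have hδx := hδ x.1.1
      have hzx := hzz x
      have hzx0 := hzz0 x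
      have b1 := h x.1.1
      have b2 := Bd.smul (((zz x ^ (500 * 10))⁻¹ : ℝ) : ℂ) (c.sG j k) (h' (b x.1.1) hb)
      have s1 : S.Sm (fun p => G j k p - S.met (f x.1.1) j k p) :=
        sm_sub (c.sG j k) (sm_met (c.sf _) j k)
      have b3 := Bd.smul ((((zz x ^ (400 * 10))⁻¹)⁻¹ : ℝ) : ℂ)
        (sm_sub s1 (sm_smul _ (c.sG j k))) (Bd.sub s1 (sm_smul _ (c.sG j k)) b1 b2)
      refine Bd.monoC b3 (by linarith) ?_
      have n1 : ‖((((zz x ^ (400 * 10))⁻¹)⁻¹ : ℝ) : ℂ)‖ = ((zz x ^ (400 * 10))⁻¹)⁻¹ := by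
        rw [Complex.norm_real, Real.norm_of_nonneg (by positivity)]
      have n2 : ‖(((zz x ^ (500 * 10))⁻¹ : ℝ) : ℂ)‖ = (zz x ^ (500 * 10))⁻¹ := by
        rw [Complex.norm_real, Real.norm_of_nonneg (by positivity)]
      rw [n1, n2]
      have e1 : ((zz x ^ (400 * 10))⁻¹)⁻¹ * (C * δ x.1.1 + (zz x ^ (500 * 10))⁻¹ * C') =
          C * (((zz x ^ (400 * 10))⁻¹)⁻¹ * δ x.1.1) +
          C' * (zz x ^ (400 * 10) * (zz x ^ (500 * 10))⁻¹) := by
        rw [inv_inv]; ring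
      rw [e1, hδz' x]
      have e2 : zz x ^ (400 * 10) * (zz x ^ (500 * 10))⁻¹ ≤ 1 := by
        have := pow_mul_inv_le hzx (a := 400 * 10) (b := 500 * 10) (c := 0) (by norm_num)
        simpa using this
      have e3 : C' * (zz x ^ (400 * 10) * (zz x ^ (500 * 10))⁻¹) ≤ C' * 1 := by gcongr
      linarith only [e3]⟩)
    (fun x a p hp => by
      have h1 := c.hell x.1.1 a (ten S G ((zz x ^ (400 * 10))⁻¹) ((zz x ^ (500 * 10))⁻¹) (f x.1.1))
        (fun j k q => by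
          have h2 := hnear x.1.1 j k q
          have h3 := hCG (j, k) q
          have hδx := hδ x.1.1
          have hzx := hzz x
          have hzx0 := hzz0 x
          have hdd : (((zz x ^ (400 * 10))⁻¹)⁻¹ : ℝ) * (δ x.1.1 : ℂ) = 1 := by
            rw [← Complex.ofReal_mul, hδz' x, Complex.ofReal_one]
          have e1 : ten S G ((zz x ^ (400 * 10))⁻¹) ((zz x ^ (500 * 10))⁻¹) (f x.1.1) j k q
              - G j k q =
              ((((zz x ^ (400 * 10))⁻¹)⁻¹ : ℝ) : ℂ) *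
                ((G j k q - S.met (f x.1.1) j k q - δ x.1.1 * G j k q) -
                  ((zz x ^ (500 * 10))⁻¹ : ℝ) * G j k q) := by
            simp only [ten]
            linear_combination (G j k q) * hdd
          rw [e1, norm_mul]
          have n1 : ‖((((zz x ^ (400 * 10))⁻¹)⁻¹ : ℝ) : ℂ)‖ = ((zz x ^ (400 * 10))⁻¹)⁻¹ := by
            rw [Complex.norm_real, Real.norm_of_nonneg (by positivity)]
          have n2 : ‖(((zz x ^ (500 * 10))⁻¹ : ℝ) : ℂ)‖ = (zz x ^ (500 * 10))⁻¹ := by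
            rw [Complex.norm_real, Real.norm_of_nonneg (by positivity)]
          rw [n1]
          have n3 : ‖(G j k q - S.met (f x.1.1) j k q - δ x.1.1 * G j k q) -
                  ((zz x ^ (500 * 10))⁻¹ : ℝ) * G j k q‖ ≤
              κ1 / 2 * δ x.1.1 + (zz x ^ (500 * 10))⁻¹ * CG := by
            refine (norm_sub_le _ _).trans (add_le_add h2 ?_)
            rw [norm_mul, n2]
            exact mul_le_mul_of_nonneg_left h3 (by positivity)
          have e2 : zz x ^ (400 * 10) * (zz x ^ (500 * 10))⁻¹ ≤ (zz x)⁻¹ := by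
            have := pow_mul_inv_le hzx (a := 400 * 10) (b := 500 * 10) (c := 1) (by norm_num)
            simpa using this
          have e4 : CG * (zz x)⁻¹ ≤ κ1 / 2 := by
            have h4 : 2 * CG / κ1 ≤ zz x := by
              have := hzz1 x
              linarith only [this]
            rw [div_le_iff₀ hκ1] at h4
            rw [← div_eq_mul_inv, div_le_iff₀ hzx0]
            linarith only [h4]
          calc ((zz x ^ (400 * 10))⁻¹)⁻¹ * ‖(G j k q - S.met (f x.1.1) j k q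
                - δ x.1.1 * G j k q) - ((zz x ^ (500 * 10))⁻¹ : ℝ) * G j k q‖
              ≤ ((zz x ^ (400 * 10))⁻¹)⁻¹ * (κ1 / 2 * δ x.1.1 + (zz x ^ (500 * 10))⁻¹ * CG) := by
                gcongr
            _ = κ1 / 2 * (((zz x ^ (400 * 10))⁻¹)⁻¹ * δ x.1.1) +
                CG * (zz x ^ (400 * 10) * (zz x ^ (500 * 10))⁻¹) := by rw [inv_inv]; ring
            _ ≤ κ1 / 2 * 1 + CG * (zz x)⁻¹ := by
                rw [hδz' x]; gcongr
            _ ≤ κ1 := by linarith only [e4]) p hp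
      linarith [c.hc1]) N
  obtain ⟨z2, hz2, hcore⟩ := hcore
  obtain ⟨C3, hC3, H3⟩ := unif (α := κ × Fin 4)
    (p := fun x C => ∀ i, S.Bd (b i) N C (S.D x.1 (f i x.2)))
    (fun a C C' h h' i => Bd.monoC (h' i) (by linarith [c.hb i]) h)
    (fun x => by
      obtain ⟨C, -, h⟩ := (c.F1 x.1 x.2).2 N
      exact ⟨C, fun i => by simpa using h i⟩)
  obtain ⟨C4, hC4, H4⟩ := unif (α := κ × κ × Fin 4)
    (p := fun x C => ∀ i, S.Bd (b i) N (C * b i) (S.D x.1 (S.D x.2.1 (f i x.2.2))))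
    (fun a C C' h h' i => Bd.monoC (h' i) (by linarith [c.hb i])
      (mul_le_mul_of_nonneg_right h (by linarith [c.hb i])))
    (fun x => by
      obtain ⟨C, -, h⟩ := (c.F2 x.1 x.2.1 x.2.2).2 N
      exact ⟨C, h⟩)
  refine ⟨z1 + z2 + 2 * (C3 + C4) + 2, by linarith, fun i z hz hδz2 => ?_⟩
  have hz_1 : 1 ≤ z := by linarith
  have hz_2 : 2 ≤ z := by linarith
  have hz0 : 0 < z := by linarith
  have hb := c.hb i
  obtain ⟨y, ys, yr, y0, y1, y2, yE⟩ := hcore ⟨(i, z), by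
    change z1 ≤ z
    linarith, hδz2⟩ (by
    change z2 ≤ z
    linarith)
  change ∀ a, S.Bd (b i * z ^ 2) N ((z ^ (170 * 10))⁻¹) (y a) at y0
  change ∀ j a, S.Bd (b i * z ^ 2) N ((z ^ (170 * 10))⁻¹) (S.D j (y a)) at y1
  change ∀ j k a, S.Bd (b i * z ^ 2) N ((z ^ (170 * 10))⁻¹ * b i) (S.D j (S.D k (y a))) at y2
  change ∀ j k, S.Bd (b i * z ^ 2) N ((z ^ (505 * 10))⁻¹)
        (fun p => G j k p - S.met (fun a p => f i a p + y a p) j k p
          - ((z ^ (500 * 10))⁻¹ : ℝ) * G j k p) at yE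
  have n3 : (z ^ (170 * 10))⁻¹ ≤ (z ^ (100 * 10))⁻¹ := inv_pow_le hz_1 (by norm_num)
  have n4 : (z ^ (170 * 10))⁻¹ ≤ z⁻¹ := by
    have := inv_pow_le hz_1 (b := 170 * 10) (c := 1) (by norm_num)
    simpa using this
  have n5 : (z ^ (170 * 10))⁻¹ ≤ 1 := inv_pow_le_one hz_1 _
  set s := (z ^ (170 * 10))⁻¹ with hs
  have hs0 : 0 ≤ s := by positivity
  have hinv' := new_inv (S := S) (G := G) (f := f i) (X := f i) (y := y) (A0 := A0)
    (b := b i) (C := C3 + C4) (z := z) (θ := b i) (μ := b i) (e' := 0) (s := s)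
    (E := (z ^ (505 * 10))⁻¹) (δ' := (z ^ (500 * 10))⁻¹) (N := N) c.hA0 hb (by linarith only [hC4, hC3])
    (by linarith only [hz, hz2, hz1_1]) hb (by
      have : 1 ≤ z ^ 2 := one_le_pow₀ hz_1
      (by_contra nlg; linarith only [nlg, mul_nonneg (sub_nonneg.2 hb) (sub_nonneg.2 this), mul_nonneg (sub_nonneg.2 hz) (sub_nonneg.2 hs0), mul_nonneg (sub_nonneg.2 hz) (sub_nonneg.2 n5), mul_nonneg (sub_nonneg.2 hz) (le_of_lt (sub_pos.2 hz0)), mul_nonneg (sub_nonneg.2 hC4) (sub_nonneg.2 hs0), mul_nonneg (sub_nonneg.2 hC4) (sub_nonneg.2 n5), mul_nonneg (sub_nonneg.2 hC4) (le_of_lt (sub_pos.2 hz0)), mul_nonneg (sub_nonneg.2 hC3) (sub_nonneg.2 hs0), mul_nonneg (sub_nonneg.2 hC3) (sub_nonneg.2 n5), mul_nonneg (sub_nonneg.2 hC3) (le_of_lt (sub_pos.2 hz0)), mul_nonneg (sub_nonneg.2 hz2) (sub_nonneg.2 hs0), mul_nonneg (sub_nonneg.2 hz2) (sub_nonneg.2 n5), mul_nonneg (sub_nonneg.2 hz2) (le_of_lt (sub_pos.2 hz0)),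 mul_nonneg (sub_nonneg.2 hz1_1) (sub_nonneg.2 hs0), mul_nonneg (sub_nonneg.2 hz1_1) (sub_nonneg.2 n5), mul_nonneg (sub_nonneg.2 hz1_1) (le_of_lt (sub_pos.2 hz0)), mul_nonneg (le_of_lt (sub_pos.2 (not_le.1 nlg))) (sub_nonneg.2 hs0), mul_nonneg (le_of_lt (sub_pos.2 (not_le.1 nlg))) (sub_nonneg.2 n5)])) n4 (by linarith) (by positivity)
    (c.sf i) (c.rf i) ys yr (c.f1 i) (c.f2 i)
    (fun j a => Bd.monoC (H3 (j, a) i) (by linarith) (by linarith))
    (fun j k a => Bd.monoC (H4 (j, k, a) i) (by linarith) (by (by_contra nlg; linarith only [nlg, mul_nonneg (sub_nonneg.2 hb) (sub_nonneg.2 hs0), mul_nonneg (sub_nonneg.2 hb) (sub_nonneg.2 n5), mul_nonneg (sub_nonneg.2 hC3) (sub_nonneg.2 hs0), mul_nonneg (sub_nonneg.2 hC3) (sub_nonneg.2 n5), mul_nonneg (sub_nonneg.2 hC3) (sub_nonneg.2 hb), mul_nonneg (le_of_lt (sub_pos.2 (not_le.1 nlg))) (sub_nonneg.2 hs0), mul_nonneg (le_of_lt (sub_pos.2 (not_le.1 nlg))) (sub_nonneg.2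 n5)])))
    y0 y1 y2 (fun a p => by simp) (fun j a p => by simp) (fun j k a p => by simp) yE
  exact ⟨_, hinv'.mono le_rfl (by positivity) le_rfl (by linarith) (by linarith)
      (by linarith [c.hA0]) (by positivity)⟩

end Main

end It

end Vale.Agent.P205.F
end
end

section

/-!
# The numeric sequences of the iteration of T1
-/

open Filter Topology

noncomputable section

namespace Vale.Agent.P205.F.It

/-- number of derivatives per stage -/
def t (n : ℕ) : ℕ := 5 * (n + 2)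

/-- `400 t n` as a real number -/
def kk (n : ℕ) : ℝ := 400 * (5 * ((n : ℝ) + 2))

lemma kk_eq (n : ℕ) : kk n = ((400 * t n : ℕ) : ℝ) := by
  unfold kk t
  push_cast
  ring

lemma kk_pos (n : ℕ) : 0 < kk n := by
  unfold kk
  positivity

lemma kk_succ (n : ℕ) : kk (n + 1) = kk n + 2000 := by
  unfold kk
  push_cast
  ring

lemma kk_ge (n : ℕ) : 4000 ≤ kk n := by
  unfold kk
  have : (0 : ℝ) ≤ n := Nat.cast_nonneg n
  linarith

/-- logarithm of `1/d` at stage `q` -/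
def DD (D0 : ℝ) (q : ℕ) : ℝ := (5 / 4) ^ q * D0

lemma DD_succ (D0 : ℝ) (q : ℕ) : DD D0 (q + 1) = 5 / 4 * DD D0 q := by
  unfold DD
  rw [pow_succ]
  ring

lemma DD_pos {D0 : ℝ} (h : 0 < D0) (q : ℕ) : 0 < DD D0 q := by
  unfold DD
  positivity

/-- the condition for increasing the order -/
def Inc (zz : ℕ → ℝ) (c D0 : ℝ) (q n : ℕ) (M : ℝ) : Prop :=
  zz n ≤ Real.exp (DD D0 q / kk n) ∧ c ≤ DD D0 q / kk n ∧ M ≤ 32 * (DD D0 q / kk n)

open Classical in
/-- the state: order and logarithm of the frequency -/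
def st (zz : ℕ → ℝ) (c D0 M0 : ℝ) : ℕ → ℕ × ℝ
  | 0 => (0, M0)
  | q + 1 =>
    let s := st zz c D0 M0 q
    let M' := s.2 + 4 * (DD D0 q / kk s.1)
    (if Inc zz c D0 (q + 1) (s.1 + 1) M' then s.1 + 1 else s.1, M')

section

variable {zz : ℕ → ℝ} {c D0 M0 : ℝ}

lemma st_snd (q : ℕ) : (st zz c D0 M0 (q + 1)).2 =
    (st zz c D0 M0 q).2 + 4 * (DD D0 q / kk (st zz c D0 M0 q).1) := rfl

open Classical in
lemma st_fst (q : ℕ) : (st zz c D0 M0 (q + 1)).1 =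
    if Inc zz c D0 (q + 1) ((st zz c D0 M0 q).1 + 1) (st zz c D0 M0 (q + 1)).2
      then (st zz c D0 M0 q).1 + 1 else (st zz c D0 M0 q).1 := rfl

lemma st_fst_le (q : ℕ) : (st zz c D0 M0 q).1 ≤ (st zz c D0 M0 (q + 1)).1 ∧
    (st zz c D0 M0 (q + 1)).1 ≤ (st zz c D0 M0 q).1 + 1 := by
  rw [st_fst]
  split_ifs
  · exact ⟨Nat.le_succ _, le_rfl⟩
  · exact ⟨le_rfl, Nat.le_succ _⟩

/-- the invariant -/
lemma st_inc (hD : 0 < D0) (h0 : Inc zz c D0 0 0 M0) (q : ℕ) :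
    Inc zz c D0 q (st zz c D0 M0 q).1 (st zz c D0 M0 q).2 := by
  induction q with
  | zero => exact h0
  | succ q ih =>
    by_cases h : Inc zz c D0 (q + 1) ((st zz c D0 M0 q).1 + 1) (st zz c D0 M0 (q + 1)).2
    · rw [st_fst, if_pos h]
      exact h
    · rw [st_fst, if_neg h]
      obtain ⟨h1, h2, h3⟩ := ih
      have hk := kk_pos (st zz c D0 M0 q).1
      have hDq := DD_pos hD q
      have hle : DD D0 q / kk (st zz c D0 M0 q).1 ≤ DD D0 (q + 1) / kk (st zz c D0 M0 q).1 := by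
        rw [DD_succ]
        apply div_le_div_of_nonneg_right _ hk.le
        linarith
      refine ⟨h1.trans (Real.exp_le_exp.2 hle), h2.trans hle, ?_⟩
      rw [st_snd, DD_succ]
      have : 5 / 4 * DD D0 q / kk (st zz c D0 M0 q).1 =
          5 / 4 * (DD D0 q / kk (st zz c D0 M0 q).1) := by ring
      rw [this]
      have hpos : 0 < DD D0 q / kk (st zz c D0 M0 q).1 := div_pos hDq hk
      linarith only [hpos, h3]

lemma st_snd_nonneg (hD : 0 < D0) (hM : 0 ≤ M0) (q : ℕ) : 0 ≤ (st zz c D0 M0 q).2 := by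
  induction q with
  | zero => exact hM
  | succ q ih =>
    rw [st_snd]
    have := div_pos (DD_pos hD q) (kk_pos (st zz c D0 M0 q).1)
    linarith

lemma tendsto_DD (hD : 0 < D0) : Tendsto (DD D0) atTop atTop := by
  unfold DD
  exact (tendsto_pow_atTop_atTop_of_one_lt (by norm_num)).atTop_mul_const hD

/-- if the order is constant from `q0` on then the ratio tends to 16 -/
lemma ratio_bound (hD : 0 < D0) {q0 n : ℕ} (hc : ∀ q, q0 ≤ q → (st zz c D0 M0 q).1 = n) (m : ℕ) :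
    (st zz c D0 M0 (q0 + m)).2 ≤ (st zz c D0 M0 q0).2 + 16 * (DD D0 (q0 + m) / kk n) := by
  induction m with
  | zero =>
    have := div_pos (DD_pos hD (q0 + 0)) (kk_pos n)
    simp only [add_zero] at this ⊢
    linarith
  | succ m ih =>
    rw [← add_assoc, st_snd, hc (q0 + m) (by omega), DD_succ]
    have : 5 / 4 * DD D0 (q0 + m) / kk n = 5 / 4 * (DD D0 (q0 + m) / kk n) := by ring
    rw [this]
    linarith only [ih]

lemma tendsto_st (hD : 0 < D0) : Tendsto (fun q => (st zz c D0 M0 q).1) atTop atTop := by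
  have hmono : Monotone fun q => (st zz c D0 M0 q).1 :=
    monotone_nat_of_le_succ fun q => (st_fst_le q).1
  rcases tendsto_atTop_of_monotone hmono with h | ⟨l, hl⟩
  · exact h
  · exfalso
    have hev : ∀ᶠ q in atTop, (st zz c D0 M0 q).1 = l := by
      have := hl.eventually (eventually_of_mem (by simp : ({l} : Set ℕ) ∈ 𝓝 l)
        (fun x hx => hx))
      filter_upwards [this] with q hq using hq
    obtain ⟨q0, hq0⟩ := eventually_atTop.1 hev
    have hc : ∀ q, q0 ≤ q → (st zz c D0 M0 q).1 = l := hq0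
    have hT := tendsto_DD hD
    have hk := kk_pos l
    have hk1 := kk_pos (l + 1)
    -- the three conditions hold eventually
    have e1 : ∀ᶠ q in atTop, zz (l + 1) ≤ Real.exp (DD D0 (q0 + q + 1) / kk (l + 1)) := by
      have : Tendsto (fun q : ℕ => Real.exp (DD D0 (q0 + q + 1) / kk (l + 1))) atTop atTop := by
        apply Real.tendsto_exp_atTop.comp
        apply Tendsto.atTop_div_const hk1
        apply hT.comp
        have : Tendsto (fun q : ℕ => q + (q0 + 1)) atTop atTop := tendsto_add_atTop_nat (q0 + 1)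
        refine this.congr fun q => by omega
      exact this.eventually_ge_atTop _
    have e2 : ∀ᶠ q in atTop, c ≤ DD D0 (q0 + q + 1) / kk (l + 1) := by
      have : Tendsto (fun q : ℕ => DD D0 (q0 + q + 1) / kk (l + 1)) atTop atTop := by
        apply Tendsto.atTop_div_const hk1
        apply hT.comp
        have : Tendsto (fun q : ℕ => q + (q0 + 1)) atTop atTop := tendsto_add_atTop_nat (q0 + 1)
        refine this.congr fun q => by omega
      exact this.eventually_ge_atTop _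
    have hgap : 0 < 32 / kk (l + 1) - 16 / kk l := by
      rw [kk_succ, sub_pos, div_lt_div_iff₀ hk (by linarith)]
      have := kk_ge l
      linarith
    have e3 : ∀ᶠ q in atTop,
        (st zz c D0 M0 q0).2 ≤ (32 / kk (l + 1) - 16 / kk l) * DD D0 (q0 + q + 1) := by
      have : Tendsto (fun q : ℕ => (32 / kk (l + 1) - 16 / kk l) * DD D0 (q0 + q + 1))
          atTop atTop := by
        apply Tendsto.const_mul_atTop hgap
        apply hT.comp
        have : Tendsto (fun q : ℕ => q + (q0 + 1)) atTop atTop := tendsto_add_atTop_nat (q0 + 1)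
        refine this.congr fun q => by omega
      exact this.eventually_ge_atTop _
    obtain ⟨q, h1, h2, h3⟩ := (e1.and (e2.and e3)).exists
    have hI : Inc zz c D0 (q0 + q + 1) ((st zz c D0 M0 (q0 + q)).1 + 1)
        (st zz c D0 M0 (q0 + q + 1)).2 := by
      rw [hc (q0 + q) (by omega)]
      refine ⟨h1, h2, ?_⟩
      have hr := ratio_bound (zz := zz) (c := c) (M0 := M0) hD hc (q + 1)
      rw [← add_assoc] at hr
      have h4 : (32 / kk (l + 1) - 16 / kk l) * DD D0 (q0 + q + 1) =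
          32 * (DD D0 (q0 + q + 1) / kk (l + 1)) - 16 * (DD D0 (q0 + q + 1) / kk l) := by ring
      rw [h4] at h3
      linarith only [hr, h3]
    have h5 := hc (q0 + q + 1) (by omega)
    rw [st_fst, if_pos hI, hc (q0 + q) (by omega)] at h5
    omega

end

lemma DD_ge {D0 : ℝ} (hD : 0 < D0) (q : ℕ) : (1 + (q : ℝ) / 4) * D0 ≤ DD D0 q := by
  unfold DD
  apply mul_le_mul_of_nonneg_right _ hD.le
  have h := one_add_mul_le_pow (a := (1 / 4 : ℝ)) (by norm_num) q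
  have h2 : (1 + 1 / 4 : ℝ) = 5 / 4 := by norm_num
  rw [h2] at h
  linarith

lemma rpow_exp (x a : ℝ) : Real.exp x ^ a = Real.exp (x * a) := (Real.exp_mul x a).symm

lemma exp_le_geom {D0 : ℝ} (hD : 0 < D0) {a : ℝ} (ha : 0 < a) (q : ℕ) :
    Real.exp (-DD D0 q) ^ a ≤ Real.exp (-(D0 * a)) * Real.exp (-(D0 * a / 4)) ^ q := by
  rw [rpow_exp, ← Real.exp_nat_mul, ← Real.exp_add]
  apply Real.exp_le_exp.2
  have := mul_le_mul_of_nonneg_right (DD_ge hD q) ha.le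
  linarith only [this]

lemma summable_exp {D0 : ℝ} (hD : 0 < D0) {a : ℝ} (ha : 0 < a) :
    Summable fun q => Real.exp (-DD D0 q) ^ a := by
  refine Summable.of_nonneg_of_le (fun q => Real.rpow_nonneg (Real.exp_pos _).le _)
    (exp_le_geom hD ha) ?_
  apply Summable.mul_left
  apply summable_geometric_of_lt_one (Real.exp_pos _).le
  rw [Real.exp_lt_one_iff]
  have : 0 < D0 * a / 4 := by positivity
  linarith

/-- The numeric sequences of the iteration. -/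
theorem exists_seq (Pw : ℕ) : ∃ Kw : ℕ, ∀ zz : ℕ → ℝ, ∃ d0 : ℝ, 0 < d0 ∧
    ∀ L mu0 de : ℝ, 1 ≤ L → 1 ≤ mu0 → 0 < de → de ≤ d0 → de * L ^ Kw ≤ 1 → de * mu0 ^ Kw ≤ 1 →
    ∃ (n : ℕ → ℕ) (z mu d : ℕ → ℝ), n 0 = 0 ∧ mu 0 = mu0 ∧ d 0 = de ∧
      (∀ q, n q ≤ n (q + 1) ∧ n (q + 1) ≤ n q + 1) ∧ Tendsto n atTop atTop ∧
      (∀ q, 1 ≤ z q ∧ zz (n q) ≤ z q ∧ L ^ Pw ≤ z q ∧ 1 ≤ mu q ∧ mu q ≤ z q ^ 32 ∧
        d q * z q ^ (400 * t (n q)) = 1 ∧ d (q + 1) * z q ^ (500 * t (n q)) = 1 ∧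
        mu (q + 1) = mu q * z q ^ 4) ∧
      (∀ q, 0 < d q) ∧ Summable (fun q => d q ^ (1 / 10 : ℝ)) ∧
      Summable (fun q => d q ^ (1 / 4 : ℝ)) ∧
      ∑' q, d q ^ (1 / 4 : ℝ) ≤ 2 * de ^ (1 / 4 : ℝ) ∧
      ∀ k : ℕ, ∀ᶠ q in atTop, mu (q + 1) ^ k * d q ^ (2 / 5 : ℝ) ≤ d q ^ (1 / 5 : ℝ) := by
  refine ⟨4000 * (Pw + 1), fun zz => ?_⟩
  set Z : ℝ := max 1 (zz 0) with hZ
  have hZ1 : 1 ≤ Z := le_max_left _ _
  have hZp : 0 < Z := by linarith
  refine ⟨min (Real.exp (-(16 * Real.log 2))) (Real.exp (-(4000 * Real.log Z))),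
    lt_min (Real.exp_pos _) (Real.exp_pos _), ?_⟩
  intro L mu0 de hL hmu hde hd0 hdL hdm
  set D0 : ℝ := -Real.log de with hD0
  have hdeD : de = Real.exp (-D0) := by
    rw [hD0, neg_neg, Real.exp_log hde]
  have hA : 16 * Real.log 2 ≤ D0 := by
    have h1 : Real.log de ≤ -(16 * Real.log 2) := by
      have := Real.log_le_log hde (hd0.trans (min_le_left _ _))
      rwa [Real.log_exp] at this
    linarith
  have hB : 4000 * Real.log Z ≤ D0 := by
    have h1 : Real.log de ≤ -(4000 * Real.log Z) := by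
      have := Real.log_le_log hde (hd0.trans (min_le_right _ _))
      rwa [Real.log_exp] at this
    linarith
  have hl2 : 0 < Real.log 2 := Real.log_pos (by norm_num)
  have hD : 0 < D0 := by linarith
  have hLp : 0 < L := by linarith
  have hmp : 0 < mu0 := by linarith
  have hlL : 0 ≤ Real.log L := Real.log_nonneg hL
  have hlm : 0 ≤ Real.log mu0 := Real.log_nonneg hmu
  have hC : (4000 * ((Pw : ℝ) + 1)) * Real.log L ≤ D0 := by
    have h1 := Real.log_le_log (by positivity) hdL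
    rw [Real.log_one, Real.log_mul hde.ne' (by positivity), Real.log_pow] at h1
    push_cast at h1
    linarith
  have hE : (4000 * ((Pw : ℝ) + 1)) * Real.log mu0 ≤ D0 := by
    have h1 := Real.log_le_log (by positivity) hdm
    rw [Real.log_one, Real.log_mul hde.ne' (by positivity), Real.log_pow] at h1
    push_cast at h1
    linarith
  have hPw : (0 : ℝ) ≤ Pw := Nat.cast_nonneg Pw
  set c : ℝ := Pw * Real.log L with hc
  have hk0 : kk 0 = 4000 := by unfold kk; norm_num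
  have h0 : Inc zz c D0 0 0 (Real.log mu0) := by
    have hDD0 : DD D0 0 = D0 := by unfold DD; simp
    refine ⟨?_, ?_, ?_⟩
    · rw [hDD0, hk0]
      have h1 : Real.log Z ≤ D0 / 4000 := by linarith
      calc zz 0 ≤ Z := le_max_right _ _
        _ = Real.exp (Real.log Z) := (Real.exp_log hZp).symm
        _ ≤ Real.exp (D0 / 4000) := Real.exp_le_exp.2 h1
    · rw [hDD0, hk0, hc]
      have h1 : Pw * Real.log L ≤ (Pw + 1) * Real.log L := by linarith only [hlL]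
      linarith
    · rw [hDD0, hk0]
      have h1 : 1 * Real.log mu0 ≤ (Pw + 1) * Real.log mu0 := by
        apply mul_le_mul_of_nonneg_right _ hlm
        linarith
      linarith
  set n : ℕ → ℕ := fun q => (st zz c D0 (Real.log mu0) q).1 with hn
  set M : ℕ → ℝ := fun q => (st zz c D0 (Real.log mu0) q).2 with hM
  have hinc : ∀ q, Inc zz c D0 q (n q) (M q) := st_inc hD h0
  have hMn : ∀ q, 0 ≤ M q := st_snd_nonneg hD hlm
  have hMs : ∀ q, M (q + 1) = M q + 4 * (DD D0 q / kk (n q)) := fun q => st_snd q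
  have hx : ∀ q, 0 < DD D0 q / kk (n q) := fun q => div_pos (DD_pos hD q) (kk_pos _)
  have hten : Tendsto n atTop atTop := tendsto_st hD
  refine ⟨n, fun q => Real.exp (DD D0 q / kk (n q)), fun q => Real.exp (M q),
    fun q => Real.exp (-DD D0 q), rfl, ?_, ?_, fun q => st_fst_le q, hten, ?_, ?_, ?_, ?_, ?_, ?_⟩
  · change Real.exp (Real.log mu0) = mu0
    exact Real.exp_log hmp
  · change Real.exp (-DD D0 0) = de
    rw [hdeD]
    unfold DD
    simp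
  · intro q
    obtain ⟨h1, h2, h3⟩ := hinc q
    have hk := kk_pos (n q)
    have hmul : kk (n q) * (DD D0 q / kk (n q)) = DD D0 q := by field_simp
    refine ⟨Real.one_le_exp (hx q).le, h1, ?_, Real.one_le_exp (hMn q), ?_, ?_, ?_, ?_⟩
    · have : L ^ Pw = Real.exp c := by
        rw [hc, Real.exp_nat_mul, Real.exp_log hLp]
      rw [this]
      exact Real.exp_le_exp.2 h2
    · rw [← Real.exp_nat_mul]
      apply Real.exp_le_exp.2
      push_cast
      exact h3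
    · rw [← Real.exp_nat_mul, ← kk_eq, hmul, ← Real.exp_add]
      simp
    · change Real.exp (-DD D0 (q + 1)) * Real.exp (DD D0 q / kk (n q)) ^ (500 * t (n q)) = 1
      rw [← Real.exp_nat_mul, DD_succ, ← Real.exp_add]
      have h5 : ((500 * t (n q) : ℕ) : ℝ) = 5 / 4 * kk (n q) := by
        rw [kk_eq]
        push_cast
        ring
      rw [h5, mul_assoc, hmul]
      simp
    · change Real.exp (M (q + 1)) = Real.exp (M q) * Real.exp (DD D0 q / kk (n q)) ^ 4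
      rw [hMs, Real.exp_add, ← Real.exp_nat_mul]
      push_cast
      rfl
  · intro q
    exact Real.exp_pos _
  · exact summable_exp hD (by norm_num)
  · exact summable_exp hD (by norm_num)
  · have hs := summable_exp hD (a := 1 / 4) (by norm_num)
    set r : ℝ := Real.exp (-(D0 * (1 / 4) / 4)) with hr
    have hr0 : 0 ≤ r := (Real.exp_pos _).le
    have hr2 : r ≤ 1 / 2 := by
      have h1 : r ≤ Real.exp (-Real.log 2) := by
        rw [hr]
        apply Real.exp_le_exp.2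
        linarith only [hA]
      rw [Real.exp_neg, Real.exp_log (by norm_num)] at h1
      simpa using h1
    have hr1 : r < 1 := by linarith only [hr2]
    have hg : Summable fun q : ℕ => Real.exp (-(D0 * (1 / 4))) * r ^ q :=
      (summable_geometric_of_lt_one hr0 hr1).mul_left _
    calc ∑' q, Real.exp (-DD D0 q) ^ (1 / 4 : ℝ)
        ≤ ∑' q : ℕ, Real.exp (-(D0 * (1 / 4))) * r ^ q :=
          hs.tsum_le_tsum (exp_le_geom hD (by norm_num)) hg
      _ = Real.exp (-(D0 * (1 / 4))) * (1 - r)⁻¹ := by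
          rw [tsum_mul_left, tsum_geometric_of_lt_one hr0 hr1]
      _ ≤ Real.exp (-(D0 * (1 / 4))) * 2 := by
          apply mul_le_mul_of_nonneg_left _ (Real.exp_pos _).le
          rw [inv_le_comm₀ (by linarith) (by norm_num)]
          linarith
      _ = 2 * de ^ (1 / 4 : ℝ) := by
          rw [hdeD, rpow_exp, mul_comm]
          ring_nf
  · intro k
    filter_upwards [hten.eventually_ge_atTop k] with q hq
    obtain ⟨h1, h2, h3⟩ := hinc q
    rw [rpow_exp, rpow_exp, ← Real.exp_nat_mul, ← Real.exp_add]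
    apply Real.exp_le_exp.2
    have hk := kk_pos (n q)
    have hkk : 180 * (k : ℝ) ≤ kk (n q) := by
      unfold kk
      have : (k : ℝ) ≤ n q := by exact_mod_cast hq
      have : (0 : ℝ) ≤ k := Nat.cast_nonneg k
      linarith
    have h4 : M (q + 1) ≤ 36 * (DD D0 q / kk (n q)) := by
      rw [hMs]
      linarith only [h3]
    have h5 : (k : ℝ) * M (q + 1) ≤ k * (36 * (DD D0 q / kk (n q))) :=
      mul_le_mul_of_nonneg_left h4 (Nat.cast_nonneg k)
    have h6 : (k : ℝ) * (36 * (DD D0 q / kk (n q))) ≤ 1 / 5 * DD D0 q := by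
      have h7 : (k : ℝ) * (36 * (DD D0 q / kk (n q))) =
          1 / 5 * ((180 * (k : ℝ)) * (DD D0 q / kk (n q))) := by ring
      have h8 : kk (n q) * (DD D0 q / kk (n q)) = DD D0 q := by field_simp
      rw [h7]
      nth_rewrite 2 [← h8]
      have := mul_le_mul_of_nonneg_right hkk (hx q).le
      linarith only [this]
    linarith only [h6, h5]

end Vale.Agent.P205.F.It
end
end

section

/-!
# Limits of chains of approximate solutions
-/

open Filter Topology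

noncomputable section

namespace Vale.Agent.P205.F.It

/-- dependent choice along a chain -/
theorem exists_chain {α : Type*} (H : ℕ → α → Prop) (R : ℕ → α → α → Prop) (a0 : α)
    (h0 : H 0 a0) (step : ∀ q a, H q a → ∃ b, H (q + 1) b ∧ R q a b) :
    ∃ f : ℕ → α, f 0 = a0 ∧ ∀ q, H q (f q) ∧ R q (f q) (f (q + 1)) := by
  classical
  choose! nx hnx hnr using step
  let f : ℕ → α := fun q => Nat.rec a0 (fun q a => nx q a) q
  have hf0 : f 0 = a0 := rfl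
  have hfs : ∀ q, f (q + 1) = nx q (f q) := fun q => rfl
  have hH : ∀ q, H q (f q) := by
    intro q
    induction q with
    | zero => exact h0
    | succ q ih =>
      rw [hfs]
      exact hnx q _ ih
  refine ⟨f, hf0, fun q => ⟨hH q, ?_⟩⟩
  rw [hfs]
  exact hnr q _ (hH q)

universe u

variable {P : Type u} {κ : Type} (S : DAlg P κ)

/-- the limit of a chain of approximate solutions is an exact solution -/
theorem exists_limit (hC : S.Complete) (G : κ → κ → P → ℂ) (f : ℕ → Fin 4 → P → ℂ)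
    (hsm : ∀ q a, S.Sm (f q a)) (hrl : ∀ q a, Rl (f q a))
    (hstep : ∀ a k, ∃ c : ℕ → ℝ, Summable c ∧ ∃ q0, ∀ q, q0 ≤ q →
      S.Nb k (c q) (f (q + 1) a - f q a))
    (hmet : ∀ j k p, Tendsto (fun q => G j k p - S.met (f q) j k p) atTop (𝓝 0)) :
    ∃ F : Fin 4 → P → ℂ, (∀ a, S.Sm (F a)) ∧ (∀ a, Rl (F a)) ∧
      (∀ (w : List κ) a p, Tendsto (fun q => S.wd w (f q a) p) atTop (𝓝 (S.wd w (F a) p))) ∧
      ∀ j k p, S.met F j k p = G j k p := by
  choose F hF hFt using fun a => hC (fun q => f q a) (fun q => hsm q a) (hstep a)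
  refine ⟨F, hF, ?_, fun w a p => hFt a w p, ?_⟩
  · intro a p
    have h1 : Tendsto (fun q => (f q a p).im) atTop (𝓝 (F a p).im) :=
      (Complex.continuous_im.tendsto _).comp (hFt a [] p)
    have h2 : (fun q => (f q a p).im) = fun _ => (0 : ℝ) := by
      funext q
      exact hrl q a p
    rw [h2] at h1
    exact tendsto_nhds_unique h1 tendsto_const_nhds |>.symm ▸ rfl
  · intro j k p
    have h1 : Tendsto (fun q => S.met (f q) j k p) atTop (𝓝 (S.met F j k p)) := by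
      have : ∀ q, S.met (f q) j k p = ∑ a, S.D j (f q a) p * S.D k (f q a) p := fun q => rfl
      simp only [this]
      change Tendsto _ _ (𝓝 (∑ a, S.D j (F a) p * S.D k (F a) p))
      apply tendsto_finsetSum
      intro a _
      exact (hFt a [j] p).mul (hFt a [k] p)
    have h2 : Tendsto (fun q => G j k p - S.met (f q) j k p) atTop (𝓝 0) := hmet j k p
    have h3 : Tendsto (fun q => S.met (f q) j k p) atTop (𝓝 (G j k p)) := by
      have := (tendsto_const_nhds (x := G j k p)).sub h2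
      simpa using this
    exact tendsto_nhds_unique h1 h3

/-- steps along the numeric sequences give an exact solution -/
theorem exists_of_steps (hC : S.Complete) (G : κ → κ → P → ℂ) (Lam C1 : ℝ)
    (C0 : κ → κ → P → ℝ) (hLam : 1 ≤ Lam)
    (hC1 : 0 ≤ C1) (n : ℕ → ℕ) (mu d : ℕ → ℝ) (hn : Tendsto n atTop atTop)
    (hmu : ∀ q, 1 ≤ mu q) (hd : ∀ q, 0 < d q) (hds : Summable fun q => d q ^ (1 / 10 : ℝ))
    (hdk : ∀ k : ℕ, ∀ᶠ q in atTop, mu (q + 1) ^ k * d q ^ (2 / 5 : ℝ) ≤ d q ^ (1 / 5 : ℝ))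
    (H : ℕ → (Fin 4 → P → ℂ) → Prop) (f0 : Fin 4 → P → ℂ) (h0 : H 0 f0)
    (hsm : ∀ q f, H q f → ∀ a, S.Sm (f a)) (hrl : ∀ q f, H q f → ∀ a, Rl (f a))
    (hmet : ∀ q f, H q f → ∀ j k p, ‖G j k p - S.met f j k p‖ ≤ C0 j k p * d q)
    (step : ∀ q f, H q f → ∃ f', H (q + 1) f' ∧ ∀ a, ∀ w : List κ, w.length ≤ n q → ∀ p,
      ‖S.wd w (f' a - f a) p‖ ≤ C1 * (Lam * mu (q + 1)) ^ w.length * d q ^ (2 / 5 : ℝ)) :
    ∃ F : Fin 4 → P → ℂ, (∀ a, S.Sm (F a)) ∧ (∀ a, Rl (F a)) ∧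
      (∀ a p, ‖F a p - f0 a p‖ ≤ C1 * ∑' q, d q ^ (2 / 5 : ℝ)) ∧
      ∀ j k p, S.met F j k p = G j k p := by
  obtain ⟨f, hf0, hf⟩ := exists_chain H (fun q f f' => ∀ a, ∀ w : List κ, w.length ≤ n q → ∀ p,
      ‖S.wd w (f' a - f a) p‖ ≤ C1 * (Lam * mu (q + 1)) ^ w.length * d q ^ (2 / 5 : ℝ)) f0 h0
      step
  have hd0 : Tendsto d atTop (𝓝 0) := by
    have h1 := hds.tendsto_atTop_zero
    have h2 : Tendsto (fun x : ℝ => x ^ (10 : ℝ)) (𝓝 0) (𝓝 0) := by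
      have := (Real.continuous_rpow_const (q := (10 : ℝ)) (by norm_num)).tendsto 0
      rwa [Real.zero_rpow (by norm_num)] at this
    refine (h2.comp h1).congr fun q => ?_
    change (d q ^ (1 / 10 : ℝ)) ^ (10 : ℝ) = d q
    rw [← Real.rpow_mul (hd q).le]
    norm_num
  have hdle : ∀ᶠ q in atTop, d q ≤ 1 := by
    filter_upwards [hd0.eventually (gt_mem_nhds (show (0 : ℝ) < 1 by norm_num))] with q hq
    exact hq.le
  have h5 : Summable fun q => d q ^ (1 / 5 : ℝ) := by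
    obtain ⟨q0, hq0⟩ := eventually_atTop.1 hdle
    rw [← summable_nat_add_iff q0]
    refine Summable.of_nonneg_of_le (fun q => Real.rpow_nonneg (hd _).le _) (fun q => ?_)
      ((summable_nat_add_iff q0).2 hds)
    exact Real.rpow_le_rpow_of_exponent_ge (hd _) (hq0 _ (by omega)) (by norm_num)
  have h25 : Summable fun q => d q ^ (2 / 5 : ℝ) := by
    obtain ⟨q0, hq0⟩ := eventually_atTop.1 hdle
    rw [← summable_nat_add_iff q0]
    refine Summable.of_nonneg_of_le (fun q => Real.rpow_nonneg (hd _).le _) (fun q => ?_)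
      ((summable_nat_add_iff q0).2 hds)
    exact Real.rpow_le_rpow_of_exponent_ge (hd _) (hq0 _ (by omega)) (by norm_num)
  have hLm : ∀ q, 1 ≤ Lam * mu q := fun q => by linarith only [mul_nonneg (sub_nonneg.2 hLam) (sub_nonneg.2 (hmu q)), hmu q, hLam]
  have hS : ∀ a k, ∃ c : ℕ → ℝ, Summable c ∧ ∃ q0, ∀ q, q0 ≤ q →
      S.Nb k (c q) (f (q + 1) a - f q a) := by
    intro a k
    refine ⟨fun q => C1 * Lam ^ k * d q ^ (1 / 5 : ℝ), h5.mul_left _, ?_⟩
    obtain ⟨q1, hq1⟩ := eventually_atTop.1 (hdk k)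
    obtain ⟨q2, hq2⟩ := eventually_atTop.1 (hn.eventually_ge_atTop k)
    refine ⟨max q1 q2, fun q hq => ?_⟩
    intro w hw p
    have h1 := (hf q).2 a w (hw.trans (hq2 q (le_of_max_le_right hq))) p
    refine h1.trans ?_
    have h2 : (Lam * mu (q + 1)) ^ w.length ≤ (Lam * mu (q + 1)) ^ k :=
      pow_le_pow_right₀ (hLm (q + 1)) hw
    have h3 := hq1 q (le_of_max_le_left hq)
    have h4 : 0 ≤ d q ^ (2 / 5 : ℝ) := Real.rpow_nonneg (hd q).le _
    calc C1 * (Lam * mu (q + 1)) ^ w.length * d q ^ (2 / 5 : ℝ)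
        ≤ C1 * (Lam * mu (q + 1)) ^ k * d q ^ (2 / 5 : ℝ) := by gcongr
      _ = C1 * Lam ^ k * (mu (q + 1) ^ k * d q ^ (2 / 5 : ℝ)) := by rw [mul_pow]; ring
      _ ≤ C1 * Lam ^ k * d q ^ (1 / 5 : ℝ) := by
          apply mul_le_mul_of_nonneg_left h3
          positivity
  obtain ⟨F, hF, hFr, hFt, hFm⟩ := exists_limit S hC G f (fun q => hsm q _ (hf q).1)
    (fun q => hrl q _ (hf q).1) hS
    (fun j k p => squeeze_zero_norm (fun q => hmet q _ (hf q).1 j k p)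
      (by simpa using hd0.const_mul (C0 j k p)))
  refine ⟨F, hF, hFr, ?_, hFm⟩
  intro a p
  have hstep0 : ∀ q, ‖f (q + 1) a p - f q a p‖ ≤ C1 * d q ^ (2 / 5 : ℝ) := by
    intro q
    have := (hf q).2 a [] (Nat.zero_le _) p
    simpa using this
  have hpart : ∀ q, ‖f q a p - f0 a p‖ ≤ C1 * ∑' q, d q ^ (2 / 5 : ℝ) := by
    intro q
    have h1 : ‖f q a p - f0 a p‖ ≤ ∑ i ∈ Finset.range q, C1 * d i ^ (2 / 5 : ℝ) := by
      induction q with
      | zero => simp [hf0]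
      | succ q ih =>
        rw [Finset.sum_range_succ]
        calc ‖f (q + 1) a p - f0 a p‖ = ‖(f q a p - f0 a p) + (f (q + 1) a p - f q a p)‖ := by
              congr 1; ring
          _ ≤ _ := (norm_add_le _ _).trans (add_le_add ih (hstep0 q))
    refine h1.trans ?_
    rw [← Finset.mul_sum]
    apply mul_le_mul_of_nonneg_left _ hC1
    exact h25.sum_le_tsum _ (fun i _ => Real.rpow_nonneg (hd i).le _)
  have h2 : Tendsto (fun q => ‖f q a p - f0 a p‖) atTop (𝓝 ‖F a p - f0 a p‖) :=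
    ((hFt [] a p).sub tendsto_const_nhds).norm
  exact le_of_tendsto' h2 hpart

end Vale.Agent.P205.F.It
end
end

section

/-!
# P205, T1U iteration: assembly

The first step and the general step give exact solutions.
-/

open Filter Topology

noncomputable section

namespace Vale.Agent.P205.F

namespace It

universe u

variable {P : Type u} {κ : Type} (S : DAlg P κ)

lemma ten_le_t (n : ℕ) : 10 ≤ t n := by
  unfold t
  omega

lemma t_mono {m n : ℕ} (h : m ≤ n) : t m ≤ t n := by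
  unfold t
  omega

lemma rpow_quarter {x z : ℝ} (hz : 0 < z) {m : ℕ} (h : x * z ^ (400 * m) = 1) :
    x ^ (1 / 4 : ℝ) = (z ^ (100 * m))⁻¹ := by
  have hx : x = ((z ^ (100 * m))⁻¹) ^ 4 := by
    rw [inv_pow, ← pow_mul, show 100 * m * 4 = 400 * m by ring]
    exact eq_inv_of_mul_eq_one_left h
  rw [hx, ← Real.rpow_natCast, ← Real.rpow_mul (by positivity)]
  norm_num

lemma rpow_two_fifth {x z : ℝ} (hz : 0 < z) {m : ℕ} (h : x * z ^ (400 * m) = 1) :
    x ^ (2 / 5 : ℝ) = (z ^ (160 * m))⁻¹ := by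
  have hx : x = (z ^ (400 * m))⁻¹ := eq_inv_of_mul_eq_one_left h
  have hy : (0 : ℝ) < (z ^ (160 * m))⁻¹ := by positivity
  have h5 : x ^ 2 = ((z ^ (160 * m))⁻¹) ^ 5 := by
    rw [hx, inv_pow, inv_pow, ← pow_mul, ← pow_mul]
    congr 2
    ring
  have hx0 : 0 < x := by rw [hx]; positivity
  have h6 : x ^ (2 / 5 : ℝ) = (x ^ 2) ^ (1 / 5 : ℝ) := by
    rw [← Real.rpow_natCast, ← Real.rpow_mul hx0.le]
    norm_num
  rw [h6, h5, ← Real.rpow_natCast, ← Real.rpow_mul hy.le]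
  norm_num

/-- change of level -/
lemma level_eq {z z' : ℝ} (hz : 0 < z) (hz' : 0 < z') {m m' : ℕ}
    (h : z' ^ (400 * m') = z ^ (500 * m)) : z' ^ (404 * m') = z ^ (505 * m) := by
  have h1 : (z' ^ (404 * m')) ^ 100 = (z ^ (505 * m)) ^ 100 := by
    calc (z' ^ (404 * m')) ^ 100 = (z' ^ (400 * m')) ^ 101 := by
          rw [← pow_mul, ← pow_mul]
          congr 1
          ring
      _ = (z ^ (500 * m)) ^ 101 := by rw [h]
      _ = (z ^ (505 * m)) ^ 100 := by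
          rw [← pow_mul, ← pow_mul]
          congr 1
          ring
  exact (pow_left_inj₀ (by positivity) (by positivity) (by norm_num)).1 h1

theorem assemble {ι : Type u} (hC : S.Complete) (G : κ → κ → P → ℂ)
    (f : ι → Fin 4 → P → ℂ) (b del : ι → ℝ) (A e0 : ℝ) (hb : ∀ i, 1 ≤ b i) (hA : 1 ≤ A)
    (he0 : 0 < e0) (hdel : ∀ i, 0 < del i) (h1 : First S G f b del A)
    (h2 : ∀ t, 10 ≤ t → Step S G f b A e0 t) :
    ∃ d0, 0 < d0 ∧ ∀ i, del i ≤ d0 → ∃ F : Fin 4 → P → ℂ, (∀ a, S.Sm (F a)) ∧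
      (∀ a, Rl (F a)) ∧ ∀ j k p, S.met F j k p = G j k p := by
  obtain ⟨zF, hzF1, hzF⟩ := h1 (1600 * t 1 + 2)
  choose zS hzS1 hzS using fun n => h2 (t n) (ten_le_t n) (1600 * t (n + 1) + 2)
  obtain ⟨Kw, hKw⟩ := exists_seq 0
  obtain ⟨d1, hd1, hseq⟩ := hKw (fun n => max zF (zS n))
  refine ⟨min d1 (min 1 ((e0 / 2) ^ 4)), by positivity, ?_⟩
  intro i hi
  have hi1 : del i ≤ d1 := hi.trans (min_le_left _ _)
  have hi2 : del i ≤ 1 := hi.trans ((min_le_right _ _).trans (min_le_left _ _))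
  have hi3 : del i ≤ (e0 / 2) ^ 4 := hi.trans ((min_le_right _ _).trans (min_le_right _ _))
  obtain ⟨n, z, mu, d, hn0, hmu0, hd0, hnst, hnt, hall, hdpos, hds10, hds4, hdsum, hdk⟩ :=
    hseq 1 1 (del i) le_rfl le_rfl (hdel i) hi1 (by simpa using hi2) (by simpa using hi2)
  have hz1 : ∀ q, 1 ≤ z q := fun q => (hall q).1
  have hz0 : ∀ q, 0 < z q := fun q => by linarith only [hz1 q]
  have hbi := hb i
  have hb0 : 0 < b i := by linarith only [hbi]
  have hmu1 : ∀ q, 1 ≤ mu q := fun q => (hall q).2.2.2.1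
  have hdz : ∀ q, d q * z q ^ (400 * t (n q)) = 1 := fun q => (hall q).2.2.2.2.2.1
  have hdz' : ∀ q, d (q + 1) * z q ^ (500 * t (n q)) = 1 := fun q => (hall q).2.2.2.2.2.2.1
  have hdq : ∀ q, d q = (z q ^ (400 * t (n q)))⁻¹ := fun q => eq_inv_of_mul_eq_one_left (hdz q)
  have hdq' : ∀ q, d (q + 1) = (z q ^ (500 * t (n q)))⁻¹ :=
    fun q => eq_inv_of_mul_eq_one_left (hdz' q)
  have hmus : ∀ q, mu (q + 1) = mu q * z q ^ 4 := fun q => (hall q).2.2.2.2.2.2.2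
  have hzz : ∀ q, zF ≤ z q ∧ zS (n q) ≤ z q := fun q =>
    ⟨(le_max_left _ _).trans (hall q).2.1, (le_max_right _ _).trans (hall q).2.1⟩
  have hlev : ∀ q, z (q + 1) ^ (404 * t (n (q + 1))) = z q ^ (505 * t (n q)) := by
    intro q
    apply level_eq (hz0 q) (hz0 (q + 1))
    have := hdq (q + 1)
    rw [hdq' q] at this
    exact (inv_inj.1 this).symm
  -- the distances
  set e : ℕ → ℝ := fun q => ∑ r ∈ Finset.range q, d r ^ (1 / 4 : ℝ) with he
  have hes : ∀ q, e (q + 1) = e q + d q ^ (1 / 4 : ℝ) := fun q => Finset.sum_range_succ _ _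
  have hq4 : ∀ q, d q ^ (1 / 4 : ℝ) = (z q ^ (100 * t (n q)))⁻¹ :=
    fun q => rpow_quarter (hz0 q) (hdz q)
  have hen : ∀ q, 0 ≤ e q := fun q =>
    Finset.sum_nonneg fun r _ => Real.rpow_nonneg (hdpos r).le _
  have hele : ∀ q, e q ≤ e0 := by
    intro q
    have h3 : e q ≤ ∑' q, d q ^ (1 / 4 : ℝ) :=
      hds4.sum_le_tsum _ (fun i _ => Real.rpow_nonneg (hdpos i).le _)
    have h4 : del i ^ (1 / 4 : ℝ) ≤ e0 / 2 := by
      have h5 := Real.rpow_le_rpow (hdel i).le hi3 (show (0 : ℝ) ≤ 1 / 4 by norm_num)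
      have h6 : ((e0 / 2) ^ 4) ^ (1 / 4 : ℝ) = e0 / 2 := by
        rw [← Real.rpow_natCast, ← Real.rpow_mul (by positivity)]
        norm_num
      rwa [h6] at h5
    linarith only [h4, h3, hdsum]
  have hN : ∀ q, 1600 * t (n (q + 1)) + 2 ≤ 1600 * t (n q + 1) + 2 := by
    intro q
    have := t_mono (hnst q).2
    omega
  -- the states
  set H : ℕ → (Fin 4 → P → ℂ) → Prop := fun q X =>
    Inv S G (f i) (b i) A (1600 * t (n (q + 1)) + 2) (d (q + 1))
      ((z (q + 1) ^ (404 * t (n (q + 1))))⁻¹) (b i * mu (q + 1)) (e (q + 1)) X with hH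
  have ht0 : t 0 = 10 := rfl
  -- the first state
  obtain ⟨X1, hX1⟩ : ∃ X, H 0 X := by
    have hz : del i * z 0 ^ (400 * 10) = 1 := by
      have := hdz 0
      rwa [hn0, ht0, hd0] at this
    obtain ⟨X, hX⟩ := hzF i (z 0) (hzz 0).1 hz
    refine ⟨X, ?_⟩
    change Inv S G (f i) (b i) A (1600 * t (n 1) + 2) (d 1)
      ((z 1 ^ (404 * t (n 1)))⁻¹) (b i * mu 1) (e 1) X
    have e1 : d 1 = (z 0 ^ (500 * 10))⁻¹ := by
      have := hdq' 0
      rwa [hn0, ht0] at this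
    have e2 : z 1 ^ (404 * t (n 1)) = z 0 ^ (505 * 10) := by
      have := hlev 0
      rwa [hn0, ht0] at this
    have e3 : mu 1 = z 0 ^ 4 := by
      have := hmus 0
      rwa [hmu0, one_mul] at this
    have e4 : e 1 = (z 0 ^ (100 * 10))⁻¹ := by
      have h7 := hq4 0
      rw [hn0, ht0] at h7
      simp only [he, Finset.range_one, Finset.sum_singleton]
      exact h7
    rw [e1, e2, e3, e4]
    have hz00 := hz0 0
    refine hX.mono ?_ (by positivity) le_rfl le_rfl hb0.le (by linarith only [hA]) (by positivity)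
    have := hN 0
    rwa [hn0] at this
  -- the steps
  have hmetG : ∀ q X, H q X → ∀ j k p,
      ‖G j k p - S.met X j k p‖ ≤ (1 + ‖G j k p‖) * d (q + 1) := by
    intro q X hX j k p
    have h3 := hX.bE j k [] (Nat.zero_le _) p
    simp only [DAlg.wd, List.length_nil, pow_zero, mul_one] at h3
    have hzq := hz1 (q + 1)
    have h4 : (z (q + 1) ^ (404 * t (n (q + 1))))⁻¹ ≤ d (q + 1) := by
      rw [hdq (q + 1)]
      exact inv_pow_le hzq (by omega)
    have h5 : ‖(d (q + 1) : ℂ) * G j k p‖ = d (q + 1) * ‖G j k p‖ := by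
      rw [norm_mul, Complex.norm_real, Real.norm_eq_abs, abs_of_pos (hdpos _)]
    calc ‖G j k p - S.met X j k p‖
        = ‖(G j k p - S.met X j k p - d (q + 1) * G j k p) + d (q + 1) * G j k p‖ := by
          congr 1
          ring
      _ ≤ ‖G j k p - S.met X j k p - d (q + 1) * G j k p‖ + ‖(d (q + 1) : ℂ) * G j k p‖ :=
          norm_add_le _ _
      _ ≤ d (q + 1) + d (q + 1) * ‖G j k p‖ := by
          rw [h5]
          exact add_le_add (h3.trans h4) le_rfl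
      _ = (1 + ‖G j k p‖) * d (q + 1) := by ring
  have hst : ∀ q X, H q X → ∃ Y, H (q + 1) Y ∧ ∀ a, ∀ w : List κ, w.length ≤ n (q + 1) → ∀ p,
      ‖S.wd w (Y a - X a) p‖ ≤
        1 * (b i * mu (q + 1 + 1)) ^ w.length * d (q + 1) ^ (2 / 5 : ℝ) := by
    intro q X hX
    have hzp := hz0 (q + 1)
    have hb1 : b i ≤ b i * mu (q + 1) := by linarith only [mul_nonneg (le_of_lt (sub_pos.2 hb0)) (sub_nonneg.2 (hmu1 (q + 1)))]
    have hb2 : b i * mu (q + 1) ≤ b i * z (q + 1) ^ 32 :=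
      mul_le_mul_of_nonneg_left (hall (q + 1)).2.2.2.2.1 hb0.le
    have hb3 : e (q + 1) + (z (q + 1) ^ (100 * t (n (q + 1))))⁻¹ ≤ e0 := by
      rw [← hq4 (q + 1), ← hes (q + 1)]
      exact hele _
    have hX' : Inv S G (f i) (b i) A (1600 * t (n (q + 1)) + 2)
        ((z (q + 1) ^ (400 * t (n (q + 1))))⁻¹) ((z (q + 1) ^ (404 * t (n (q + 1))))⁻¹)
        (b i * mu (q + 1)) (e (q + 1)) X := by
      have := hX
      simp only [hH] at this
      rwa [hdq (q + 1)] at this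
    obtain ⟨Y, hY, hY2⟩ := hzS (n (q + 1)) i (z (q + 1)) (b i * mu (q + 1)) (e (q + 1)) X
      (hzz (q + 1)).2 hb1 hb2 (hen _) hb3 hX'
    refine ⟨Y, ?_, ?_⟩
    · change Inv S G (f i) (b i) A (1600 * t (n (q + 1 + 1)) + 2) (d (q + 1 + 1))
        ((z (q + 1 + 1) ^ (404 * t (n (q + 1 + 1))))⁻¹) (b i * mu (q + 1 + 1))
        (e (q + 1 + 1)) Y
      rw [hdq' (q + 1), hlev (q + 1), hmus (q + 1), hes (q + 1), hq4 (q + 1), ← mul_assoc]
      exact hY.mono (hN (q + 1)) (by positivity) le_rfl le_rfl hb0.le (by linarith)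
        (by have := hmu1 (q + 1); positivity)
    · intro a w hw p
      have h3 : w.length ≤ 400 * t (n (q + 1)) := by
        have : n (q + 1) ≤ 400 * t (n (q + 1)) := by
          unfold t
          omega
        exact hw.trans this
      have h4 := hY2 a w h3 p
      rw [one_mul, rpow_two_fifth (hz0 (q + 1)) (hdz (q + 1)), hmus (q + 1), ← mul_assoc,
        mul_comm (_ ^ _) (_⁻¹)]
      exact h4
  obtain ⟨F, hF1, hF2, -, hF3⟩ := exists_of_steps S hC G (b i) 1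
    (fun j k p => 1 + ‖G j k p‖) hbi zero_le_one (fun q => n (q + 1)) (fun q => mu (q + 1))
    (fun q => d (q + 1)) ((tendsto_add_atTop_iff_nat 1).2 hnt) (fun q => hmu1 _)
    (fun q => hdpos _) ((summable_nat_add_iff 1).2 hds10)
    (fun k => (tendsto_add_atTop_nat 1).eventually (hdk k)) H X1 hX1
    (fun q X hX => hX.sm) (fun q X hX => hX.rl) hmetG hst
  exact ⟨F, hF1, hF2, hF3⟩

end It

end Vale.Agent.P205.F
end
end

section

/-!
# P205: the iteration of T1U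
-/

open scoped ContDiff

noncomputable section

namespace Vale.Agent.P205.F

universe u

variable {P : Type u} {κ : Type} [Fintype κ] (S : DAlg P κ)

/-- choice of the distance -/
lemma It.exists_e0 (n M A0 c1 : ℝ) (hn : 0 ≤ n) (hM : 0 ≤ M) (hA : 0 ≤ A0) (hc : 0 < c1) :
    ∃ e0 : ℝ, 0 < e0 ∧ 2 * e0 ≤ 1 ∧
      2304 * ((2 * ((n + 1) ^ 2 * (M + 1) ^ 2) * (A0 + 1)) ^ 5 *
        (2 * ((n + 1) ^ 2 * (M + 1) ^ 2) * (2 * e0))) ≤ c1 / 2 := by
  have hH : 0 ≤ 2 * ((n + 1) ^ 2 * (M + 1) ^ 2) := by positivity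
  generalize 2 * ((n + 1) ^ 2 * (M + 1) ^ 2) = H at hH ⊢
  have hR : 0 ≤ (H * (A0 + 1)) ^ 5 := by positivity
  generalize (H * (A0 + 1)) ^ 5 = R at hR ⊢
  have hK : 0 ≤ 2304 * (R * (H * 2)) := by positivity
  refine ⟨min (1 / 2) (c1 / 2 / (2304 * (R * (H * 2)) + 1)), lt_min (by norm_num)
    (by positivity), ?_, ?_⟩
  · have := min_le_left (1 / 2) (c1 / 2 / (2304 * (R * (H * 2)) + 1))
    linarith
  · have h2 := min_le_right (1 / 2) (c1 / 2 / (2304 * (R * (H * 2)) + 1))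
    have h3 : 0 < min (1 / 2) (c1 / 2 / (2304 * (R * (H * 2)) + 1)) :=
      lt_min (by norm_num) (by positivity)
    generalize min (1 / 2) (c1 / 2 / (2304 * (R * (H * 2)) + 1)) = e at h2 h3 ⊢
    rw [le_div_iff₀ (by linarith)] at h2
    have h4 : 2304 * (R * (H * (2 * e))) = e * (2304 * (R * (H * 2)) + 1) - e := by ring
    rw [h4]
    linarith

open It in
/-- **(IT)** the iteration -/
theorem DAlg.iter : S.Iter := by
  intro hSt hPi hCo hSm
  obtain ⟨κ0, hκ0, hPi⟩ := hPi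
  refine ⟨κ0, hκ0, fun C _ G iG rG sG hB => ?_⟩
  obtain ⟨κ1, hκ1, hPi⟩ := hPi C G iG rG sG hB
  refine ⟨κ1 / 2, by linarith, fun ι b δ f c0 hc0 hb hδ _ sf rf F0 F1 hgr hnear hfo => ?_⟩
  have hb0 : ∀ i, 0 ≤ b i := fun i => by linarith [hb i]
  have F2 : ∀ j k a, S.FO b b (fun i => S.D j (S.D k (f i a))) := by
    intro j k a
    refine ⟨fun i => S.sm_D j (S.sm_D k (sf i a)), fun n => ?_⟩
    obtain ⟨C, hC, h⟩ := (F1 k a).2 (n + 1)
    refine ⟨C, hC, fun i => ?_⟩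
    have := Bd.D j (h i)
    simpa using this
  obtain ⟨Q, _, d, c1, hc1, hd, hF, hn, hell⟩ := hPi ι b b f c0 hc0 hb (fun i => le_rfl) sf rf
    F1 F2 hgr
  -- constants
  obtain ⟨A1, hA1, a1⟩ := fo_pt F0
  obtain ⟨A2, hA2, a2⟩ := fo_pt (α := κ × Fin 4) (fun x => F1 x.1 x.2)
  obtain ⟨A3, hA3, a3⟩ := unif (α := κ × κ × Fin 4)
    (p := fun x C => ∀ i p, ‖S.D x.1 (S.D x.2.1 (f i x.2.2)) p‖ ≤ C * b i)
    (fun a C C' h h' i p => (h' i p).trans (mul_le_mul_of_nonneg_right h (hb0 i)))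
    (fun x => by
      obtain ⟨C, -, h⟩ := (F2 x.1 x.2.1 x.2.2).2 0
      refine ⟨C, fun i p => ?_⟩
      have := h i [] (by simp) p
      simpa [DAlg.wd] using this)
  let R := {x : Q ⊕ (Q × Q × Bool) // usedRay x}
  have ex0 : ∀ {u : ι → P → ℂ}, S.FO (fun _ => 1) (fun _ => 1) u → ∃ C, ∀ i p, ‖u i p‖ ≤ C := by
    intro u h
    obtain ⟨C, -, h⟩ := h.2 0
    refine ⟨C, fun i p => ?_⟩
    have := h i [] (by simp) p
    simpa [DAlg.wd] using this
  have ex1 : ∀ {u : ι → P → ℂ} (l : κ), S.FO (fun _ => 1) (fun _ => 1) u →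
      ∃ C, ∀ i p, ‖S.D l (u i) p‖ ≤ C := by
    intro u l h
    obtain ⟨C, -, h⟩ := h.2 1
    refine ⟨C, fun i p => ?_⟩
    have := h i [l] (by simp) p
    simpa [DAlg.wd] using this
  obtain ⟨M1, hM1, m1⟩ := unif (α := R × κ)
    (p := fun x C => ∀ i p, ‖((d i).rays x.1.1).t x.2 p‖ ≤ C)
    (fun a C C' h h' i p => (h' i p).trans h) (fun x => ex0 (hF.t x.1.1 x.1.2 x.2))
  obtain ⟨M2, hM2, m2⟩ := unif (α := R × κ)
    (p := fun x C => ∀ i p, ‖((d i).rays x.1.1).w x.2 p‖ ≤ C)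
    (fun a C C' h h' i p => (h' i p).trans h) (fun x => ex0 (hF.w x.1.1 x.1.2 x.2))
  obtain ⟨M3, hM3, m3⟩ := unif (α := R × κ × κ)
    (p := fun x C => ∀ i p, ‖S.D x.2.1 (((d i).rays x.1.1).w x.2.2) p‖ ≤ C)
    (fun a C C' h h' i p => (h' i p).trans h)
    (fun x => ex1 x.2.1 (hF.w x.1.1 x.1.2 x.2.2))
  obtain ⟨A0, hA0⟩ : ∃ A0 : ℝ, A0 = A1 + A2 + A3 := ⟨_, rfl⟩
  obtain ⟨M, hM⟩ : ∃ M : ℝ, M = M1 + M2 + M3 := ⟨_, rfl⟩
  have hA00 : 0 ≤ A0 := by linarith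
  have hM0 : 0 ≤ M := by linarith
  obtain ⟨e0, he0p, he1, hc⟩ := exists_e0 (Fintype.card κ : ℝ) M A0 c1 (Nat.cast_nonneg _)
    hM0 hA00 hc1
  have f0' : ∀ i a p, ‖f i a p‖ ≤ A0 := fun i a p => (a1 a i p).trans (by linarith only [he1, he0p, hA0, hA3, hA2])
  have f1' : ∀ i j a p, ‖S.D j (f i a) p‖ ≤ A0 := fun i j a p =>
    (a2 (j, a) i p).trans (by linarith only [he1, he0p, hA0, hA3, hA1])
  have f2' : ∀ i j k a p, ‖S.D j (S.D k (f i a)) p‖ ≤ A0 * b i := fun i j k a p =>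
    (a3 (j, k, a) i p).trans (mul_le_mul_of_nonneg_right (by linarith only [he1, he0p, hA0, hA2, hA1]) (hb0 i))
  have mt' : ∀ i x, usedRay x → ∀ j p, ‖((d i).rays x).t j p‖ ≤ M := fun i x hx j p =>
    (m1 (⟨x, hx⟩, j) i p).trans (by linarith only [he1, he0p, hM, hM3, hM2])
  have mw' : ∀ i x, usedRay x → ∀ j p, ‖((d i).rays x).w j p‖ ≤ M := fun i x hx j p =>
    (m2 (⟨x, hx⟩, j) i p).trans (by linarith only [he1, he0p, hM, hM3, hM1])
  have mdw' : ∀ i x, usedRay x → ∀ j k p, ‖S.D j (((d i).rays x).w k) p‖ ≤ M :=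
    fun i x hx j k p => (m3 (⟨x, hx⟩, j, k) i p).trans (by linarith only [he1, he0p, hM, hM2, hM1])
  have hctx : Ctx S G f b d A0 M c1 κ1 e0 :=
    ⟨hA00, hM0, hc1, hκ1, he0p, he1, iG, rG, sG, hb, sf, rf, f0', f1', f2', F1, F2, hd, hF, hn,
      mt', mw', mdw', hc, hell⟩
  refine assemble S hCo G f b δ (A0 + 1) e0 hb (by linarith only [he1, he0p, hA0, hA3, hA2, hA1]) he0p hδ
    (first (hSt Q) hctx hδ hnear hfo) (fun t ht => ?_)
  obtain ⟨Sm⟩ := hSm (1200 * t)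
  exact step (hSt Q) hctx (by omega) Sm

end Vale.Agent.P205.F
end
end
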