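import Mathlib
import Vale.Agent.P205.Bdl.B1

set_option linter.all false

section

/-!
P205, scheme T1W: lower bound of the Gram determinant of `D_a f, D_b f, l D_j D_k f`.
Pointwise algebra in `ℝ⁴`.
-/

noncomputable section

namespace Vale.Agent.P205.TW

open Finset

/-- the Euclidean product of `ℝ⁴` -/
def dt (x y : Fin 4 → ℝ) : ℝ := ∑ i, x i * y i

/-- Gram determinant of three vectors -/
def gr3 (x y z : Fin 4 → ℝ) : ℝ :=
  dt x x * (dt y y * dt z z - dt y z * dt y z)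
    - dt x y * (dt x y * dt z z - dt y z * dt x z)
    + dt x z * (dt x y * dt y z - dt y y * dt x z)

/-- Gram determinant of two vectors -/
def gr2 (x y : Fin 4 → ℝ) : ℝ := dt x x * dt y y - dt x y * dt x y

theorem dt_comm (x y : Fin 4 → ℝ) : dt x y = dt y x := by
  simp only [dt]; exact Finset.sum_congr rfl fun i _ => by ring

theorem dt_add_left (x y z : Fin 4 → ℝ) : dt (x + y) z = dt x z + dt y z := by
  simp only [dt, Pi.add_apply, Fin.sum_univ_four]; ring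

theorem dt_add_right (x y z : Fin 4 → ℝ) : dt x (y + z) = dt x y + dt x z := by
  simp only [dt, Pi.add_apply, Fin.sum_univ_four]; ring

theorem dt_smul_left (c : ℝ) (x y : Fin 4 → ℝ) : dt (c • x) y = c * dt x y := by
  simp only [dt, Pi.smul_apply, Fin.sum_univ_four, smul_eq_mul]; ring

theorem dt_smul_right (c : ℝ) (x y : Fin 4 → ℝ) : dt x (c • y) = c * dt x y := by
  simp only [dt, Pi.smul_apply, Fin.sum_univ_four, smul_eq_mul]; ring

theorem dt_self_nonneg (x : Fin 4 → ℝ) : 0 ≤ dt x x :=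
  Finset.sum_nonneg fun i _ => mul_self_nonneg (x i)

/-- leading Gram determinant: `U_a = α_a N + r_a e`, `U_b = α_b N + r_b e`,
`s = A J + B n` -/
theorem gr3_leading (N e J n : Fin 4 → ℝ) (hNe : dt N e = 0) (hNJ : dt N J = 0)
    (hNn : dt N n = 0) (heJ : dt e J = 0) (hen : dt e n = 0) (hJn : dt J n = 0)
    (hJJ : dt J J = 1) (hnn : dt n n = 1) (αa αb ra rb A B : ℝ) :
    gr3 (αa • N + ra • e) (αb • N + rb • e) (A • J + B • n) =
      (αa * rb - αb * ra) ^ 2 * (dt N N * dt e e) * (A ^ 2 + B ^ 2) := by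
  have hJN : dt J N = 0 := by rw [dt_comm]; exact hNJ
  have heN : dt e N = 0 := by rw [dt_comm]; exact hNe
  have hnN : dt n N = 0 := by rw [dt_comm]; exact hNn
  have hJe : dt J e = 0 := by rw [dt_comm]; exact heJ
  have hne : dt n e = 0 := by rw [dt_comm]; exact hen
  have hnJ : dt n J = 0 := by rw [dt_comm]; exact hJn
  simp only [gr3, dt_add_left, dt_add_right, dt_smul_left, dt_smul_right, hNe, hNJ, hNn, heJ,
    hen, hJn, hJJ, hnn, heN, hnJ]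
  ring

/-- `gr2` in the orthogonal frame -/
theorem gr2_leading (N e : Fin 4 → ℝ) (hNe : dt N e = 0) (αa αb ra rb : ℝ) :
    gr2 (αa • N + ra • e) (αb • N + rb • e) =
      (αa * rb - αb * ra) ^ 2 * (dt N N * dt e e) := by
  have heN : dt e N = 0 := by rw [dt_comm]; exact hNe
  simp only [gr2, dt_add_left, dt_add_right, dt_smul_left, dt_smul_right, hNe, heN]
  ring

theorem gr2_nonneg (x y : Fin 4 → ℝ) : 0 ≤ gr2 x y := by
  have h := Finset.sum_mul_sq_le_sq_mul_sq (univ : Finset (Fin 4)) x y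
  have h1 : dt x x = ∑ i, x i ^ 2 := Finset.sum_congr rfl fun i _ => (sq (x i)).symm
  have h2 : dt y y = ∑ i, y i ^ 2 := Finset.sum_congr rfl fun i _ => (sq (y i)).symm
  have h3 : dt x y * dt x y = (∑ i, x i * y i) ^ 2 := (sq _).symm
  unfold gr2
  rw [h1, h2, h3]
  linarith

/-- pointwise data: `N`, `m`, `ν` orthogonal, `ν` of length one, `q` of length one;
`e = v⁻¹ (c m + s |m| ν)` -/
structure Pt where
  /-- image of the field `w` -/
  N : Fin 4 → ℝ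
  /-- part orthogonal to `N` -/
  m : Fin 4 → ℝ
  /-- unit normal -/
  ν : Fin 4 → ℝ
  /-- vertical direction -/
  q : Fin 4 → ℝ
  /-- second normal direction -/
  n : Fin 4 → ℝ
  /-- length of `m` -/
  M : ℝ
  /-- mean -/
  v : ℝ
  /-- cosine -/
  c : ℝ
  /-- sine -/
  s : ℝ
  Nm : dt N m = 0
  Nν : dt N ν = 0
  mν : dt m ν = 0
  νν : dt ν ν = 1
  qq : dt q q = 1
  nn : dt n n = 1
  Nn : dt N n = 0
  mn : dt m n = 0
  νn : dt ν n = 0
  mm : dt m m = M ^ 2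
  M0 : 0 < M
  N0 : 0 < dt N N
  v0 : 0 < v
  v1 : v ≤ 1
  cs : c ^ 2 + s ^ 2 = 1

namespace Pt

variable (P : Pt)

/-- the loop -/
def e : Fin 4 → ℝ := (P.c / P.v) • P.m + (P.s * P.M / P.v) • P.ν

/-- the direction of the derivative of the loop -/
def J : Fin 4 → ℝ := (-(P.s / P.M)) • P.m + P.c • P.ν

/-- the length of the loop -/
def R : ℝ := P.M / P.v

theorem R0 : 0 < P.R := div_pos P.M0 P.v0

theorem Ne : dt P.N P.e = 0 := by
  simp only [e, dt_add_right, dt_smul_right, P.Nm, P.Nν]; ring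

theorem NJ : dt P.N P.J = 0 := by
  simp only [J, dt_add_right, dt_smul_right, P.Nm, P.Nν]; ring

theorem en : dt P.e P.n = 0 := by
  simp only [e, dt_add_left, dt_smul_left, P.mn, P.νn]; ring

theorem Jn : dt P.J P.n = 0 := by
  simp only [J, dt_add_left, dt_smul_left, P.mn, P.νn]; ring

theorem νm : dt P.ν P.m = 0 := by rw [dt_comm]; exact P.mν

theorem ee : dt P.e P.e = P.R ^ 2 := by
  have hv := P.v0.ne'
  have h := P.cs
  simp only [e, R, dt_add_left, dt_add_right, dt_smul_left, dt_smul_right, P.mν, P.νm, P.νν, P.mm]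
  field_simp
  linear_combination (P.M ^ 2) * h

theorem JJ : dt P.J P.J = 1 := by
  have hM := P.M0.ne'
  have h := P.cs
  simp only [J, dt_add_left, dt_add_right, dt_smul_left, dt_smul_right, P.mν, P.νm, P.νν, P.mm]
  have h2 : P.s / P.M * P.M = P.s := div_mul_cancel₀ _ hM
  linear_combination h + (P.s / P.M * P.M + P.s) * h2

theorem eJ : dt P.e P.J = 0 := by
  have hM := P.M0.ne'
  have hv := P.v0.ne'
  simp only [e, J, dt_add_left, dt_add_right, dt_smul_left, dt_smul_right, P.mν, P.νm, P.νν, P.mm]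
  field_simp
  ring

/-- the vectors `U_j` -/
def U (α r : ℝ) : Fin 4 → ℝ := α • P.N + r • P.e

/-- the vectors `u_j` of the slow map -/
def u (α r : ℝ) : Fin 4 → ℝ := α • P.N + r • P.m

theorem UU (α r : ℝ) : dt (P.U α r) (P.U α r) = α ^ 2 * dt P.N P.N + r ^ 2 * P.R ^ 2 := by
  have h : dt P.e P.N = 0 := by rw [dt_comm]; exact P.Ne
  simp only [U, dt_add_left, dt_add_right, dt_smul_left, dt_smul_right, P.Ne, h, P.ee]
  ring

theorem gr2U (αa αb ra rb : ℝ) : gr2 (P.U αa ra) (P.U αb rb) =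
    (αa * rb - αb * ra) ^ 2 * (dt P.N P.N * P.R ^ 2) := by
  rw [U, U, gr2_leading _ _ P.Ne, P.ee]

theorem gr2u (αa αb ra rb : ℝ) : gr2 (P.u αa ra) (P.u αb rb) =
    (αa * rb - αb * ra) ^ 2 * (dt P.N P.N * P.M ^ 2) := by
  rw [u, u, gr2_leading _ _ P.Nm, P.mm]

theorem gr2u_le (αa αb ra rb : ℝ) :
    gr2 (P.u αa ra) (P.u αb rb) ≤ gr2 (P.U αa ra) (P.U αb rb) := by
  rw [gr2U, gr2u]
  have h : P.M ^ 2 ≤ P.R ^ 2 := by
    apply pow_le_pow_left₀ P.M0.le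
    rw [R, le_div_iff₀ P.v0]
    linarith only [mul_nonneg (le_of_lt (sub_pos.2 P.M0)) (sub_nonneg.2 P.v1)]
  have := P.N0
  gcongr

/-- the Gram determinant at leading order -/
theorem gr3U (αa αb ra rb A B : ℝ) :
    gr3 (P.U αa ra) (P.U αb rb) (A • P.J + B • P.n) =
      gr2 (P.U αa ra) (P.U αb rb) * (A ^ 2 + B ^ 2) := by
  rw [gr2U, U, U, gr3_leading _ _ _ _ P.Ne P.NJ P.Nn P.eJ P.en P.Jn P.JJ P.nn, P.ee]

/-- vertical component -/
def z (α r : ℝ) : ℝ := dt (P.U α r) P.q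

theorem z_eq (α r : ℝ) : P.z α r = α * dt P.N P.q + r * dt P.e P.q := by
  simp only [z, U, dt_add_left, dt_smul_left]

/-- Cauchy-Schwarz for `ν` and `q` -/
theorem νq : dt P.ν P.q ^ 2 ≤ 1 := by
  have h := gr2_nonneg P.ν P.q
  rw [gr2, P.νν, P.qq] at h
  linarith only [h]

/-- lower bound of the vertical part of the frame -/
theorem vert {κ : ℝ} (hκ : 0 < κ)
    (h1 : κ ^ 2 ≤ dt P.N P.q ^ 2 / dt P.N P.N + dt P.m P.q ^ 2 / P.M ^ 2)
    (hc : 3 / 4 ≤ P.c) (hs : |P.s| ≤ κ / 8) :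
    κ ^ 2 / 8 ≤ dt P.N P.q ^ 2 / dt P.N P.N ∨ κ ^ 2 / 8 ≤ dt P.e P.q ^ 2 / P.R ^ 2 := by
  by_cases hN : κ ^ 2 / 4 ≤ dt P.N P.q ^ 2 / dt P.N P.N
  · left; (by_contra nlg; linarith only [nlg, mul_nonneg (le_of_lt (sub_pos.2 hκ)) (sub_nonneg.2 hN), mul_pos (sub_pos.2 (not_le.1 nlg)) (sub_pos.2 hκ), mul_nonneg (sq_nonneg (1 * κ : ℝ)) (le_of_lt (sub_pos.2 hκ))])
  · right
    push Not at hN
    have hM := P.M0
    have hv := P.v0
    have hx : (dt P.m P.q / P.M) ^ 2 = dt P.m P.q ^ 2 / P.M ^ 2 := by rw [div_pow]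
    have hx2 : κ ^ 2 * (3 / 4) ≤ (dt P.m P.q / P.M) ^ 2 := by rw [hx]; linarith only [hN, h1]
    have he : dt P.e P.q ^ 2 / P.R ^ 2 = (P.c * (dt P.m P.q / P.M) + P.s * dt P.ν P.q) ^ 2 := by
      simp only [e, R, dt_add_left, dt_smul_left]
      field_simp
    rw [he]
    set x := dt P.m P.q / P.M with hxdef
    set y := dt P.ν P.q with hydef
    have hy : |y| ≤ 1 := by
      have := P.νq
      exact abs_le_one_iff_mul_self_le_one.mpr (by linarith only [this])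
    have hxa : κ * (8 / 10) ≤ |x| := by
      by_contra hcon
      push Not at hcon
      have h0 := abs_nonneg x
      have : |x| ^ 2 < (κ * (8 / 10)) ^ 2 := by
        apply pow_lt_pow_left₀ hcon h0 (by norm_num)
      rw [sq_abs] at this
      linarith only [mul_pos (sub_pos.2 this) (sub_pos.2 this), mul_nonneg (sub_nonneg.2 hx2) (le_of_lt (sub_pos.2 this)), mul_nonneg (sq_nonneg (1 * κ * (1 * 4) : ℝ)) (le_of_lt (sub_pos.2 this))]
    have h3 : κ * (6 / 10) ≤ |P.c * x| := by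
      rw [abs_mul, abs_of_nonneg (by linarith only [hc] : (0 : ℝ) ≤ P.c)]
      linarith only [mul_nonneg (sub_nonneg.2 hc) (sub_nonneg.2 (abs_nonneg x)), hxa]
    have h4 : |P.s * y| ≤ κ / 8 := by
      rw [abs_mul]
      linarith only [mul_nonneg (sub_nonneg.2 hy) (sub_nonneg.2 (abs_nonneg P.s)), mul_nonneg (sub_nonneg.2 hs) (sub_nonneg.2 (abs_nonneg y)), mul_nonneg (sub_nonneg.2 hs) (sub_nonneg.2 hy)]
    have h5 : κ * (4 / 10) ≤ |P.c * x + P.s * y| := by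
      have := abs_sub_abs_le_abs_sub (P.c * x) (-(P.s * y))
      rw [abs_neg, sub_neg_eq_add] at this
      linarith only [this, h4, h3, hκ]
    have h6 : (κ * (4 / 10)) ^ 2 ≤ |P.c * x + P.s * y| ^ 2 :=
      pow_le_pow_left₀ (by positivity) h5 2
    rw [sq_abs] at h6
    (by_contra nlg; linarith only [nlg, mul_nonneg (sub_nonneg.2 hx2) (sub_nonneg.2 h6), mul_eq_zero_of_left (sub_eq_zero.2 hx) (κ ^ 2 / 8 - ((P.c * x + P.s * y) ^ 2)), mul_pos (sub_pos.2 (not_le.1 nlg)) (sub_pos.2 hN), mul_nonneg (le_of_lt (sub_pos.2 (not_le.1 nlg))) (sub_nonneg.2 h1), mul_nonneg (sq_nonneg (1 * P.c * (1 * x) + 1 * P.s * (1 * y) : ℝ)) (sub_nonneg.2 hx2)])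

end Pt

namespace Pt

variable (P : Pt)

theorem rad {αa αb ra rb C g0 : ℝ} (hg : g0 ≤ gr2 (P.U αa ra) (P.U αb rb))
    (ha : dt (P.U αa ra) (P.U αa ra) ≤ C) (hb : dt (P.U αb rb) (P.U αb rb) ≤ C) :
    g0 ≤ 4 * C * (max (ra ^ 2) (rb ^ 2) * P.R ^ 2) := by
  rw [P.gr2U] at hg
  rw [P.UU] at ha hb
  set Z := max (ra ^ 2) (rb ^ 2)
  have h1 : ra ^ 2 ≤ Z := le_max_left _ _
  have h2 : rb ^ 2 ≤ Z := le_max_right _ _
  have hN := P.N0
  have hR := P.R0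
  have hR2 : 0 < P.R ^ 2 := by positivity
  have h3 : (αa * rb - αb * ra) ^ 2 ≤ 2 * (αa ^ 2 * rb ^ 2 + αb ^ 2 * ra ^ 2) := by
    linarith only [sq_nonneg (αa * rb + αb * ra)]
  have h4 : αa ^ 2 * rb ^ 2 ≤ αa ^ 2 * Z := by gcongr
  have h5 : αb ^ 2 * ra ^ 2 ≤ αb ^ 2 * Z := by gcongr
  have hZ : 0 ≤ Z := le_trans (sq_nonneg _) h1
  have h6 : αa ^ 2 * dt P.N P.N ≤ C := by linarith only [mul_nonneg (le_of_lt (sub_pos.2 hR2)) (sq_nonneg ra), ha]
  have h7 : αb ^ 2 * dt P.N P.N ≤ C := by linarith only [mul_nonneg (le_of_lt (sub_pos.2 hR2)) (sq_nonneg rb), hb]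
  calc g0 ≤ (αa * rb - αb * ra) ^ 2 * (dt P.N P.N * P.R ^ 2) := hg
    _ ≤ (2 * (αa ^ 2 * Z + αb ^ 2 * Z)) * (dt P.N P.N * P.R ^ 2) := by
        gcongr
        linarith
    _ = 2 * (αa ^ 2 * dt P.N P.N + αb ^ 2 * dt P.N P.N) * (Z * P.R ^ 2) := by ring
    _ ≤ 2 * (C + C) * (Z * P.R ^ 2) := by gcongr
    _ = 4 * C * (Z * P.R ^ 2) := by ring

theorem ver {αa αb ra rb C g0 t : ℝ} (hg : g0 ≤ gr2 (P.U αa ra) (P.U αb rb)) (ht : 0 ≤ t)
    (ha : dt (P.U αa ra) (P.U αa ra) ≤ C) (hb : dt (P.U αb rb) (P.U αb rb) ≤ C)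
    (h : t ≤ dt P.N P.q ^ 2 / dt P.N P.N ∨ t ≤ dt P.e P.q ^ 2 / P.R ^ 2) :
    g0 * t ≤ 4 * C * max (P.z αa ra ^ 2) (P.z αb rb ^ 2) := by
  rw [P.gr2U] at hg
  rw [P.UU] at ha hb
  have hza := P.z_eq αa ra
  have hzb := P.z_eq αb rb
  set za := P.z αa ra
  set zb := P.z αb rb
  set Z := max (za ^ 2) (zb ^ 2)
  have h1 : za ^ 2 ≤ Z := le_max_left _ _
  have h2 : zb ^ 2 ≤ Z := le_max_right _ _
  have hN := P.N0
  have hR := P.R0
  have hR2 : 0 < P.R ^ 2 := by positivity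
  have hZ : 0 ≤ Z := le_trans (sq_nonneg _) h1
  set Nz := dt P.N P.q
  set ez := dt P.e P.q
  rcases h with h | h
  · rw [le_div_iff₀ hN] at h
    have e1 : Nz * (αa * rb - αb * ra) = za * rb - zb * ra := by rw [hza, hzb]; ring
    have e2 : (za * rb - zb * ra) ^ 2 ≤ 2 * (za ^ 2 * rb ^ 2 + zb ^ 2 * ra ^ 2) := by
      linarith only [sq_nonneg (za * rb + zb * ra)]
    have h4 : za ^ 2 * rb ^ 2 ≤ Z * rb ^ 2 := by gcongr
    have h5 : zb ^ 2 * ra ^ 2 ≤ Z * ra ^ 2 := by gcongr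
    have h6 : ra ^ 2 * P.R ^ 2 ≤ C := by linarith only [mul_nonneg (sq_nonneg αa) hN.le, ha]
    have h7 : rb ^ 2 * P.R ^ 2 ≤ C := by linarith only [mul_nonneg (sq_nonneg αb) hN.le, hb]
    calc g0 * t ≤ ((αa * rb - αb * ra) ^ 2 * (dt P.N P.N * P.R ^ 2)) * t := by gcongr
      _ = (αa * rb - αb * ra) ^ 2 * P.R ^ 2 * (t * dt P.N P.N) := by ring
      _ ≤ (αa * rb - αb * ra) ^ 2 * P.R ^ 2 * Nz ^ 2 := by gcongr
      _ = (Nz * (αa * rb - αb * ra)) ^ 2 * P.R ^ 2 := by ring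
      _ = (za * rb - zb * ra) ^ 2 * P.R ^ 2 := by rw [e1]
      _ ≤ (2 * (Z * rb ^ 2 + Z * ra ^ 2)) * P.R ^ 2 := by
          gcongr
          linarith
      _ = 2 * Z * (rb ^ 2 * P.R ^ 2 + ra ^ 2 * P.R ^ 2) := by ring
      _ ≤ 2 * Z * (C + C) := by gcongr
      _ = 4 * C * Z := by ring
  · rw [le_div_iff₀ hR2] at h
    have e1 : ez * (αa * rb - αb * ra) = αa * zb - αb * za := by rw [hza, hzb]; ring
    have e2 : (αa * zb - αb * za) ^ 2 ≤ 2 * (αa ^ 2 * zb ^ 2 + αb ^ 2 * za ^ 2) := by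
      linarith only [sq_nonneg (αa * zb + αb * za)]
    have h4 : αa ^ 2 * zb ^ 2 ≤ αa ^ 2 * Z := by gcongr
    have h5 : αb ^ 2 * za ^ 2 ≤ αb ^ 2 * Z := by gcongr
    have h6 : αa ^ 2 * dt P.N P.N ≤ C := by linarith only [mul_nonneg (sq_nonneg ra) hR2.le, ha]
    have h7 : αb ^ 2 * dt P.N P.N ≤ C := by linarith only [mul_nonneg (sq_nonneg rb) hR2.le, hb]
    calc g0 * t ≤ ((αa * rb - αb * ra) ^ 2 * (dt P.N P.N * P.R ^ 2)) * t := by gcongr
      _ = (αa * rb - αb * ra) ^ 2 * dt P.N P.N * (t * P.R ^ 2) := by ring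
      _ ≤ (αa * rb - αb * ra) ^ 2 * dt P.N P.N * ez ^ 2 := by gcongr
      _ = (ez * (αa * rb - αb * ra)) ^ 2 * dt P.N P.N := by ring
      _ = (αa * zb - αb * za) ^ 2 * dt P.N P.N := by rw [e1]
      _ ≤ (2 * (αa ^ 2 * Z + αb ^ 2 * Z)) * dt P.N P.N := by
          gcongr
          linarith
      _ = 2 * Z * (αa ^ 2 * dt P.N P.N + αb ^ 2 * dt P.N P.N) := by ring
      _ ≤ 2 * Z * (C + C) := by gcongr
      _ = 4 * C * Z := by ring

/-- **Lower bound at leading order**: for `j = a` or `j = b` the Gram determinant of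
`U_a, U_b, r_j² R χ' J + β z_j² n` is bounded below -/
theorem lower {αa αb ra rb C CR g0 κ c1 χ' β : ℝ} (hg0 : 0 < g0) (hC : 0 < C)
    (hg : g0 ≤ gr2 (P.U αa ra) (P.U αb rb))
    (ha : dt (P.U αa ra) (P.U αa ra) ≤ C) (hb : dt (P.U αb rb) (P.U αb rb) ≤ C)
    (hR : P.R ≤ CR) (hκ : 0 < κ) (hc1 : 0 < c1)
    (h1 : |χ'| < c1 →
      κ ^ 2 ≤ dt P.N P.q ^ 2 / dt P.N P.N + dt P.m P.q ^ 2 / P.M ^ 2 ∧
      3 / 4 ≤ P.c ∧ |P.s| ≤ κ / 8) :
    min ((g0 / (4 * C)) ^ 2 * c1 ^ 2 / CR ^ 2) (β ^ 2 * (g0 * κ ^ 2 / (32 * C)) ^ 2) * g0 ≤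
      gr3 (P.U αa ra) (P.U αb rb)
        ((ra * ra * P.R * χ') • P.J + (β * (P.z αa ra * P.z αa ra)) • P.n) ∨
    min ((g0 / (4 * C)) ^ 2 * c1 ^ 2 / CR ^ 2) (β ^ 2 * (g0 * κ ^ 2 / (32 * C)) ^ 2) * g0 ≤
      gr3 (P.U αa ra) (P.U αb rb)
        ((rb * rb * P.R * χ') • P.J + (β * (P.z αb rb * P.z αb rb)) • P.n) := by
  simp only [P.gr3U]
  have hR0 := P.R0
  have hCR : 0 < CR := lt_of_lt_of_le hR0 hR
  set G := gr2 (P.U αa ra) (P.U αb rb)
  have key : ∀ T : ℝ, min ((g0 / (4 * C)) ^ 2 * c1 ^ 2 / CR ^ 2)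
      (β ^ 2 * (g0 * κ ^ 2 / (32 * C)) ^ 2) ≤ T →
      min ((g0 / (4 * C)) ^ 2 * c1 ^ 2 / CR ^ 2) (β ^ 2 * (g0 * κ ^ 2 / (32 * C)) ^ 2) * g0 ≤
        G * T := by
    intro T hT
    have hm : 0 ≤ min ((g0 / (4 * C)) ^ 2 * c1 ^ 2 / CR ^ 2)
      (β ^ 2 * (g0 * κ ^ 2 / (32 * C)) ^ 2) := by positivity
    rw [mul_comm G]
    exact mul_le_mul hT hg hg0.le (hm.trans hT)
  by_cases hχ : c1 ≤ |χ'|
  · have hr := P.rad hg ha hb
    have hA : ∀ r : ℝ, g0 ≤ 4 * C * (r ^ 2 * P.R ^ 2) →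
        (g0 / (4 * C)) ^ 2 * c1 ^ 2 / CR ^ 2 ≤ (r * r * P.R * χ') ^ 2 := by
      intro r hr
      have h2 : g0 / (4 * C) ≤ r ^ 2 * P.R ^ 2 := by
        rw [div_le_iff₀ (by positivity)]; linarith
      have h3 : c1 ^ 2 ≤ χ' ^ 2 := by
        rw [← sq_abs χ']
        exact pow_le_pow_left₀ hc1.le hχ 2
      have h4 : (r * r * P.R * χ') ^ 2 = (r ^ 2 * P.R ^ 2) ^ 2 * χ' ^ 2 / P.R ^ 2 := by
        field_simp
      rw [h4]
      have h5 : 0 ≤ g0 / (4 * C) := by positivity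
      gcongr
    rcases le_total (ra ^ 2) (rb ^ 2) with h | h
    · right
      rw [max_eq_right h] at hr
      apply key
      refine (min_le_left _ _).trans ((hA rb hr).trans ?_)
      linarith only [sq_nonneg (β * (P.z αb rb * P.z αb rb))]
    · left
      rw [max_eq_left h] at hr
      apply key
      refine (min_le_left _ _).trans ((hA ra hr).trans ?_)
      linarith only [sq_nonneg (β * (P.z αa ra * P.z αa ra))]
  · push Not at hχ
    obtain ⟨k1, k2, k3⟩ := h1 hχ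
    have hv := P.vert hκ k1 k2 k3
    have hz := P.ver hg (by positivity : 0 ≤ κ ^ 2 / 8) ha hb hv
    have hB : ∀ z : ℝ, g0 * (κ ^ 2 / 8) ≤ 4 * C * z ^ 2 →
        β ^ 2 * (g0 * κ ^ 2 / (32 * C)) ^ 2 ≤ (β * (z * z)) ^ 2 := by
      intro z hz
      have h2 : g0 * κ ^ 2 / (32 * C) ≤ z * z := by
        rw [div_le_iff₀ (by positivity)]; linarith only [hz]
      have h5 : 0 ≤ g0 * κ ^ 2 / (32 * C) := by positivity
      calc β ^ 2 * (g0 * κ ^ 2 / (32 * C)) ^ 2 ≤ β ^ 2 * (z * z) ^ 2 := by gcongr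
        _ = (β * (z * z)) ^ 2 := by ring
    rcases le_total (P.z αa ra ^ 2) (P.z αb rb ^ 2) with h | h
    · right
      rw [max_eq_right h] at hz
      apply key
      refine (min_le_right _ _).trans ((hB _ hz).trans ?_)
      linarith only [sq_nonneg (rb * rb * P.R * χ')]
    · left
      rw [max_eq_left h] at hz
      apply key
      refine (min_le_right _ _).trans ((hB _ hz).trans ?_)
      linarith only [sq_nonneg (ra * ra * P.R * χ')]

end Pt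

end Vale.Agent.P205.TW
end
end

section

/-!
P205, scheme T1W, block FORMULA, part F2 (C): lower bound of the Gram determinant of the leading
terms.
-/

noncomputable section

namespace Vale.Agent.P205.TW

open Vale.Agent.P205.F

universe u

/-- scalar form of the lower bound on `K`: radii -/
theorem sc_rad {αa αb ra rb W E2 C g0 : ℝ} (hW : 0 < W) (hE : 0 < E2)
    (hg : g0 ≤ (αa * rb - αb * ra) ^ 2 * (W * E2))
    (ha : αa ^ 2 * W + ra ^ 2 * E2 ≤ C) (hb : αb ^ 2 * W + rb ^ 2 * E2 ≤ C) :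
    g0 ≤ 4 * C * (max (ra ^ 2) (rb ^ 2) * E2) := by
  set Z := max (ra ^ 2) (rb ^ 2)
  have h1 : ra ^ 2 ≤ Z := le_max_left _ _
  have h2 : rb ^ 2 ≤ Z := le_max_right _ _
  have h3 : (αa * rb - αb * ra) ^ 2 ≤ 2 * (αa ^ 2 * rb ^ 2 + αb ^ 2 * ra ^ 2) := by
    linarith only [sq_nonneg (αa * rb + αb * ra)]
  have h4 : αa ^ 2 * rb ^ 2 ≤ αa ^ 2 * Z := by gcongr
  have h5 : αb ^ 2 * ra ^ 2 ≤ αb ^ 2 * Z := by gcongr
  have hZ : 0 ≤ Z := le_trans (sq_nonneg _) h1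
  have h6 : αa ^ 2 * W ≤ C := by linarith only [mul_nonneg (le_of_lt (sub_pos.2 hE)) (sq_nonneg ra), ha]
  have h7 : αb ^ 2 * W ≤ C := by linarith only [mul_nonneg (le_of_lt (sub_pos.2 hE)) (sq_nonneg rb), hb]
  calc g0 ≤ (αa * rb - αb * ra) ^ 2 * (W * E2) := hg
    _ ≤ (2 * (αa ^ 2 * Z + αb ^ 2 * Z)) * (W * E2) := by
        gcongr
        linarith
    _ = 2 * (αa ^ 2 * W + αb ^ 2 * W) * (Z * E2) := by ring
    _ ≤ 2 * (C + C) * (Z * E2) := by gcongr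
    _ = 4 * C * (Z * E2) := by ring

/-- scalar form: vertical components -/
theorem sc_ver {αa αb ra rb W E2 C g0 t Nz ez za zb : ℝ} (hW : 0 < W) (hE : 0 < E2)
    (ht : 0 ≤ t) (hg : g0 ≤ (αa * rb - αb * ra) ^ 2 * (W * E2))
    (ha : αa ^ 2 * W + ra ^ 2 * E2 ≤ C) (hb : αb ^ 2 * W + rb ^ 2 * E2 ≤ C)
    (hza : za = αa * Nz + ra * ez) (hzb : zb = αb * Nz + rb * ez)
    (h : t * W ≤ Nz ^ 2 ∨ t * E2 ≤ ez ^ 2) :
    g0 * t ≤ 4 * C * max (za ^ 2) (zb ^ 2) := by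
  set Z := max (za ^ 2) (zb ^ 2)
  have h1 : za ^ 2 ≤ Z := le_max_left _ _
  have h2 : zb ^ 2 ≤ Z := le_max_right _ _
  have hZ : 0 ≤ Z := le_trans (sq_nonneg _) h1
  rcases h with h | h
  · have e1 : Nz * (αa * rb - αb * ra) = za * rb - zb * ra := by rw [hza, hzb]; ring
    have e2 : (za * rb - zb * ra) ^ 2 ≤ 2 * (za ^ 2 * rb ^ 2 + zb ^ 2 * ra ^ 2) := by
      linarith only [sq_nonneg (za * rb + zb * ra)]
    have h4 : za ^ 2 * rb ^ 2 ≤ Z * rb ^ 2 := by gcongr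
    have h5 : zb ^ 2 * ra ^ 2 ≤ Z * ra ^ 2 := by gcongr
    have h6 : ra ^ 2 * E2 ≤ C := by linarith only [mul_nonneg (sq_nonneg αa) hW.le, ha]
    have h7 : rb ^ 2 * E2 ≤ C := by linarith only [mul_nonneg (sq_nonneg αb) hW.le, hb]
    calc g0 * t ≤ ((αa * rb - αb * ra) ^ 2 * (W * E2)) * t := by gcongr
      _ = (αa * rb - αb * ra) ^ 2 * E2 * (t * W) := by ring
      _ ≤ (αa * rb - αb * ra) ^ 2 * E2 * Nz ^ 2 := by gcongr
      _ = (Nz * (αa * rb - αb * ra)) ^ 2 * E2 := by ring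
      _ = (za * rb - zb * ra) ^ 2 * E2 := by rw [e1]
      _ ≤ (2 * (Z * rb ^ 2 + Z * ra ^ 2)) * E2 := by
          gcongr
          linarith
      _ = 2 * Z * (rb ^ 2 * E2 + ra ^ 2 * E2) := by ring
      _ ≤ 2 * Z * (C + C) := by gcongr
      _ = 4 * C * Z := by ring
  · have e1 : ez * (αa * rb - αb * ra) = αa * zb - αb * za := by rw [hza, hzb]; ring
    have e2 : (αa * zb - αb * za) ^ 2 ≤ 2 * (αa ^ 2 * zb ^ 2 + αb ^ 2 * za ^ 2) := by
      linarith only [sq_nonneg (αa * zb + αb * za)]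
    have h4 : αa ^ 2 * zb ^ 2 ≤ αa ^ 2 * Z := by gcongr
    have h5 : αb ^ 2 * za ^ 2 ≤ αb ^ 2 * Z := by gcongr
    have h6 : αa ^ 2 * W ≤ C := by linarith only [mul_nonneg (sq_nonneg ra) hE.le, ha]
    have h7 : αb ^ 2 * W ≤ C := by linarith only [mul_nonneg (sq_nonneg rb) hE.le, hb]
    calc g0 * t ≤ ((αa * rb - αb * ra) ^ 2 * (W * E2)) * t := by gcongr
      _ = (αa * rb - αb * ra) ^ 2 * W * (t * E2) := by ring
      _ ≤ (αa * rb - αb * ra) ^ 2 * W * ez ^ 2 := by gcongr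
      _ = (ez * (αa * rb - αb * ra)) ^ 2 * W := by ring
      _ = (αa * zb - αb * za) ^ 2 * W := by rw [e1]
      _ ≤ (2 * (αa ^ 2 * Z + αb ^ 2 * Z)) * W := by
          gcongr
          linarith
      _ = 2 * Z * (αa ^ 2 * W + αb ^ 2 * W) := by ring
      _ ≤ 2 * Z * (C + C) := by gcongr
      _ = 4 * C * Z := by ring

/-- the vertical alternative -/
theorem sc_vert {W M2 iv c s Nz mz Vz κ τ : ℝ} (hW : 0 < W) (hM : 0 < M2)
    (hκ : 0 < κ) (h1 : κ ^ 2 * (W * M2) ≤ Nz ^ 2 * M2 + mz ^ 2 * W) (hV : Vz ^ 2 ≤ M2)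
    (hc : 1 / 2 ≤ c) (hs : |s| ≤ τ * c) (hτ : τ ≤ κ / 4) :
    κ ^ 2 / 25 * W ≤ Nz ^ 2 ∨ κ ^ 2 / 25 * (iv ^ 2 * M2) ≤ (iv * (c * mz + s * Vz)) ^ 2 := by
  by_cases hN : κ ^ 2 / 25 * W ≤ Nz ^ 2
  · exact Or.inl hN
  · right
    push Not at hN
    have h2 : κ ^ 2 * (24 / 25) * M2 ≤ mz ^ 2 := by
      have : κ ^ 2 * (24 / 25) * M2 * W ≤ mz ^ 2 * W := by (by_contra nlg; linarith only [nlg, mul_pos (sub_pos.2 hM) (sub_pos.2 hN), mul_nonneg (mul_self_nonneg (1 : ℝ)) (sub_nonneg.2 h1), mul_nonneg (mul_self_nonneg (1 : ℝ)) (le_of_lt (sub_pos.2 (not_le.1 nlg)))])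
      exact le_of_mul_le_mul_right this hW
    set R := Real.sqrt M2 with hR
    have hR0 : 0 < R := Real.sqrt_pos.mpr hM
    have hR2 : R ^ 2 = M2 := Real.sq_sqrt hM.le
    rw [← hR2] at h2 hV
    have h3 : κ * (9 / 10) * R ≤ |mz| := by
      by_contra hcon
      push Not at hcon
      have : |mz| ^ 2 < (κ * (9 / 10) * R) ^ 2 :=
        pow_lt_pow_left₀ hcon (abs_nonneg _) (by norm_num)
      rw [sq_abs] at this
      linarith only [sq_nonneg (κ * R), this, h2]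
    have h4 : |Vz| ≤ R := abs_le_of_sq_le_sq (by rw [hR2] at hV ⊢; exact hV) hR0.le
    have h5 : |s * Vz| ≤ (κ / 4 * c) * R := by
      rw [abs_mul]
      have : τ * c ≤ κ / 4 * c := by gcongr
      exact mul_le_mul (hs.trans this) h4 (abs_nonneg _) (by positivity)
    have h6 : c * (κ * (9 / 10) * R) ≤ |c * mz| := by
      rw [abs_mul, abs_of_nonneg (by linarith only [hc] : (0 : ℝ) ≤ c)]
      exact mul_le_mul_of_nonneg_left h3 (by linarith only [hc])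
    have h7 : κ * (1 / 4) * R ≤ |c * mz + s * Vz| := by
      have h8 := abs_sub_abs_le_abs_sub (c * mz) (-(s * Vz))
      rw [abs_neg, sub_neg_eq_add] at h8
      have h9 : 1 / 2 * (κ * R) ≤ c * (κ * R) := by gcongr
      (by_contra nlg; linarith only [nlg, mul_nonneg (le_of_lt (sub_pos.2 hR0)) (sub_nonneg.2 h9), mul_nonneg (le_of_lt (sub_pos.2 hR0)) (sub_nonneg.2 h8), mul_nonneg (le_of_lt (sub_pos.2 hR0)) (sub_nonneg.2 h6), mul_nonneg (le_of_lt (sub_pos.2 hR0)) (sub_nonneg.2 h5), mul_eq_zero_of_left (sub_eq_zero.2 hR2) (κ - (0)), mul_pos (sub_pos.2 hM) (sub_pos.2 hκ), mul_pos (sub_pos.2 (not_le.1 nlg)) (sub_pos.2 hR0)])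
    have h8 : (κ * (1 / 4) * R) ^ 2 ≤ (c * mz + s * Vz) ^ 2 := by
      rw [← sq_abs (c * mz + s * Vz)]
      exact pow_le_pow_left₀ (by positivity) h7 2
    have h9 : (iv * (c * mz + s * Vz)) ^ 2 = iv ^ 2 * (c * mz + s * Vz) ^ 2 := by ring
    rw [h9, ← hR2]
    have h10 : κ ^ 2 / 25 * R ^ 2 ≤ (c * mz + s * Vz) ^ 2 := by linarith only [sq_nonneg (κ * R), h8]
    linarith only [mul_nonneg (sub_nonneg.2 h10) (sq_nonneg iv)]

/-- **scalar lower bound on `K`** -/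
theorem sc_lower {αa αb ra rb W M2 iv h c s Nz mz Vz κ τ C CE g0 c1 ρ za zb : ℝ}
    (hW : 0 < W) (hM : 0 < M2) (hiv : 1 ≤ iv) (hg0 : 0 < g0) (hC : 0 < C) (hκ : 0 < κ)
    (hc1 : 0 < c1) (hρ : 0 < ρ)
    (hg : g0 ≤ (αa * rb - αb * ra) ^ 2 * (W * (iv ^ 2 * M2)))
    (ha : αa ^ 2 * W + ra ^ 2 * (iv ^ 2 * M2) ≤ C)
    (hb : αb ^ 2 * W + rb ^ 2 * (iv ^ 2 * M2) ≤ C)
    (hE : iv ^ 2 * M2 ≤ CE)
    (hza : za = αa * Nz + ra * (iv * (c * mz + s * Vz)))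
    (hzb : zb = αb * Nz + rb * (iv * (c * mz + s * Vz)))
    (hV : Vz ^ 2 ≤ M2) (hτ : τ ≤ κ / 4)
    (halt : c1 ≤ |h| ∨ (1 / 2 ≤ c ∧ |s| ≤ τ * c ∧
      κ ^ 2 * (W * M2) ≤ Nz ^ 2 * M2 + mz ^ 2 * W)) :
    g0 * min ((g0 / (4 * C)) ^ 2 * c1 ^ 2 / CE) ((g0 * κ ^ 2 / (100 * C)) ^ 2 / ρ ^ 2) ≤
      (αa * rb - αb * ra) ^ 2 * (W * (iv ^ 2 * M2)) *
        (ra ^ 4 * h ^ 2 * iv ^ 2 * M2 + za ^ 4 / ρ ^ 2) ∨
    g0 * min ((g0 / (4 * C)) ^ 2 * c1 ^ 2 / CE) ((g0 * κ ^ 2 / (100 * C)) ^ 2 / ρ ^ 2) ≤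
      (αa * rb - αb * ra) ^ 2 * (W * (iv ^ 2 * M2)) *
        (rb ^ 4 * h ^ 2 * iv ^ 2 * M2 + zb ^ 4 / ρ ^ 2) := by
  have hiv0 : 0 < iv := by linarith
  have hE0 : 0 < iv ^ 2 * M2 := by positivity
  have hCE : 0 < CE := lt_of_lt_of_le hE0 hE
  have key : ∀ T : ℝ, min ((g0 / (4 * C)) ^ 2 * c1 ^ 2 / CE)
      ((g0 * κ ^ 2 / (100 * C)) ^ 2 / ρ ^ 2) ≤ T →
      g0 * min ((g0 / (4 * C)) ^ 2 * c1 ^ 2 / CE) ((g0 * κ ^ 2 / (100 * C)) ^ 2 / ρ ^ 2) ≤
      (αa * rb - αb * ra) ^ 2 * (W * (iv ^ 2 * M2)) * T := by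
    intro T hT
    have hm : 0 ≤ min ((g0 / (4 * C)) ^ 2 * c1 ^ 2 / CE)
      ((g0 * κ ^ 2 / (100 * C)) ^ 2 / ρ ^ 2) := by positivity
    exact mul_le_mul hg hT hm (hg0.le.trans hg)
  rcases halt with hh | ⟨k1, k2, k3⟩
  · have hr := sc_rad hW hE0 hg ha hb
    have hA : ∀ r z : ℝ, g0 ≤ 4 * C * (r ^ 2 * (iv ^ 2 * M2)) →
        (g0 / (4 * C)) ^ 2 * c1 ^ 2 / CE ≤ r ^ 4 * h ^ 2 * iv ^ 2 * M2 + z ^ 4 / ρ ^ 2 := by
      intro r z hr
      have h2 : g0 / (4 * C) ≤ r ^ 2 * (iv ^ 2 * M2) := by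
        rw [div_le_iff₀ (by positivity)]; linarith
      have h3 : c1 ^ 2 ≤ h ^ 2 := by
        rw [← sq_abs h]
        exact pow_le_pow_left₀ hc1.le hh 2
      have h4 : r ^ 4 * h ^ 2 * iv ^ 2 * M2 =
          (r ^ 2 * (iv ^ 2 * M2)) ^ 2 * h ^ 2 / (iv ^ 2 * M2) := by
        field_simp
      have h5 : 0 ≤ g0 / (4 * C) := by positivity
      have h6 : 0 ≤ z ^ 4 / ρ ^ 2 := by (clear * - hρ; positivity)
      have h7 : (g0 / (4 * C)) ^ 2 * c1 ^ 2 / CE ≤ r ^ 4 * h ^ 2 * iv ^ 2 * M2 := by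
        rw [h4]
        gcongr
      linarith only [h7, h6]
    rcases le_total (ra ^ 2) (rb ^ 2) with h | h
    · right
      rw [max_eq_right h] at hr
      exact key _ ((min_le_left _ _).trans (hA rb zb hr))
    · left
      rw [max_eq_left h] at hr
      exact key _ ((min_le_left _ _).trans (hA ra za hr))
  · have hv := sc_vert hW hM hκ k3 hV k1 k2 hτ (iv := iv)
    have hz := sc_ver hW hE0 (by positivity : 0 ≤ κ ^ 2 / 25) hg ha hb hza hzb hv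
    have hB : ∀ r z : ℝ, g0 * (κ ^ 2 / 25) ≤ 4 * C * z ^ 2 →
        (g0 * κ ^ 2 / (100 * C)) ^ 2 / ρ ^ 2 ≤
          r ^ 4 * h ^ 2 * iv ^ 2 * M2 + z ^ 4 / ρ ^ 2 := by
      intro r z hz
      have h2 : g0 * κ ^ 2 / (100 * C) ≤ z ^ 2 := by
        rw [div_le_iff₀ (by positivity)]; linarith only [hz]
      have h5 : 0 ≤ g0 * κ ^ 2 / (100 * C) := by positivity
      have h6 : 0 ≤ r ^ 4 * h ^ 2 * iv ^ 2 * M2 := by (clear * - hiv hM; positivity)
      have h7 : (g0 * κ ^ 2 / (100 * C)) ^ 2 / ρ ^ 2 ≤ z ^ 4 / ρ ^ 2 := by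
        have : z ^ 4 = (z ^ 2) ^ 2 := by ring
        rw [this]
        gcongr
      linarith only [h7, h6]
    rcases le_total (za ^ 2) (zb ^ 2) with h | h
    · right
      rw [max_eq_right h] at hz
      exact key _ ((min_le_right _ _).trans (hB rb zb hz))
    · left
      rw [max_eq_left h] at hz
      exact key _ ((min_le_right _ _).trans (hB ra za hz))

variable {P : Type u} {κ : Type} [Fintype κ] {S : DAlg P κ}

namespace TData

/-- pointwise bounds at `p`: `C` bounds the fields, the derivatives of `X`, `ψ`, `r`, and `iv`;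
`1 ≤ iv`; the fields `a`, `b` span with constant `c0` -/
structure PtBd (S : DAlg P κ) (d : TData P κ) (p : P) (C c0 : ℝ) (a b : κ) : Prop where
  t : ∀ j, ‖d.r.t j p‖ ≤ C
  w : ∀ j, ‖d.r.w j p‖ ≤ C
  X : ∀ j i, ‖S.D j (d.X i) p‖ ≤ C
  ψ : ∀ j, ‖S.D j d.ψ p‖ ≤ C
  r : ∀ j, ‖S.D j d.r.Ψ p‖ ≤ C
  iv : ‖d.iv p‖ ≤ C
  iv1 : 1 ≤ (d.iv p).re
  det : c0 ≤ (S.met d.X a a p * S.met d.X b b p - S.met d.X a b p ^ 2).re

/-- real parts: the real numbers behind the data at `p` -/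
structure RP (S : DAlg P κ) (d : TData P κ) (ρ : ℝ) (p : P) where
  /-- `D_j X` -/
  x : κ → Fin 4 → ℝ
  /-- `X_t` -/
  xt : Fin 4 → ℝ
  /-- `X_w` -/
  xw : Fin 4 → ℝ
  /-- `D_j ψ` -/
  y : κ → ℝ
  /-- `ψ_t` -/
  yt : ℝ
  /-- `ψ_w` -/
  yw : ℝ
  /-- `D_j r` -/
  r : κ → ℝ
  /-- `β` -/
  β : κ → ℝ
  /-- `iG` -/
  iG : ℝ
  /-- `σ` -/
  σ : ℝ
  /-- `cos χ` -/
  c : ℝ
  /-- `sin χ` -/
  s : ℝ
  /-- `χ'` -/
  h : ℝ
  /-- `1 / v` -/
  iv : ℝ
  hx : ∀ j i, S.D j (d.X i) p = x j i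
  hxt : ∀ i, d.Xt S i p = xt i
  hxw : ∀ i, d.Xw S i p = xw i
  hy : ∀ j, S.D j d.ψ p = y j
  hyt : d.ψt S p = yt
  hyw : d.ψw S p = yw
  hr : ∀ j, S.D j d.r.Ψ p = r j
  hβ : ∀ j, d.r.β j p = β j
  hiG : d.iG p = iG
  hσ : d.σ p = σ
  hc : d.c p = c
  hs : d.s p = s
  hh : d.h p = h
  hiv : d.iv p = iv

/-- existence of the real numbers -/
def mkRP {d : TData P κ} {ρ : ℝ} (hd : d.Ok S ρ) (p : P) : RP S d ρ p where
  x j i := (S.D j (d.X i) p).re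
  xt i := (d.Xt S i p).re
  xw i := (d.Xw S i p).re
  y j := (S.D j d.ψ p).re
  yt := (d.ψt S p).re
  yw := (d.ψw S p).re
  r j := (S.D j d.r.Ψ p).re
  β j := (d.r.β j p).re
  iG := (d.iG p).re
  σ := (d.σ p).re
  c := (d.c p).re
  s := (d.s p).re
  h := (d.h p).re
  iv := (d.iv p).re
  hx j i := ((S.rl_D j (hd.smX i) (hd.rX i)).ofReal_re p).symm
  hxt i := ((Rl.dir hd.ray.rt (hd.smX i) (hd.rX i) : Rl (S.dir d.r.t (d.X i))).ofReal_re p).symm
  hxw i := ((Rl.dir hd.ray.rw' (hd.smX i) (hd.rX i) : Rl (S.dir d.r.w (d.X i))).ofReal_re p).symm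
  hy j := ((S.rl_D j hd.smψ hd.rψ).ofReal_re p).symm
  hyt := ((Rl.dir hd.ray.rt hd.smψ hd.rψ : Rl (S.dir d.r.t d.ψ)).ofReal_re p).symm
  hyw := ((Rl.dir hd.ray.rw' hd.smψ hd.rψ : Rl (S.dir d.r.w d.ψ)).ofReal_re p).symm
  hr j := ((S.rl_D j hd.ray.smΨ hd.ray.rΨ).ofReal_re p).symm
  hβ j := ((hd.ray.rβ j).ofReal_re p).symm
  hiG := (hd.riG.ofReal_re p).symm
  hσ := (hd.rσ.ofReal_re p).symm
  hc := (hd.rc.ofReal_re p).symm
  hs := (hd.rs.ofReal_re p).symm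
  hh := (hd.rh.ofReal_re p).symm
  hiv := (hd.riv.ofReal_re p).symm

namespace RP

variable {d : TData P κ} {ρ : ℝ} {p : P} (R : RP S d ρ p)

/-- `E_tt` -/
def Ett : ℝ := dt R.xt R.xt
/-- `E_tw` -/
def Etw : ℝ := dt R.xt R.xw
/-- `E_ww` -/
def Eww : ℝ := dt R.xw R.xw
/-- `G_tt` -/
def Gtt : ℝ := R.Ett + ρ ^ 2 * (R.yt * R.yt)
/-- `G_tw` -/
def Gtw : ℝ := R.Etw + ρ ^ 2 * (R.yt * R.yw)
/-- `G_ww` -/
def Gww : ℝ := R.Eww + ρ ^ 2 * (R.yw * R.yw)
/-- `dX` -/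
def dX : ℝ := R.Ett * R.Eww - R.Etw * R.Etw
/-- `|m|²` -/
def M2 : ℝ := R.Gtt - R.Gtw * R.Gtw * R.iG
/-- `G_tw / G_ww` -/
def bt : ℝ := R.Gtw * R.iG

theorem cEtt : d.Ett S p = R.Ett := by
  simp only [TData.Ett, Ett, dot, dt, R.hxt]; push_cast; rfl
theorem cEtw : d.Etw S p = R.Etw := by
  simp only [TData.Etw, Etw, dot, dt, R.hxt, R.hxw]; push_cast; rfl
theorem cEww : d.Eww S p = R.Eww := by
  simp only [TData.Eww, Eww, dot, dt, R.hxw]; push_cast; rfl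
theorem cGtt : d.Gtt S ρ p = R.Gtt := by
  simp only [TData.Gtt, Gtt, R.cEtt, R.hyt]; push_cast; rfl
theorem cGtw : d.Gtw S ρ p = R.Gtw := by
  simp only [TData.Gtw, Gtw, R.cEtw, R.hyt, R.hyw]; push_cast; rfl
theorem cGww : d.Gww S ρ p = R.Gww := by
  simp only [TData.Gww, Gww, R.cEww, R.hyw]; push_cast; rfl
theorem cdX : d.dX S p = R.dX := by
  simp only [TData.dX, dX, R.cEtt, R.cEtw, R.cEww]; push_cast; rfl
theorem cM2 : d.M2 S ρ p = R.M2 := by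
  simp only [TData.M2, M2, R.cGtt, R.cGtw, R.hiG]; push_cast; rfl
theorem cbt : d.bt S ρ p = R.bt := by
  simp only [TData.bt, bt, R.cGtw, R.hiG]; push_cast; rfl

theorem cmet (j k : κ) : S.met d.X j k p = (dt (R.x j) (R.x k) : ℝ) := by
  simp only [DAlg.met, dot, DAlg.Dv, dt, R.hx]; push_cast; rfl

theorem cQ (j k : κ) : d.Q S ρ j k p =
    (dt (R.x j) (R.x k) + ρ ^ 2 * (R.y j * R.y k) + (R.iv ^ 2 - 1) * R.M2 * (R.r j * R.r k) : ℝ) := by
  simp only [TData.Q, R.cmet, R.hy, R.cM2, R.hiv, R.hr]; push_cast; rfl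

theorem Ett0 : 0 ≤ R.Ett := dt_self_nonneg _
theorem Eww0 : 0 ≤ R.Eww := dt_self_nonneg _
theorem dX0 : 0 ≤ R.dX := gr2_nonneg _ _

theorem area_ge (j k : κ) :
    gr2 (R.x j) (R.x k) ≤ (dt (R.x j) (R.x j) + ρ ^ 2 * (R.y j * R.y j)) *
      (dt (R.x k) (R.x k) + ρ ^ 2 * (R.y k * R.y k)) -
      (dt (R.x j) (R.x k) + ρ ^ 2 * (R.y j * R.y k)) ^ 2 := by
  have h := dt_self_nonneg (R.y j • R.x k - R.y k • R.x j)
  have h2 : dt (R.y j • R.x k - R.y k • R.x j) (R.y j • R.x k - R.y k • R.x j) =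
      R.y j ^ 2 * dt (R.x k) (R.x k) + R.y k ^ 2 * dt (R.x j) (R.x j)
        - 2 * (R.y j * R.y k) * dt (R.x j) (R.x k) := by
    simp only [dt, Pi.sub_apply, Pi.smul_apply, smul_eq_mul, Fin.sum_univ_four]; ring
  rw [h2] at h
  have h3 : 0 ≤ ρ ^ 2 * (R.y j ^ 2 * dt (R.x k) (R.x k) + R.y k ^ 2 * dt (R.x j) (R.x j)
        - 2 * (R.y j * R.y k) * dt (R.x j) (R.x k)) := mul_nonneg (sq_nonneg _) h
  unfold gr2
  linarith only [h3]

end RP

theorem dir_bd {c : κ → P → ℂ} {u : P → ℂ} {p : P} {C : ℝ} (hC : 0 ≤ C)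
    (hc : ∀ j, ‖c j p‖ ≤ C) (hu : ∀ j, ‖S.D j u p‖ ≤ C) :
    ‖S.dir c u p‖ ≤ Fintype.card κ * (C * C) := by
  calc ‖S.dir c u p‖ ≤ ∑ j, ‖c j p * S.D j u p‖ := norm_sum_le _ _
    _ ≤ ∑ _j : κ, C * C := Finset.sum_le_sum fun j _ => by
        rw [norm_mul]; exact mul_le_mul (hc j) (hu j) (norm_nonneg _) hC
    _ = Fintype.card κ * (C * C) := by
        rw [Finset.sum_const, Finset.card_univ, nsmul_eq_mul]

/-- `Q` in the orthogonal frame -/
theorem Q_K {d : TData P κ} {ρ : ℝ} (hd : d.Ok S ρ) {p : P} (hp : p ∈ d.r.K) (j k : κ) :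
    d.Q S ρ j k p =
      (d.r.β j p + S.D j d.r.Ψ p * d.bt S ρ p) * (d.r.β k p + S.D k d.r.Ψ p * d.bt S ρ p)
        * d.Gww S ρ p + S.D j d.r.Ψ p * S.D k d.r.Ψ p * (d.iv p ^ 2 * d.M2 S ρ p) := by
  have heN : dc (ve S d ρ 0 p) (vN S d ρ 0 p) = 0 := by rw [dc_comm]; exact Ne 0 hd p hp
  rw [← LL_K 0 hd p hp j k, vL_eq 0 hd p hp j, vL_eq 0 hd p hp k]
  simp only [dc_add_left, dc_smul_left, dc_add_right, dc_smul_right, Ne 0 hd p hp, heN, NN 0 hd,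
    ee 0 hd p hp]
  ring

theorem sq_le_of_norm {z : ℂ} {x C : ℝ} (h : z = x) (hz : ‖z‖ ≤ C) : x ^ 2 ≤ C ^ 2 := by
  rw [h, Complex.norm_real, Real.norm_eq_abs] at hz
  rw [← sq_abs]
  exact pow_le_pow_left₀ (abs_nonneg _) hz 2

theorem dt_le {x : Fin 4 → ℝ} {B : ℝ} (h : ∀ i, x i ^ 2 ≤ B) : dt x x ≤ 4 * B := by
  simp only [dt, Fin.sum_univ_four]
  linarith only [h 3, h 2, h 1, h 0]

/-- upper bound of `G_tt + G_ww` -/
def cT (n : ℕ) (C ρ : ℝ) : ℝ := 8 * (n * (C * C)) ^ 2 + 2 * ρ ^ 2 * (n * (C * C)) ^ 2 + 1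

/-- upper bound of `Q_jj` -/
def cU (n : ℕ) (C ρ : ℝ) : ℝ := 4 * C ^ 2 + ρ ^ 2 * C ^ 2 + C ^ 2 * cT n C ρ * C ^ 2 + 1

/-- lower bound for the vertical part -/
def cκ (n : ℕ) (C ρ cψ : ℝ) : ℝ := ρ * cψ / (2 * (1 + cT n C ρ))

/-- the constant on `K` -/
def cK (n : ℕ) (C ρ cψ c0 c1 : ℝ) : ℝ :=
  c0 * min ((c0 / (4 * cU n C ρ)) ^ 2 * c1 ^ 2 / (C ^ 2 * cT n C ρ))
    ((c0 * cκ n C ρ cψ ^ 2 / (100 * cU n C ρ)) ^ 2 / ρ ^ 2)

theorem cT_pos (n : ℕ) (C ρ : ℝ) : 0 < cT n C ρ := by unfold cT; positivity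

theorem cU_pos (n : ℕ) (C ρ : ℝ) : 0 < cU n C ρ := by
  have := cT_pos n C ρ
  unfold cU; positivity

theorem cκ_pos (n : ℕ) {C ρ cψ : ℝ} (hρ : 0 < ρ) (hψ : 0 < cψ) : 0 < cκ n C ρ cψ := by
  have := cT_pos n C ρ
  unfold cκ; positivity

theorem cK_pos (n : ℕ) {C ρ cψ c0 c1 : ℝ} (hC : 0 < C) (hρ : 0 < ρ) (hψ : 0 < cψ) (hc0 : 0 < c0)
    (hc1 : 0 < c1) : 0 < cK n C ρ cψ c0 c1 := by
  have h1 := cT_pos n C ρ
  have h2 := cU_pos n C ρ
  have h3 := cκ_pos n (C := C) hρ hψ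
  unfold cK
  apply mul_pos hc0
  apply lt_min <;> positivity

namespace RP

variable {d : TData P κ} {ρ : ℝ} {p : P} (R : RP S d ρ p)

/-- coefficient of `N` in `L_j` -/
def al (j : κ) : ℝ := R.β j + R.r j * R.bt

section onK
variable (hd : d.Ok S ρ) (hp : p ∈ d.r.K)
include hd hp

theorem iGG : R.iG * R.Gww = 1 := by
  have := hd.iGG p hp
  rw [R.hiG, R.cGww] at this
  exact_mod_cast this

theorem σσ : R.σ ^ 2 * (R.dX * R.Gww) = 1 := by
  have := hd.σσ p hp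
  rw [R.hσ, R.cdX, R.cGww] at this
  exact_mod_cast this

theorem W_pos : 0 < R.Gww := by
  have hW0 : 0 ≤ R.Gww := by
    unfold Gww; linarith only [sq_nonneg (ρ * R.yw), R.Eww0]
  have e1 := R.iGG hd hp
  exact lt_of_le_of_ne hW0 fun h => by rw [← h] at e1; simp at e1

theorem dX_pos : 0 < R.dX := by
  have e2 := R.σσ hd hp
  exact lt_of_le_of_ne R.dX0 fun h => by rw [← h] at e2; simp at e2

theorem dX_le : R.dX ≤ R.M2 * R.Gww := by
  have e1 := R.iGG hd hp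
  have hM2W : R.M2 * R.Gww = R.Gtt * R.Gww - R.Gtw * R.Gtw := by
    unfold M2; linear_combination (-(R.Gtw * R.Gtw)) * e1
  have hdet : R.Gtt * R.Gww - R.Gtw * R.Gtw = R.dX + ρ ^ 2 * (R.yt ^ 2 * R.Eww
      - 2 * (R.yt * R.yw) * R.Etw + R.yw ^ 2 * R.Ett) := by
    unfold Gtt Gww Gtw dX; ring
  have hform : 0 ≤ R.yt ^ 2 * R.Eww - 2 * (R.yt * R.yw) * R.Etw + R.yw ^ 2 * R.Ett := by
    have h := dt_self_nonneg (R.yt • R.xw - R.yw • R.xt)
    have h2 : dt (R.yt • R.xw - R.yw • R.xt) (R.yt • R.xw - R.yw • R.xt) =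
        R.yt ^ 2 * R.Eww - 2 * (R.yt * R.yw) * R.Etw + R.yw ^ 2 * R.Ett := by
      simp only [Eww, Etw, Ett, dt, Pi.sub_apply, Pi.smul_apply, smul_eq_mul,
        Fin.sum_univ_four]
      ring
    rwa [h2] at h
  rw [hM2W, hdet]
  have := mul_nonneg (sq_nonneg ρ) hform
  linarith

theorem M_pos : 0 < R.M2 := by
  have h1 := R.dX_pos hd hp
  have h2 := R.dX_le hd hp
  have h3 := R.W_pos hd hp
  by_contra hcon
  push Not at hcon
  linarith only [mul_nonneg (le_of_lt (sub_pos.2 h3)) (sub_nonneg.2 hcon), h2, h1]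

theorem hQ (j k : κ) : dt (R.x j) (R.x k) + ρ ^ 2 * (R.y j * R.y k)
      + (R.iv ^ 2 - 1) * R.M2 * (R.r j * R.r k) =
      R.al j * R.al k * R.Gww + R.r j * R.r k * (R.iv ^ 2 * R.M2) := by
  have h := Q_K hd hp j k
  rw [R.cQ, R.hβ, R.hβ, R.hr, R.hr, R.cbt, R.cGww, R.hiv, R.cM2] at h
  simp only [al]
  exact_mod_cast h

/-- vertical component of the loop -/
def ez : ℝ := R.iv * (R.c * (ρ * (R.yt - R.bt * R.yw)) + R.s * (R.σ * R.dX))

theorem hgram (μ : ℝ) (hρ : 0 < ρ) (a b j : κ) :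
    (gram3 (d.L S ρ μ a) (d.L S ρ μ b) (d.B S ρ μ j j) p).re =
      (R.al a * R.r b - R.al b * R.r a) ^ 2 * (R.Gww * (R.iv ^ 2 * R.M2)) *
        (R.r j ^ 4 * R.h ^ 2 * R.iv ^ 2 * R.M2
          + (R.al j * (ρ * R.yw) + R.r j * R.ez) ^ 4 / ρ ^ 2) := by
  have h := gram_K μ hd p hρ.ne' hp a b j
  rw [area_K hd p hp, zeta_eq hd p hp, R.hβ, R.hβ, R.hβ, R.hr, R.hr, R.hr, R.cbt, R.cGww, R.hiv,
    R.cM2, R.hyw, R.hc, R.hs, R.hh] at h
  have h3 : d.a3 S ρ p = (ρ * (R.yt - R.bt * R.yw) : ℝ) := by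
    simp only [TData.a3, R.hyt, R.hyw, R.cbt]; push_cast; rfl
  have h4 : d.b3 S p = (R.σ * R.dX : ℝ) := by
    simp only [TData.b3, R.hσ, R.cdX]; push_cast; rfl
  rw [h3, h4] at h
  rw [h]
  rw [← Complex.ofReal_re ((R.al a * R.r b - R.al b * R.r a) ^ 2
      * (R.Gww * (R.iv ^ 2 * R.M2)) *
      (R.r j ^ 4 * R.h ^ 2 * R.iv ^ 2 * R.M2
        + (R.al j * (ρ * R.yw) + R.r j * R.ez) ^ 4 / ρ ^ 2))]
  congr 1
  simp only [al, ez]
  push_cast
  ring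

end onK

section bounds
variable {C c0 : ℝ} {a b : κ} (hC : 0 ≤ C) (hB : PtBd S d p C c0 a b)
include hC hB

theorem xt_le (i : Fin 4) : R.xt i ^ 2 ≤ (Fintype.card κ * (C * C)) ^ 2 :=
  sq_le_of_norm (R.hxt i) (dir_bd hC hB.t fun j => hB.X j i)

theorem xw_le (i : Fin 4) : R.xw i ^ 2 ≤ (Fintype.card κ * (C * C)) ^ 2 :=
  sq_le_of_norm (R.hxw i) (dir_bd hC hB.w fun j => hB.X j i)

theorem T_le : R.Gtt + R.Gww ≤ cT (Fintype.card κ) C ρ := by
  have hyt : R.yt ^ 2 ≤ (Fintype.card κ * (C * C)) ^ 2 :=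
    sq_le_of_norm R.hyt (dir_bd hC hB.t hB.ψ)
  have hyw : R.yw ^ 2 ≤ (Fintype.card κ * (C * C)) ^ 2 :=
    sq_le_of_norm R.hyw (dir_bd hC hB.w hB.ψ)
  have h1 := dt_le (R.xt_le hC hB)
  have h2 := dt_le (R.xw_le hC hB)
  have h3 : ρ ^ 2 * R.yt ^ 2 ≤ ρ ^ 2 * (Fintype.card κ * (C * C)) ^ 2 := by gcongr
  have h4 : ρ ^ 2 * R.yw ^ 2 ≤ ρ ^ 2 * (Fintype.card κ * (C * C)) ^ 2 := by gcongr
  unfold Gtt Gww Ett Eww cT
  linarith

end bounds

theorem Gtt0 : 0 ≤ R.Gtt := by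
  unfold Gtt
  have := R.Ett0
  have := mul_self_nonneg (ρ * R.yt)
  nlinarith

theorem M_le (hd : d.Ok S ρ) (hp : p ∈ d.r.K) {C c0 : ℝ} {a b : κ} (hC : 0 ≤ C)
    (hB : PtBd S d p C c0 a b) : R.M2 ≤ cT (Fintype.card κ) C ρ := by
  have e1 := R.iGG hd hp
  have hW := R.W_pos hd hp
  have h1 := R.T_le hC hB
  have : R.M2 ≤ R.Gtt := by
    unfold M2
    have h5 : R.Gtw * R.Gtw * R.iG = (R.Gtw * R.iG) ^ 2 * R.Gww := by
      linear_combination (-(R.Gtw * R.Gtw * R.iG)) * e1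
    have h6 : 0 ≤ (R.Gtw * R.iG) ^ 2 * R.Gww := by positivity
    linarith
  linarith

theorem UU_le (hd : d.Ok S ρ) (hp : p ∈ d.r.K) {C c0 : ℝ} {a b : κ} (hC : 0 ≤ C)
    (hB : PtBd S d p C c0 a b) (j : κ) :
    R.al j ^ 2 * R.Gww + R.r j ^ 2 * (R.iv ^ 2 * R.M2) ≤ cU (Fintype.card κ) C ρ := by
  have h := R.hQ hd hp j j
  have hx := dt_le fun i => sq_le_of_norm (R.hx j i) (hB.X j i)
  have hy := sq_le_of_norm (R.hy j) (hB.ψ j)
  have hr := sq_le_of_norm (R.hr j) (hB.r j)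
  have hivC : R.iv ^ 2 ≤ C ^ 2 := sq_le_of_norm R.hiv hB.iv
  have hiv1 : 1 ≤ R.iv := by
    have := hB.iv1
    rwa [R.hiv, Complex.ofReal_re] at this
  have hM2le := R.M_le hd hp hC hB
  have hM0 := R.M_pos hd hp
  have hT := cT_pos (Fintype.card κ) C ρ
  have h1 : ρ ^ 2 * R.y j ^ 2 ≤ ρ ^ 2 * C ^ 2 := by gcongr
  have h2 : (R.iv ^ 2 - 1) * R.M2 * (R.r j * R.r j) ≤
      C ^ 2 * cT (Fintype.card κ) C ρ * C ^ 2 := by
    have a1 : R.iv ^ 2 - 1 ≤ C ^ 2 := by linarith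
    have a2 : 0 ≤ R.iv ^ 2 - 1 := by (by_contra nlg; linarith only [nlg, mul_nonneg (sub_nonneg.2 hiv1) (sub_nonneg.2 hiv1), mul_nonneg (le_of_lt (sub_pos.2 (not_le.1 nlg))) (sub_nonneg.2 hiv1), mul_pos (sub_pos.2 (not_le.1 nlg)) (sub_pos.2 (not_le.1 nlg)), mul_nonneg (sq_nonneg (R.iv : ℝ)) (sub_nonneg.2 hiv1), mul_nonneg (sq_nonneg (R.iv : ℝ)) (le_of_lt (sub_pos.2 (not_le.1 nlg)))])
    have a3 : R.r j * R.r j ≤ C ^ 2 := by rw [← sq]; exact hr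
    have a4 : 0 ≤ R.r j * R.r j := mul_self_nonneg _
    calc (R.iv ^ 2 - 1) * R.M2 * (R.r j * R.r j) ≤
          C ^ 2 * cT (Fintype.card κ) C ρ * (R.r j * R.r j) := by gcongr
      _ ≤ C ^ 2 * cT (Fintype.card κ) C ρ * C ^ 2 := by gcongr
  unfold cU
  have e : R.al j ^ 2 * R.Gww + R.r j ^ 2 * (R.iv ^ 2 * R.M2) =
    dt (R.x j) (R.x j) + ρ ^ 2 * R.y j ^ 2 + (R.iv ^ 2 - 1) * R.M2 * (R.r j * R.r j) := by
    linear_combination -h
  rw [e]
  linarith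

theorem det_ge {C c0 : ℝ} {a b : κ} (hB : PtBd S d p C c0 a b) :
    c0 ≤ gr2 (R.x a) (R.x b) := by
  have h := hB.det
  rw [R.cmet, R.cmet, R.cmet] at h
  have e : (((dt (R.x a) (R.x a) : ℝ) : ℂ) * ((dt (R.x b) (R.x b) : ℝ) : ℂ)
    - ((dt (R.x a) (R.x b) : ℝ) : ℂ) ^ 2) =
    ((gr2 (R.x a) (R.x b) : ℝ) : ℂ) := by
    unfold gr2; push_cast; ring
  rw [e, Complex.ofReal_re] at h
  exact h

theorem area_K_ge (hd : d.Ok S ρ) (hp : p ∈ d.r.K) {C c0 : ℝ} {a b : κ}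
    (hB : PtBd S d p C c0 a b) :
    c0 ≤ (R.al a * R.r b - R.al b * R.r a) ^ 2 * (R.Gww * (R.iv ^ 2 * R.M2)) := by
  have h0 := R.det_ge hB
  have h1 := R.area_ge a b
  have haa := R.hQ hd hp a a
  have hbb := R.hQ hd hp b b
  have hab := R.hQ hd hp a b
  have g1 : dt (R.x a) (R.x a) + ρ ^ 2 * (R.y a * R.y a) =
      R.al a ^ 2 * R.Gww + R.r a ^ 2 * R.M2 := by linear_combination haa
  have g2 : dt (R.x b) (R.x b) + ρ ^ 2 * (R.y b * R.y b) =
      R.al b ^ 2 * R.Gww + R.r b ^ 2 * R.M2 := by linear_combination hbb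
  have g3 : dt (R.x a) (R.x b) + ρ ^ 2 * (R.y a * R.y b) =
      R.al a * R.al b * R.Gww + R.r a * R.r b * R.M2 := by linear_combination hab
  rw [g1, g2, g3] at h1
  have h2 : (R.al a ^ 2 * R.Gww + R.r a ^ 2 * R.M2) * (R.al b ^ 2 * R.Gww + R.r b ^ 2 * R.M2)
      - (R.al a * R.al b * R.Gww + R.r a * R.r b * R.M2) ^ 2 =
      (R.al a * R.r b - R.al b * R.r a) ^ 2 * (R.Gww * R.M2) := by ring
  rw [h2] at h1
  have hiv1 : 1 ≤ R.iv := by
    have := hB.iv1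
    rwa [R.hiv, Complex.ofReal_re] at this
  have hW := R.W_pos hd hp
  have hM := R.M_pos hd hp
  have hiv2 : 1 ≤ R.iv ^ 2 := by (by_contra nlg; linarith only [nlg, mul_nonneg (sub_nonneg.2 hiv1) (sub_nonneg.2 hiv1), mul_nonneg (le_of_lt (sub_pos.2 (not_le.1 nlg))) (sub_nonneg.2 hiv1), mul_pos (sub_pos.2 (not_le.1 nlg)) (sub_pos.2 (not_le.1 nlg)), mul_nonneg (sq_nonneg (R.iv : ℝ)) (sub_nonneg.2 hiv1), mul_nonneg (sq_nonneg (R.iv : ℝ)) (le_of_lt (sub_pos.2 (not_le.1 nlg)))])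
  have h4 : R.M2 ≤ R.iv ^ 2 * R.M2 := by linarith only [mul_nonneg (le_of_lt (sub_pos.2 hM)) (sub_nonneg.2 hiv2)]
  have h3 : (R.al a * R.r b - R.al b * R.r a) ^ 2 * (R.Gww * R.M2) ≤
      (R.al a * R.r b - R.al b * R.r a) ^ 2 * (R.Gww * (R.iv ^ 2 * R.M2)) := by
    gcongr
  linarith

theorem V_le (hd : d.Ok S ρ) (hp : p ∈ d.r.K) : (R.σ * R.dX) ^ 2 ≤ R.M2 := by
  have e2 := R.σσ hd hp
  have hW := R.W_pos hd hp
  have h1 : (R.σ * R.dX) ^ 2 * R.Gww = R.dX := by linear_combination R.dX * e2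
  have h2 : (R.σ * R.dX) ^ 2 * R.Gww ≤ R.M2 * R.Gww := by rw [h1]; exact R.dX_le hd hp
  exact le_of_mul_le_mul_right h2 hW

theorem grad_ge (hd : d.Ok S ρ) (hp : p ∈ d.r.K) :
    (R.yt ^ 2 + R.yw ^ 2) * (R.Gww * R.M2) ≤
      (R.yw ^ 2 * R.M2 + (R.yt - R.bt * R.yw) ^ 2 * R.Gww) * (R.Gtt + R.Gww) := by
  have e1 := R.iGG hd hp
  have hW := R.W_pos hd hp
  have hM := R.M_pos hd hp
  have hG : R.Gtt = R.M2 + R.bt ^ 2 * R.Gww := by
    unfold M2 bt; linear_combination (-(R.Gtw ^ 2 * R.iG)) * e1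
  rw [hG]
  set W := R.Gww
  set M := R.M2
  set b := R.bt
  set x := R.yw
  set z := R.yt - b * x with hz
  have hyt : R.yt = z + b * x := by rw [hz]; ring
  rw [hyt]
  have key : (x ^ 2 * M + z ^ 2 * W) * (M + b ^ 2 * W + W) - ((z + b * x) ^ 2 + x ^ 2) * (W * M)
      = (x * M - z * b * W) ^ 2 + z ^ 2 * W ^ 2 := by ring
  have : 0 ≤ (x * M - z * b * W) ^ 2 + z ^ 2 * W ^ 2 := by (clear * - hW; positivity)
  linarith

theorem vert_ge (hd : d.Ok S ρ) (hp : p ∈ d.r.K) {C c0 cψ : ℝ} {a b : κ} (hC : 0 ≤ C)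
    (hψ : 0 < cψ) (hB : PtBd S d p C c0 a b)
    (h3 : cψ ≤ ‖d.ψt S p‖ + ‖d.ψw S p‖) :
    cκ (Fintype.card κ) C ρ cψ ^ 2 * (R.Gww * R.M2) ≤
        (ρ * R.yw) ^ 2 * R.M2 + (ρ * (R.yt - R.bt * R.yw)) ^ 2 * R.Gww := by
  rw [R.hyt, R.hyw, Complex.norm_real, Complex.norm_real, Real.norm_eq_abs,
    Real.norm_eq_abs] at h3
  have hT := R.T_le hC hB
  have hW := R.W_pos hd hp
  have hM := R.M_pos hd hp
  have hG0 := R.Gtt0
  have hT0 := cT_pos (Fintype.card κ) C ρ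
  have hg := R.grad_ge hd hp
  set n := Fintype.card κ
  have h1 : cψ ^ 2 ≤ 2 * (R.yt ^ 2 + R.yw ^ 2) := by
    have h5 : cψ ^ 2 ≤ (|R.yt| + |R.yw|) ^ 2 := pow_le_pow_left₀ hψ.le h3 2
    linarith only [sq_nonneg (|R.yt| - |R.yw|), sq_abs R.yw, sq_abs R.yt, h5]
  have h4 : cκ n C ρ cψ ^ 2 * (4 * (1 + cT n C ρ) ^ 2) = ρ ^ 2 * cψ ^ 2 := by
    unfold cκ; field_simp; ring
  have h5 : 2 * (R.Gtt + R.Gww) ≤ 4 * (1 + cT n C ρ) ^ 2 := by linarith only [mul_pos (sub_pos.2 hT0) (sub_pos.2 hT0), hT0, hT]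
  have h3 : cκ n C ρ cψ ^ 2 * (2 * (R.Gtt + R.Gww)) ≤ ρ ^ 2 * cψ ^ 2 := by
    calc cκ n C ρ cψ ^ 2 * (2 * (R.Gtt + R.Gww))
        ≤ cκ n C ρ cψ ^ 2 * (4 * (1 + cT n C ρ) ^ 2) := by gcongr
      _ = ρ ^ 2 * cψ ^ 2 := h4
  have hS : 0 < R.Gtt + R.Gww := by linarith
  have hWM : 0 < R.Gww * R.M2 := mul_pos hW hM
  have h6 : cκ n C ρ cψ ^ 2 * (R.Gww * R.M2) * (R.Gtt + R.Gww) ≤
      ((ρ * R.yw) ^ 2 * R.M2 + (ρ * (R.yt - R.bt * R.yw)) ^ 2 * R.Gww)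
        * (R.Gtt + R.Gww) := by
    calc cκ n C ρ cψ ^ 2 * (R.Gww * R.M2) * (R.Gtt + R.Gww)
        = (cκ n C ρ cψ ^ 2 * (2 * (R.Gtt + R.Gww))) * (R.Gww * R.M2) / 2 := by ring
      _ ≤ (ρ ^ 2 * cψ ^ 2) * (R.Gww * R.M2) / 2 := by gcongr
      _ ≤ (ρ ^ 2 * (2 * (R.yt ^ 2 + R.yw ^ 2))) * (R.Gww * R.M2) / 2 := by gcongr
      _ = ρ ^ 2 * ((R.yt ^ 2 + R.yw ^ 2) * (R.Gww * R.M2)) := by ring
      _ ≤ ρ ^ 2 * ((R.yw ^ 2 * R.M2 + (R.yt - R.bt * R.yw) ^ 2 * R.Gww)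
          * (R.Gtt + R.Gww)) := by gcongr
      _ = _ := by ring
  exact le_of_mul_le_mul_right h6 hS

end RP

/-- **(C) on `K`** -/
theorem lowerK {d : TData P κ} {ρ : ℝ} (hd : d.Ok S ρ) (μ : ℝ) {p : P} (hp : p ∈ d.r.K)
    {C c0 c1 cψ : ℝ} {a b : κ} (hC : 1 ≤ C) (hc0 : 0 < c0) (hc1 : 0 < c1) (hψ : 0 < cψ)
    (hρ : 0 < ρ) (hB : PtBd S d p C c0 a b)
    (halt : c1 ≤ ‖d.h p‖ ∨ (1 / 2 ≤ (d.c p).re ∧
      ‖d.s p‖ ≤ cκ (Fintype.card κ) C ρ cψ / 4 * (d.c p).re ∧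
      cψ ≤ ‖d.ψt S p‖ + ‖d.ψw S p‖)) :
    ∃ j, cK (Fintype.card κ) C ρ cψ c0 c1 ≤
      (gram3 (d.L S ρ μ a) (d.L S ρ μ b) (d.B S ρ μ j j) p).re := by
  have hC0 : 0 ≤ C := by linarith
  have R := mkRP hd p
  have hivC : R.iv ^ 2 ≤ C ^ 2 := sq_le_of_norm R.hiv hB.iv
  have hiv1 : 1 ≤ R.iv := by
    have := hB.iv1
    rwa [R.hiv, Complex.ofReal_re] at this
  have hM2le := R.M_le hd hp hC0 hB
  have hM := R.M_pos hd hp
  have hE : R.iv ^ 2 * R.M2 ≤ C ^ 2 * cT (Fintype.card κ) C ρ := by gcongr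
  have halt' : c1 ≤ |R.h| ∨ (1 / 2 ≤ R.c ∧ |R.s| ≤ cκ (Fintype.card κ) C ρ cψ / 4 * R.c ∧
      cκ (Fintype.card κ) C ρ cψ ^ 2 * (R.Gww * R.M2) ≤
        (ρ * R.yw) ^ 2 * R.M2 + (ρ * (R.yt - R.bt * R.yw)) ^ 2 * R.Gww) := by
    rcases halt with h | ⟨k1, k2, k3⟩
    · left
      rw [R.hh, Complex.norm_real, Real.norm_eq_abs] at h
      exact h
    · right
      refine ⟨?_, ?_, R.vert_ge hd hp hC0 hψ hB k3⟩
      · rw [R.hc, Complex.ofReal_re] at k1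
        exact k1
      · rw [R.hs, R.hc, Complex.norm_real, Complex.ofReal_re, Real.norm_eq_abs] at k2
        exact k2
  have hfin := sc_lower (za := R.al a * (ρ * R.yw) + R.r a * R.ez)
    (zb := R.al b * (ρ * R.yw) + R.r b * R.ez)
    (R.W_pos hd hp) hM hiv1 hc0 (cU_pos _ _ _) (cκ_pos _ hρ hψ) hc1 hρ
    (R.area_K_ge hd hp hB) (R.UU_le hd hp hC0 hB a) (R.UU_le hd hp hC0 hB b) hE rfl rfl
    (R.V_le hd hp) (le_refl _) halt'
  rcases hfin with h | h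
  · exact ⟨a, by rw [R.hgram hd hp μ hρ]; exact h⟩
  · exact ⟨b, by rw [R.hgram hd hp μ hρ]; exact h⟩

/-- **(C) off `K`** -/
theorem lower_off {d : TData P κ} {ρ : ℝ} (hd : d.Ok S ρ) (μ : ℝ) {p : P} (hp : p ∉ d.r.K)
    {C c0 cψ : ℝ} {a b : κ} (hc0 : 0 < c0) (hψ : 0 < cψ)
    (hρ : 0 < ρ) (hB : PtBd S d p C c0 a b) {j : κ} (hj : cψ ≤ ‖S.D j d.ψ p‖) :
    c0 * (ρ ^ 2 * cψ ^ 4) ≤
      (gram3 (d.L S ρ μ a) (d.L S ρ μ b) (d.B S ρ μ j j) p).re := by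
  have R := mkRP hd p
  have h0 := R.det_ge hB
  have h1 := R.area_ge a b
  have hiv : R.iv = 1 := by
    have := hd.ziv p hp
    rw [R.hiv] at this
    exact_mod_cast this
  have hh : R.h = 0 := by
    have := hd.zh p hp
    rw [R.hh] at this
    exact_mod_cast this
  have hg := gram_off μ hd p hρ.ne' hp a b j
  rw [zeta_off hd p hp, R.cQ, R.cQ, R.cQ, R.hh, R.hy, R.hr, R.hiv, R.cM2, hiv, hh] at hg
  have hg2 : (gram3 (d.L S ρ μ a) (d.L S ρ μ b) (d.B S ρ μ j j) p).re =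
      ((dt (R.x a) (R.x a) + ρ ^ 2 * (R.y a * R.y a)) *
      (dt (R.x b) (R.x b) + ρ ^ 2 * (R.y b * R.y b)) -
      (dt (R.x a) (R.x b) + ρ ^ 2 * (R.y a * R.y b)) ^ 2) * (ρ ^ 2 * R.y j ^ 4) := by
    rw [hg]
    rw [← Complex.ofReal_re (((dt (R.x a) (R.x a) + ρ ^ 2 * (R.y a * R.y a)) *
      (dt (R.x b) (R.x b) + ρ ^ 2 * (R.y b * R.y b)) -
      (dt (R.x a) (R.x b) + ρ ^ 2 * (R.y a * R.y b)) ^ 2) * (ρ ^ 2 * R.y j ^ 4))]
    congr 1
    have hρ' : (ρ : ℂ) ≠ 0 := by exact_mod_cast hρ.ne'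
    push_cast
    field_simp
    ring
  rw [hg2]
  have h2 := h0.trans h1
  have h3 : cψ ^ 4 ≤ R.y j ^ 4 := by
    rw [R.hy, Complex.norm_real, Real.norm_eq_abs] at hj
    have : R.y j ^ 4 = |R.y j| ^ 4 := by
      rw [← abs_pow, abs_of_nonneg (by positivity)]
    rw [this]
    exact pow_le_pow_left₀ hψ.le hj 4
  have h4 : ρ ^ 2 * cψ ^ 4 ≤ ρ ^ 2 * R.y j ^ 4 := by gcongr
  exact mul_le_mul h2 h4 (by positivity) (hc0.le.trans h2)

end TData

end Vale.Agent.P205.TW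
end
end

section

/-!
P205, scheme T1W, block FORMULA: proof of `LowerC`.
-/

noncomputable section

namespace Vale.Agent.P205.TW

open Vale.Agent.P205.F

universe u

variable {P : Type u} {κ : Type} [Fintype κ] (S : DAlg P κ)

namespace TData

/-- pointwise lower bound of the Gram determinant of the leading terms -/
theorem lowerC : LowerC S := by
  intro C0 c0 cψ ρ _ hc0 hψ hρ
  set C := max C0 1 with hCdef
  have hC : 1 ≤ C := le_max_right _ _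
  have hCle : C0 ≤ C := le_max_left _ _
  have hC0 : 0 < C := by linarith
  have hκ := cκ_pos (Fintype.card κ) (C := C) hρ hψ
  refine ⟨min 1 (cκ (Fintype.card κ) C ρ cψ / 4), lt_min one_pos (by positivity),
    min_le_left _ _, ?_⟩
  intro c1 hc1
  have hK := cK_pos (Fintype.card κ) hC0 hρ hψ hc0 hc1
  refine ⟨min (cK (Fintype.card κ) C ρ cψ c0 c1) (c0 * (ρ ^ 2 * cψ ^ 4)),
    lt_min hK (by positivity), ?_⟩
  intro d μ p hd hp
  obtain ⟨a, b, hdet⟩ := hp.det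
  have hB : PtBd S d p C c0 a b :=
    ⟨fun j => (hp.t j).trans hCle, fun j => (hp.w j).trans hCle,
      fun j i => (hp.DX j i).trans hCle, fun j => (hp.Dψ j).trans hCle,
      fun j => (hp.Dr j).trans hCle, hp.iv.trans hCle, hp.iv1, hdet⟩
  refine ⟨a, b, ?_⟩
  by_cases hK' : p ∈ d.r.K
  · have h1 : c1 ≤ ‖d.h p‖ ∨ (1 / 2 ≤ (d.c p).re ∧
      ‖d.s p‖ ≤ cκ (Fintype.card κ) C ρ cψ / 4 * (d.c p).re ∧
      cψ ≤ ‖d.ψt S p‖ + ‖d.ψw S p‖) := by
      rcases hp.alt with ⟨_, h⟩ | ⟨k1, k2, k3, _⟩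
      · exact Or.inl h
      · refine Or.inr ⟨k1, k2.trans ?_, k3 hK'⟩
        have : 0 ≤ (d.c p).re := by linarith
        gcongr
        exact min_le_right _ _
    obtain ⟨j, hj⟩ := lowerK hd μ hK' hC hc0 hc1 hψ hρ hB h1
    exact ⟨j, (min_le_left _ _).trans hj⟩
  · rcases hp.alt with ⟨h, _⟩ | ⟨_, _, _, k4⟩
    · exact absurd h hK'
    · obtain ⟨j, hj⟩ := k4 hK'
      exact ⟨j, (min_le_right _ _).trans (lower_off hd μ hK' hc0 hψ hρ hB hj)⟩

end TData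

end Vale.Agent.P205.TW
end
end

section

/-!
P205, scheme T1W, block NASH: real calculus in a `DAlg`.
-/

noncomputable section

open scoped ContDiff

namespace Vale.Agent.P205.TW

open Vale.Agent.P205.F

universe u

variable {P : Type u} {κ : Type} {S : DAlg P κ} {u v : P → ℝ}

theorem RS.const (c : ℝ) : RS S (fun _ => c) := S.sm_const (c : ℂ)

theorem nc_add_eq (u v : P → ℝ) : (fun p => ((u p + v p : ℝ) : ℂ)) =
    (fun p => (u p : ℂ)) + fun p => (v p : ℂ) := by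
  funext p
  simp

theorem nc_neg_eq (u : P → ℝ) : (fun p => ((-u p : ℝ) : ℂ)) = -fun p => (u p : ℂ) := by
  funext p
  simp

theorem nc_sub_eq (u v : P → ℝ) : (fun p => ((u p - v p : ℝ) : ℂ)) =
    (fun p => (u p : ℂ)) - fun p => (v p : ℂ) := by
  funext p
  simp

theorem nc_mul_eq (u v : P → ℝ) : (fun p => ((u p * v p : ℝ) : ℂ)) =
    (fun p => (u p : ℂ)) * fun p => (v p : ℂ) := by
  funext p
  simp

theorem nc_sum_eq {ι : Type*} (A : Finset ι) (w : ι → P → ℝ) :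
    (fun p => ((∑ a ∈ A, w a p : ℝ) : ℂ)) = fun p => ∑ a ∈ A, ((w a p : ℝ) : ℂ) := by
  funext p
  push_cast
  rfl

theorem RS.add (hu : RS S u) (hv : RS S v) : RS S (fun p => u p + v p) := by
  unfold RS
  rw [nc_add_eq]
  exact S.sm_add hu hv

theorem RS.neg (hu : RS S u) : RS S (fun p => -u p) := by
  unfold RS
  rw [nc_neg_eq]
  exact S.sm_neg hu

theorem RS.sub (hu : RS S u) (hv : RS S v) : RS S (fun p => u p - v p) := by
  unfold RS
  rw [nc_sub_eq]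
  exact S.sm_sub hu hv

theorem RS.mul (hu : RS S u) (hv : RS S v) : RS S (fun p => u p * v p) := by
  unfold RS
  rw [nc_mul_eq]
  exact S.sm_mul hu hv

theorem RS.pow (hu : RS S u) (n : ℕ) : RS S (fun p => u p ^ n) := by
  induction n with
  | zero =>
    have h : RS S (fun _ => (1 : ℝ)) := RS.const 1
    simpa using h
  | succ n ih =>
    have h := ih.mul hu
    simpa only [pow_succ] using h

theorem RS.sum {ι : Type*} {A : Finset ι} {w : ι → P → ℝ} (hw : ∀ a ∈ A, RS S (w a)) :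
    RS S (fun p => ∑ a ∈ A, w a p) := by
  unfold RS
  rw [nc_sum_eq]
  exact S.sm_sum' hw

theorem RS.comp {F : ℝ → ℝ} (hF : ContDiff ℝ ∞ F) (hu : RS S u) : RS S (fun p => F (u p)) := by
  have h := S.sm_comp (F := fun x => ((F x : ℝ) : ℂ)) (Complex.ofRealCLM.contDiff.comp hF) hu
    (fun p => Complex.ofReal_im _)
  exact h

theorem RS.bdd (hu : RS S u) : ∃ C : ℝ, 0 ≤ C ∧ ∀ p, |u p| ≤ C := by
  obtain ⟨C, hC⟩ := S.bdd hu
  refine ⟨|C|, abs_nonneg C, fun p => ?_⟩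
  have h := hC p
  rw [Complex.norm_real, Real.norm_eq_abs] at h
  exact h.trans (le_abs_self C)

theorem RS.D (j : κ) (hu : RS S u) : RS S (RD S j u) := S.sm_re (S.sm_D j hu)

theorem coe_RD (j : κ) (hu : RS S u) (p : P) :
    S.D j (fun p => (u p : ℂ)) p = ((RD S j u p : ℝ) : ℂ) := by
  have h := S.D_conj j hu
  have e : (fun p => (starRingEnd ℂ) ((fun p => (u p : ℂ)) p)) = fun p => (u p : ℂ) := by
    funext q
    exact Complex.conj_ofReal _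
  rw [e] at h
  have h2 := congrFun h p
  exact (Complex.conj_eq_iff_re.1 h2.symm).symm

theorem RD_const (j : κ) (c : ℝ) (p : P) : RD S j (fun _ => c) p = 0 := by
  unfold RD
  rw [S.D_const_apply]
  rfl

theorem RD_add (j : κ) (hu : RS S u) (hv : RS S v) (p : P) :
    RD S j (fun p => u p + v p) p = RD S j u p + RD S j v p := by
  unfold RD
  rw [nc_add_eq, S.D_add_apply j hu hv, Complex.add_re]

theorem RD_neg (j : κ) (hu : RS S u) (p : P) : RD S j (fun p => -u p) p = -RD S j u p := by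
  unfold RD
  rw [nc_neg_eq, S.D_neg_apply j hu, Complex.neg_re]

theorem RD_mul (j : κ) (hu : RS S u) (hv : RS S v) (p : P) :
    RD S j (fun p => u p * v p) p = RD S j u p * v p + u p * RD S j v p := by
  have h1 := coe_RD j hu p
  have h2 := coe_RD j hv p
  unfold RD at h1 h2 ⊢
  rw [nc_mul_eq, S.D_mul_apply j hu hv, h1, h2]
  simp

theorem RD_comp (j : κ) {F : ℝ → ℝ} (hF : ContDiff ℝ ∞ F) (hu : RS S u) (p : P) :
    RD S j (fun p => F (u p)) p = deriv F (u p) * RD S j u p := by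
  have h := congrFun (S.D_comp (F := fun x => ((F x : ℝ) : ℂ)) j
    (Complex.ofRealCLM.contDiff.comp hF) hu (fun p => Complex.ofReal_im _)) p
  have hd : deriv (fun x => ((F x : ℝ) : ℂ)) (u p) = ((deriv F (u p) : ℝ) : ℂ) :=
    (((hF.differentiable (by simp)) (u p)).hasDerivAt.ofReal_comp).deriv
  simp only [Complex.ofReal_re] at h
  rw [hd] at h
  unfold RD
  rw [h, Complex.re_ofReal_mul]

/-- a smooth function, equal to `y` for `y ≥ 1`, at least `1/2` -/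
def nkf (y : ℝ) : ℝ := 1 / 2 + (y - 1 / 2) * Real.smoothTransition (4 * y - 3)

theorem nkf_of_one_le {y : ℝ} (hy : 1 ≤ y) : nkf y = y := by
  unfold nkf
  rw [Real.smoothTransition.one_of_one_le (by linarith)]
  ring

theorem nkf_pos (y : ℝ) : 0 < nkf y := by
  rcases le_total y (3 / 4) with h | h
  · unfold nkf
    rw [Real.smoothTransition.zero_of_nonpos (by linarith)]
    norm_num
  · unfold nkf
    have h1 := Real.smoothTransition.nonneg (4 * y - 3)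
    have h2 : 0 ≤ (y - 1 / 2) * Real.smoothTransition (4 * y - 3) :=
      mul_nonneg (by linarith) h1
    linarith

theorem nkf_smooth : ContDiff ℝ ∞ nkf := by
  unfold nkf
  have h1 : ContDiff ℝ ∞ (fun y : ℝ => Real.smoothTransition (4 * y - 3)) :=
    Real.smoothTransition.contDiff.comp ((contDiff_const.mul contDiff_id).sub contDiff_const)
  exact contDiff_const.add ((contDiff_id.sub contDiff_const).mul h1)

/-- inverse square root of a function bounded below -/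
theorem RS.isq {c : ℝ} (hc : 0 < c) (hu : RS S u) (h : ∀ p, c ≤ u p) :
    RS S (fun p => (Real.sqrt (u p))⁻¹) := by
  have hF : ContDiff ℝ ∞ (fun y : ℝ => (Real.sqrt (c * nkf (c⁻¹ * y)))⁻¹) := by
    have h1 : ContDiff ℝ ∞ (fun y : ℝ => c * nkf (c⁻¹ * y)) :=
      contDiff_const.mul (nkf_smooth.comp (contDiff_const.mul contDiff_id))
    have h2 : ∀ y : ℝ, 0 < c * nkf (c⁻¹ * y) := fun y => mul_pos hc (nkf_pos _)
    exact (h1.sqrt fun y => (h2 y).ne').inv fun y => (Real.sqrt_pos.2 (h2 y)).ne'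
  have h3 := hu.comp hF
  have e : (fun p => (Real.sqrt (c * nkf (c⁻¹ * u p)))⁻¹) = fun p => (Real.sqrt (u p))⁻¹ := by
    funext p
    rw [nkf_of_one_le (by
      rw [inv_mul_eq_div, le_div_iff₀ hc, one_mul]
      exact h p), mul_inv_cancel_left₀ hc.ne']
  rwa [e] at h3

/-- inverse of a function bounded below -/
theorem RS.inv {c : ℝ} (hc : 0 < c) (hu : RS S u) (h : ∀ p, c ≤ u p) :
    RS S (fun p => (u p)⁻¹) := by
  have h1 := (hu.isq hc h).pow 2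
  have e : (fun p => (Real.sqrt (u p))⁻¹ ^ 2) = fun p => (u p)⁻¹ := by
    funext p
    rw [inv_pow, Real.sq_sqrt (hc.le.trans (h p))]
  rwa [e] at h1

end Vale.Agent.P205.TW
end
end

section

/-!
P205, scheme T1W, block NASH: linear algebra.

`sol T τ` solves `sol T τ ⬝ T k = E2 T * τ k` for vectors `T j` spanning at most a plane and
compatible right hand sides `τ` (Cayley-Hamilton in dimension two).
-/

noncomputable section

namespace Vale.Agent.P205.TW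

variable {κ : Type*} [Fintype κ]

/-- inner product -/
def ip (x y : Fin 4 → ℝ) : ℝ := ∑ i, x i * y i

theorem ip_comm (x y : Fin 4 → ℝ) : ip x y = ip y x := by
  simp only [ip, mul_comm]

theorem ip_add_left (x y z : Fin 4 → ℝ) : ip (fun i => x i + y i) z = ip x z + ip y z := by
  simp only [ip, add_mul, Finset.sum_add_distrib]

theorem ip_sub_left (x y z : Fin 4 → ℝ) : ip (fun i => x i - y i) z = ip x z - ip y z := by
  simp only [ip, sub_mul, Finset.sum_sub_distrib]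

theorem ip_smul_left (c : ℝ) (x z : Fin 4 → ℝ) : ip (fun i => c * x i) z = c * ip x z := by
  simp only [ip, Finset.mul_sum, mul_assoc]

theorem ip_add_right (x y z : Fin 4 → ℝ) : ip z (fun i => x i + y i) = ip z x + ip z y := by
  rw [ip_comm, ip_add_left, ip_comm x, ip_comm y]

theorem ip_sub_right (x y z : Fin 4 → ℝ) : ip z (fun i => x i - y i) = ip z x - ip z y := by
  rw [ip_comm, ip_sub_left, ip_comm x, ip_comm y]

theorem ip_smul_right (c : ℝ) (x z : Fin 4 → ℝ) : ip z (fun i => c * x i) = c * ip z x := by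
  rw [ip_comm, ip_smul_left, ip_comm x]

theorem ip_sum_left {ι : Type*} (A : Finset ι) (x : ι → Fin 4 → ℝ) (z : Fin 4 → ℝ) :
    ip (fun i => ∑ a ∈ A, x a i) z = ∑ a ∈ A, ip (x a) z := by
  simp only [ip, Finset.sum_mul]
  rw [Finset.sum_comm]

theorem ip_self_nonneg (x : Fin 4 → ℝ) : 0 ≤ ip x x :=
  Finset.sum_nonneg fun i _ => mul_self_nonneg (x i)

/-- `∑ τ j T j` -/
def comb (T : κ → Fin 4 → ℝ) (τ : κ → ℝ) : Fin 4 → ℝ := fun i => ∑ j, τ j * T j i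

/-- trace -/
def E1 (T : κ → Fin 4 → ℝ) : ℝ := ∑ j, ip (T j) (T j)

/-- sum of the Gram determinants -/
def E2 (T : κ → Fin 4 → ℝ) : ℝ :=
  ∑ j, ∑ k, (ip (T j) (T j) * ip (T k) (T k) - ip (T j) (T k) ^ 2)

/-- the solution of `G ⬝ T k = E2 T * τ k` -/
def sol (T : κ → Fin 4 → ℝ) (τ : κ → ℝ) : Fin 4 → ℝ := fun i =>
  2 * (E1 T * comb T τ i - comb T (fun j => ip (T j) (comb T τ)) i)

theorem ip_comb_left (T : κ → Fin 4 → ℝ) (τ : κ → ℝ) (z : Fin 4 → ℝ) :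
    ip (comb T τ) z = ∑ j, τ j * ip (T j) z := by
  unfold comb
  rw [ip_sum_left]
  exact Finset.sum_congr rfl fun j _ => ip_smul_left _ _ _

theorem ip_sol (T : κ → Fin 4 → ℝ) (τ : κ → ℝ) (α β : κ → ℝ) (X1 X2 : Fin 4 → ℝ) (f1 f2 : ℝ)
    (hT : ∀ j i, T j i = α j * X1 i + β j * X2 i) (hτ : ∀ j, τ j = α j * f1 + β j * f2) (k : κ) :
    ip (sol T τ) (T k) = E2 T * τ k := by
  have hT' : ∀ j, T j = fun i => α j * X1 i + β j * X2 i := fun j => funext fun i => hT j i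
  obtain ⟨a, ha⟩ : ∃ a, a = ∑ j, α j * α j := ⟨_, rfl⟩
  obtain ⟨b, hb⟩ : ∃ b, b = ∑ j, α j * β j := ⟨_, rfl⟩
  obtain ⟨d, hd⟩ : ∃ d, d = ∑ j, β j * β j := ⟨_, rfl⟩
  have h1 : ∀ z, ∀ j, ip (T j) z = α j * ip X1 z + β j * ip X2 z := by
    intro z j
    rw [hT' j, ip_add_left, ip_smul_left, ip_smul_left]
  have h2 : ∀ z, ∀ j, ip z (T j) = α j * ip z X1 + β j * ip z X2 := by
    intro z j
    rw [ip_comm, h1, ip_comm X1, ip_comm X2]
  -- combinations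
  have hc : ∀ (σ : κ → ℝ) (y1 y2 : ℝ), (∀ j, σ j = α j * y1 + β j * y2) →
      ∀ i, comb T σ i = (a * y1 + b * y2) * X1 i + (b * y1 + d * y2) * X2 i := by
    intro σ y1 y2 hσ i
    simp only [comb]
    have : ∀ j, σ j * T j i = (α j * α j) * (y1 * X1 i) + (α j * β j) * (y2 * X1 i + y1 * X2 i)
        + (β j * β j) * (y2 * X2 i) := by
      intro j
      rw [hσ, hT]; ring
    rw [Finset.sum_congr rfl fun j _ => this j, Finset.sum_add_distrib, Finset.sum_add_distrib,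
      ← Finset.sum_mul, ← Finset.sum_mul, ← Finset.sum_mul, ← ha, ← hb, ← hd]
    ring
  have hE1 : E1 T = a * ip X1 X1 + 2 * b * ip X1 X2 + d * ip X2 X2 := by
    have : ∀ j, ip (T j) (T j) = (α j * α j) * ip X1 X1 + (α j * β j) * (2 * ip X1 X2)
        + (β j * β j) * ip X2 X2 := by
      intro j
      rw [h1, h2, h2, ip_comm X2 X1]; ring
    simp only [E1]
    rw [Finset.sum_congr rfl fun j _ => this j, Finset.sum_add_distrib, Finset.sum_add_distrib,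
      ← Finset.sum_mul, ← Finset.sum_mul, ← Finset.sum_mul, ← ha, ← hb, ← hd]
    ring
  have hE2 : E2 T = 2 * (a * d - b * b) * (ip X1 X1 * ip X2 X2 - ip X1 X2 ^ 2) := by
    have : ∀ j k, ip (T j) (T j) * ip (T k) (T k) - ip (T j) (T k) ^ 2 =
        ((α j * α j) * (β k * β k) + (β j * β j) * (α k * α k)
          - 2 * ((α j * β j) * (α k * β k))) * (ip X1 X1 * ip X2 X2 - ip X1 X2 ^ 2) := by
      intro j k
      rw [h1 (T j) j, h1 (T k) k, h1 (T k) j, h2, h2, h2, h2, ip_comm X2 X1]; ring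
    simp only [E2]
    have h3 : ∑ j, ∑ k, (ip (T j) (T j) * ip (T k) (T k) - ip (T j) (T k) ^ 2) =
        (∑ j, ∑ k, ((α j * α j) * (β k * β k) + (β j * β j) * (α k * α k)
          - 2 * ((α j * β j) * (α k * β k)))) * (ip X1 X1 * ip X2 X2 - ip X1 X2 ^ 2) := by
      rw [Finset.sum_mul]
      refine Finset.sum_congr rfl fun j _ => ?_
      rw [Finset.sum_mul]
      exact Finset.sum_congr rfl fun k _ => this j k
    rw [h3]
    have h4 : ∑ j, ∑ k, ((α j * α j) * (β k * β k) + (β j * β j) * (α k * α k)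
          - 2 * ((α j * β j) * (α k * β k))) = a * d + d * a - 2 * (b * b) := by
      simp only [Finset.sum_add_distrib, Finset.sum_sub_distrib, ← Finset.mul_sum,
        ← Finset.sum_mul, ← ha, ← hb, ← hd]
    rw [h4]; ring
  -- the two combinations
  have hw := hc τ f1 f2 hτ
  have hw' : comb T τ = fun i => (a * f1 + b * f2) * X1 i + (b * f1 + d * f2) * X2 i :=
    funext hw
  have hx1 : ip X1 (comb T τ) = (a * f1 + b * f2) * ip X1 X1 + (b * f1 + d * f2) * ip X1 X2 := by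
    rw [hw', ip_add_right, ip_smul_right, ip_smul_right]
  have hx2 : ip X2 (comb T τ) = (a * f1 + b * f2) * ip X1 X2 + (b * f1 + d * f2) * ip X2 X2 := by
    rw [hw', ip_add_right, ip_smul_right, ip_smul_right, ip_comm X2 X1]
  have hv := hc (fun j => ip (T j) (comb T τ)) _ _ (fun j => h1 _ j)
  have hsol : sol T τ = fun i => (2 * (E1 T * (a * f1 + b * f2)
      - (a * ip X1 (comb T τ) + b * ip X2 (comb T τ)))) * X1 i
      + (2 * (E1 T * (b * f1 + d * f2)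
      - (b * ip X1 (comb T τ) + d * ip X2 (comb T τ)))) * X2 i := by
    funext i
    simp only [sol]
    rw [hw i, hv i]; ring
  rw [hsol, ip_add_left, ip_smul_left, ip_smul_left, h2, h2, hE1, hE2, hx1, hx2, hτ,
    ip_comm X2 X1]
  ring

theorem E2_mono (x t : κ → Fin 4 → ℝ) (β : κ → ℝ)
    (h : ∀ j k, ip (t j) (t k) = ip (x j) (x k) + β j * β k) : E2 x ≤ E2 t := by
  unfold E2
  refine Finset.sum_le_sum fun j _ => Finset.sum_le_sum fun k _ => ?_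
  have h0 := ip_self_nonneg (fun i => β k * x j i - β j * x k i)
  rw [ip_sub_left, ip_smul_left, ip_smul_left, ip_sub_right, ip_sub_right, ip_smul_right,
    ip_smul_right, ip_smul_right, ip_smul_right, ip_comm (x k) (x j)] at h0
  rw [h, h, h]
  linarith only [h0]

/-- uniform continuity on balls -/
theorem unif_ball {E F : Type*} [NormedAddCommGroup E] [ProperSpace E] [PseudoMetricSpace F]
    (f : E → F) (hf : Continuous f) (M ε : ℝ) (hε : 0 < ε) :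
    ∃ δ : ℝ, 0 < δ ∧ ∀ x y, ‖x‖ ≤ M → ‖y - x‖ ≤ δ → dist (f y) (f x) ≤ ε := by
  have hK : IsCompact (Metric.closedBall (0 : E) (M + 1)) := isCompact_closedBall _ _
  have hu := hK.uniformContinuousOn_of_continuous hf.continuousOn
  rw [Metric.uniformContinuousOn_iff] at hu
  obtain ⟨δ, hδ, h⟩ := hu ε hε
  refine ⟨min (δ / 2) 1, by positivity, fun x y hx hy => ?_⟩
  have h1 : ‖y - x‖ ≤ δ / 2 := hy.trans (min_le_left _ _)
  have h2 : ‖y - x‖ ≤ 1 := hy.trans (min_le_right _ _)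
  refine (h y ?_ x ?_ ?_).le
  · rw [mem_closedBall_zero_iff]
    calc ‖y‖ = ‖(y - x) + x‖ := by rw [sub_add_cancel]
      _ ≤ ‖y - x‖ + ‖x‖ := norm_add_le _ _
      _ ≤ M + 1 := by linarith
  · rw [mem_closedBall_zero_iff]; linarith
  · rw [dist_eq_norm]; linarith

end Vale.Agent.P205.TW
end
end

section

/-!
P205, scheme T1W, block NASH: the new normal frame, pointwise.
-/

noncomputable section

namespace Vale.Agent.P205.TW

variable {κ : Type*} [Fintype κ]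

/-- rotated frame, first vector -/
def nn (C s : ℝ) (Q1 Q2 : Fin 4 → ℝ) : Fin 4 → ℝ := fun i => C * Q1 i + s * Q2 i

/-- rotated frame, second vector -/
def bb (C s : ℝ) (Q1 Q2 : Fin 4 → ℝ) : Fin 4 → ℝ := fun i => C * Q2 i - s * Q1 i

/-- `b - a grad φ` -/
def mm (x : κ → Fin 4 → ℝ) (f : κ → ℝ) (a : ℝ) (b : Fin 4 → ℝ) : Fin 4 → ℝ :=
  fun i => b i - a * (E2 x)⁻¹ * sol x f i

/-- normalisation -/
def unit (v : Fin 4 → ℝ) : Fin 4 → ℝ := fun i => (Real.sqrt (ip v v))⁻¹ * v i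

/-- projection to the orthogonal complement of the `T j` -/
def vv (T : κ → Fin 4 → ℝ) (m : Fin 4 → ℝ) : Fin 4 → ℝ :=
  fun i => m i - (E2 T)⁻¹ * sol T (fun j => ip (T j) m) i

/-- Gram-Schmidt, second vector before normalisation -/
def gs (v w : Fin 4 → ℝ) : Fin 4 → ℝ := fun i => w i - ip w v * (ip v v)⁻¹ * v i

theorem ip_unit (v : Fin 4 → ℝ) (h : 0 < ip v v) : ip (unit v) (unit v) = 1 := by
  unfold unit
  rw [ip_smul_left, ip_smul_right, ← mul_assoc, ← mul_inv, Real.mul_self_sqrt h.le,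
    inv_mul_cancel₀ h.ne']

theorem ip_unit_left (v z : Fin 4 → ℝ) : ip (unit v) z = (Real.sqrt (ip v v))⁻¹ * ip v z := by
  unfold unit
  rw [ip_smul_left]

theorem ip_unit_zero {v z : Fin 4 → ℝ} (h : ip v z = 0) : ip (unit v) z = 0 := by
  rw [ip_unit_left, h, mul_zero]

theorem ip_comb_zero {T : κ → Fin 4 → ℝ} {τ : κ → ℝ} {z : Fin 4 → ℝ}
    (h : ∀ j, ip (T j) z = 0) : ip (comb T τ) z = 0 := by
  rw [ip_comb_left]
  exact Finset.sum_eq_zero fun j _ => by rw [h, mul_zero]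

theorem ip_sol_zero {T : κ → Fin 4 → ℝ} {τ : κ → ℝ} {z : Fin 4 → ℝ}
    (h : ∀ j, ip (T j) z = 0) : ip (sol T τ) z = 0 := by
  unfold sol
  rw [ip_smul_left, ip_sub_left, ip_smul_left, ip_comb_zero h, ip_comb_zero h]
  ring

section rot

variable {C s : ℝ} {Q1 Q2 : Fin 4 → ℝ}

theorem ip_nn (hC : C ^ 2 + s ^ 2 = 1) (h11 : ip Q1 Q1 = 1) (h22 : ip Q2 Q2 = 1)
    (h12 : ip Q1 Q2 = 0) : ip (nn C s Q1 Q2) (nn C s Q1 Q2) = 1 := by
  unfold nn
  rw [ip_add_left, ip_smul_left, ip_smul_left, ip_add_right, ip_add_right, ip_smul_right,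
    ip_smul_right, ip_smul_right, ip_smul_right, ip_comm Q2 Q1, h11, h22, h12]
  linear_combination hC

theorem ip_bb (hC : C ^ 2 + s ^ 2 = 1) (h11 : ip Q1 Q1 = 1) (h22 : ip Q2 Q2 = 1)
    (h12 : ip Q1 Q2 = 0) : ip (bb C s Q1 Q2) (bb C s Q1 Q2) = 1 := by
  unfold bb
  rw [ip_sub_left, ip_smul_left, ip_smul_left, ip_sub_right, ip_sub_right, ip_smul_right,
    ip_smul_right, ip_smul_right, ip_smul_right, ip_comm Q2 Q1, h11, h22, h12]
  linear_combination hC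

theorem ip_nb (h11 : ip Q1 Q1 = 1) (h22 : ip Q2 Q2 = 1)
    (h12 : ip Q1 Q2 = 0) : ip (nn C s Q1 Q2) (bb C s Q1 Q2) = 0 := by
  unfold bb nn
  rw [ip_add_left, ip_smul_left, ip_smul_left, ip_sub_right, ip_sub_right, ip_smul_right,
    ip_smul_right, ip_smul_right, ip_smul_right, ip_comm Q2 Q1, h11, h22, h12]
  ring

theorem ip_nn_zero {z : Fin 4 → ℝ} (h1 : ip Q1 z = 0) (h2 : ip Q2 z = 0) :
    ip (nn C s Q1 Q2) z = 0 := by
  unfold nn
  rw [ip_add_left, ip_smul_left, ip_smul_left, h1, h2]; ring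

theorem ip_bb_zero {z : Fin 4 → ℝ} (h1 : ip Q1 z = 0) (h2 : ip Q2 z = 0) :
    ip (bb C s Q1 Q2) z = 0 := by
  unfold bb
  rw [ip_sub_left, ip_smul_left, ip_smul_left, h1, h2]; ring

end rot

/-- `|b - a grad φ|² ≥ 1` -/
theorem one_le_mm {x : κ → Fin 4 → ℝ} {f : κ → ℝ} {a : ℝ} {b : Fin 4 → ℝ} (hb : ip b b = 1)
    (hx : ∀ j, ip (x j) b = 0) : 1 ≤ ip (mm x f a b) (mm x f a b) := by
  have h0 : ip b (sol x f) = 0 := by rw [ip_comm]; exact ip_sol_zero hx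
  have h1 : ip (sol x f) b = 0 := ip_sol_zero hx
  have h2 := ip_self_nonneg (fun i => a * (E2 x)⁻¹ * sol x f i)
  rw [ip_smul_left, ip_smul_right] at h2
  unfold mm
  rw [ip_sub_left, ip_smul_left, ip_sub_right, ip_sub_right, ip_smul_right, ip_smul_right, h0, h1,
    hb]
  linarith

/-- `b - a grad φ` is orthogonal to `n` -/
theorem ip_mm_n {x : κ → Fin 4 → ℝ} {f : κ → ℝ} {a : ℝ} {b n : Fin 4 → ℝ} (hb : ip b n = 0)
    (hx : ∀ j, ip (x j) n = 0) : ip (mm x f a b) n = 0 := by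
  unfold mm
  rw [ip_sub_left, ip_smul_left, hb, ip_sol_zero hx]; ring

/-- `b - a grad φ` is orthogonal to `x k + a f k b` -/
theorem ip_mm_t {x : κ → Fin 4 → ℝ} {f : κ → ℝ} {a : ℝ} {b : Fin 4 → ℝ} (hb : ip b b = 1)
    (hx : ∀ j, ip (x j) b = 0) (hE : E2 x ≠ 0) (hs : ∀ k, ip (sol x f) (x k) = E2 x * f k)
    (k : κ) : ip (mm x f a b) (fun i => x k i + a * f k * b i) = 0 := by
  have h1 : ip (sol x f) b = 0 := ip_sol_zero hx
  have h2 : ip b (x k) = 0 := by rw [ip_comm]; exact hx k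
  unfold mm
  rw [ip_add_right, ip_smul_right, ip_sub_left, ip_smul_left, ip_sub_left, ip_smul_left, hs, h1,
    h2, hb]
  field_simp
  ring

theorem ip_vv {T : κ → Fin 4 → ℝ} {m : Fin 4 → ℝ} (hE : E2 T ≠ 0)
    (hs : ∀ k, ip (sol T (fun j => ip (T j) m)) (T k) = E2 T * ip (T k) m) (k : κ) :
    ip (vv T m) (T k) = 0 := by
  unfold vv
  rw [ip_sub_left, ip_smul_left, hs, ip_comm m]
  field_simp
  ring

theorem ip_gs_left {v w : Fin 4 → ℝ} (hv : ip v v ≠ 0) : ip (gs v w) v = 0 := by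
  unfold gs
  rw [ip_sub_left, ip_smul_left]
  field_simp
  ring

theorem ip_gs_zero {v w z : Fin 4 → ℝ} (hv : ip v z = 0) (hw : ip w z = 0) :
    ip (gs v w) z = 0 := by
  unfold gs
  rw [ip_sub_left, ip_smul_left, hv, hw]; ring

theorem ip_gs_self {v w : Fin 4 → ℝ} (hv : ip v v ≠ 0) :
    ip (gs v w) (gs v w) = ip w w - ip w v ^ 2 * (ip v v)⁻¹ := by
  have h1 : ∀ z, ip (gs v w) z = ip w z - ip w v * (ip v v)⁻¹ * ip v z := by
    intro z
    unfold gs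
    rw [ip_sub_left, ip_smul_left]
  have h2 : ip v (gs v w) = 0 := by rw [ip_comm, ip_gs_left hv]
  rw [h1 (gs v w), h2, ip_comm w (gs v w), h1 w, ip_comm v w]
  ring

/-- closeness of inner products -/
theorem ip_close {v w m m' : Fin 4 → ℝ} {ε : ℝ} (hε : ε ≤ 1 / 100) (h1 : ∀ i, |v i - m i| ≤ ε)
    (h2 : ∀ i, |w i - m' i| ≤ ε) (hm : ip m m = 1) (hm' : ip m' m' = 1) :
    |ip v w - ip m m'| ≤ 1 / 10 := by
  have hb : ∀ {y : Fin 4 → ℝ}, ip y y = 1 → ∀ i, |y i| ≤ 1 := by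
    intro y hy i
    have : y i * y i ≤ ip y y :=
      Finset.single_le_sum (f := fun i => y i * y i) (fun j _ => mul_self_nonneg (y j))
        (Finset.mem_univ i)
    rw [hy] at this
    rw [← sq_le_one_iff_abs_le_one]
    linarith only [this]
  have h0 : ∀ i, |v i * w i - m i * m' i| ≤ 1 / 40 := by
    intro i
    have e : v i * w i - m i * m' i = (v i - m i) * (w i - m' i) + (v i - m i) * m' i
        + m i * (w i - m' i) := by ring
    have hε0 : 0 ≤ ε := (abs_nonneg _).trans (h1 i)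
    have a1 : |(v i - m i) * (w i - m' i)| ≤ ε * ε := by
      rw [abs_mul]; exact mul_le_mul (h1 i) (h2 i) (abs_nonneg _) hε0
    have a2 : |(v i - m i) * m' i| ≤ ε * 1 := by
      rw [abs_mul]; exact mul_le_mul (h1 i) (hb hm' i) (abs_nonneg _) hε0
    have a3 : |m i * (w i - m' i)| ≤ 1 * ε := by
      rw [abs_mul]; exact mul_le_mul (hb hm i) (h2 i) (abs_nonneg _) zero_le_one
    rw [e]
    refine (abs_add_le _ _).trans ?_
    have := abs_add_le ((v i - m i) * (w i - m' i)) ((v i - m i) * m' i)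
    nlinarith
  unfold ip
  rw [← Finset.sum_sub_distrib]
  refine (Finset.abs_sum_le_sum_abs _ _).trans ?_
  refine (Finset.sum_le_sum fun i _ => h0 i).trans ?_
  simp
  norm_num

end Vale.Agent.P205.TW
end
end

section

/-!
P205, scheme T1W, block NASH: one step.
-/

noncomputable section

open scoped ContDiff

namespace Vale.Agent.P205.TW

open Vale.Agent.P205.F

universe u

variable {P : Type u} {κ : Type} [Fintype κ] {S : DAlg P κ}

theorem RS.ip {x y : Fin 4 → P → ℝ} (hx : ∀ i, RS S (x i)) (hy : ∀ i, RS S (y i)) :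
    RS S (fun p => ip (fun i => x i p) (fun i => y i p)) :=
  RS.sum fun i _ => (hx i).mul (hy i)

theorem RS.comb {T : κ → Fin 4 → P → ℝ} {τ : κ → P → ℝ} (hT : ∀ j i, RS S (T j i))
    (hτ : ∀ j, RS S (τ j)) (i : Fin 4) :
    RS S (fun p => comb (fun j i => T j i p) (fun j => τ j p) i) :=
  RS.sum fun j _ => (hτ j).mul (hT j i)

theorem RS.E1 {T : κ → Fin 4 → P → ℝ} (hT : ∀ j i, RS S (T j i)) :
    RS S (fun p => E1 (fun j i => T j i p)) :=
  RS.sum fun j _ => RS.ip (hT j) (hT j)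

theorem RS.E2 {T : κ → Fin 4 → P → ℝ} (hT : ∀ j i, RS S (T j i)) :
    RS S (fun p => E2 (fun j i => T j i p)) :=
  RS.sum fun j _ => RS.sum fun k _ =>
    ((RS.ip (hT j) (hT j)).mul (RS.ip (hT k) (hT k))).sub ((RS.ip (hT j) (hT k)).pow 2)

theorem RS.sol {T : κ → Fin 4 → P → ℝ} {τ : κ → P → ℝ} (hT : ∀ j i, RS S (T j i))
    (hτ : ∀ j, RS S (τ j)) (i : Fin 4) :
    RS S (fun p => sol (fun j i => T j i p) (fun j => τ j p) i) :=
  (RS.const 2).mul (((RS.E1 hT).mul (RS.comb hT hτ i)).sub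
    (RS.comb hT (fun j => RS.ip (hT j) (fun i => RS.comb hT hτ i)) i))

theorem RS.unit {v : Fin 4 → P → ℝ} {c : ℝ} (hc : 0 < c) (hv : ∀ i, RS S (v i))
    (h : ∀ p, c ≤ TW.ip (fun i => v i p) (fun i => v i p)) (i : Fin 4) :
    RS S (fun p => unit (fun i => v i p) i) :=
  (RS.isq hc (RS.ip hv hv) h).mul (hv i)

theorem RS.mm {x : κ → Fin 4 → P → ℝ} {f : κ → P → ℝ} {a : P → ℝ} {b : Fin 4 → P → ℝ} {c : ℝ}
    (hc : 0 < c) (hx : ∀ j i, RS S (x j i)) (hf : ∀ j, RS S (f j)) (ha : RS S a)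
    (hb : ∀ i, RS S (b i)) (h : ∀ p, c ≤ TW.E2 (fun j i => x j i p)) (i : Fin 4) :
    RS S (fun p => mm (fun j i => x j i p) (fun j => f j p) (a p) (fun i => b i p) i) :=
  (hb i).sub ((ha.mul (RS.inv hc (RS.E2 hx) h)).mul (RS.sol hx hf i))

theorem RS.vv {T : κ → Fin 4 → P → ℝ} {m : Fin 4 → P → ℝ} {c : ℝ}
    (hc : 0 < c) (hT : ∀ j i, RS S (T j i)) (hm : ∀ i, RS S (m i))
    (h : ∀ p, c ≤ TW.E2 (fun j i => T j i p)) (i : Fin 4) :
    RS S (fun p => vv (fun j i => T j i p) (fun i => m i p) i) :=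
  (hm i).sub ((RS.inv hc (RS.E2 hT) h).mul (RS.sol hT (fun j => RS.ip (hT j) hm) i))

theorem RS.gs {v w : Fin 4 → P → ℝ} {c : ℝ} (hc : 0 < c) (hv : ∀ i, RS S (v i))
    (hw : ∀ i, RS S (w i)) (h : ∀ p, c ≤ TW.ip (fun i => v i p) (fun i => v i p)) (i : Fin 4) :
    RS S (fun p => gs (fun i => v i p) (fun i => w i p) i) :=
  (hw i).sub ((((RS.ip hw hv).mul (RS.inv hc (RS.ip hv hv) h))).mul (hv i))

theorem RS.bdd_fin {ι : Type*} [Fintype ι] {w : ι → P → ℝ} (h : ∀ i, RS S (w i)) :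
    ∃ C : ℝ, 0 ≤ C ∧ ∀ i p, |w i p| ≤ C := by
  choose C hC hb using fun i => (h i).bdd
  refine ⟨∑ i, C i, Finset.sum_nonneg fun i _ => hC i, fun i p => (hb i p).trans ?_⟩
  exact Finset.single_le_sum (fun j _ => hC j) (Finset.mem_univ i)

/-- derivatives at a point -/
def xx (S : DAlg P κ) (X : Fin 4 → P → ℝ) (p : P) : κ → Fin 4 → ℝ := fun j i => RD S j (X i) p

theorem rmet_eq (X : Fin 4 → P → ℝ) (j k : κ) (p : P) :
    rmet S X j k p = ip (xx S X p j) (xx S X p k) := rfl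

/-- compatibility from `Dim2` -/
theorem dim2_xx (hd : Dim2 S) {X : Fin 4 → P → ℝ} (hX : ∀ i, RS S (X i)) {φ : P → ℝ}
    (hφ : RS S φ) (p : P) (k : κ) :
    ip (sol (xx S X p) (fun j => RD S j φ p)) (xx S X p k) = E2 (xx S X p) * RD S k φ p := by
  obtain ⟨α, β, L1, L2, h⟩ := hd p
  exact ip_sol _ _ α β (fun i => L1 (X i)) (fun i => L2 (X i)) (L1 φ) (L2 φ)
    (fun j i => h j _ (hX i)) (fun j => h j _ hφ) k

theorem dim2_xx' (hd : Dim2 S) {X : Fin 4 → P → ℝ} (hX : ∀ i, RS S (X i)) (m : Fin 4 → ℝ)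
    (p : P) (k : κ) :
    ip (sol (xx S X p) (fun j => ip (xx S X p j) m)) (xx S X p k) =
      E2 (xx S X p) * ip (xx S X p k) m := by
  obtain ⟨α, β, L1, L2, h⟩ := hd p
  refine ip_sol _ _ α β (fun i => L1 (X i)) (fun i => L2 (X i)) (ip (fun i => L1 (X i)) m)
    (ip (fun i => L2 (X i)) m) (fun j i => h j _ (hX i)) (fun j => ?_) k
  have : xx S X p j = fun i => α j * L1 (X i) + β j * L2 (X i) :=
    funext fun i => h j _ (hX i)
  rw [this, ip_add_left, ip_smul_left, ip_smul_left]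

section defs

variable (S) (a φ : P → ℝ) (X q1 q2 : Fin 4 → P → ℝ) (μ : ℝ)

/-- `n` -/
def stN (p : P) : Fin 4 → ℝ :=
  nn (Real.cos (μ * φ p)) (Real.sin (μ * φ p)) (fun i => q1 i p) (fun i => q2 i p)

/-- `b` -/
def stB (p : P) : Fin 4 → ℝ :=
  bb (Real.cos (μ * φ p)) (Real.sin (μ * φ p)) (fun i => q1 i p) (fun i => q2 i p)

/-- new map -/
def stY (i : Fin 4) (p : P) : ℝ := X i p + μ⁻¹ * a p * stN φ q1 q2 μ p i

/-- second approximate normal -/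
def stM (p : P) : Fin 4 → ℝ :=
  unit (mm (xx S X p) (fun j => RD S j φ p) (a p) (stB φ q1 q2 μ p))

/-- first normal, before normalisation -/
def stV1 (p : P) : Fin 4 → ℝ := vv (xx S (stY a φ X q1 q2 μ) p) (stN φ q1 q2 μ p)

/-- second normal, before orthonormalisation -/
def stV2 (p : P) : Fin 4 → ℝ := vv (xx S (stY a φ X q1 q2 μ) p) (stM S a φ X q1 q2 μ p)

/-- new frame, first vector -/
def stP1 (i : Fin 4) (p : P) : ℝ := unit (stV1 S a φ X q1 q2 μ p) i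

/-- new frame, second vector -/
def stP2 (i : Fin 4) (p : P) : ℝ :=
  unit (gs (stV1 S a φ X q1 q2 μ p) (stV2 S a φ X q1 q2 μ p)) i

end defs

section eqv

variable {a φ : P → ℝ} {X q1 q2 : Fin 4 → P → ℝ} {μ : ℝ} {σ : P → P}

theorem RD_eqv (hσ : Eqv S σ) {w : P → ℝ} (hw : RS S w) (h : ∀ p, w (σ p) = w p) (j : κ)
    (p : P) : RD S j w (σ p) = RD S j w p := by
  have e : (fun p => w (σ p)) = w := funext h
  have := hσ j w hw (by rw [e]; exact hw) p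
  rw [e] at this
  exact this.symm

theorem RD_eqv' (hσ : Eqv S σ) {w : P → ℝ} (hw : RS S w) (h : ∀ p, w (σ p) = -w p) (j : κ)
    (p : P) : RD S j w (σ p) = -RD S j w p := by
  have e : (fun p => w (σ p)) = fun p => -w p := funext h
  have := hσ j w hw (by rw [e]; exact hw.neg) p
  rw [e, RD_neg j hw] at this
  exact this.symm

theorem sol_neg (T : κ → Fin 4 → ℝ) (τ : κ → ℝ) (i : Fin 4) :
    sol T (fun j => -τ j) i = -sol T τ i := by
  have h1 : ∀ (ρ : κ → ℝ), comb T (fun j => -ρ j) = fun i => (-1) * comb T ρ i := by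
    intro ρ; funext i
    simp only [comb, Finset.mul_sum]
    exact Finset.sum_congr rfl fun j _ => by ring
  have h2 : ∀ j, ip (T j) (fun i => (-1) * comb T τ i) = -ip (T j) (comb T τ) := by
    intro j; rw [ip_smul_right]; ring
  simp only [sol]
  rw [h1 τ]
  simp only [h2]
  rw [h1]
  ring

theorem unit_neg (v : Fin 4 → ℝ) : unit (fun i => -v i) = fun i => -unit v i := by
  funext i
  have : ip (fun i => -v i) (fun i => -v i) = ip v v := by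
    simp only [ip]; exact Finset.sum_congr rfl fun j _ => by ring
  simp only [unit, this]; ring

theorem stN_eqv (h1 : ∀ i p, q1 i (σ p) = q1 i p) (h2 : ∀ i p, q2 i (σ p) = -q2 i p)
    (hφ : ∀ p, φ (σ p) = -φ p) (p : P) : stN φ q1 q2 μ (σ p) = stN φ q1 q2 μ p := by
  funext i
  simp only [stN, nn, h1, h2, hφ]
  rw [show μ * -φ p = -(μ * φ p) by ring, Real.cos_neg, Real.sin_neg]; ring

theorem stB_eqv (h1 : ∀ i p, q1 i (σ p) = q1 i p) (h2 : ∀ i p, q2 i (σ p) = -q2 i p)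
    (hφ : ∀ p, φ (σ p) = -φ p) (p : P) :
    stB φ q1 q2 μ (σ p) = fun i => -stB φ q1 q2 μ p i := by
  funext i
  simp only [stB, bb, h1, h2, hφ]
  rw [show μ * -φ p = -(μ * φ p) by ring, Real.cos_neg, Real.sin_neg]; ring

theorem stY_eqv (ha : ∀ p, a (σ p) = a p) (hX : ∀ i p, X i (σ p) = X i p)
    (h1 : ∀ i p, q1 i (σ p) = q1 i p) (h2 : ∀ i p, q2 i (σ p) = -q2 i p)
    (hφ : ∀ p, φ (σ p) = -φ p) (i : Fin 4) (p : P) :
    stY a φ X q1 q2 μ i (σ p) = stY a φ X q1 q2 μ i p := by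
  simp only [stY, stN_eqv h1 h2 hφ, ha, hX]

theorem st_eqv (hσ : Eqv S σ) (hXs : ∀ i, RS S (X i)) (hφs : RS S φ)
    (hYs : ∀ i, RS S (stY a φ X q1 q2 μ i))
    (ha : ∀ p, a (σ p) = a p) (hX : ∀ i p, X i (σ p) = X i p)
    (h1 : ∀ i p, q1 i (σ p) = q1 i p) (h2 : ∀ i p, q2 i (σ p) = -q2 i p)
    (hφ : ∀ p, φ (σ p) = -φ p) :
    (∀ i p, stP1 S a φ X q1 q2 μ i (σ p) = stP1 S a φ X q1 q2 μ i p) ∧
      ∀ i p, stP2 S a φ X q1 q2 μ i (σ p) = -stP2 S a φ X q1 q2 μ i p := by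
  have hx : ∀ p, xx S X (σ p) = xx S X p := fun p => by
    funext j i; exact RD_eqv hσ (hXs i) (hX i) j p
  have hy : ∀ p, xx S (stY a φ X q1 q2 μ) (σ p) = xx S (stY a φ X q1 q2 μ) p := fun p => by
    funext j i; exact RD_eqv hσ (hYs i) (stY_eqv ha hX h1 h2 hφ i) j p
  have hf : ∀ p, (fun j => RD S j φ (σ p)) = fun j => -RD S j φ p := fun p => by
    funext j; exact RD_eqv' hσ hφs hφ j p
  have hM : ∀ p, stM S a φ X q1 q2 μ (σ p) = fun i => -stM S a φ X q1 q2 μ p i := fun p => by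
    have : mm (xx S X (σ p)) (fun j => RD S j φ (σ p)) (a (σ p)) (stB φ q1 q2 μ (σ p)) =
        fun i => -mm (xx S X p) (fun j => RD S j φ p) (a p) (stB φ q1 q2 μ p) i := by
      funext i
      simp only [mm, hx, hf, ha, stB_eqv h1 h2 hφ, sol_neg]; ring
    simp only [stM]
    rw [this, unit_neg]
  have hV1 : ∀ p, stV1 S a φ X q1 q2 μ (σ p) = stV1 S a φ X q1 q2 μ p := fun p => by
    simp only [stV1, hy, stN_eqv h1 h2 hφ]
  have hV2 : ∀ p, stV2 S a φ X q1 q2 μ (σ p) = fun i => -stV2 S a φ X q1 q2 μ p i := fun p => by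
    funext i
    simp only [stV2, vv, hy, hM]
    have : (fun j => ip (xx S (stY a φ X q1 q2 μ) p j) (fun i => -stM S a φ X q1 q2 μ p i)) =
        fun j => -ip (xx S (stY a φ X q1 q2 μ) p j) (stM S a φ X q1 q2 μ p) := by
      funext j; simp only [ip, mul_neg, Finset.sum_neg_distrib]
    rw [this, sol_neg]; ring
  refine ⟨fun i p => ?_, fun i p => ?_⟩
  · simp only [stP1, hV1]
  · simp only [stP2, hV1, hV2]
    have : gs (stV1 S a φ X q1 q2 μ p) (fun i => -stV2 S a φ X q1 q2 μ p i) =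
        fun i => -gs (stV1 S a φ X q1 q2 μ p) (stV2 S a φ X q1 q2 μ p) i := by
      funext i
      have : ip (fun i => -stV2 S a φ X q1 q2 μ p i) (stV1 S a φ X q1 q2 μ p) =
          -ip (stV2 S a φ X q1 q2 μ p) (stV1 S a φ X q1 q2 μ p) := by
        simp only [ip, neg_mul, Finset.sum_neg_distrib]
      simp only [gs, this]; ring
    rw [this, unit_neg]

end eqv

end Vale.Agent.P205.TW
end
end

section

/-!
P205, scheme T1W, block NASH: one step, estimates.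
-/

noncomputable section

open scoped ContDiff

namespace Vale.Agent.P205.TW

open Vale.Agent.P205.F

universe u

variable {P : Type u} {κ : Type} [Fintype κ] {S : DAlg P κ}

omit [Fintype κ] in
theorem abs_le_one_of_ip {y : Fin 4 → ℝ} (hy : ip y y = 1) (i : Fin 4) : |y i| ≤ 1 := by
  have : y i * y i ≤ ip y y :=
    Finset.single_le_sum (f := fun i => y i * y i) (fun j _ => mul_self_nonneg (y j))
      (Finset.mem_univ i)
  rw [hy] at this
  rw [← sq_le_one_iff_abs_le_one]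
  nlinarith

theorem sol_zero (T : κ → Fin 4 → ℝ) (i : Fin 4) : sol T (fun _ => 0) i = 0 := by
  have h := sol_neg T (fun _ => (0 : ℝ)) i
  simp only [neg_zero] at h
  linarith

section step

variable {a φ : P → ℝ} {X q1 q2 : Fin 4 → P → ℝ} {μ : ℝ}

theorem rs_cos (hφ : RS S φ) : RS S (fun p => Real.cos (μ * φ p)) :=
  RS.comp (F := fun x => Real.cos (μ * x)) (by fun_prop) hφ

theorem rs_sin (hφ : RS S φ) : RS S (fun p => Real.sin (μ * φ p)) :=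
  RS.comp (F := fun x => Real.sin (μ * x)) (by fun_prop) hφ

theorem rd_cos (hφ : RS S φ) (j : κ) (p : P) :
    RD S j (fun p => Real.cos (μ * φ p)) p = -(μ * Real.sin (μ * φ p)) * RD S j φ p := by
  rw [RD_comp (F := fun x => Real.cos (μ * x)) j (by fun_prop) hφ]
  have : deriv (fun x => Real.cos (μ * x)) (φ p) = -(μ * Real.sin (μ * φ p)) := by
    have h : HasDerivAt (fun x => Real.cos (μ * x)) (-Real.sin (μ * φ p) * (μ * 1)) (φ p) :=
      ((hasDerivAt_id (φ p)).const_mul μ).cos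
    rw [h.deriv]; ring
  rw [this]

theorem rd_sin (hφ : RS S φ) (j : κ) (p : P) :
    RD S j (fun p => Real.sin (μ * φ p)) p = μ * Real.cos (μ * φ p) * RD S j φ p := by
  rw [RD_comp (F := fun x => Real.sin (μ * x)) j (by fun_prop) hφ]
  have : deriv (fun x => Real.sin (μ * x)) (φ p) = μ * Real.cos (μ * φ p) := by
    have h : HasDerivAt (fun x => Real.sin (μ * x)) (Real.cos (μ * φ p) * (μ * 1)) (φ p) :=
      ((hasDerivAt_id (φ p)).const_mul μ).sin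
    rw [h.deriv]; ring
  rw [this]

theorem rs_stN (hφ : RS S φ) (h1 : ∀ i, RS S (q1 i)) (h2 : ∀ i, RS S (q2 i)) (i : Fin 4) :
    RS S (fun p => stN φ q1 q2 μ p i) :=
  ((rs_cos hφ).mul (h1 i)).add ((rs_sin hφ).mul (h2 i))

theorem rs_stB (hφ : RS S φ) (h1 : ∀ i, RS S (q1 i)) (h2 : ∀ i, RS S (q2 i)) (i : Fin 4) :
    RS S (fun p => stB φ q1 q2 μ p i) :=
  ((rs_cos hφ).mul (h2 i)).sub ((rs_sin hφ).mul (h1 i))

theorem rd_stN (hφ : RS S φ) (h1 : ∀ i, RS S (q1 i)) (h2 : ∀ i, RS S (q2 i)) (i : Fin 4)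
    (j : κ) (p : P) :
    RD S j (fun p => stN φ q1 q2 μ p i) p = μ * RD S j φ p * stB φ q1 q2 μ p i
      + (Real.cos (μ * φ p) * RD S j (q1 i) p + Real.sin (μ * φ p) * RD S j (q2 i) p) := by
  have e : (fun p => stN φ q1 q2 μ p i) =
      fun p => Real.cos (μ * φ p) * q1 i p + Real.sin (μ * φ p) * q2 i p := rfl
  rw [e, RD_add j ((rs_cos hφ).mul (h1 i)) ((rs_sin hφ).mul (h2 i)),
    RD_mul j (rs_cos hφ) (h1 i), RD_mul j (rs_sin hφ) (h2 i), rd_cos hφ, rd_sin hφ]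
  simp only [stB, bb]
  ring

theorem rs_stY (ha : RS S a) (hφ : RS S φ) (hX : ∀ i, RS S (X i)) (h1 : ∀ i, RS S (q1 i))
    (h2 : ∀ i, RS S (q2 i)) (i : Fin 4) : RS S (stY a φ X q1 q2 μ i) :=
  (hX i).add (((RS.const μ⁻¹).mul ha).mul (rs_stN hφ h1 h2 i))

/-- the error term -/
def stR (S : DAlg P κ) (a φ : P → ℝ) (q1 q2 : Fin 4 → P → ℝ) (μ : ℝ) (p : P) (j : κ)
    (i : Fin 4) : ℝ :=
  RD S j a p * stN φ q1 q2 μ p i + a p * (Real.cos (μ * φ p) * RD S j (q1 i) p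
    + Real.sin (μ * φ p) * RD S j (q2 i) p)

/-- the leading derivative -/
def stT (S : DAlg P κ) (a φ : P → ℝ) (X q1 q2 : Fin 4 → P → ℝ) (μ : ℝ) (p : P) (j : κ)
    (i : Fin 4) : ℝ :=
  xx S X p j i + a p * RD S j φ p * stB φ q1 q2 μ p i

theorem rd_stY (hμ : μ ≠ 0) (ha : RS S a) (hφ : RS S φ) (hX : ∀ i, RS S (X i))
    (h1 : ∀ i, RS S (q1 i)) (h2 : ∀ i, RS S (q2 i)) (i : Fin 4) (j : κ) (p : P) :
    xx S (stY a φ X q1 q2 μ) p j i = stT S a φ X q1 q2 μ p j i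
      + μ⁻¹ * stR S a φ q1 q2 μ p j i := by
  have e : stY a φ X q1 q2 μ i = fun p => X i p + μ⁻¹ * a p * stN φ q1 q2 μ p i := rfl
  unfold xx
  rw [e, RD_add j (hX i) (((RS.const μ⁻¹).mul ha).mul (rs_stN hφ h1 h2 i)),
    RD_mul j ((RS.const μ⁻¹).mul ha) (rs_stN hφ h1 h2 i), RD_mul j (RS.const μ⁻¹) ha,
    RD_const, rd_stN hφ h1 h2]
  simp only [stT, stR, xx]
  field_simp
  ring

end step

/-- one Nash step -/
theorem nash_step (hd : Dim2 S) {a φ : P → ℝ} {X q1 q2 : Fin 4 → P → ℝ} {c η : ℝ}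
    (ha : RS S a) (hφ : RS S φ) (hX : ∀ i, RS S (X i)) (hN : NFr S X q1 q2) (hc : 0 < c)
    (hE : ∀ p, c ≤ e2 S X p) (hη : 0 < η) :
    ∃ μ : ℝ, (∀ i, RS S (stY a φ X q1 q2 μ i)) ∧
      NFr S (stY a φ X q1 q2 μ) (stP1 S a φ X q1 q2 μ) (stP2 S a φ X q1 q2 μ) ∧
      (∀ p, c / 2 ≤ e2 S (stY a φ X q1 q2 μ) p) ∧
      (∀ i p, |stY a φ X q1 q2 μ i p - X i p| ≤ η) ∧
      ∀ j k p, |rmet S (stY a φ X q1 q2 μ) j k p
        - (rmet S X j k p + a p ^ 2 * (RD S j φ p * RD S k φ p))| ≤ η := by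
  -- bounds
  obtain ⟨B1, hB1, hX1⟩ := RS.bdd_fin (S := S) (w := fun z : κ × Fin 4 => RD S z.1 (X z.2))
    fun z => (hX z.2).D z.1
  obtain ⟨B2, hB2, ha1⟩ := ha.bdd
  obtain ⟨B3, hB3, hφ1⟩ := RS.bdd_fin (S := S) (w := fun j : κ => RD S j φ) fun j => hφ.D j
  obtain ⟨B4, hB4, ha2⟩ := RS.bdd_fin (S := S) (w := fun j : κ => RD S j a) fun j => ha.D j
  obtain ⟨B5, hB5, hq1⟩ := RS.bdd_fin (S := S) (w := fun z : κ × Fin 4 => RD S z.1 (q1 z.2))
    fun z => (hN.s1 z.2).D z.1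
  obtain ⟨B6, hB6, hq2⟩ := RS.bdd_fin (S := S) (w := fun z : κ × Fin 4 => RD S z.1 (q2 z.2))
    fun z => (hN.s2 z.2).D z.1
  obtain ⟨B, hB0, b1, b2, b3, b4, b5, b6⟩ : ∃ B : ℝ, 0 ≤ B ∧ B1 ≤ B ∧ B2 ≤ B ∧ B3 ≤ B ∧ B4 ≤ B ∧
      B5 ≤ B ∧ B6 ≤ B := by
    refine ⟨B1 + B2 + B3 + B4 + B5 + B6, ?_, ?_, ?_, ?_, ?_, ?_, ?_⟩ <;> linarith
  -- the frame at each point
  have h11 : ∀ p, ip (fun i => q1 i p) (fun i => q1 i p) = 1 := hN.n11
  have h22 : ∀ p, ip (fun i => q2 i p) (fun i => q2 i p) = 1 := hN.n22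
  have h12 : ∀ p, ip (fun i => q1 i p) (fun i => q2 i p) = 0 := hN.n12
  have ht1 : ∀ j p, ip (fun i => q1 i p) (xx S X p j) = 0 := hN.t1
  have ht2 : ∀ j p, ip (fun i => q2 i p) (xx S X p j) = 0 := hN.t2
  have hcs : ∀ μ p, Real.cos (μ * φ p) ^ 2 + Real.sin (μ * φ p) ^ 2 = 1 := fun μ p =>
    Real.cos_sq_add_sin_sq _
  have hnn : ∀ μ p, ip (stN φ q1 q2 μ p) (stN φ q1 q2 μ p) = 1 := fun μ p =>
    ip_nn (hcs μ p) (h11 p) (h22 p) (h12 p)
  have hbb : ∀ μ p, ip (stB φ q1 q2 μ p) (stB φ q1 q2 μ p) = 1 := fun μ p =>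
    ip_bb (hcs μ p) (h11 p) (h22 p) (h12 p)
  have hnb : ∀ μ p, ip (stN φ q1 q2 μ p) (stB φ q1 q2 μ p) = 0 := fun μ p =>
    ip_nb (h11 p) (h22 p) (h12 p)
  have hnx : ∀ μ p j, ip (stN φ q1 q2 μ p) (xx S X p j) = 0 := fun μ p j =>
    ip_nn_zero (ht1 j p) (ht2 j p)
  have hbx : ∀ μ p j, ip (stB φ q1 q2 μ p) (xx S X p j) = 0 := fun μ p j =>
    ip_bb_zero (ht1 j p) (ht2 j p)
  have hE' : ∀ p, c ≤ E2 (xx S X p) := hE
  have hE0 : ∀ p, E2 (xx S X p) ≠ 0 := fun p => (hc.trans_le (hE' p)).ne'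
  -- leading derivative
  have htt : ∀ μ p j k, ip (stT S a φ X q1 q2 μ p j) (stT S a φ X q1 q2 μ p k) =
      ip (xx S X p j) (xx S X p k) + (a p * RD S j φ p) * (a p * RD S k φ p) := by
    intro μ p j k
    have e : ∀ j, stT S a φ X q1 q2 μ p j = fun i => xx S X p j i
        + (a p * RD S j φ p) * stB φ q1 q2 μ p i := fun j => rfl
    rw [e, e, ip_add_left, ip_smul_left, ip_add_right, ip_add_right, ip_smul_right,
      ip_smul_right, hbb, hbx, ip_comm (xx S X p j) (stB φ q1 q2 μ p), hbx]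
    ring
  have hnt : ∀ μ p j, ip (stT S a φ X q1 q2 μ p j) (stN φ q1 q2 μ p) = 0 := by
    intro μ p j
    have e : stT S a φ X q1 q2 μ p j = fun i => xx S X p j i
        + (a p * RD S j φ p) * stB φ q1 q2 μ p i := rfl
    rw [e, ip_add_left, ip_smul_left, ip_comm, hnx, ip_comm, hnb]; ring
  have hmm1 : ∀ μ p, 1 ≤ ip (mm (xx S X p) (fun j => RD S j φ p) (a p) (stB φ q1 q2 μ p))
      (mm (xx S X p) (fun j => RD S j φ p) (a p) (stB φ q1 q2 μ p)) := fun μ p =>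
    one_le_mm (hbb μ p) fun j => by rw [ip_comm]; exact hbx μ p j
  have hMM : ∀ μ p, ip (stM S a φ X q1 q2 μ p) (stM S a φ X q1 q2 μ p) = 1 := fun μ p =>
    ip_unit _ (one_pos.trans_le (hmm1 μ p))
  have hMn : ∀ μ p, ip (stM S a φ X q1 q2 μ p) (stN φ q1 q2 μ p) = 0 := fun μ p =>
    ip_unit_zero (ip_mm_n (by rw [ip_comm]; exact hnb μ p)
      fun j => by rw [ip_comm]; exact hnx μ p j)
  have hMt : ∀ μ p j, ip (stT S a φ X q1 q2 μ p j) (stM S a φ X q1 q2 μ p) = 0 := by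
    intro μ p j
    rw [ip_comm]
    refine ip_unit_zero ?_
    exact ip_mm_t (hbb μ p) (fun j => by rw [ip_comm]; exact hbx μ p j) (hE0 p)
      (dim2_xx hd hX hφ p) j
  -- sizes
  have ht : ∀ μ p j i, |stT S a φ X q1 q2 μ p j i| ≤ B + B * B := by
    intro μ p j i
    have := abs_le_one_of_ip (hbb μ p) i
    unfold stT
    refine (abs_add_le _ _).trans (add_le_add ((hX1 (j, i) p).trans b1) ?_)
    rw [abs_mul, abs_mul]
    calc |a p| * |RD S j φ p| * |stB φ q1 q2 μ p i| ≤ B * B * 1 :=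
          mul_le_mul (mul_le_mul ((ha1 p).trans b2) ((hφ1 j p).trans b3) (abs_nonneg _) hB0) this
            (abs_nonneg _) (by positivity)
      _ = B * B := mul_one _
  have hr : ∀ μ p j i, |stR S a φ q1 q2 μ p j i| ≤ B + B * (B + B) := by
    intro μ p j i
    have h1 := abs_le_one_of_ip (hnn μ p) i
    unfold stR
    refine (abs_add_le _ _).trans (add_le_add ?_ ?_)
    · rw [abs_mul]
      calc |RD S j a p| * |stN φ q1 q2 μ p i| ≤ B * 1 :=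
            mul_le_mul ((ha2 j p).trans b4) h1 (abs_nonneg _) hB0
        _ = B := mul_one _
    · rw [abs_mul]
      refine mul_le_mul ((ha1 p).trans b2) ?_ (abs_nonneg _) hB0
      refine (abs_add_le _ _).trans (add_le_add ?_ ?_)
      · rw [abs_mul]
        calc |Real.cos (μ * φ p)| * |RD S j (q1 i) p| ≤ 1 * B :=
              mul_le_mul (Real.abs_cos_le_one _) ((hq1 (j, i) p).trans b5) (abs_nonneg _)
                zero_le_one
          _ = B := one_mul _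
      · rw [abs_mul]
        calc |Real.sin (μ * φ p)| * |RD S j (q2 i) p| ≤ 1 * B :=
              mul_le_mul (Real.abs_sin_le_one _) ((hq2 (j, i) p).trans b6) (abs_nonneg _)
                zero_le_one
          _ = B := one_mul _
  -- moduli of continuity
  have hcip : Continuous fun z : (κ → Fin 4 → ℝ) => fun j k => ip (z j) (z k) := by
    unfold ip; fun_prop
  have hcE : Continuous fun z : (κ → Fin 4 → ℝ) => E2 z := by
    unfold E2 ip; fun_prop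
  have hcs' : Continuous fun z : (κ → Fin 4 → ℝ) × (Fin 4 → ℝ) =>
      sol z.1 (fun j => ip (z.1 j) z.2) := by
    unfold sol comb E1 ip; fun_prop
  obtain ⟨δ1, hδ1, H1⟩ := unif_ball _ hcip (B + B * B + 1) η hη
  obtain ⟨δ2, hδ2, H2⟩ := unif_ball _ hcE (B + B * B + 1) (c / 2) (by positivity)
  obtain ⟨δ3, hδ3, H3⟩ := unif_ball _ hcs' (B + B * B + 1) (c / 200) (by positivity)
  obtain ⟨δ, hδ, d1, d2, d3, d4⟩ : ∃ δ : ℝ, 0 < δ ∧ δ ≤ δ1 ∧ δ ≤ δ2 ∧ δ ≤ δ3 ∧ δ ≤ η :=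
    ⟨min (min δ1 δ2) (min δ3 η), by (clear * - hδ1 hδ2 hδ3 hη; positivity), (min_le_left _ _).trans (min_le_left _ _),
      (min_le_left _ _).trans (min_le_right _ _), (min_le_right _ _).trans (min_le_left _ _),
      (min_le_right _ _).trans (min_le_right _ _)⟩
  obtain ⟨μ, hμ, hμ1⟩ : ∃ μ : ℝ, 0 < μ ∧ μ⁻¹ * (2 * B + B * (B + B)) ≤ δ := by
    refine ⟨(2 * B + B * (B + B) + 1) / δ, by (clear * - hB0 hδ; positivity), ?_⟩
    rw [inv_div, div_mul_eq_mul_div, div_le_iff₀ (by (clear * - hB0; positivity))]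
    linarith only [hδ]
  have hμi : 0 < μ⁻¹ := inv_pos.2 hμ
  refine ⟨μ, rs_stY ha hφ hX hN.s1 hN.s2, ?_⟩
  have hYs : ∀ i, RS S (stY a φ X q1 q2 μ i) := rs_stY ha hφ hX hN.s1 hN.s2
  -- closeness of derivatives
  have hclose : ∀ p, ‖xx S (stY a φ X q1 q2 μ) p - stT S a φ X q1 q2 μ p‖ ≤ δ := by
    intro p
    rw [pi_norm_le_iff_of_nonneg hδ.le]
    intro j
    rw [pi_norm_le_iff_of_nonneg hδ.le]
    intro i
    rw [Pi.sub_apply, Pi.sub_apply, rd_stY hμ.ne' ha hφ hX hN.s1 hN.s2, add_sub_cancel_left,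
      Real.norm_eq_abs, abs_mul, abs_of_pos hμi]
    refine le_trans ?_ hμ1
    refine mul_le_mul_of_nonneg_left ((hr μ p j i).trans ?_) hμi.le
    linarith
  have hMt' : ∀ p, ‖stT S a φ X q1 q2 μ p‖ ≤ B + B * B + 1 := by
    intro p
    rw [pi_norm_le_iff_of_nonneg (by (clear * - hB0; positivity))]
    intro j
    rw [pi_norm_le_iff_of_nonneg (by (clear * - hB0; positivity))]
    intro i
    rw [Real.norm_eq_abs]
    exact (ht μ p j i).trans (by linarith)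
  have hEt : ∀ p, c ≤ E2 (stT S a φ X q1 q2 μ p) := fun p =>
    (hE' p).trans (E2_mono _ _ (fun j => a p * RD S j φ p) (htt μ p))
  have hEY : ∀ p, c / 2 ≤ E2 (xx S (stY a φ X q1 q2 μ) p) := by
    intro p
    have := H2 _ _ (hMt' p) ((hclose p).trans d2)
    rw [Real.dist_eq, abs_le] at this
    linarith only [hEt p, this.1]
  -- corrections
  have hcorr : ∀ p (m : Fin 4 → ℝ), ip m m = 1 → (∀ j, ip (stT S a φ X q1 q2 μ p j) m = 0) →
      ∀ i, |vv (xx S (stY a φ X q1 q2 μ) p) m i - m i| ≤ 1 / 100 := by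
    intro p m hm hmt i
    have hmn : ‖m‖ ≤ B + B * B + 1 := by
      rw [pi_norm_le_iff_of_nonneg (by (clear * - hB0; positivity))]
      intro i
      rw [Real.norm_eq_abs]
      exact (abs_le_one_of_ip hm i).trans (by (by_contra nlg; linarith only [nlg, mul_nonneg (sub_nonneg.2 hB0) (le_of_lt (sub_pos.2 hμi)), mul_pos (sub_pos.2 (not_le.1 nlg)) (sub_pos.2 hμi), mul_nonneg (mul_self_nonneg (B : ℝ)) (le_of_lt (sub_pos.2 hμi))]))
    have h3 := H3 (stT S a φ X q1 q2 μ p, m) (xx S (stY a φ X q1 q2 μ) p, m)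
      (by rw [Prod.norm_mk]; exact max_le (hMt' p) hmn)
      (by
        rw [Prod.mk_sub_mk, sub_self, Prod.norm_mk, norm_zero]
        exact max_le ((hclose p).trans d3) hδ3.le)
    have h4 : |sol (xx S (stY a φ X q1 q2 μ) p)
        (fun j => ip (xx S (stY a φ X q1 q2 μ) p j) m) i| ≤ c / 200 := by
      have h5 := (dist_pi_le_iff (by positivity)).1 h3 i
      have h6 : (fun j => ip (stT S a φ X q1 q2 μ p j) m) = fun _ => (0 : ℝ) := funext hmt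
      simp only [h6, sol_zero] at h5
      rwa [Real.dist_eq, sub_zero] at h5
    have hEp := hEY p
    have hEp0 : 0 < E2 (xx S (stY a φ X q1 q2 μ) p) := lt_of_lt_of_le (by positivity) hEp
    unfold vv
    rw [sub_sub_cancel_left, abs_neg, abs_mul, abs_of_pos (inv_pos.2 hEp0)]
    calc (E2 (xx S (stY a φ X q1 q2 μ) p))⁻¹ * |sol (xx S (stY a φ X q1 q2 μ) p)
          (fun j => ip (xx S (stY a φ X q1 q2 μ) p j) m) i| ≤ (c / 2)⁻¹ * (c / 200) :=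
          mul_le_mul (inv_anti₀ (by positivity) hEp) h4 (abs_nonneg _) (by positivity)
      _ = 1 / 100 := by field_simp; norm_num
  have hv1 : ∀ p i, |stV1 S a φ X q1 q2 μ p i - stN φ q1 q2 μ p i| ≤ 1 / 100 := fun p =>
    hcorr p _ (hnn μ p) (hnt μ p)
  have hv2 : ∀ p i, |stV2 S a φ X q1 q2 μ p i - stM S a φ X q1 q2 μ p i| ≤ 1 / 100 := fun p =>
    hcorr p _ (hMM μ p) (hMt μ p)
  have g11 : ∀ p, 9 / 10 ≤ ip (stV1 S a φ X q1 q2 μ p) (stV1 S a φ X q1 q2 μ p) := by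
    intro p
    have := ip_close le_rfl (hv1 p) (hv1 p) (hnn μ p) (hnn μ p)
    rw [hnn, abs_le] at this
    linarith [this.1]
  have g22 : ∀ p, 9 / 10 ≤ ip (stV2 S a φ X q1 q2 μ p) (stV2 S a φ X q1 q2 μ p) := by
    intro p
    have := ip_close le_rfl (hv2 p) (hv2 p) (hMM μ p) (hMM μ p)
    rw [hMM, abs_le] at this
    linarith [this.1]
  have g12 : ∀ p, |ip (stV2 S a φ X q1 q2 μ p) (stV1 S a φ X q1 q2 μ p)| ≤ 1 / 10 := by
    intro p
    have := ip_close le_rfl (hv2 p) (hv1 p) (hMM μ p) (hnn μ p)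
    rwa [hMn, sub_zero] at this
  have g10 : ∀ p, ip (stV1 S a φ X q1 q2 μ p) (stV1 S a φ X q1 q2 μ p) ≠ 0 := fun p =>
    (lt_of_lt_of_le (by norm_num) (g11 p)).ne'
  have ggs : ∀ p, 1 / 2 ≤ ip (gs (stV1 S a φ X q1 q2 μ p) (stV2 S a φ X q1 q2 μ p))
      (gs (stV1 S a φ X q1 q2 μ p) (stV2 S a φ X q1 q2 μ p)) := by
    intro p
    rw [ip_gs_self (g10 p)]
    have h1 : ip (stV2 S a φ X q1 q2 μ p) (stV1 S a φ X q1 q2 μ p) ^ 2 ≤ 1 / 100 := by
      have := sq_le_sq' (abs_le.1 (g12 p)).1 (abs_le.1 (g12 p)).2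
      linarith
    have h2 : (ip (stV1 S a φ X q1 q2 μ p) (stV1 S a φ X q1 q2 μ p))⁻¹ ≤ (9 / 10)⁻¹ :=
      inv_anti₀ (by norm_num) (g11 p)
    have h3 : ip (stV2 S a φ X q1 q2 μ p) (stV1 S a φ X q1 q2 μ p) ^ 2 *
        (ip (stV1 S a φ X q1 q2 μ p) (stV1 S a φ X q1 q2 μ p))⁻¹ ≤ 1 / 100 * (9 / 10)⁻¹ :=
      mul_le_mul h1 h2 (inv_nonneg.2 (ip_self_nonneg _)) (by norm_num)
    have := g22 p
    norm_num at h3 this ⊢
    linarith only [this, h3]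
  -- smoothness
  have sT : ∀ j i, RS S (fun p => xx S (stY a φ X q1 q2 μ) p j i) := fun j i => (hYs i).D j
  have sX : ∀ j i, RS S (fun p => xx S X p j i) := fun j i => (hX i).D j
  have sM : ∀ i, RS S (fun p => stM S a φ X q1 q2 μ p i) :=
    RS.unit (v := fun i p => mm (xx S X p) (fun j => RD S j φ p) (a p) (stB φ q1 q2 μ p) i)
      one_pos (RS.mm (x := fun j i p => xx S X p j i) (f := fun j p => RD S j φ p)
        (b := fun i p => stB φ q1 q2 μ p i) hc sX (fun j => hφ.D j) ha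
        (rs_stB hφ hN.s1 hN.s2) hE') (hmm1 μ)
  have sV1 : ∀ i, RS S (fun p => stV1 S a φ X q1 q2 μ p i) :=
    RS.vv (T := fun j i p => xx S (stY a φ X q1 q2 μ) p j i)
      (m := fun i p => stN φ q1 q2 μ p i) (c := c / 2) (by positivity) sT
      (rs_stN hφ hN.s1 hN.s2) hEY
  have sV2 : ∀ i, RS S (fun p => stV2 S a φ X q1 q2 μ p i) :=
    RS.vv (T := fun j i p => xx S (stY a φ X q1 q2 μ) p j i)
      (m := fun i p => stM S a φ X q1 q2 μ p i) (c := c / 2) (by positivity) sT sM hEY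
  have sP1 : ∀ i, RS S (stP1 S a φ X q1 q2 μ i) :=
    RS.unit (v := fun i p => stV1 S a φ X q1 q2 μ p i) (c := 9 / 10) (by norm_num) sV1 g11
  have sP2 : ∀ i, RS S (stP2 S a φ X q1 q2 μ i) :=
    RS.unit (v := fun i p => gs (stV1 S a φ X q1 q2 μ p) (stV2 S a φ X q1 q2 μ p) i)
      (c := 1 / 2) (by norm_num)
      (RS.gs (v := fun i p => stV1 S a φ X q1 q2 μ p i)
        (w := fun i p => stV2 S a φ X q1 q2 μ p i) (c := 9 / 10) (by norm_num) sV1 sV2 g11) ggs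
  have o1 : ∀ p j, ip (stV1 S a φ X q1 q2 μ p) (xx S (stY a φ X q1 q2 μ) p j) = 0 := fun p j =>
    ip_vv (lt_of_lt_of_le (by positivity) (hEY p)).ne' (dim2_xx' hd hYs _ p) j
  have o2 : ∀ p j, ip (stV2 S a φ X q1 q2 μ p) (xx S (stY a φ X q1 q2 μ) p j) = 0 := fun p j =>
    ip_vv (lt_of_lt_of_le (by positivity) (hEY p)).ne' (dim2_xx' hd hYs _ p) j
  refine ⟨⟨sP1, sP2, ?_, ?_, ?_, ?_, ?_⟩, hEY, ?_, ?_⟩
  · intro p
    exact ip_unit _ (lt_of_lt_of_le (by norm_num) (g11 p))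
  · intro p
    exact ip_unit _ (lt_of_lt_of_le (by norm_num) (ggs p))
  · intro p
    have h : ip (unit (stV1 S a φ X q1 q2 μ p))
        (unit (gs (stV1 S a φ X q1 q2 μ p) (stV2 S a φ X q1 q2 μ p))) = 0 := by
      refine ip_unit_zero ?_
      rw [ip_comm]
      exact ip_unit_zero (ip_gs_left (g10 p))
    exact h
  · intro j p
    have h : ip (unit (stV1 S a φ X q1 q2 μ p)) (xx S (stY a φ X q1 q2 μ) p j) = 0 :=
      ip_unit_zero (o1 p j)
    exact h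
  · intro j p
    have h : ip (unit (gs (stV1 S a φ X q1 q2 μ p) (stV2 S a φ X q1 q2 μ p)))
        (xx S (stY a φ X q1 q2 μ) p j) = 0 :=
      ip_unit_zero (ip_gs_zero (o1 p j) (o2 p j))
    exact h
  · intro i p
    have : stY a φ X q1 q2 μ i p - X i p = μ⁻¹ * (a p * stN φ q1 q2 μ p i) := by
      simp only [stY]; ring
    rw [this, abs_mul, abs_of_pos hμi, abs_mul]
    refine le_trans ?_ (hμ1.trans d4)
    refine mul_le_mul_of_nonneg_left ?_ hμi.le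
    calc |a p| * |stN φ q1 q2 μ p i| ≤ B * 1 :=
          mul_le_mul ((ha1 p).trans b2) (abs_le_one_of_ip (hnn μ p) i) (abs_nonneg _) hB0
      _ ≤ 2 * B + B * (B + B) := by linarith only [mul_nonneg (sub_nonneg.2 hB0) (sub_nonneg.2 hB0), hB0]
  · intro j k p
    have h1 := H1 _ _ (hMt' p) ((hclose p).trans d1)
    have h2 := (dist_pi_le_iff hη.le).1 ((dist_pi_le_iff hη.le).1 h1 j) k
    rw [Real.dist_eq, htt] at h2
    rw [rmet_eq, rmet_eq]
    have e : a p ^ 2 * (RD S j φ p * RD S k φ p) = (a p * RD S j φ p) * (a p * RD S k φ p) := by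
      ring
    rw [e]
    exact h2

end Vale.Agent.P205.TW
end
end

section

/-!
P205, scheme T1W, block NASH: the real statement `NashR` gives the complex notation `NashC`.
-/

noncomputable section

namespace Vale.Agent.P205.TW

open Vale.Agent.P205.F

universe u

variable {P : Type u} {κ : Type}

theorem rl_coe_re {u : P → ℂ} (h : Rl u) (p : P) : (((u p).re : ℝ) : ℂ) = u p :=
  Complex.ext rfl (by rw [Complex.ofReal_im, h p])

variable {S : DAlg P κ}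

theorem rl_coe (u : P → ℝ) : Rl (fun p => (u p : ℂ)) := fun p => Complex.ofReal_im (u p)

theorem dot_coe (X Y : Fin 4 → P → ℝ) (p : P) :
    dot (fun i p => (X i p : ℂ)) (fun i p => (Y i p : ℂ)) p =
      ((∑ i, X i p * Y i p : ℝ) : ℂ) := by
  unfold dot
  push_cast
  rfl

theorem met_coe {X : Fin 4 → P → ℝ} (hX : ∀ i, RS S (X i)) (j k : κ) (p : P) :
    S.met (fun i p => (X i p : ℂ)) j k p = ((rmet S X j k p : ℝ) : ℂ) := by
  unfold DAlg.met rmet dot DAlg.Dv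
  push_cast
  refine Finset.sum_congr rfl fun i _ => ?_
  rw [← coe_RD j (hX i) p, ← coe_RD k (hX i) p]

theorem dot_Dv_coe (q : Fin 4 → P → ℝ) {X : Fin 4 → P → ℝ} (hX : ∀ i, RS S (X i)) (j : κ)
    (p : P) : dot (fun i p => (q i p : ℂ)) (S.Dv j fun i p => (X i p : ℂ)) p =
      ((∑ i, q i p * RD S j (X i) p : ℝ) : ℂ) := by
  unfold dot DAlg.Dv
  push_cast
  refine Finset.sum_congr rfl fun i _ => ?_
  rw [← coe_RD j (hX i) p]

theorem nfr_of_cnfr {X q1 q2 : Fin 4 → P → ℝ} (hX : ∀ i, RS S (X i))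
    (h : CNFr S (fun i p => (X i p : ℂ)) (fun i p => (q1 i p : ℂ)) fun i p => (q2 i p : ℂ)) :
    NFr S X q1 q2 where
  s1 := h.s1
  s2 := h.s2
  n11 p := by
    have h1 := h.n11 p
    rw [dot_coe] at h1
    exact_mod_cast h1
  n22 p := by
    have h1 := h.n22 p
    rw [dot_coe] at h1
    exact_mod_cast h1
  n12 p := by
    have h1 := h.n12 p
    rw [dot_coe] at h1
    exact_mod_cast h1
  t1 j p := by
    have h1 := h.t1 j p
    rw [dot_Dv_coe q1 hX] at h1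
    exact_mod_cast h1
  t2 j p := by
    have h1 := h.t2 j p
    rw [dot_Dv_coe q2 hX] at h1
    exact_mod_cast h1

theorem cnfr_of_nfr {X q1 q2 : Fin 4 → P → ℝ} (hX : ∀ i, RS S (X i)) (h : NFr S X q1 q2) :
    CNFr S (fun i p => (X i p : ℂ)) (fun i p => (q1 i p : ℂ)) fun i p => (q2 i p : ℂ) where
  s1 := h.s1
  s2 := h.s2
  r1 i := rl_coe _
  r2 i := rl_coe _
  n11 p := by
    rw [dot_coe, h.n11 p, Complex.ofReal_one]
  n22 p := by
    rw [dot_coe, h.n22 p, Complex.ofReal_one]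
  n12 p := by
    rw [dot_coe, h.n12 p, Complex.ofReal_zero]
  t1 j p := by
    rw [dot_Dv_coe q1 hX, h.t1 j p, Complex.ofReal_zero]
  t2 j p := by
    rw [dot_Dv_coe q2 hX, h.t2 j p, Complex.ofReal_zero]

/-- families of real functions: the complex family is the cast of its real parts -/
theorem fam_coe {ι : Type*} {X : ι → P → ℂ} (h : ∀ i, Rl (X i)) :
    X = fun i p => (((X i p).re : ℝ) : ℂ) := by
  funext i p
  exact (rl_coe_re (h i) p).symm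

variable [Fintype κ]

/-- `NashC` for cast data -/
theorem nashC_core (h : NashR S) (N : ℕ) (a φ : Fin N → P → ℝ) (X q1 q2 : Fin 4 → P → ℝ)
    (c η : ℝ) (ha : ∀ i, RS S (a i)) (hφ : ∀ i, RS S (φ i)) (hX : ∀ i, RS S (X i))
    (hN : CNFr S (fun i p => (X i p : ℂ)) (fun i p => (q1 i p : ℂ)) fun i p => (q2 i p : ℂ))
    (hc : 0 < c)
    (hce : ∀ p, c ≤ (∑ j, ∑ k, (S.met (fun i p => (X i p : ℂ)) j j p *
      S.met (fun i p => (X i p : ℂ)) k k p - S.met (fun i p => (X i p : ℂ)) j k p ^ 2)).re)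
    (hη : 0 < η) :
    ∃ Y p1 p2 : Fin 4 → P → ℂ, (∀ i, S.Sm (Y i)) ∧ (∀ i, Rl (Y i)) ∧ CNFr S Y p1 p2 ∧
    (∀ i p, ‖Y i p - (X i p : ℂ)‖ ≤ η) ∧
    (∀ j k p, ‖S.met Y j k p - (S.met (fun i p => (X i p : ℂ)) j k p
      + ∑ i, (a i p : ℂ) ^ 2 * (S.D j (fun p => (φ i p : ℂ)) p *
        S.D k (fun p => (φ i p : ℂ)) p))‖ ≤ η) ∧
    ∀ σ : P → P, (∀ j u, S.Sm u → S.Sm (fun p => u (σ p)) →
        ∀ p, S.D j (fun p => u (σ p)) p = S.D j u (σ p)) →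
      (∀ i p, (X i (σ p) : ℂ) = X i p) → (∀ i p, (q1 i (σ p) : ℂ) = q1 i p) →
      (∀ i p, (q2 i (σ p) : ℂ) = -q2 i p) → (∀ i p, (a i (σ p) : ℂ) = a i p) →
      (∀ i p, (φ i (σ p) : ℂ) = -φ i p) →
      (∀ i p, Y i (σ p) = Y i p) ∧ (∀ i p, p1 i (σ p) = p1 i p) ∧
        ∀ i p, p2 i (σ p) = -p2 i p := by
  have hce' : ∀ p, c ≤ e2 S X p := by
    intro p
    have h1 := hce p
    have h2 : (∑ j, ∑ k, (S.met (fun i p => (X i p : ℂ)) j j p *
      S.met (fun i p => (X i p : ℂ)) k k p - S.met (fun i p => (X i p : ℂ)) j k p ^ 2)) =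
        ((e2 S X p : ℝ) : ℂ) := by
      simp only [met_coe hX]
      unfold e2
      push_cast
      rfl
    rw [h2, Complex.ofReal_re] at h1
    exact h1
  obtain ⟨Y, p1, p2, hY, hF, -, hd, hm, hσ⟩ :=
    h N a φ X q1 q2 c η ha hφ hX (nfr_of_cnfr hX hN) hc hce' hη
  refine ⟨fun i p => (Y i p : ℂ), fun i p => (p1 i p : ℂ), fun i p => (p2 i p : ℂ), hY,
    fun i => rl_coe _, cnfr_of_nfr hY hF, fun i p => ?_, fun j k p => ?_, ?_⟩
  · have h1 := hd i p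
    rw [← Complex.ofReal_sub, Complex.norm_real, Real.norm_eq_abs]
    exact h1
  · have h1 := hm j k p
    have h2 : S.met (fun i p => (Y i p : ℂ)) j k p - (S.met (fun i p => (X i p : ℂ)) j k p
      + ∑ i, (a i p : ℂ) ^ 2 * (S.D j (fun p => (φ i p : ℂ)) p *
        S.D k (fun p => (φ i p : ℂ)) p)) = ((rmet S Y j k p - (rmet S X j k p
      + ∑ i, a i p ^ 2 * (RD S j (φ i) p * RD S k (φ i) p)) : ℝ) : ℂ) := by
      rw [met_coe hX, met_coe hY]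
      push_cast
      congr 2
      refine Finset.sum_congr rfl fun i _ => ?_
      rw [← coe_RD j (hφ i) p, ← coe_RD k (hφ i) p]
    rw [h2, Complex.norm_real, Real.norm_eq_abs]
    exact h1
  · intro σ hE h1 h2 h3 h4 h5
    have hE' : Eqv S σ := by
      intro j u hu hu' p
      unfold RD
      rw [hE j (fun p => (u p : ℂ)) hu hu' p]
    obtain ⟨k1, k2, k3⟩ := hσ σ hE' (fun i p => by exact_mod_cast h1 i p)
      (fun i p => by exact_mod_cast h2 i p) (fun i p => by exact_mod_cast h3 i p)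
      (fun i p => by exact_mod_cast h4 i p) (fun i p => by exact_mod_cast h5 i p)
    refine ⟨fun i p => ?_, fun i p => ?_, fun i p => ?_⟩
    · simp only [k1 i p]
    · simp only [k2 i p]
    · simp only [k3 i p]
      push_cast
      rfl

/-- the real statement gives the complex notation -/
theorem nashC_of_nashR (S : DAlg P κ) (h : NashR S) : NashC S := by
  intro N a φ X q1 q2 c η ha ra hφ rφ hX rX hN hc hce hη
  obtain ⟨a, rfl⟩ : ∃ a' : Fin N → P → ℝ, a = fun i p => (a' i p : ℂ) := ⟨_, fam_coe ra⟩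
  obtain ⟨φ, rfl⟩ : ∃ φ' : Fin N → P → ℝ, φ = fun i p => (φ' i p : ℂ) := ⟨_, fam_coe rφ⟩
  obtain ⟨X, rfl⟩ : ∃ X' : Fin 4 → P → ℝ, X = fun i p => (X' i p : ℂ) := ⟨_, fam_coe rX⟩
  obtain ⟨q1, rfl⟩ : ∃ q' : Fin 4 → P → ℝ, q1 = fun i p => (q' i p : ℂ) := ⟨_, fam_coe hN.r1⟩
  obtain ⟨q2, rfl⟩ : ∃ q' : Fin 4 → P → ℝ, q2 = fun i p => (q' i p : ℂ) := ⟨_, fam_coe hN.r2⟩
  exact nashC_core h N a φ X q1 q2 c η ha hφ hX hN hc hce hη

end Vale.Agent.P205.TW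
end
end

section

/-!
P205, scheme T1W, block NASH: finitely many pieces.
-/

noncomputable section

namespace Vale.Agent.P205.TW

open Vale.Agent.P205.F

universe u

variable {P : Type u} {κ : Type} [Fintype κ] {S : DAlg P κ}

/-- **NASH** (real form) -/
theorem nashR (hd : Dim2 S) : NashR S := by
  intro N
  induction N with
  | zero =>
    intro a φ X q1 q2 c η ha hφ hX hN hc hE hη
    refine ⟨X, q1, q2, hX, hN, ⟨c, hc, hE⟩, fun i p => ?_, fun j k p => ?_,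
      fun σ _ h1 h2 h3 _ _ => ⟨h1, h2, h3⟩⟩
    · rw [sub_self, abs_zero]; exact hη.le
    · rw [Finset.univ_eq_empty, Finset.sum_empty, add_zero, sub_self, abs_zero]; exact hη.le
  | succ N ih =>
    intro a φ X q1 q2 c η ha hφ hX hN hc hE hη
    obtain ⟨Y, p1, p2, hY, hNY, ⟨c', hc', hEY⟩, hcl, hmet, heq⟩ :=
      ih (fun i => a i.castSucc) (fun i => φ i.castSucc) X q1 q2 c (η / 2)
        (fun i => ha _) (fun i => hφ _) hX hN hc hE (by positivity)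
    obtain ⟨μ, hZ, hNZ, hEZ, hcl2, hmet2⟩ := nash_step hd (ha (Fin.last N)) (hφ (Fin.last N)) hY
      hNY hc' hEY (η := η / 2) (by positivity)
    refine ⟨_, _, _, hZ, hNZ, ⟨c' / 2, by positivity, hEZ⟩, fun i p => ?_, fun j k p => ?_, ?_⟩
    · have h1 := hcl i p
      have h2 := hcl2 i p
      have e : stY (a (Fin.last N)) (φ (Fin.last N)) Y p1 p2 μ i p - X i p =
          (stY (a (Fin.last N)) (φ (Fin.last N)) Y p1 p2 μ i p - Y i p) + (Y i p - X i p) := by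
        ring
      rw [e]
      exact (abs_add_le _ _).trans (by linarith)
    · have h1 := hmet j k p
      have h2 := hmet2 j k p
      rw [Fin.sum_univ_castSucc]
      have e : rmet S (stY (a (Fin.last N)) (φ (Fin.last N)) Y p1 p2 μ) j k p
          - (rmet S X j k p + (∑ i : Fin N, a i.castSucc p ^ 2 *
              (RD S j (φ i.castSucc) p * RD S k (φ i.castSucc) p)
            + a (Fin.last N) p ^ 2 * (RD S j (φ (Fin.last N)) p * RD S k (φ (Fin.last N)) p))) =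
          (rmet S (stY (a (Fin.last N)) (φ (Fin.last N)) Y p1 p2 μ) j k p
            - (rmet S Y j k p + a (Fin.last N) p ^ 2 *
              (RD S j (φ (Fin.last N)) p * RD S k (φ (Fin.last N)) p)))
          + (rmet S Y j k p - (rmet S X j k p + ∑ i : Fin N, a i.castSucc p ^ 2 *
              (RD S j (φ i.castSucc) p * RD S k (φ i.castSucc) p))) := by ring
      rw [e]
      exact (abs_add_le _ _).trans (by linarith only [h2, h1])
    · intro σ hσ h1 h2 h3 h4 h5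
      obtain ⟨e1, e2, e3⟩ := heq σ hσ h1 h2 h3 (fun i p => h4 _ p) (fun i p => h5 _ p)
      obtain ⟨f1, f2⟩ := st_eqv (μ := μ) hσ hY (hφ (Fin.last N)) hZ (h4 (Fin.last N)) e1 e2 e3
        (h5 (Fin.last N))
      exact ⟨stY_eqv (h4 (Fin.last N)) e1 e2 e3 (h5 (Fin.last N)), f1, f2⟩

/-- **NASH** (complex notation) -/
theorem nashC (hd : Dim2 S) : NashC S := nashC_of_nashR S (nashR hd)

end Vale.Agent.P205.TW
end
end
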