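import Mathlib
import Vale.Agent.P205.Bdl.B1
import Vale.Agent.P205.Bdl.B2

set_option linter.all false

section

/-!
Existence of `Boxes` for a compact differential function space with local coordinates
(P205, block BOXES).
-/

set_option linter.all false

open scoped ContDiff Topology

noncomputable section

namespace Vale.Agent.P205.F

universe u

variable {P : Type u} {κ : Type} [Fintype κ] (S : DAlg P κ)

/-- locality, bumps, local coordinates, brackets -/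
structure DAlg.Loc [TopologicalSpace P] : Prop where
  cont : ∀ {u}, S.Sm u → Continuous u
  loc : ∀ {u} {U : Set P}, S.Sm u → IsOpen U → (∀ p ∈ U, u p = 0) → ∀ j, ∀ p ∈ U, S.D j u p = 0
  bump : ∀ (p : P) (U : Set P), IsOpen U → p ∈ U →
    ∃ f, S.Sm f ∧ Rl f ∧ f p = 1 ∧ tsupport f ⊆ U
  coord : ∀ p : P, ∃ (x : Fin 2 → P → ℂ) (U : Set P), (∀ i, S.Sm (x i)) ∧ (∀ i, Rl (x i)) ∧
    IsOpen U ∧ p ∈ U ∧
    (∃ c : Fin 2 → κ → ℝ, ∀ i k, ∑ j, (c i j : ℂ) * S.D j (x k) p = if i = k then 1 else 0) ∧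
    ∀ q ∈ U, ∀ u, S.Sm u → ∃ a : Fin 2 → ℂ, ∀ j, S.D j u q = ∑ i, a i * S.D j (x i) q
  brk : ∀ (j k : κ) (p : P), ∃ c : κ → ℂ, ∀ u, S.Sm u →
    S.D j (S.D k u) p - S.D k (S.D j u) p = ∑ l, c l * S.D l u p

/-- positive tensors -/
def DAlg.PosT (G : κ → κ → P → ℂ) : Prop :=
  ∀ (p : P) (c : κ → ℝ), (∃ u, S.Sm u ∧ ∑ j, (c j : ℂ) * S.D j u p ≠ 0) →
    0 < (∑ j, ∑ k, (c j : ℂ) * (c k : ℂ) * G j k p).re

/-! ### smooth functions on the line -/

/-- `1/t` for `t ≥ c`, smooth -/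
def invFb (c t : ℝ) : ℝ := Real.smoothTransition (2 * t / c - 1) * t⁻¹

/-- `1/√t` for `t ≥ c`, smooth -/
def isqF (c t : ℝ) : ℝ := Real.smoothTransition (2 * t / c - 1) * (√t)⁻¹

theorem cut_contDiff {c : ℝ} (hc : 0 < c) {φ : ℝ → ℝ} (hφ : ∀ t, 0 < t → ContDiffAt ℝ ∞ φ t) :
    ContDiff ℝ ∞ (fun t => ((Real.smoothTransition (2 * t / c - 1) * φ t : ℝ) : ℂ)) := by
  have h1 : ContDiff ℝ ∞ (fun t => Real.smoothTransition (2 * t / c - 1) * φ t) := by
    rw [contDiff_iff_contDiffAt]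
    intro t
    have hs : ContDiff ℝ ∞ (fun t : ℝ => Real.smoothTransition (2 * t / c - 1)) :=
      Real.smoothTransition.contDiff.comp
        (((contDiff_const.mul contDiff_id).div_const c).sub contDiff_const)
    by_cases ht : 0 < t
    · exact hs.contDiffAt.mul (hφ t ht)
    · have hz : (fun t => Real.smoothTransition (2 * t / c - 1) * φ t) =ᶠ[𝓝 t] fun _ => 0 := by
        have h2 : ∀ᶠ s in 𝓝 t, s < c / 2 := (isOpen_Iio.mem_nhds (by
          simp only [Set.mem_Iio]; linarith))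
        filter_upwards [h2] with s hs'
        rw [Real.smoothTransition.zero_of_nonpos, zero_mul]
        have : 2 * s / c ≤ 1 := by
          rw [div_le_one hc]; linarith
        linarith
      exact contDiffAt_const.congr_of_eventuallyEq hz
  exact Complex.ofRealCLM.contDiff.comp h1

theorem invFb_contDiff {c : ℝ} (hc : 0 < c) : ContDiff ℝ ∞ (fun t => ((invFb c t : ℝ) : ℂ)) :=
  cut_contDiff hc fun t ht => contDiffAt_inv ℝ ht.ne'

theorem isqF_contDiff {c : ℝ} (hc : 0 < c) : ContDiff ℝ ∞ (fun t => ((isqF c t : ℝ) : ℂ)) :=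
  cut_contDiff hc fun t ht => (Real.contDiffAt_sqrt ht.ne').inv (Real.sqrt_pos.2 ht).ne'

theorem cut_one {c t : ℝ} (hc : 0 < c) (ht : c ≤ t) :
    Real.smoothTransition (2 * t / c - 1) = 1 := by
  apply Real.smoothTransition.one_of_one_le
  have : 2 ≤ 2 * t / c := by
    rw [le_div_iff₀ hc]; linarith
  linarith

theorem invFb_eq {c t : ℝ} (hc : 0 < c) (ht : c ≤ t) : invFb c t = t⁻¹ := by
  rw [invFb, cut_one hc ht, one_mul]

theorem isqF_eq {c t : ℝ} (hc : 0 < c) (ht : c ≤ t) : isqF c t = (√t)⁻¹ := by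
  rw [isqF, cut_one hc ht, one_mul]

/-! ### brackets -/

/-- the bracket of two fields is a combination of the `D l` at every point -/
theorem DAlg.Loc.bracket {S : DAlg P κ} [TopologicalSpace P] (H : S.Loc) {Y Z : κ → P → ℂ}
    (hY : ∀ j, S.Sm (Y j)) (hZ : ∀ j, S.Sm (Z j)) (p : P) : ∃ e : κ → ℂ, ∀ u, S.Sm u →
      S.dir Y (S.dir Z u) p - S.dir Z (S.dir Y u) p = ∑ l, e l * S.D l u p := by
  choose c hc using fun j k => H.brk j k p
  refine ⟨fun l => (S.dir Y (Z l) p - S.dir Z (Y l) p) + ∑ j, ∑ k, Y j p * Z k p * c j k l, ?_⟩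
  intro u hu
  have h1 : S.dir Y (S.dir Z u) p = ∑ l, S.dir Y (Z l) p * S.D l u p +
      ∑ j, ∑ k, Y j p * Z k p * S.D j (S.D k u) p := by
    have e1 : S.dir Y (S.dir Z u) p = ∑ j, Y j p * (∑ k, S.D j (Z k) p * S.D k u p +
        ∑ k, Z k p * S.D j (S.D k u) p) := by
      unfold DAlg.dir
      refine Finset.sum_congr rfl fun j _ => ?_
      have := S.D_dir j hZ hu p
      unfold DAlg.dir at this
      rw [this]
    rw [e1]
    simp only [mul_add, Finset.sum_add_distrib, Finset.mul_sum, DAlg.dir, Finset.sum_mul]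
    congr 1
    · rw [Finset.sum_comm]
      refine Finset.sum_congr rfl fun j _ => Finset.sum_congr rfl fun k _ => ?_
      ring
    · refine Finset.sum_congr rfl fun j _ => Finset.sum_congr rfl fun k _ => ?_
      ring
  have h2 : S.dir Z (S.dir Y u) p = ∑ l, S.dir Z (Y l) p * S.D l u p +
      ∑ j, ∑ k, Y j p * Z k p * S.D k (S.D j u) p := by
    have e1 : S.dir Z (S.dir Y u) p = ∑ j, Z j p * (∑ k, S.D j (Y k) p * S.D k u p +
        ∑ k, Y k p * S.D j (S.D k u) p) := by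
      unfold DAlg.dir
      refine Finset.sum_congr rfl fun j _ => ?_
      have := S.D_dir j hY hu p
      unfold DAlg.dir at this
      rw [this]
    rw [e1]
    simp only [mul_add, Finset.sum_add_distrib, Finset.mul_sum, DAlg.dir, Finset.sum_mul]
    congr 1
    · rw [Finset.sum_comm]
      refine Finset.sum_congr rfl fun j _ => Finset.sum_congr rfl fun k _ => ?_
      ring
    · rw [Finset.sum_comm]
      refine Finset.sum_congr rfl fun j _ => Finset.sum_congr rfl fun k _ => ?_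
      ring
  have h3 : ∑ j, ∑ k, Y j p * Z k p * S.D j (S.D k u) p -
      ∑ j, ∑ k, Y j p * Z k p * S.D k (S.D j u) p =
      ∑ l, (∑ j, ∑ k, Y j p * Z k p * c j k l) * S.D l u p := by
    simp only [← Finset.sum_sub_distrib, ← mul_sub]
    have e2 : ∀ j k, Y j p * Z k p * (S.D j (S.D k u) p - S.D k (S.D j u) p) =
        ∑ l, Y j p * Z k p * c j k l * S.D l u p := by
      intro j k
      rw [hc j k u hu, Finset.mul_sum]
      refine Finset.sum_congr rfl fun l _ => ?_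
      ring
    simp only [e2, Finset.sum_mul]
    have e3 : ∀ j, ∑ k, ∑ l, Y j p * Z k p * c j k l * S.D l u p =
        ∑ l, ∑ k, Y j p * Z k p * c j k l * S.D l u p := fun j => Finset.sum_comm
    simp only [e3]
    exact Finset.sum_comm
  rw [h1, h2]
  simp only [add_mul, sub_mul, Finset.sum_add_distrib, Finset.sum_sub_distrib]
  rw [← h3]
  ring

/-! ### local boxes -/

/-- coefficients of the tensor `G` in the fields `Y` -/
def Nn (G : κ → κ → P → ℂ) (Y : Fin 2 → κ → P → ℂ) (i j : Fin 2) : P → ℂ :=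
  fun p => ∑ j', ∑ k', Y i j' p * Y j k' p * G j' k' p

/-- a local coordinate box -/
structure LBox (K : Set P) (x : Fin 2 → P → ℂ) (Y : Fin 2 → κ → P → ℂ) : Prop where
  smx : ∀ i, S.Sm (x i)
  rx : ∀ i, Rl (x i)
  smY : ∀ i j, S.Sm (Y i j)
  rY : ∀ i j, Rl (Y i j)
  Yx : ∀ p ∈ K, ∀ i j, S.dir (Y i) (x j) p = if i = j then 1 else 0
  dec : ∀ u, S.Sm u → ∀ j, ∀ p ∈ K, S.D j u p = ∑ i, S.D j (x i) p * S.dir (Y i) u p
  comm : ∀ u, S.Sm u → ∀ p ∈ K,
    S.dir (Y 0) (S.dir (Y 1) u) p = S.dir (Y 1) (S.dir (Y 0) u) p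

theorem Rl.inv_comp {c : ℝ} (u : P → ℂ) : Rl (fun p => ((invFb c (u p).re : ℝ) : ℂ)) :=
  fun p => Complex.ofReal_im _

/-- coordinates give a local box -/
theorem DAlg.Loc.lbox {S : DAlg P κ} [TopologicalSpace P] (H : S.Loc) (p : P) :
    ∃ (K : Set P) (x : Fin 2 → P → ℂ) (Y : Fin 2 → κ → P → ℂ), IsOpen K ∧ p ∈ K ∧
      LBox S K x Y := by
  obtain ⟨x, U, sx, rx, oU, pU, ⟨c, hc⟩, hU⟩ := H.coord p
  have sA : ∀ i j, S.Sm (S.D j (x i)) := fun i j => S.sm_D j (sx i)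
  have rA : ∀ i j, Rl (S.D j (x i)) := fun i j => S.rl_D j (sx i) (rx i)
  -- Gram matrix
  obtain ⟨g, hg⟩ : ∃ g : Fin 2 → Fin 2 → P → ℂ, ∀ i k,
      g i k = fun q => ∑ j, (S.D j (x i) * S.D j (x k)) q := ⟨_, fun _ _ => rfl⟩
  have sg : ∀ i k, S.Sm (g i k) := fun i k => by
    rw [hg]; exact S.sm_sum' fun j _ => S.sm_mul (sA i j) (sA k j)
  have rg : ∀ i k, Rl (g i k) := fun i k => by
    rw [hg]; exact Rl.sum fun j _ => (rA i j).mul (rA k j)
  have gsym : ∀ q, g 0 1 q = g 1 0 q := fun q => by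
    rw [hg, hg]; exact Finset.sum_congr rfl fun j _ => by simp only [Pi.mul_apply]; ring
  obtain ⟨d, hd⟩ : ∃ d : P → ℂ, d = g 0 0 * g 1 1 - g 0 1 * g 0 1 := ⟨_, rfl⟩
  have sd : S.Sm d := by
    rw [hd]; exact S.sm_sub (S.sm_mul (sg 0 0) (sg 1 1)) (S.sm_mul (sg 0 1) (sg 0 1))
  have rd : Rl d := by
    rw [hd]; exact ((rg 0 0).mul (rg 1 1)).sub ((rg 0 1).mul (rg 0 1))
  -- positivity of the determinant at `p`
  have dpos : 0 < (d p).re := by
    -- real vectors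
    obtain ⟨A, hA⟩ : ∃ A : Fin 2 → κ → ℝ, ∀ i j, A i j = (S.D j (x i) p).re := ⟨_, fun _ _ => rfl⟩
    have hA' : ∀ i j, S.D j (x i) p = ((A i j : ℝ) : ℂ) := fun i j => by
      rw [hA]; exact (Rl.ofReal_re (rA i j) p).symm
    have gA : ∀ i k, g i k p = ((∑ j, A i j * A k j : ℝ) : ℂ) := fun i k => by
      rw [hg]
      simp only [Pi.mul_apply, hA']
      push_cast
      rfl
    have cA : ∀ i k, ∑ j, c i j * A k j = if i = k then (1 : ℝ) else 0 := fun i k => by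
      have h := hc i k
      simp only [hA'] at h
      have h2 : ((∑ j, c i j * A k j : ℝ) : ℂ) = ((if i = k then (1 : ℝ) else 0 : ℝ) : ℂ) := by
        push_cast
        rw [h]
        try split_ifs <;> simp
      exact_mod_cast h2
    have c00 := cA 0 0
    have c01 := cA 0 1
    have c10 := cA 1 0
    have c11 := cA 1 1
    simp at c00 c01 c10 c11
    have ed : (d p).re = (∑ j, A 0 j * A 0 j) * (∑ j, A 1 j * A 1 j) -
        (∑ j, A 0 j * A 1 j) * (∑ j, A 0 j * A 1 j) := by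
      rw [hd]
      simp only [Pi.sub_apply, Pi.mul_apply, gA]
      rw [← Complex.ofReal_mul, ← Complex.ofReal_mul, ← Complex.ofReal_sub, Complex.ofReal_re]
    rw [ed]
    by_contra hneg
    push Not at hneg
    set a := ∑ j, A 0 j * A 0 j with ha
    set b := ∑ j, A 0 j * A 1 j with hb
    set e := ∑ j, A 1 j * A 1 j with he
    have e0 : 0 ≤ e := Finset.sum_nonneg fun j _ => mul_self_nonneg _
    have key : ∑ j, (e * A 0 j - b * A 1 j) ^ 2 = e * (a * e - b * b) := by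
      have : ∀ j, (e * A 0 j - b * A 1 j) ^ 2 = e * e * (A 0 j * A 0 j) -
          2 * e * b * (A 0 j * A 1 j) + b * b * (A 1 j * A 1 j) := fun j => by ring
      simp only [this, Finset.sum_add_distrib, Finset.sum_sub_distrib, ← Finset.mul_sum]
      rw [← ha, ← hb, ← he]
      ring
    have key0 : ∑ j, (e * A 0 j - b * A 1 j) ^ 2 = 0 := by
      apply le_antisymm
      · rw [key]; exact mul_nonpos_of_nonneg_of_nonpos e0 hneg
      · exact Finset.sum_nonneg fun j _ => sq_nonneg _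
    have key1 : ∀ j, e * A 0 j - b * A 1 j = 0 := fun j => by
      have := (Finset.sum_eq_zero_iff_of_nonneg (fun j _ => sq_nonneg _)).1 key0 j
        (Finset.mem_univ j)
      exact pow_eq_zero_iff (two_ne_zero) |>.1 this
    have e1 : e = 0 := by
      have h1 : ∑ j, c 0 j * (e * A 0 j - b * A 1 j) = 0 :=
        Finset.sum_eq_zero fun j _ => by rw [key1, mul_zero]
      have h2 : ∑ j, c 0 j * (e * A 0 j - b * A 1 j) = e * ∑ j, c 0 j * A 0 j -
          b * ∑ j, c 0 j * A 1 j := by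
        rw [Finset.mul_sum, Finset.mul_sum, ← Finset.sum_sub_distrib]
        exact Finset.sum_congr rfl fun j _ => by ring
      rw [h2, c00, c01] at h1
      linarith
    have e2 : ∀ j, A 1 j = 0 := fun j => by
      rw [e1] at he
      have := (Finset.sum_eq_zero_iff_of_nonneg (fun j _ => mul_self_nonneg (A 1 j))).1 he.symm j
        (Finset.mem_univ j)
      exact mul_self_eq_zero.1 this
    simp only [e2, mul_zero, Finset.sum_const_zero] at c11
    exact zero_ne_one c11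
  obtain ⟨d0, hd0⟩ : ∃ d0 : ℝ, d0 = (d p).re / 2 := ⟨_, rfl⟩
  have d0pos : 0 < d0 := by rw [hd0]; linarith
  obtain ⟨v, hv⟩ : ∃ v : P → ℂ, v = fun q => ((invFb d0 (d q).re : ℝ) : ℂ) := ⟨_, rfl⟩
  have sv : S.Sm v := by rw [hv]; exact S.sm_comp (invFb_contDiff d0pos) sd rd
  have rv : Rl v := by rw [hv]; exact Rl.inv_comp d
  obtain ⟨K, hK⟩ : ∃ K : Set P, K = U ∩ {q | d0 < (d q).re} := ⟨_, rfl⟩
  have oK : IsOpen K := by
    rw [hK]
    exact oU.inter (isOpen_lt continuous_const (Complex.continuous_re.comp (H.cont sd)))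
  have pK : p ∈ K := by
    rw [hK]; refine ⟨pU, ?_⟩
    simp only [Set.mem_setOf_eq]; rw [hd0]; linarith
  have vd : ∀ q ∈ K, v q * d q = 1 := fun q hq => by
    rw [hK] at hq
    have h1 : d0 ≤ (d q).re := le_of_lt hq.2
    have h2 : d q = (((d q).re : ℝ) : ℂ) := (Rl.ofReal_re rd q).symm
    have h3 : (d q).re ≠ 0 := by
      have := hq.2
      simp only [Set.mem_setOf_eq] at this
      linarith
    rw [hv]
    simp only []
    rw [invFb_eq d0pos h1]
    rw [h2]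
    simp only [Complex.ofReal_re]
    rw [← Complex.ofReal_mul, inv_mul_cancel₀ h3, Complex.ofReal_one]
  obtain ⟨Y, hY⟩ : ∃ Y : Fin 2 → κ → P → ℂ, Y =
    ![fun j => v * (g 1 1 * S.D j (x 0) - g 0 1 * S.D j (x 1)),
      fun j => v * (g 0 0 * S.D j (x 1) - g 0 1 * S.D j (x 0))] := ⟨_, rfl⟩
  have hY0 : ∀ j, Y 0 j = v * (g 1 1 * S.D j (x 0) - g 0 1 * S.D j (x 1)) := fun j => by
    rw [hY]; rfl
  have hY1 : ∀ j, Y 1 j = v * (g 0 0 * S.D j (x 1) - g 0 1 * S.D j (x 0)) := fun j => by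
    rw [hY]; rfl
  have sY : ∀ i j, S.Sm (Y i j) := by
    intro i j
    fin_cases i
    · show S.Sm (Y 0 j)
      rw [hY0]
      exact S.sm_mul sv (S.sm_sub (S.sm_mul (sg 1 1) (sA 0 j)) (S.sm_mul (sg 0 1) (sA 1 j)))
    · show S.Sm (Y 1 j)
      rw [hY1]
      exact S.sm_mul sv (S.sm_sub (S.sm_mul (sg 0 0) (sA 1 j)) (S.sm_mul (sg 0 1) (sA 0 j)))
  have rY : ∀ i j, Rl (Y i j) := by
    intro i j
    fin_cases i
    · show Rl (Y 0 j)
      rw [hY0]
      exact rv.mul (((rg 1 1).mul (rA 0 j)).sub ((rg 0 1).mul (rA 1 j)))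
    · show Rl (Y 1 j)
      rw [hY1]
      exact rv.mul (((rg 0 0).mul (rA 1 j)).sub ((rg 0 1).mul (rA 0 j)))
  have dirY0 : ∀ k q, S.dir (Y 0) (x k) q = v q * (g 1 1 q * g 0 k q - g 0 1 q * g 1 k q) := by
    intro k q
    unfold DAlg.dir
    simp only [hY0, Pi.mul_apply, Pi.sub_apply]
    rw [hg 0 k, hg 1 k]
    simp only [Pi.mul_apply, Finset.mul_sum, ← Finset.sum_sub_distrib]
    exact Finset.sum_congr rfl fun j _ => by ring
  have dirY1 : ∀ k q, S.dir (Y 1) (x k) q = v q * (g 0 0 q * g 1 k q - g 0 1 q * g 0 k q) := by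
    intro k q
    unfold DAlg.dir
    simp only [hY1, Pi.mul_apply, Pi.sub_apply]
    rw [hg 0 k, hg 1 k]
    simp only [Pi.mul_apply, Finset.mul_sum, ← Finset.sum_sub_distrib]
    exact Finset.sum_congr rfl fun j _ => by ring
  have Yx : ∀ q ∈ K, ∀ i j, S.dir (Y i) (x j) q = if i = j then 1 else 0 := by
    intro q hq i j
    have h := vd q hq
    rw [hd] at h
    simp only [Pi.sub_apply, Pi.mul_apply] at h
    have hs := gsym q
    fin_cases i <;> fin_cases j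
    · show S.dir (Y 0) (x 0) q = if (0 : Fin 2) = 0 then 1 else 0
      rw [dirY0, if_pos rfl, ← hs]
      linear_combination h
    · show S.dir (Y 0) (x 1) q = if (0 : Fin 2) = 1 then 1 else 0
      rw [dirY0, if_neg (by decide)]
      ring
    · show S.dir (Y 1) (x 0) q = if (1 : Fin 2) = 0 then 1 else 0
      rw [dirY1, if_neg (by decide), ← hs]
      ring
    · show S.dir (Y 1) (x 1) q = if (1 : Fin 2) = 1 then 1 else 0
      rw [dirY1, if_pos rfl]
      linear_combination h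
  have dirY : ∀ q ∈ K, ∀ u, S.Sm u → ∀ a : Fin 2 → ℂ,
      (∀ j, S.D j u q = ∑ i, a i * S.D j (x i) q) → ∀ i, S.dir (Y i) u q = a i := by
    intro q hq u su a ha i
    have h1 : S.dir (Y i) u q = a 0 * S.dir (Y i) (x 0) q + a 1 * S.dir (Y i) (x 1) q := by
      unfold DAlg.dir
      simp only [ha, Fin.sum_univ_two, Finset.mul_sum, ← Finset.sum_add_distrib]
      exact Finset.sum_congr rfl fun j _ => by ring
    rw [h1, Yx q hq, Yx q hq]
    fin_cases i <;> simp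
  have KU : ∀ q ∈ K, q ∈ U := fun q hq => by rw [hK] at hq; exact hq.1
  refine ⟨K, x, Y, oK, pK, ⟨sx, rx, sY, rY, Yx, ?_, ?_⟩⟩
  · intro u su j q hq
    obtain ⟨a, ha⟩ := hU q (KU q hq) u su
    rw [ha j]
    refine Finset.sum_congr rfl fun i _ => ?_
    rw [dirY q hq u su a ha i, mul_comm]
  · intro u su q hq
    obtain ⟨e, he⟩ := H.bracket (sY 0) (sY 1) q
    obtain ⟨a, ha⟩ := hU q (KU q hq) u su
    have hz : ∀ i k, ∀ j, S.D j (S.dir (Y i) (x k)) q = 0 := by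
      intro i k j
      have s1 := S.sm_dir (sY i) (sx k)
      have h1 := H.loc (u := S.dir (Y i) (x k) - fun _ => if i = k then 1 else 0) (U := K)
        (S.sm_sub s1 (S.sm_const _)) oK (fun r hr => by
          rw [Pi.sub_apply, Yx r hr, sub_self]) j q hq
      rw [S.D_sub_apply j s1 (S.sm_const _), S.D_const_apply, sub_zero] at h1
      exact h1
    have hx : ∀ k, ∑ l, e l * S.D l (x k) q = 0 := by
      intro k
      rw [← he (x k) (sx k)]
      have h1 : ∀ i, S.dir (Y 0) (S.dir (Y i) (x k)) q = 0 := fun i => by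
        unfold DAlg.dir
        exact Finset.sum_eq_zero fun j _ => by
          have := hz i k j
          unfold DAlg.dir at this
          rw [this, mul_zero]
      have h2 : ∀ i, S.dir (Y 1) (S.dir (Y i) (x k)) q = 0 := fun i => by
        unfold DAlg.dir
        exact Finset.sum_eq_zero fun j _ => by
          have := hz i k j
          unfold DAlg.dir at this
          rw [this, mul_zero]
      rw [h1, h2, sub_zero]
    have h3 := he u su
    have h4 : ∑ l, e l * S.D l u q = 0 := by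
      have : ∑ l, e l * S.D l u q = a 0 * ∑ l, e l * S.D l (x 0) q +
          a 1 * ∑ l, e l * S.D l (x 1) q := by
        simp only [ha, Fin.sum_univ_two, Finset.mul_sum, ← Finset.sum_add_distrib]
        exact Finset.sum_congr rfl fun j _ => by ring
      rw [this, hx, hx, mul_zero, mul_zero, add_zero]
    rw [h4] at h3
    exact sub_eq_zero.1 h3

theorem DAlg.dir_lin {S : DAlg P κ} (Y Z : κ → P → ℂ) (a b : ℂ) (u : P → ℂ) (q : P) :
    S.dir (fun j q => a * Y j q + b * Z j q) u q = a * S.dir Y u q + b * S.dir Z u q := by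
  unfold DAlg.dir
  simp only [Finset.mul_sum, ← Finset.sum_add_distrib]
  exact Finset.sum_congr rfl fun j _ => by ring

theorem DAlg.dir_lin' {S : DAlg P κ} {c : κ → P → ℂ} {u v : P → ℂ} (su : S.Sm u) (sv : S.Sm v)
    (a b : ℂ) (q : P) :
    S.dir c (fun q => a * u q + b * v q) q = a * S.dir c u q + b * S.dir c v q := by
  have h := S.dir_add (c := c) (S.sm_smul a su) (S.sm_smul b sv) q
  rw [S.dir_smul a su, S.dir_smul b sv] at h
  exact h

theorem Nn_symm {G : κ → κ → P → ℂ} (hG : ∀ j k, G j k = G k j) (Y : Fin 2 → κ → P → ℂ)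
    (i j : Fin 2) (q : P) : Nn G Y i j q = Nn G Y j i q := by
  unfold Nn
  rw [Finset.sum_comm]
  refine Finset.sum_congr rfl fun j' _ => Finset.sum_congr rfl fun k' _ => ?_
  rw [hG k' j']
  ring

/-- linear combination of fields -/
theorem Nn_lin (G : κ → κ → P → ℂ) (Y : Fin 2 → κ → P → ℂ) (M : Fin 2 → Fin 2 → ℂ)
    (i j : Fin 2) (q : P) :
    Nn G (fun i k q => M i 0 * Y 0 k q + M i 1 * Y 1 k q) i j q =
      M i 0 * M j 0 * Nn G Y 0 0 q + M i 0 * M j 1 * Nn G Y 0 1 q +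
      M i 1 * M j 0 * Nn G Y 1 0 q + M i 1 * M j 1 * Nn G Y 1 1 q := by
  unfold Nn
  simp only [Finset.mul_sum, ← Finset.sum_add_distrib]
  refine Finset.sum_congr rfl fun j' _ => Finset.sum_congr rfl fun k' _ => ?_
  ring

/-- change of a local box by an upper triangular matrix -/
theorem LBox.change {S : DAlg P κ} {K : Set P} {x : Fin 2 → P → ℂ} {Y : Fin 2 → κ → P → ℂ}
    (h : LBox S K x Y) {α β γ : ℝ} (hα : α ≠ 0) (hγ : γ ≠ 0) :
    LBox S K ![fun q => (α : ℂ) * x 0 q + (β : ℂ) * x 1 q, fun q => 0 * x 0 q + (γ : ℂ) * x 1 q]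
      (fun i k q => (![![((α⁻¹ : ℝ) : ℂ), 0], ![((-(β * (α * γ)⁻¹) : ℝ) : ℂ), ((γ⁻¹ : ℝ) : ℂ)]] :
        Fin 2 → Fin 2 → ℂ) i 0 * Y 0 k q +
        (![![((α⁻¹ : ℝ) : ℂ), 0], ![((-(β * (α * γ)⁻¹) : ℝ) : ℂ), ((γ⁻¹ : ℝ) : ℂ)]] :
        Fin 2 → Fin 2 → ℂ) i 1 * Y 1 k q) := by
  obtain ⟨sx, rx, sY, rY, Yx, dec, comm⟩ := h
  have hα' : (α : ℂ) ≠ 0 := by exact_mod_cast hα
  have hγ' : (γ : ℂ) ≠ 0 := by exact_mod_cast hγ
  have sx0 : S.Sm (fun q => (α : ℂ) * x 0 q + (β : ℂ) * x 1 q) :=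
    S.sm_add (S.sm_smul _ (sx 0)) (S.sm_smul _ (sx 1))
  have sx1 : S.Sm (fun q => 0 * x 0 q + (γ : ℂ) * x 1 q) :=
    S.sm_add (S.sm_smul _ (sx 0)) (S.sm_smul _ (sx 1))
  have sYl : ∀ (a b : ℂ) j, S.Sm (fun q => a * Y 0 j q + b * Y 1 j q) := fun a b j =>
    S.sm_add (S.sm_smul _ (sY 0 j)) (S.sm_smul _ (sY 1 j))
  have rl : ∀ (a b : ℝ) {u v : P → ℂ}, Rl u → Rl v → Rl (fun q => (a : ℂ) * u q + (b : ℂ) * v q) :=
    fun a b u v hu hv => (Rl.smul (Complex.ofReal_im a) hu).add (Rl.smul (Complex.ofReal_im b) hv)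
  refine ⟨?_, ?_, ?_, ?_, ?_, ?_, ?_⟩
  · intro i
    fin_cases i
    · exact sx0
    · exact sx1
  · intro i
    fin_cases i
    · exact rl α β (rx 0) (rx 1)
    · have := rl 0 γ (rx 0) (rx 1)
      simpa using this
  · intro i j
    exact sYl _ _ j
  · intro i j
    fin_cases i
    · have := rl α⁻¹ 0 (rY 0 j) (rY 1 j)
      simpa using this
    · exact rl _ _ (rY 0 j) (rY 1 j)
  · intro p hp i j
    have e00 := Yx p hp 0 0
    have e01 := Yx p hp 0 1
    have e10 := Yx p hp 1 0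
    have e11 := Yx p hp 1 1
    rw [if_pos rfl] at e00 e11
    rw [if_neg (by decide)] at e01 e10
    fin_cases i <;> fin_cases j
    · show S.dir (fun k q => _ * Y 0 k q + _ * Y 1 k q)
        (fun q => (α : ℂ) * x 0 q + (β : ℂ) * x 1 q) p = if (0 : Fin 2) = 0 then 1 else 0
      rw [S.dir_lin' (sx 0) (sx 1), DAlg.dir_lin, DAlg.dir_lin, e00, e01, e10, e11]
      simp
      field_simp
    · show S.dir (fun k q => _ * Y 0 k q + _ * Y 1 k q)
        (fun q => 0 * x 0 q + (γ : ℂ) * x 1 q) p = if (0 : Fin 2) = 1 then 1 else 0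
      rw [S.dir_lin' (sx 0) (sx 1), DAlg.dir_lin, DAlg.dir_lin, e00, e01, e10, e11]
      simp
    · show S.dir (fun k q => _ * Y 0 k q + _ * Y 1 k q)
        (fun q => (α : ℂ) * x 0 q + (β : ℂ) * x 1 q) p = if (1 : Fin 2) = 0 then 1 else 0
      rw [S.dir_lin' (sx 0) (sx 1), DAlg.dir_lin, DAlg.dir_lin, e00, e01, e10, e11]
      simp
      field_simp
      ring
    · show S.dir (fun k q => _ * Y 0 k q + _ * Y 1 k q)
        (fun q => 0 * x 0 q + (γ : ℂ) * x 1 q) p = if (1 : Fin 2) = 1 then 1 else 0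
      rw [S.dir_lin' (sx 0) (sx 1), DAlg.dir_lin, DAlg.dir_lin, e00, e01, e10, e11]
      simp
      field_simp
  · intro u su j p hp
    have h1 := dec u su j p hp
    rw [Fin.sum_univ_two] at h1
    rw [Fin.sum_univ_two]
    show S.D j u p = S.D j (fun q => (α : ℂ) * x 0 q + (β : ℂ) * x 1 q) p *
        S.dir (fun k q => _ * Y 0 k q + _ * Y 1 k q) u p +
      S.D j (fun q => 0 * x 0 q + (γ : ℂ) * x 1 q) p *
        S.dir (fun k q => _ * Y 0 k q + _ * Y 1 k q) u p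
    rw [DAlg.dir_lin, DAlg.dir_lin]
    have d0 : S.D j (fun q => (α : ℂ) * x 0 q + (β : ℂ) * x 1 q) p =
        (α : ℂ) * S.D j (x 0) p + (β : ℂ) * S.D j (x 1) p := by
      have := S.D_add_apply j (S.sm_smul (α : ℂ) (sx 0)) (S.sm_smul (β : ℂ) (sx 1)) p
      rw [S.D_smul_apply j _ (sx 0), S.D_smul_apply j _ (sx 1)] at this
      exact this
    have d1 : S.D j (fun q => 0 * x 0 q + (γ : ℂ) * x 1 q) p =
        0 * S.D j (x 0) p + (γ : ℂ) * S.D j (x 1) p := by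
      have := S.D_add_apply j (S.sm_smul (0 : ℂ) (sx 0)) (S.sm_smul (γ : ℂ) (sx 1)) p
      rw [S.D_smul_apply j _ (sx 0), S.D_smul_apply j _ (sx 1)] at this
      exact this
    rw [d0, d1, h1]
    simp
    field_simp
    ring
  · intro u su p hp
    have h1 := comm u su p hp
    have s0 := S.sm_dir (sY 0) su
    have s1 := S.sm_dir (sY 1) su
    have e : ∀ a b : ℂ, S.dir (fun j q => a * Y 0 j q + b * Y 1 j q) u =
        fun q => a * S.dir (Y 0) u q + b * S.dir (Y 1) u q := fun a b => by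
      funext q
      exact DAlg.dir_lin _ _ _ _ _ _
    show S.dir (fun k q => _ * Y 0 k q + _ * Y 1 k q)
        (S.dir (fun k q => _ * Y 0 k q + _ * Y 1 k q) u) p =
      S.dir (fun k q => _ * Y 0 k q + _ * Y 1 k q)
        (S.dir (fun k q => _ * Y 0 k q + _ * Y 1 k q) u) p
    rw [e, e, S.dir_lin' s0 s1, S.dir_lin' s0 s1]
    simp only [DAlg.dir_lin]
    simp
    linear_combination ((α : ℂ)⁻¹ * (γ : ℂ)⁻¹) * h1

theorem DAlg.sm_Nn {S : DAlg P κ} {G : κ → κ → P → ℂ} (sG : ∀ j k, S.Sm (G j k))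
    {Y : Fin 2 → κ → P → ℂ} (sY : ∀ i j, S.Sm (Y i j)) (i j : Fin 2) : S.Sm (Nn G Y i j) :=
  S.sm_sum' fun j' _ => S.sm_sum' fun k' _ => S.sm_mul (S.sm_mul (sY i j') (sY j k')) (sG j' k')

theorem Rl.Nn {G : κ → κ → P → ℂ} (rG : ∀ j k, Rl (G j k))
    {Y : Fin 2 → κ → P → ℂ} (rY : ∀ i j, Rl (Y i j)) (i j : Fin 2) : Rl (Nn G Y i j) :=
  Rl.sum fun j' _ => Rl.sum fun k' _ => ((rY i j').mul (rY j k')).mul (rG j' k')

/-- a local box in which `G` is nearly Euclidean -/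
theorem DAlg.Loc.nbox {S : DAlg P κ} [TopologicalSpace P] (H : S.Loc) {G : κ → κ → P → ℂ}
    (hT : S.IsT G) (rG : ∀ j k, Rl (G j k)) (sG : ∀ j k, S.Sm (G j k)) (hpos : S.PosT G)
    {κ0 : ℝ} (hκ : 0 < κ0) (p : P) :
    ∃ (K : Set P) (x : Fin 2 → P → ℂ) (Y : Fin 2 → κ → P → ℂ), IsOpen K ∧ p ∈ K ∧
      LBox S K x Y ∧ ∀ q ∈ K, ∀ i j, ‖Nn G Y i j q - (if i = j then 1 else 0)‖ ≤ κ0 := by
  obtain ⟨K, x, Y, oK, pK, hL⟩ := H.lbox p
  have sN := fun i j => DAlg.sm_Nn sG hL.smY i j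
  have rN := fun i j => Rl.Nn rG hL.rY i j
  obtain ⟨E, hE⟩ : ∃ E : ℝ, E = (Nn G Y 0 0 p).re := ⟨_, rfl⟩
  obtain ⟨F, hF⟩ : ∃ F : ℝ, F = (Nn G Y 0 1 p).re := ⟨_, rfl⟩
  obtain ⟨D, hD⟩ : ∃ D : ℝ, D = (Nn G Y 1 1 p).re := ⟨_, rfl⟩
  have hE' : Nn G Y 0 0 p = (E : ℂ) := by rw [hE]; exact (Rl.ofReal_re (rN 0 0) p).symm
  have hF' : Nn G Y 0 1 p = (F : ℂ) := by rw [hF]; exact (Rl.ofReal_re (rN 0 1) p).symm
  have hF'' : Nn G Y 1 0 p = (F : ℂ) := by rw [Nn_symm hT.1]; exact hF'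
  have hD' : Nn G Y 1 1 p = (D : ℂ) := by rw [hD]; exact (Rl.ofReal_re (rN 1 1) p).symm
  -- positivity
  have pos : ∀ s t : ℝ, (s ≠ 0 ∨ t ≠ 0) → 0 < s * s * E + 2 * (s * t) * F + t * t * D := by
    intro s t hst
    have hYr : ∀ i j, Y i j p = (((Y i j p).re : ℝ) : ℂ) :=
      fun i j => (Rl.ofReal_re (hL.rY i j) p).symm
    have h1 := hpos p (fun j => s * (Y 0 j p).re + t * (Y 1 j p).re)
    have e1 : ∀ u, ∑ j, ((s * (Y 0 j p).re + t * (Y 1 j p).re : ℝ) : ℂ) * S.D j u p =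
        s * S.dir (Y 0) u p + t * S.dir (Y 1) u p := by
      intro u
      unfold DAlg.dir
      rw [Finset.mul_sum, Finset.mul_sum, ← Finset.sum_add_distrib]
      refine Finset.sum_congr rfl fun j _ => ?_
      push_cast
      rw [← hYr, ← hYr]
      ring
    have e2 : ∑ j, ∑ k, ((s * (Y 0 j p).re + t * (Y 1 j p).re : ℝ) : ℂ) *
        ((s * (Y 0 k p).re + t * (Y 1 k p).re : ℝ) : ℂ) * G j k p =
        ((s * s * E + 2 * (s * t) * F + t * t * D : ℝ) : ℂ) := by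
      have e3 : ∑ j, ∑ k, ((s * (Y 0 j p).re + t * (Y 1 j p).re : ℝ) : ℂ) *
        ((s * (Y 0 k p).re + t * (Y 1 k p).re : ℝ) : ℂ) * G j k p =
          s * s * Nn G Y 0 0 p + s * t * Nn G Y 0 1 p + t * s * Nn G Y 1 0 p +
            t * t * Nn G Y 1 1 p := by
        unfold Nn
        simp only [Finset.mul_sum, ← Finset.sum_add_distrib]
        refine Finset.sum_congr rfl fun j _ => Finset.sum_congr rfl fun k _ => ?_
        push_cast
        rw [← hYr, ← hYr, ← hYr, ← hYr]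
        ring
      rw [e3, hE', hF', hF'', hD']
      push_cast
      ring
    rw [e2, Complex.ofReal_re] at h1
    apply h1
    rcases hst with h | h
    · refine ⟨x 0, hL.smx 0, ?_⟩
      rw [e1, hL.Yx p pK, hL.Yx p pK]
      simpa using h
    · refine ⟨x 1, hL.smx 1, ?_⟩
      rw [e1, hL.Yx p pK, hL.Yx p pK]
      simpa using h
  have Epos : 0 < E := by
    have := pos 1 0 (Or.inl one_ne_zero)
    simpa using this
  have Dpos : 0 < E * D - F * F := by
    have h1 := pos (-F) E (Or.inr Epos.ne')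
    have h2 : -F * -F * E + 2 * (-F * E) * F + E * E * D = E * (E * D - F * F) := by ring
    rw [h2] at h1
    exact (pos_iff_pos_of_mul_pos h1).1 Epos
  obtain ⟨α, hα⟩ : ∃ α : ℝ, α = √E := ⟨_, rfl⟩
  have α0 : 0 < α := by rw [hα]; exact Real.sqrt_pos.2 Epos
  have α2 : α * α = E := by rw [hα]; exact Real.mul_self_sqrt Epos.le
  obtain ⟨β, hβ⟩ : ∃ β : ℝ, β = F / α := ⟨_, rfl⟩
  have β1 : α * β = F := by rw [hβ]; field_simp
  obtain ⟨γ, hγ⟩ : ∃ γ : ℝ, γ = √((E * D - F * F) / E) := ⟨_, rfl⟩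
  have γ0 : 0 < γ := by rw [hγ]; exact Real.sqrt_pos.2 (div_pos Dpos Epos)
  have γ2 : γ * γ * E = E * D - F * F := by
    rw [hγ, Real.mul_self_sqrt (div_pos Dpos Epos).le]
    field_simp
  have hL' := hL.change (β := β) α0.ne' γ0.ne'
  obtain ⟨M, hM⟩ : ∃ M : Fin 2 → Fin 2 → ℂ,
      M = ![![((α⁻¹ : ℝ) : ℂ), 0], ![((-(β * (α * γ)⁻¹) : ℝ) : ℂ), ((γ⁻¹ : ℝ) : ℂ)]] := ⟨_, rfl⟩
  rw [← hM] at hL'
  obtain ⟨Y', hY'⟩ : ∃ Y' : Fin 2 → κ → P → ℂ,
      Y' = fun i k q => M i 0 * Y 0 k q + M i 1 * Y 1 k q := ⟨_, rfl⟩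
  rw [← hY'] at hL'
  have M00 : M 0 0 = ((α⁻¹ : ℝ) : ℂ) := by rw [hM]; rfl
  have M01 : M 0 1 = 0 := by rw [hM]; rfl
  have M10 : M 1 0 = ((-(β * (α * γ)⁻¹) : ℝ) : ℂ) := by rw [hM]; rfl
  have M11 : M 1 1 = ((γ⁻¹ : ℝ) : ℂ) := by rw [hM]; rfl
  have nn : ∀ i j, Nn G Y' i j p = if i = j then 1 else 0 := by
    intro i j
    rw [hY', Nn_lin, hE', hF', hF'', hD']
    have n00 : M 0 0 * M 0 0 * (E : ℂ) + M 0 0 * M 0 1 * (F : ℂ) + M 0 1 * M 0 0 * (F : ℂ) +
        M 0 1 * M 0 1 * (D : ℂ) = 1 := by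
      rw [M00, M01]
      have : (α⁻¹ * α⁻¹ * E : ℝ) = 1 := by rw [← α2]; field_simp
      have h2 : ((α⁻¹ * α⁻¹ * E : ℝ) : ℂ) = 1 := by rw [this]; simp
      push_cast at h2 ⊢
      linear_combination h2
    have n01 : M 0 0 * M 1 0 * (E : ℂ) + M 0 0 * M 1 1 * (F : ℂ) + M 0 1 * M 1 0 * (F : ℂ) +
        M 0 1 * M 1 1 * (D : ℂ) = 0 := by
      rw [M00, M01, M10, M11]
      have : (α⁻¹ * (-(β * (α * γ)⁻¹)) * E + α⁻¹ * γ⁻¹ * F : ℝ) = 0 := by
        rw [← α2, ← β1]; field_simp; ring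
      have h2 : ((α⁻¹ * (-(β * (α * γ)⁻¹)) * E + α⁻¹ * γ⁻¹ * F : ℝ) : ℂ) = 0 := by
        rw [this]; simp
      push_cast at h2 ⊢
      linear_combination h2
    have n11 : M 1 0 * M 1 0 * (E : ℂ) + M 1 0 * M 1 1 * (F : ℂ) + M 1 1 * M 1 0 * (F : ℂ) +
        M 1 1 * M 1 1 * (D : ℂ) = 1 := by
      rw [M10, M11]
      have h0 : D = (γ * γ * E + F * F) / E := by
        rw [γ2]; field_simp; ring
      have : ((-(β * (α * γ)⁻¹)) * (-(β * (α * γ)⁻¹)) * E + 2 * ((-(β * (α * γ)⁻¹)) * γ⁻¹ * F) +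
          γ⁻¹ * γ⁻¹ * D : ℝ) = 1 := by
        rw [h0, ← α2, ← β1]; field_simp; ring
      have h2 : (((-(β * (α * γ)⁻¹)) * (-(β * (α * γ)⁻¹)) * E +
          2 * ((-(β * (α * γ)⁻¹)) * γ⁻¹ * F) + γ⁻¹ * γ⁻¹ * D : ℝ) : ℂ) = 1 := by
        rw [this]; simp
      push_cast at h2 ⊢
      linear_combination h2
    fin_cases i <;> fin_cases j
    · show _ = if (0 : Fin 2) = 0 then (1 : ℂ) else 0
      rw [if_pos rfl]; exact n00
    · show _ = if (0 : Fin 2) = 1 then (1 : ℂ) else 0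
      rw [if_neg (by decide)]; exact n01
    · show _ = if (1 : Fin 2) = 0 then (1 : ℂ) else 0
      rw [if_neg (by decide), ← n01]
      show M 1 0 * M 0 0 * (E : ℂ) + M 1 0 * M 0 1 * (F : ℂ) + M 1 1 * M 0 0 * (F : ℂ) +
        M 1 1 * M 0 1 * (D : ℂ) = _
      rw [M01]; ring
    · show _ = if (1 : Fin 2) = 1 then (1 : ℂ) else 0
      rw [if_pos rfl]; exact n11
  have sN' := fun i j => DAlg.sm_Nn sG hL'.smY i j
  obtain ⟨K', hK'⟩ : ∃ K' : Set P, K' = K ∩ ⋂ i, ⋂ j,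
      {q | ‖Nn G Y' i j q - (if i = j then 1 else 0)‖ < κ0} := ⟨_, rfl⟩
  have oK' : IsOpen K' := by
    rw [hK']
    refine oK.inter (isOpen_iInter_of_finite fun i => isOpen_iInter_of_finite fun j => ?_)
    exact isOpen_lt (((H.cont (sN' i j)).sub continuous_const).norm) continuous_const
  refine ⟨K', _, Y', oK', ?_, ⟨hL'.smx, hL'.rx, hL'.smY, hL'.rY, ?_, ?_, ?_⟩, ?_⟩
  · rw [hK']
    refine ⟨pK, ?_⟩
    simp only [Set.mem_iInter, Set.mem_setOf_eq]
    intro i j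
    rw [nn, sub_self, norm_zero]
    exact hκ
  · intro q hq i j
    rw [hK'] at hq
    exact hL'.Yx q hq.1 i j
  · intro u su j q hq
    rw [hK'] at hq
    exact hL'.dec u su j q hq.1
  · intro u su q hq
    rw [hK'] at hq
    exact hL'.comm u su q hq.1
  · intro q hq i j
    rw [hK'] at hq
    have := hq.2
    simp only [Set.mem_iInter, Set.mem_setOf_eq] at this
    exact (this i j).le

/-- words of a function which vanishes on an open set -/
theorem DAlg.Loc.wd_zero_on {S : DAlg P κ} [TopologicalSpace P] (H : S.Loc) {u : P → ℂ}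
    (su : S.Sm u) {U : Set P} (oU : IsOpen U) (hu : ∀ p ∈ U, u p = 0) (w : List κ) :
    ∀ p ∈ U, S.wd w u p = 0 := by
  induction w with
  | nil => exact hu
  | cons j w ih => exact H.loc (S.sm_wd w su) oU ih j

/-- **existence of boxes** -/
theorem DAlg.Loc.exists_boxes {S : DAlg P κ} [TopologicalSpace P] [CompactSpace P] [Nonempty P]
    (H : S.Loc) {G : κ → κ → P → ℂ} (hT : S.IsT G) (rG : ∀ j k, Rl (G j k))
    (sG : ∀ j k, S.Sm (G j k)) (hpos : S.PosT G) {κ0 : ℝ} (hκ : 0 < κ0) :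
    ∃ n : ℕ, Nonempty (Boxes S (Fin n) G κ0) := by
  choose K x Y oK pK hL hN using fun p => H.nbox hT rG sG hpos hκ p
  choose f sf rf fp tf using fun p => H.bump p (K p) (oK p) (pK p)
  -- cover
  have hcov : ∀ p : P, {q | 0 < (f p q * f p q).re} ∈ 𝓝 p := by
    intro p
    refine IsOpen.mem_nhds ?_ ?_
    · exact isOpen_lt continuous_const
        (Complex.continuous_re.comp ((H.cont (sf p)).mul (H.cont (sf p))))
    · simp only [Set.mem_setOf_eq, fp, mul_one, Complex.one_re]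
      norm_num
  obtain ⟨t, ht⟩ := CompactSpace.elim_nhds_subcover _ hcov
  obtain ⟨s, hs⟩ : ∃ s : P → ℂ, s = fun q => ∑ p ∈ t, (f p * f p) q := ⟨_, rfl⟩
  have ss : S.Sm s := by rw [hs]; exact S.sm_sum' fun p _ => S.sm_mul (sf p) (sf p)
  have rs : Rl s := by rw [hs]; exact Rl.sum fun p _ => (rf p).mul (rf p)
  have nn : ∀ p q, 0 ≤ (f p q * f p q).re := fun p q => by
    rw [Complex.mul_re, rf p q]; simp [mul_self_nonneg]
  have spos : ∀ q, 0 < (s q).re := by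
    intro q
    have hq : q ∈ ⋃ p ∈ t, {q | 0 < (f p q * f p q).re} := by rw [ht]; trivial
    simp only [Set.mem_iUnion, Set.mem_setOf_eq] at hq
    obtain ⟨p, hp, h1⟩ := hq
    rw [hs]
    simp only [Pi.mul_apply, Complex.re_sum]
    exact Finset.sum_pos' (fun p _ => nn p q) ⟨p, hp, h1⟩
  have hcont : Continuous fun q => (s q).re := Complex.continuous_re.comp (H.cont ss)
  obtain ⟨q0, -, hq0⟩ := isCompact_univ.exists_isMinOn (s := (Set.univ : Set P))
    Set.univ_nonempty hcont.continuousOn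
  obtain ⟨c, hc⟩ : ∃ c : ℝ, c = (s q0).re := ⟨_, rfl⟩
  have c0 : 0 < c := by rw [hc]; exact spos q0
  have hcs : ∀ q, c ≤ (s q).re := fun q => by rw [hc]; exact hq0 (Set.mem_univ q)
  obtain ⟨v, hv⟩ : ∃ v : P → ℂ, v = fun q => ((isqF c (s q).re : ℝ) : ℂ) := ⟨_, rfl⟩
  have sv : S.Sm v := by rw [hv]; exact S.sm_comp (isqF_contDiff c0) ss rs
  have rv : Rl v := by rw [hv]; exact fun p => Complex.ofReal_im _
  have vs : ∀ q, v q ^ 2 * s q = 1 := by
    intro q
    have h1 : s q = (((s q).re : ℝ) : ℂ) := (Rl.ofReal_re rs q).symm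
    rw [hv]
    simp only []
    rw [isqF_eq c0 (hcs q), h1]
    simp only [Complex.ofReal_re]
    rw [← Complex.ofReal_pow, ← Complex.ofReal_mul, inv_pow, Real.sq_sqrt (spos q).le,
      inv_mul_cancel₀ (spos q).ne', Complex.ofReal_one]
  let e := t.equivFin.symm
  refine ⟨t.card, ⟨?_⟩⟩
  refine
    { x := fun c => x (e c)
      Y := fun c => Y (e c)
      K := fun c => K (e c)
      ρ := fun c => f (e c) * v
      smx := fun c => (hL (e c)).smx
      rx := fun c => (hL (e c)).rx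
      smY := fun c => (hL (e c)).smY
      rY := fun c => (hL (e c)).rY
      smρ := fun c => S.sm_mul (sf _) sv
      rρ := fun c => (rf _).mul rv
      zρ := ?_
      sum := ?_
      Yx := fun c => (hL (e c)).Yx
      dec := fun c => (hL (e c)).dec
      near := fun c => hN (e c)
      comm := fun c => (hL (e c)).comm
      loc := fun c u su hu j p hp => H.loc su (oK (e c)) hu j p hp }
  · intro c
    refine DAlg.Zs.mul_left (sf _) sv ?_
    intro w p hp
    have hp' : p ∈ (tsupport (f (e c)))ᶜ := fun h => hp (tf _ h)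
    exact H.wd_zero_on (sf _) (isClosed_tsupport _).isOpen_compl
      (fun q hq => image_eq_zero_of_notMem_tsupport hq) w p hp'
  · intro p
    have h1 : ∑ c, (f (e c) * v) p ^ 2 = ∑ y : t, (f y * v) p ^ 2 :=
      Equiv.sum_comp e (fun y : t => (f y * v) p ^ 2)
    have h2 : ∑ y : t, (f y * v) p ^ 2 = ∑ y ∈ t, (f y * v) p ^ 2 :=
      Finset.sum_coe_sort t (fun y => (f y * v) p ^ 2)
    rw [h1, h2, ← vs p, hs]
    simp only [Pi.mul_apply, Finset.mul_sum]
    exact Finset.sum_congr rfl fun y _ => by ring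

end Vale.Agent.P205.F
end
end

section

/-!
Locality, bumps, coordinates and brackets for the differential function space of a compact surface;
the tensor of a Riemannian metric (P205, block BOXES).
-/

noncomputable section

set_option linter.all false

open scoped Manifold ContDiff Topology
open Set Filter

namespace Vale.Agent.P205.F

namespace Cov

variable {E : Type*} [NormedAddCommGroup E] [NormedSpace ℝ E]
  {M : Type*} [TopologicalSpace M] [ChartedSpace E M] [IsManifold 𝓘(ℝ, E) ∞ M]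
  (K : Cov E M) {A : Type*} (b : A → E)
  {F : Type*} [NormedAddCommGroup F] [NormedSpace ℝ F]

/-- derivatives are local -/
theorem Dv_congr {u v : M → F} {U : Set M} (oU : IsOpen U) (h : ∀ p ∈ U, u p = v p)
    (j : Fin K.n × A) {p : M} (hp : p ∈ U) : K.Dv b j u p = K.Dv b j v p := by
  by_cases hs : p ∈ (K.ph j.1).source
  · have h1 : u ∘ (K.ph j.1).symm =ᶠ[𝓝 (K.ph j.1 p)] v ∘ (K.ph j.1).symm := by
      have hc : ContinuousAt (K.ph j.1).symm (K.ph j.1 p) :=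
        continuousAt_extChartAt_symm'' ((K.ph j.1).map_source hs)
      have h2 : U ∈ 𝓝 ((K.ph j.1).symm (K.ph j.1 p)) := by
        rw [(K.ph j.1).left_inv hs]
        exact oU.mem_nhds hp
      filter_upwards [hc h2] with y hy
      exact h _ hy
    rw [Dv, Dv, h1.fderiv_eq]
  · rw [K.Dv_eq_zero b j _ hs, K.Dv_eq_zero b j _ hs]

/-- the coordinates of the chart `i`, cut off -/
def co (b : Module.Basis (Fin 2) ℝ E) (i : Fin K.n) (a : Fin 2) (p : M) : ℂ :=
  ((K.χ i p * b.repr (K.ph i p) a : ℝ) : ℂ)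

variable [FiniteDimensional ℝ E] (b : Module.Basis (Fin 2) ℝ E)

theorem co_contMDiff (i : Fin K.n) (a : Fin 2) :
    ContMDiff 𝓘(ℝ, E) 𝓘(ℝ, ℂ) ∞ (K.co b i a) := by
  have h1 : ContMDiff 𝓘(ℝ, E) 𝓘(ℝ, ℝ) ∞ (fun p => K.χ i p * b.repr (K.ph i p) a) := by
    refine contMDiff_of_tsupport fun p hp => ?_
    have h2 : p ∈ (K.ph i).source := K.tsupport_sub i (tsupport_smul_subset_left
      (K.χ i) (fun p => b.repr (K.ph i p) a) hp)
    have h3 : ContMDiffAt 𝓘(ℝ, E) 𝓘(ℝ, E) ∞ (K.ph i) p := by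
      rw [extChartAt_source] at h2
      exact (contMDiffOn_extChartAt (x := K.c i)).contMDiffAt
        ((chartAt E (K.c i)).open_source.mem_nhds h2)
    have h4 : ContDiff ℝ ∞ (fun y : E => b.repr y a) := by
      have h5 : ContDiff ℝ ∞ (LinearMap.toContinuousLinearMap (b.coord a)) :=
        ContinuousLinearMap.contDiff _
      exact h5
    exact (K.sm i).contMDiffAt.smul (h4.contMDiff.contMDiffAt.comp p h3)
  exact Complex.ofRealCLM.contDiff.comp_contMDiff h1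

/-- the derivatives of the coordinates along the fields of the same chart -/
theorem Dv_co {i : Fin K.n} {p : M} (hp : p ∈ K.V i) (a a' : Fin 2) :
    K.Dv b (i, a') (K.co b i a) p = if a' = a then 1 else 0 := by
  have hs := K.V_sub i hp
  rw [K.Dv_V b hp]
  have h1 : K.co b i a ∘ (K.ph i).symm =ᶠ[𝓝 (K.ph i p)]
      (Complex.ofRealCLM.comp (LinearMap.toContinuousLinearMap (b.coord a)) : E →L[ℝ] ℂ) := by
    have hc : ContinuousAt (K.ph i).symm (K.ph i p) :=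
      continuousAt_extChartAt_symm'' ((K.ph i).map_source hs)
    have h2 : K.V i ∈ 𝓝 ((K.ph i).symm (K.ph i p)) := by
      rw [(K.ph i).left_inv hs]
      exact (K.opn i).mem_nhds hp
    filter_upwards [hc h2, (K.isOpen_target i).mem_nhds ((K.ph i).map_source hs)] with y hy hy'
    simp only [Function.comp_apply, co]
    rw [K.one i _ hy, (K.ph i).right_inv hy', one_mul]
    rfl
  rw [h1.fderiv_eq, ContinuousLinearMap.fderiv]
  simp only [ContinuousLinearMap.comp_apply, LinearMap.coe_toContinuousLinearMap',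
    Module.Basis.coord_apply, Module.Basis.repr_self, Complex.ofRealCLM_apply]
  rw [Finsupp.single_apply]
  split_ifs <;> simp

/-- second derivatives commute -/
theorem Dv_comm {u : M → F} (hu : ContMDiff 𝓘(ℝ, E) 𝓘(ℝ, F) ∞ u) {i : Fin K.n} {p : M}
    (hp : p ∈ K.V i) (a a' : Fin 2) :
    K.Dv b (i, a) (K.Dv b (i, a') u) p = K.Dv b (i, a') (K.Dv b (i, a) u) p := by
  have hs := K.V_sub i hp
  have key : ∀ a a' : Fin 2, K.Dv b (i, a) (K.Dv b (i, a') u) p =
      fderiv ℝ (fderiv ℝ (u ∘ (K.ph i).symm)) (K.ph i p) (b a) (b a') := by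
    intro a a'
    rw [K.Dv_V b hp]
    have h1 : K.Dv b (i, a') u ∘ (K.ph i).symm =ᶠ[𝓝 (K.ph i p)]
        fun y => fderiv ℝ (u ∘ (K.ph i).symm) y (b a') := by
      have hc : ContinuousAt (K.ph i).symm (K.ph i p) :=
        continuousAt_extChartAt_symm'' ((K.ph i).map_source hs)
      have h2 : K.V i ∈ 𝓝 ((K.ph i).symm (K.ph i p)) := by
        rw [(K.ph i).left_inv hs]
        exact (K.opn i).mem_nhds hp
      filter_upwards [hc h2, (K.isOpen_target i).mem_nhds ((K.ph i).map_source hs)] with y hy hy'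
      simp only [Function.comp_apply]
      rw [K.Dv_V b hy, (K.ph i).right_inv hy']
    rw [h1.fderiv_eq]
    have hd : DifferentiableAt ℝ (fderiv ℝ (u ∘ (K.ph i).symm)) (K.ph i p) := by
      have h3 : ContDiffOn ℝ ∞ (fderiv ℝ (u ∘ (K.ph i).symm)) (K.ph i).target :=
        (K.contDiffOn_symm hu i).fderiv_of_isOpen (K.isOpen_target i) (by simp)
      exact (h3.contDiffAt ((K.isOpen_target i).mem_nhds
        ((K.ph i).map_source hs))).differentiableAt (by simp)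
    have h4 := (hd.hasFDerivAt.clm_apply (hasFDerivAt_const (b a') (K.ph i p))).fderiv
    rw [h4]
    simp
  rw [key, key]
  have h5 : ContDiffAt ℝ ∞ (u ∘ (K.ph i).symm) (K.ph i p) :=
    (K.contDiffOn_symm hu i).contDiffAt ((K.isOpen_target i).mem_nhds ((K.ph i).map_source hs))
  have h6 := (h5.isSymmSndFDerivAt (n := ∞) (by
    simp only [minSmoothness_of_isRCLikeNormedField]
    have h7 : ((2 : ℕ∞) : WithTop ℕ∞) ≤ ((⊤ : ℕ∞) : WithTop ℕ∞) := WithTop.coe_le_coe.2 le_top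
    exact h7))
  exact h6 (b a) (b a')

/-- decomposition of all derivatives in the coordinates of one chart -/
theorem Dv_dec {i : Fin K.n} {p : M} (hp : p ∈ K.V i) {u : M → ℂ}
    (hu : ContMDiff 𝓘(ℝ, E) 𝓘(ℝ, ℂ) ∞ u) (j : Fin K.n × Fin 2) :
    K.Dv b j u p = ∑ a, K.Dv b j (K.co b i a) p * K.Dv b (i, a) u p := by
  obtain ⟨c, hc⟩ := K.Dv_span b (F := ℂ) hp (K.X b j p)
  have h1 : ∀ {u : M → ℂ}, ContMDiff 𝓘(ℝ, E) 𝓘(ℝ, ℂ) ∞ u →
      K.Dv b j u p = ∑ a, c a • K.Dv b (i, a) u p := by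
    intro u hu
    rw [K.Dv_eq b hu]
    exact hc hu
  have h2 : ∀ a, K.Dv b j (K.co b i a) p = (c a : ℂ) := by
    intro a
    rw [h1 (K.co_contMDiff b i a), Fin.sum_univ_two, K.Dv_co b hp, K.Dv_co b hp]
    fin_cases a
    · simp
    · simp
  rw [h1 hu]
  refine Finset.sum_congr rfl fun a _ => ?_
  rw [h2, Complex.real_smul]

/-- **locality, bumps, coordinates, brackets** for the differential function space of a compact
surface -/
theorem loc [T2Space M] [CompactSpace M] : (K.dalg b).Loc where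
  cont := fun {u} hu => ContMDiff.continuous hu
  loc := by
    intro u U hu oU h j p hp
    have h1 := K.Dv_congr b (u := u) (v := fun _ => (0 : ℂ)) oU h j hp
    rw [K.dalg_D, h1, K.Dv_const]
    rfl
  bump := by
    intro p U oU pU
    obtain ⟨f, -, hf⟩ := (SmoothBumpFunction.nhds_basis_tsupport (I := 𝓘(ℝ, E)) p).mem_iff.1
      (oU.mem_nhds pU)
    refine ⟨fun q => ((f q : ℝ) : ℂ), ?_, fun q => Complex.ofReal_im _, ?_, ?_⟩
    · rw [K.dalg_Sm]
      exact Complex.ofRealCLM.contDiff.comp_contMDiff f.contMDiff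
    · simp [f.eq_one]
    · have h1 : tsupport (fun q => ((f q : ℝ) : ℂ)) ⊆ tsupport f := by
        refine closure_mono ?_
        intro q hq
        simp only [Function.mem_support] at hq ⊢
        intro h
        exact hq (by rw [h]; simp)
      exact h1.trans hf
  coord := by
    intro p
    obtain ⟨i, hi⟩ := K.cov p
    refine ⟨K.co b i, K.V i, fun a => K.co_contMDiff b i a, fun a q => Complex.ofReal_im _,
      K.opn i, hi, ?_, ?_⟩
    · refine ⟨fun a j => if j = (i, a) then 1 else 0, fun a k => ?_⟩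
      have h1 : ∀ j : Fin K.n × Fin 2, (((if j = (i, a) then (1 : ℝ) else 0 : ℝ) : ℂ) *
          (K.dalg b).D j (K.co b i k) p) = if j = (i, a) then K.Dv b j (K.co b i k) p else 0 := by
        intro j
        split_ifs <;> simp [K.dalg_D]
      rw [Finset.sum_congr rfl fun j _ => h1 j, Finset.sum_ite_eq' Finset.univ,
        if_pos (Finset.mem_univ _), K.Dv_co b hi]
    · intro q hq u hu
      refine ⟨fun a => K.Dv b (i, a) u q, fun j => ?_⟩
      rw [K.dalg_D, K.Dv_dec b hq hu]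
      refine Finset.sum_congr rfl fun a _ => ?_
      rw [K.dalg_D, mul_comm]
  brk := by
    intro j k p
    obtain ⟨i, hi⟩ := K.cov p
    refine ⟨fun l => ∑ a, if l = (i, a) then (K.Dv b j (K.Dv b k (K.co b i a)) p -
      K.Dv b k (K.Dv b j (K.co b i a)) p) else 0, fun u hu => ?_⟩
    have hu' : ContMDiff 𝓘(ℝ, E) 𝓘(ℝ, ℂ) ∞ u := hu
    have sx := fun a => K.co_contMDiff b i a
    -- second derivatives in the chart
    have h1 : ∀ j k : Fin K.n × Fin 2, K.Dv b j (K.Dv b k u) p =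
        ∑ a, (K.Dv b j (K.Dv b k (K.co b i a)) p * K.Dv b (i, a) u p +
          K.Dv b k (K.co b i a) p * ∑ a', K.Dv b j (K.co b i a') p *
            K.Dv b (i, a') (K.Dv b (i, a) u) p) := by
      intro j k
      have e1 : K.Dv b j (K.Dv b k u) p =
          K.Dv b j (∑ a, K.Dv b k (K.co b i a) * K.Dv b (i, a) u) p := by
        refine K.Dv_congr b (K.opn i) (fun q hq => ?_) j hi
        rw [K.Dv_dec b hq hu', Finset.sum_apply]
        rfl
      have e2 := (K.dalg b).D_sum_apply (A := Finset.univ)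
        (u := fun a : Fin 2 => K.Dv b k (K.co b i a) * K.Dv b (i, a) u) j
        (fun a _ => (K.dalg b).sm_mul (K.Dv_contMDiff b (sx a) k)
          (K.Dv_contMDiff b hu' (i, a))) p
      have e3 : (fun p => ∑ a, (K.Dv b k (K.co b i a) * K.Dv b (i, a) u) p) =
          ∑ a, K.Dv b k (K.co b i a) * K.Dv b (i, a) u := by
        funext q
        rw [Finset.sum_apply]
      rw [e3, K.dalg_D] at e2
      rw [e1, e2]
      refine Finset.sum_congr rfl fun a _ => ?_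
      rw [K.dalg_D, K.Dv_mul b (K.Dv_contMDiff b (sx a) k) (K.Dv_contMDiff b hu' (i, a)),
        Pi.add_apply, Pi.mul_apply, Pi.mul_apply,
        K.Dv_dec b hi (K.Dv_contMDiff b hu' (i, a)) j]
    show K.Dv b j (K.Dv b k u) p - K.Dv b k (K.Dv b j u) p = _
    rw [h1 j k, h1 k j]
    have h2 : ∑ l, (∑ a, if l = (i, a) then (K.Dv b j (K.Dv b k (K.co b i a)) p -
        K.Dv b k (K.Dv b j (K.co b i a)) p) else 0) * (K.dalg b).D l u p =
        ∑ a, (K.Dv b j (K.Dv b k (K.co b i a)) p -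
        K.Dv b k (K.Dv b j (K.co b i a)) p) * K.Dv b (i, a) u p := by
      simp only [Finset.sum_mul]
      rw [Finset.sum_comm]
      refine Finset.sum_congr rfl fun a _ => ?_
      have h3 : ∀ l : Fin K.n × Fin 2, (if l = (i, a) then (K.Dv b j (K.Dv b k (K.co b i a)) p -
          K.Dv b k (K.Dv b j (K.co b i a)) p) else 0) * (K.dalg b).D l u p =
          if l = (i, a) then (K.Dv b j (K.Dv b k (K.co b i a)) p -
          K.Dv b k (K.Dv b j (K.co b i a)) p) * (K.dalg b).D l u p else 0 := by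
        intro l
        split_ifs <;> simp
      rw [Finset.sum_congr rfl fun l _ => h3 l, Finset.sum_ite_eq' Finset.univ,
        if_pos (Finset.mem_univ _), K.dalg_D]
    rw [h2]
    simp only [Fin.sum_univ_two]
    have h4 := K.Dv_comm b hu' hi 0 1
    rw [h4]
    ring

/-! ### the tensor of a Riemannian metric -/

theorem sec_eq {p q : M} (h : q = p) (w : E) :
    (⟨q, w⟩ : TangentBundle 𝓘(ℝ, E) M) = ⟨p, w⟩ := by
  subst h
  rfl

/-- the chart fields are smooth sections -/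
theorem X_contMDiff (j : Fin K.n × Fin 2) :
    ContMDiff 𝓘(ℝ, E) 𝓘(ℝ, E).tangent ∞
      (fun p => (⟨p, K.X b j p⟩ : TangentBundle 𝓘(ℝ, E) M)) := by
  haveI : IsManifold 𝓘(ℝ, E) 1 M := IsManifold.of_le (n := ∞) (by
    have h7 : ((1 : ℕ∞) : WithTop ℕ∞) ≤ ((⊤ : ℕ∞) : WithTop ℕ∞) := WithTop.coe_le_coe.2 le_top
    exact h7)
  let s : (p : M) → TangentSpace 𝓘(ℝ, E) p :=
    fun p => (mfderiv 𝓘(ℝ, E) 𝓘(ℝ, E) (K.ph j.1).symm (K.ph j.1 p) (b j.2) : E)
  have hs : ContMDiffOn 𝓘(ℝ, E) 𝓘(ℝ, E).tangent ∞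
      (fun p => (⟨p, s p⟩ : TangentBundle 𝓘(ℝ, E) M)) (K.ph j.1).source := by
    have h1 : ContMDiffOn 𝓘(ℝ, E) 𝓘(ℝ, E) ∞ (K.ph j.1).symm (K.ph j.1).target :=
      contMDiffOn_extChartAt_symm (K.c j.1)
    have h2 := h1.contMDiffOn_tangentMapWithin (m := ∞) (by simp)
      (K.isOpen_target j.1).uniqueMDiffOn
    have h3 : ContMDiff 𝓘(ℝ, E) 𝓘(ℝ, E).tangent ∞
        (fun y : E => (⟨y, b j.2⟩ : TangentBundle 𝓘(ℝ, E) E)) :=
      contMDiff_vectorSpace_iff_contDiff.2 contDiff_const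
    have h4 : ContMDiffOn 𝓘(ℝ, E) 𝓘(ℝ, E) ∞ (K.ph j.1) (K.ph j.1).source := by
      rw [extChartAt_source]
      exact contMDiffOn_extChartAt
    have h5 := h2.comp (h3.comp_contMDiffOn h4) (fun p hp => (K.ph j.1).map_source hp)
    refine h5.congr fun p hp => ?_
    have h6 := (K.ph j.1).left_inv hp
    simp only [Function.comp_apply, tangentMapWithin]
    rw [mfderivWithin_of_isOpen (K.isOpen_target j.1) ((K.ph j.1).map_source hp)]
    exact (sec_eq h6 _).symm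
  have h7 := ContMDiffOn.smul_section_of_tsupport (V := fun x : M => TangentSpace 𝓘(ℝ, E) x)
    (ψ := K.χ j.1) (s := s) (K.sm j.1).contMDiffOn (K.isOpen_source j.1) (K.tsupport_sub j.1) hs
  exact h7

variable (g : Bundle.ContMDiffRiemannianMetric 𝓘(ℝ, E) ∞ E
    (fun x : M => TangentSpace 𝓘(ℝ, E) x))

/-- the components of a Riemannian metric -/
def G (j k : Fin K.n × Fin 2) (p : M) : ℂ := ((g.inner p (K.X b j p) (K.X b k p) : ℝ) : ℂ)

theorem G_contMDiff (j k : Fin K.n × Fin 2) :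
    ContMDiff 𝓘(ℝ, E) 𝓘(ℝ, ℂ) ∞ (K.G b g j k) := by
  have h1 := ContMDiff.clm_bundle_apply₂ (F₁ := E) (F₂ := E) (F₃ := ℝ)
    (E₃ := Bundle.Trivial M ℝ) (g.contMDiff) (K.X_contMDiff b j) (K.X_contMDiff b k)
  have h2 : ContMDiff 𝓘(ℝ, E) 𝓘(ℝ, ℝ) ∞ (fun p => g.inner p (K.X b j p) (K.X b k p)) := by
    intro p
    have h3 := h1 p
    rw [Bundle.contMDiffAt_totalSpace] at h3
    exact h3.2
  exact Complex.ofRealCLM.contDiff.comp_contMDiff h2

theorem clm_exp {ι : Type*} [Fintype ι] {F' : Type*} [NormedAddCommGroup F'] [NormedSpace ℝ F']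
    (T : E →L[ℝ] F') {v : E} {c : ι → ℝ} {w : ι → E} (h : v = ∑ a, c a • w a) :
    T v = ∑ a, c a • T (w a) := by
  rw [h, map_sum]
  exact Finset.sum_congr rfl fun a _ => map_smul _ _ _

theorem bil_sum {ι : Type*} [Fintype ι] (B : E →L[ℝ] E →L[ℝ] ℝ) {u : E} {c : ι → ℝ} {v : ι → E}
    (h : u = ∑ a, c a • v a) :
    B u u = ∑ j, ∑ k, c j * c k * B (v j) (v k) := by
  have h1 : B u u = ∑ j, c j • B (v j) u := clm_exp (B.flip u) h
  rw [h1]
  refine Finset.sum_congr rfl fun j _ => ?_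
  rw [clm_exp (B (v j)) h, Finset.smul_sum]
  refine Finset.sum_congr rfl fun k _ => ?_
  rw [smul_eq_mul, smul_eq_mul]
  ring

/-- the chart fields as vectors of `E` -/
def XE (j : Fin K.n × Fin 2) (p : M) : E := K.X b j p

/-- the differential as a map on `E` -/
def dfE (u : M → F) (p : M) : E →L[ℝ] F := mfderiv 𝓘(ℝ, E) 𝓘(ℝ, F) u p

theorem Dv_eqE {u : M → F} (hu : ContMDiff 𝓘(ℝ, E) 𝓘(ℝ, F) ∞ u) (j : Fin K.n × Fin 2) (p : M) :
    K.Dv b j u p = dfE u p (K.XE b j p) := K.Dv_eq b hu j p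

/-- the metric as a bilinear form on `E` -/
def gE (p : M) : E →L[ℝ] E →L[ℝ] ℝ := g.inner p

theorem G_eqE (j k : Fin K.n × Fin 2) (p : M) :
    K.G b g j k p = ((gE g p (K.XE b j p) (K.XE b k p) : ℝ) : ℂ) := rfl

/-- expansion of the chart fields -/
theorem X_exp {i : Fin K.n} {p : M} (hp : p ∈ K.V i) (j : Fin K.n × Fin 2) :
    ∃ e : Fin 2 → ℝ, K.XE b j p = ∑ a, e a • K.XE b (i, a) p ∧
      ∀ a, K.Dv b j (K.co b i a) p = (e a : ℂ) := by
  obtain ⟨c, hc⟩ : ∃ c : Fin 2 → ℝ, c = fun a => b.repr (mfderiv 𝓘(ℝ, E) 𝓘(ℝ, E) (K.ph i) p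
    (K.X b j p) : E) a := ⟨_, rfl⟩
  have h1 := K.X_span b (K.V_sub i hp) (K.X b j p)
  rw [K.one i p hp, one_smul] at h1
  have h1' : K.XE b j p = ∑ a, c a • K.XE b (i, a) p := by
    rw [hc]; exact h1
  refine ⟨c, h1', fun a => ?_⟩
  rw [K.Dv_eqE b (K.co_contMDiff b i a)]
  have h3 := clm_exp (dfE (K.co b i a) p) h1'
  have h4 : ∀ a', dfE (K.co b i a) p (K.XE b (i, a') p) = if a' = a then 1 else 0 := by
    intro a'
    rw [← K.Dv_co b hp a a', K.Dv_eqE b (K.co_contMDiff b i a)]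
  rw [Fin.sum_univ_two, h4, h4] at h3
  refine h3.trans ?_
  fin_cases a
  · simp
  · simp

theorem G_isT [CompactSpace M] : (K.dalg b).IsT (K.G b g) := by
  refine ⟨fun j k => ?_, fun p c hc k => ?_⟩
  · funext p
    simp only [G]
    rw [g.symm]
  · obtain ⟨i, hi⟩ := K.cov p
    choose e he he' using fun j => K.X_exp b hi j
    have h1 : ∀ j, K.G b g j k p = ∑ a, (e j a : ℂ) * K.G b g (i, a) k p := by
      intro j
      have h3 := clm_exp ((gE g p).flip (K.XE b k p)) (he j)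
      simp only [K.G_eqE b g]
      have h4 : gE g p (K.XE b j p) (K.XE b k p) =
          ∑ a, e j a • gE g p (K.XE b (i, a) p) (K.XE b k p) := h3
      rw [h4]
      simp only [smul_eq_mul]
      push_cast
      rfl
    have h2 : ∀ a, ∑ j, c j * (e j a : ℂ) = 0 := by
      intro a
      have h3 := hc (K.co b i a) (K.co_contMDiff b i a)
      simp only [K.dalg_D, he'] at h3
      exact h3
    have h3 : ∀ j, c j * K.G b g j k p =
        ∑ a, (c j * (e j a : ℂ)) * K.G b g (i, a) k p := fun j => by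
      rw [h1 j, Finset.mul_sum]
      exact Finset.sum_congr rfl fun a _ => by ring
    rw [Finset.sum_congr rfl fun j _ => h3 j, Finset.sum_comm]
    refine Finset.sum_eq_zero fun a _ => ?_
    rw [← Finset.sum_mul, h2, zero_mul]

theorem G_rl (j k : Fin K.n × Fin 2) : Rl (K.G b g j k) := fun p => Complex.ofReal_im _

theorem G_quad (p : M) (c : Fin K.n × Fin 2 → ℝ) :
    ∑ j, ∑ k, (c j : ℂ) * (c k : ℂ) * K.G b g j k p =
      ((gE g p (∑ j, c j • K.XE b j p) (∑ j, c j • K.XE b j p) : ℝ) : ℂ) := by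
  rw [bil_sum (gE g p) (c := c) (v := fun j => K.XE b j p) rfl]
  push_cast
  rfl

theorem G_posT [CompactSpace M] : (K.dalg b).PosT (K.G b g) := by
  rintro p c ⟨u, hu, hne⟩
  rw [K.G_quad b g, Complex.ofReal_re]
  refine g.pos p (∑ j, c j • K.XE b j p : E) ?_
  intro h0
  apply hne
  have h3 : ∀ j, (c j : ℂ) * (K.dalg b).D j u p = c j • dfE u p (K.XE b j p) := by
    intro j
    rw [K.dalg_D, K.Dv_eqE b hu, Complex.real_smul]
  simp only [h3]
  rw [← clm_exp (dfE u p) (c := c) (w := fun j => K.XE b j p) rfl]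
  have h4 : (∑ j, c j • K.XE b j p : E) = 0 := h0
  rw [h4, map_zero]

/-- **(BOXES)** for a compact surface with a Riemannian metric -/
theorem exists_boxes [T2Space M] [CompactSpace M] [Nonempty M] {κ0 : ℝ} (hκ : 0 < κ0) :
    ∃ n : ℕ, Nonempty (Boxes (K.dalg b) (Fin n) (K.G b g) κ0) :=
  (K.loc b).exists_boxes (K.G_isT b g) (K.G_rl b g) (K.G_contMDiff b g) (K.G_posT b g) hκ

end Cov

end Vale.Agent.P205.F
end
end

section

/-!
WKB solve, pure algebra (P205, block W): the identity for the linearised metric operator applied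
to `exp(iλΨ) V` for a field `V` supported in the region of a ray.
-/

set_option linter.all false

open scoped ContDiff

namespace Vale.Agent.P205.F

universe u

variable {P : Type u} {κ : Type} (S : DAlg P κ)

/-! ### closure of `Sm` -/

theorem DAlg.q_sm_zero : S.Sm (0 : P → ℂ) := S.sm_const 0

theorem DAlg.q_sm_cmul {u : P → ℂ} (c : ℂ) (hu : S.Sm u) : S.Sm (fun p => c * u p) :=
  S.sm_mul (S.sm_const c) hu

theorem DAlg.q_sm_neg {u : P → ℂ} (hu : S.Sm u) : S.Sm (-u) := by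
  have h := S.q_sm_cmul (-1) hu
  have e : (fun p => (-1 : ℂ) * u p) = -u := by
    funext p; simp
  rwa [e] at h

theorem DAlg.q_sm_sub {u v : P → ℂ} (hu : S.Sm u) (hv : S.Sm v) : S.Sm (u - v) := by
  rw [sub_eq_add_neg]; exact S.sm_add hu (S.q_sm_neg hv)

theorem DAlg.q_sm_sum {α : Type*} (s : Finset α) {u : α → P → ℂ} (h : ∀ a ∈ s, S.Sm (u a)) :
    S.Sm (∑ a ∈ s, u a) := by
  classical
  induction s using Finset.induction_on with
  | empty => simpa using S.q_sm_zero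
  | insert a s ha ih =>
    rw [Finset.sum_insert ha]
    exact S.sm_add (h a (Finset.mem_insert_self _ _))
      (ih (fun b hb => h b (Finset.mem_insert_of_mem hb)))

theorem DAlg.q_sm_sum' {α : Type*} (s : Finset α) {u : α → P → ℂ} (h : ∀ a ∈ s, S.Sm (u a)) :
    S.Sm (fun p => ∑ a ∈ s, u a p) := by
  have e : (fun p => ∑ a ∈ s, u a p) = ∑ a ∈ s, u a := by
    funext p; simp
  rw [e]; exact S.q_sm_sum s h

theorem DAlg.q_sm_add' {u v : P → ℂ} (hu : S.Sm u) (hv : S.Sm v) : S.Sm (fun p => u p + v p) :=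
  S.sm_add hu hv

theorem DAlg.q_sm_mul' {u v : P → ℂ} (hu : S.Sm u) (hv : S.Sm v) : S.Sm (fun p => u p * v p) :=
  S.sm_mul hu hv

theorem DAlg.q_sm_sub' {u v : P → ℂ} (hu : S.Sm u) (hv : S.Sm v) : S.Sm (fun p => u p - v p) :=
  S.q_sm_sub hu hv

theorem DAlg.q_sm_dot {X Y : Fin 4 → P → ℂ} (hX : ∀ i, S.Sm (X i)) (hY : ∀ i, S.Sm (Y i)) :
    S.Sm (dot X Y) :=
  S.q_sm_sum' _ (fun i _ => S.sm_mul (hX i) (hY i))

theorem DAlg.q_sm_dir [Fintype κ] {c : κ → P → ℂ} {u : P → ℂ} (hc : ∀ j, S.Sm (c j))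
    (hu : S.Sm u) : S.Sm (S.dir c u) :=
  S.q_sm_sum' _ (fun j _ => S.sm_mul (hc j) (S.sm_D j hu))

/-! ### rules for `D` -/

theorem DAlg.q_D_zero (j : κ) : S.D j (0 : P → ℂ) = 0 := S.D_const j 0

theorem DAlg.q_D_cmul {u : P → ℂ} (j : κ) (c : ℂ) (hu : S.Sm u) :
    S.D j (fun p => c * u p) = fun p => c * S.D j u p := by
  have h := S.D_mul j (S.sm_const c) hu
  have e : ((fun _ => c) * u : P → ℂ) = fun p => c * u p := rfl
  rw [e] at h
  rw [h, S.D_const]
  funext p; simp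

theorem DAlg.q_D_neg {u : P → ℂ} (j : κ) (hu : S.Sm u) : S.D j (-u) = -S.D j u := by
  have h := S.q_D_cmul j (-1) hu
  have e : (fun p => (-1 : ℂ) * u p) = -u := by
    funext p; simp
  rw [e] at h; rw [h]; funext p; simp

theorem DAlg.q_D_sub {u v : P → ℂ} (j : κ) (hu : S.Sm u) (hv : S.Sm v) :
    S.D j (u - v) = S.D j u - S.D j v := by
  rw [sub_eq_add_neg, S.D_add j hu (S.q_sm_neg hv), S.q_D_neg j hv, sub_eq_add_neg]

theorem DAlg.q_D_sum {α : Type*} (j : κ) (s : Finset α) {u : α → P → ℂ}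
    (h : ∀ a ∈ s, S.Sm (u a)) : S.D j (∑ a ∈ s, u a) = ∑ a ∈ s, S.D j (u a) := by
  classical
  induction s using Finset.induction_on with
  | empty => simpa using S.q_D_zero j
  | insert a s ha ih =>
    rw [Finset.sum_insert ha, Finset.sum_insert ha,
      S.D_add j (h a (Finset.mem_insert_self _ _))
        (S.q_sm_sum s (fun b hb => h b (Finset.mem_insert_of_mem hb))),
      ih (fun b hb => h b (Finset.mem_insert_of_mem hb))]

theorem DAlg.q_D_sum' {α : Type*} (j : κ) (s : Finset α) {u : α → P → ℂ}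
    (h : ∀ a ∈ s, S.Sm (u a)) :
    S.D j (fun p => ∑ a ∈ s, u a p) = fun p => ∑ a ∈ s, S.D j (u a) p := by
  have e : (fun p => ∑ a ∈ s, u a p) = ∑ a ∈ s, u a := by
    funext p; simp
  rw [e, S.q_D_sum j s h]; funext p; simp

theorem DAlg.q_D_dot {X Y : Fin 4 → P → ℂ} (j : κ) (hX : ∀ i, S.Sm (X i))
    (hY : ∀ i, S.Sm (Y i)) (p : P) :
    S.D j (dot X Y) p = dot (fun i => S.D j (X i)) Y p + dot X (fun i => S.D j (Y i)) p := by
  unfold dot
  have h : ∀ i ∈ (Finset.univ : Finset (Fin 4)), S.Sm (X i * Y i) :=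
    fun i _ => S.sm_mul (hX i) (hY i)
  have e := S.q_D_sum' j Finset.univ h
  have e' : (fun p => ∑ i, (X i * Y i) p) = fun p => ∑ i, X i p * Y i p := rfl
  rw [e'] at e
  rw [e, ← Finset.sum_add_distrib]
  refine Finset.sum_congr rfl (fun i _ => ?_)
  rw [S.D_mul j (hX i) (hY i)]
  rfl

/-! ### rules for `dir` -/

section
variable [Fintype κ]

theorem DAlg.q_dir_mul (c : κ → P → ℂ) {u v : P → ℂ} (hu : S.Sm u) (hv : S.Sm v) (p : P) :
    S.dir c (u * v) p = S.dir c u p * v p + u p * S.dir c v p := by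
  unfold DAlg.dir
  rw [Finset.sum_mul, Finset.mul_sum, ← Finset.sum_add_distrib]
  refine Finset.sum_congr rfl (fun j _ => ?_)
  rw [S.D_mul j hu hv]
  simp only [Pi.add_apply, Pi.mul_apply]; ring

theorem DAlg.q_dir_add (c : κ → P → ℂ) {u v : P → ℂ} (hu : S.Sm u) (hv : S.Sm v) (p : P) :
    S.dir c (u + v) p = S.dir c u p + S.dir c v p := by
  unfold DAlg.dir
  rw [← Finset.sum_add_distrib]
  refine Finset.sum_congr rfl (fun j _ => ?_)
  rw [S.D_add j hu hv]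
  simp only [Pi.add_apply]; ring

theorem DAlg.q_dir_sub (c : κ → P → ℂ) {u v : P → ℂ} (hu : S.Sm u) (hv : S.Sm v) (p : P) :
    S.dir c (u - v) p = S.dir c u p - S.dir c v p := by
  unfold DAlg.dir
  rw [← Finset.sum_sub_distrib]
  refine Finset.sum_congr rfl (fun j _ => ?_)
  rw [S.q_D_sub j hu hv]
  simp only [Pi.sub_apply]; ring

theorem DAlg.q_dir_cmul (c : κ → P → ℂ) (a : ℂ) {u : P → ℂ} (hu : S.Sm u) (p : P) :
    S.dir c (fun p => a * u p) p = a * S.dir c u p := by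
  unfold DAlg.dir
  rw [Finset.mul_sum]
  refine Finset.sum_congr rfl (fun j _ => ?_)
  rw [S.q_D_cmul j a hu]; ring

theorem DAlg.q_dir_dot (c : κ → P → ℂ) {X Y : Fin 4 → P → ℂ} (hX : ∀ i, S.Sm (X i))
    (hY : ∀ i, S.Sm (Y i)) (p : P) :
    S.dir c (dot X Y) p = dot (fun i => S.dir c (X i)) Y p + dot X (fun i => S.dir c (Y i)) p := by
  unfold DAlg.dir
  have h : ∀ j, c j p * S.D j (dot X Y) p =
      c j p * dot (fun i => S.D j (X i)) Y p + c j p * dot X (fun i => S.D j (Y i)) p := by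
    intro j; rw [S.q_D_dot j hX hY, mul_add]
  rw [Finset.sum_congr rfl (fun j _ => h j), Finset.sum_add_distrib]
  congr 1
  · unfold dot
    simp only [Finset.mul_sum, Finset.sum_mul]
    rw [Finset.sum_comm]
    refine Finset.sum_congr rfl (fun i _ => Finset.sum_congr rfl (fun j _ => ?_)); ring
  · unfold dot
    simp only [Finset.mul_sum]
    rw [Finset.sum_comm]
    refine Finset.sum_congr rfl (fun i _ => Finset.sum_congr rfl (fun j _ => ?_)); ring

end

/-! ### supports -/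

theorem DAlg.Zs.q_apply {S : DAlg P κ} {K : Set P} {u : P → ℂ} (h : S.Zs K u) {p : P}
    (hp : p ∉ K) : u p = 0 := h [] p hp

theorem DAlg.q_wd_append (w : List κ) (j : κ) (u : P → ℂ) :
    S.wd (w ++ [j]) u = S.wd w (S.D j u) := by
  induction w with
  | nil => rfl
  | cons a w ih => simp only [List.cons_append, DAlg.wd, ih]

theorem DAlg.Zs.q_D {S : DAlg P κ} {K : Set P} {u : P → ℂ} (h : S.Zs K u) (j : κ) :
    S.Zs K (S.D j u) := by
  intro w p hp
  rw [← S.q_wd_append]; exact h _ p hp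

theorem DAlg.q_sm_wd {u : P → ℂ} (w : List κ) (hu : S.Sm u) : S.Sm (S.wd w u) := by
  induction w with
  | nil => exact hu
  | cons a w ih => exact S.sm_D a ih

theorem DAlg.q_wd_add {u v : P → ℂ} (w : List κ) (hu : S.Sm u) (hv : S.Sm v) :
    S.wd w (u + v) = S.wd w u + S.wd w v := by
  induction w with
  | nil => rfl
  | cons a w ih =>
    simp only [DAlg.wd, ih]
    exact S.D_add a (S.q_sm_wd w hu) (S.q_sm_wd w hv)

theorem DAlg.Zs.q_zero {S : DAlg P κ} {K : Set P} : S.Zs K (0 : P → ℂ) := by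
  intro w p _
  have : ∀ w : List κ, S.wd w (0 : P → ℂ) = 0 := by
    intro w
    induction w with
    | nil => rfl
    | cons a w ih => simp only [DAlg.wd, ih]; exact S.q_D_zero a
  rw [this]; rfl

theorem DAlg.Zs.q_add {S : DAlg P κ} {K : Set P} {u v : P → ℂ} (hu : S.Zs K u) (hv : S.Zs K v)
    (su : S.Sm u) (sv : S.Sm v) : S.Zs K (u + v) := by
  intro w p hp
  rw [S.q_wd_add w su sv]
  simp only [Pi.add_apply, hu w p hp, hv w p hp, add_zero]

theorem DAlg.Zs.q_mul_left {S : DAlg P κ} {K : Set P} {u v : P → ℂ} (hu : S.Zs K u)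
    (su : S.Sm u) (sv : S.Sm v) : S.Zs K (u * v) := by
  intro w
  induction w using List.reverseRecOn generalizing u v with
  | nil => intro p hp; show (u * v) p = 0; simp [hu.q_apply hp]
  | append_singleton w j ih =>
    intro p hp
    rw [S.q_wd_append, S.D_mul j su sv,
      S.q_wd_add w (S.sm_mul (S.sm_D j su) sv) (S.sm_mul su (S.sm_D j sv))]
    simp only [Pi.add_apply, ih (hu.q_D j) (S.sm_D j su) sv p hp, ih hu su (S.sm_D j sv) p hp,
      add_zero]

theorem DAlg.Zs.q_mul_right {S : DAlg P κ} {K : Set P} {u v : P → ℂ} (hv : S.Zs K v)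
    (su : S.Sm u) (sv : S.Sm v) : S.Zs K (u * v) := by
  rw [mul_comm]; exact hv.q_mul_left sv su

theorem DAlg.Zs.q_cmul {S : DAlg P κ} {K : Set P} {u : P → ℂ} (hu : S.Zs K u) (c : ℂ)
    (su : S.Sm u) : S.Zs K (fun p => c * u p) :=
  hu.q_mul_right (S.sm_const c) su

theorem DAlg.Zs.q_neg {S : DAlg P κ} {K : Set P} {u : P → ℂ} (hu : S.Zs K u)
    (su : S.Sm u) : S.Zs K (-u) := by
  have h := hu.q_cmul (-1) su
  have e : (fun p => (-1 : ℂ) * u p) = -u := by
    funext p; simp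
  rwa [e] at h

theorem DAlg.Zs.q_sub {S : DAlg P κ} {K : Set P} {u v : P → ℂ} (hu : S.Zs K u) (hv : S.Zs K v)
    (su : S.Sm u) (sv : S.Sm v) : S.Zs K (u - v) := by
  rw [sub_eq_add_neg]; exact hu.q_add (hv.q_neg sv) su (S.q_sm_neg sv)

theorem DAlg.Zs.q_sum {S : DAlg P κ} {K : Set P} {α : Type*} (s : Finset α) {u : α → P → ℂ}
    (h : ∀ a ∈ s, S.Zs K (u a)) (hs : ∀ a ∈ s, S.Sm (u a)) : S.Zs K (∑ a ∈ s, u a) := by
  classical
  induction s using Finset.induction_on with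
  | empty => simpa using DAlg.Zs.q_zero
  | insert a s ha ih =>
    rw [Finset.sum_insert ha]
    exact (h a (Finset.mem_insert_self _ _)).q_add
      (ih (fun b hb => h b (Finset.mem_insert_of_mem hb))
        (fun b hb => hs b (Finset.mem_insert_of_mem hb)))
      (hs a (Finset.mem_insert_self _ _))
      (S.q_sm_sum s (fun b hb => hs b (Finset.mem_insert_of_mem hb)))

theorem DAlg.Zs.q_sum' {S : DAlg P κ} {K : Set P} {α : Type*} (s : Finset α) {u : α → P → ℂ}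
    (h : ∀ a ∈ s, S.Zs K (u a)) (hs : ∀ a ∈ s, S.Sm (u a)) :
    S.Zs K (fun p => ∑ a ∈ s, u a p) := by
  have e : (fun p => ∑ a ∈ s, u a p) = ∑ a ∈ s, u a := by
    funext p; simp
  rw [e]; exact DAlg.Zs.q_sum s h hs

theorem DAlg.Zs.q_dir {S : DAlg P κ} [Fintype κ] {K : Set P} {c : κ → P → ℂ} {u : P → ℂ}
    (hu : S.Zs K u) (hc : ∀ j, S.Sm (c j)) (su : S.Sm u) : S.Zs K (S.dir c u) :=
  DAlg.Zs.q_sum' _ (fun j _ => (hu.q_D j).q_mul_right (hc j) (S.sm_D j su))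
    (fun j _ => S.sm_mul (hc j) (S.sm_D j su))

theorem DAlg.Zs.q_dot {S : DAlg P κ} {K : Set P} {X V : Fin 4 → P → ℂ}
    (hV : ∀ i, S.Zs K (V i)) (sX : ∀ i, S.Sm (X i)) (sV : ∀ i, S.Sm (V i)) :
    S.Zs K (dot X V) :=
  DAlg.Zs.q_sum' _ (fun i _ => (hV i).q_mul_right (sX i) (sV i))
    (fun i _ => S.sm_mul (sX i) (sV i))

/-! ### the phase factor -/

/-- `exp(iλΨ)` -/
noncomputable def qph (lam : ℝ) (Ψ : P → ℂ) : P → ℂ :=
  fun p => Complex.exp (Complex.I * lam * ((Ψ p).re : ℂ))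

theorem contDiff_qph (lam : ℝ) :
    ContDiff ℝ ∞ (fun x : ℝ => Complex.exp (Complex.I * lam * (x : ℂ))) := by
  have h1 : ContDiff ℝ ∞ (fun x : ℝ => (Complex.I * lam * (x : ℂ))) :=
    contDiff_const.mul Complex.ofRealCLM.contDiff
  exact h1.cexp

theorem deriv_qph (lam x : ℝ) :
    deriv (fun x : ℝ => Complex.exp (Complex.I * lam * (x : ℂ))) x =
      Complex.I * lam * Complex.exp (Complex.I * lam * (x : ℂ)) := by
  have h0 : HasDerivAt (fun y : ℂ => Complex.exp (Complex.I * lam * y))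
      (Complex.exp (Complex.I * lam * (x : ℂ)) * (Complex.I * lam * 1)) (x : ℂ) :=
    ((hasDerivAt_id (x : ℂ)).const_mul (Complex.I * lam)).cexp
  have h1 := h0.comp_ofReal
  rw [h1.deriv]; ring

theorem DAlg.q_sm_ph {Ψ : P → ℂ} (lam : ℝ) (h : S.Sm Ψ) (hr : Rl Ψ) : S.Sm (qph lam Ψ) :=
  S.sm_comp (F := fun x : ℝ => Complex.exp (Complex.I * lam * (x : ℂ))) (contDiff_qph lam) h hr

theorem DAlg.q_D_ph {Ψ : P → ℂ} (lam : ℝ) (j : κ) (h : S.Sm Ψ) (hr : Rl Ψ) (p : P) :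
    S.D j (qph lam Ψ) p = Complex.I * lam * S.D j Ψ p * qph lam Ψ p := by
  have e := S.D_comp (F := fun x : ℝ => Complex.exp (Complex.I * lam * (x : ℂ))) j
    (contDiff_qph lam) h hr
  have e' := congrFun e p
  rw [deriv_qph] at e'
  unfold qph
  rw [e']; ring

section
variable [Fintype κ]

theorem DAlg.q_dir_ph (c : κ → P → ℂ) {Ψ : P → ℂ} (lam : ℝ) (h : S.Sm Ψ) (hr : Rl Ψ) (p : P) :
    S.dir c (qph lam Ψ) p = Complex.I * lam * S.dir c Ψ p * qph lam Ψ p := by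
  unfold DAlg.dir
  rw [Finset.mul_sum, Finset.sum_mul]
  refine Finset.sum_congr rfl (fun j _ => ?_)
  rw [S.q_D_ph lam j h hr]; ring

/-! ### the linearised operator -/

theorem q_lin_alg (a b c d tX wX tv wv : Fin 4 → ℂ) (x y z w : ℂ)
    (ha : ∀ i, a i = x * tX i + y * wX i) (hb : ∀ i, b i = z * tX i + w * wX i)
    (hc : ∀ i, c i = x * tv i + y * wv i) (hd : ∀ i, d i = z * tv i + w * wv i) :
    ∑ i, a i * d i + ∑ i, b i * c i =
      x * z * (2 * ∑ i, tX i * tv i) +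
      (x * w + z * y) * (∑ i, tX i * wv i + ∑ i, wX i * tv i) +
      y * w * (2 * ∑ i, wX i * wv i) := by
  simp only [Finset.mul_sum, ← Finset.sum_add_distrib]
  refine Finset.sum_congr rfl (fun i _ => ?_)
  rw [ha, hb, hc, hd]; ring

/-- components of the linearised operator in a ray -/
theorem DAlg.q_lin_ray {r : Ray P κ} (hr : r.Ok S) {X v : Fin 4 → P → ℂ}
    (sX : ∀ i, S.Sm (X i)) (sv : ∀ i, S.Sm (v i)) (j k : κ) {p : P} (hp : p ∈ r.K) :
    S.lin X v j k p =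
      S.D j r.Ψ p * S.D k r.Ψ p *
        (2 * dot (fun i => S.dir r.t (X i)) (fun i => S.dir r.t (v i)) p) +
      (S.D j r.Ψ p * r.β k p + S.D k r.Ψ p * r.β j p) *
        (dot (fun i => S.dir r.t (X i)) (fun i => S.dir r.w (v i)) p +
          dot (fun i => S.dir r.w (X i)) (fun i => S.dir r.t (v i)) p) +
      r.β j p * r.β k p *
        (2 * dot (fun i => S.dir r.w (X i)) (fun i => S.dir r.w (v i)) p) := by
  have h := q_lin_alg (fun i => S.D j (X i) p) (fun i => S.D k (X i) p)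
    (fun i => S.D j (v i) p) (fun i => S.D k (v i) p)
    (fun i => S.dir r.t (X i) p) (fun i => S.dir r.w (X i) p)
    (fun i => S.dir r.t (v i) p) (fun i => S.dir r.w (v i) p)
    (S.D j r.Ψ p) (r.β j p) (S.D k r.Ψ p) (r.β k p)
    (fun i => hr.dec _ (sX i) j p hp) (fun i => hr.dec _ (sX i) k p hp)
    (fun i => hr.dec _ (sv i) j p hp) (fun i => hr.dec _ (sv i) k p hp)
  exact h

end

end Vale.Agent.P205.F
end

section

/-!
WKB solve along a ray (P205, block W): algebra, bounds, linearity.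
-/

set_option linter.all false

open scoped ContDiff

noncomputable section

namespace Vale.Agent.P205.F

universe u

variable {P : Type u} {κ : Type} [Fintype κ] (S : DAlg P κ)

theorem osc_eq_qph {lam : ℝ} {Ψ : P → ℂ} (hr : Rl Ψ) : osc lam Ψ = qph lam Ψ := by
  funext q
  unfold osc qph
  have e : Ψ q = ((Ψ q).re : ℂ) := by
    apply Complex.ext
    · simp
    · simpa using hr q
  rw [← e]

/-- value of a step, first component -/
theorem DAlg.wstep_zero (lam : ℝ) (r : Ray P κ) (F : Frm P) (X : Fin 4 → P → ℂ)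
    (h x : Fin 3 → P → ℂ) : S.wstep lam r F X h x 0 = fun q => (Complex.I * lam)⁻¹ *
      ((1 / 2 * h 0 q + dot (S.dirv r.t (S.dirv r.t X)) (F.vec x) q) - S.dir r.t (x 0) q) := by
  funext q
  simp only [DAlg.wstep, Matrix.cons_val_zero]
  rw [div_eq_mul_inv]; ring

theorem DAlg.wstep_one (lam : ℝ) (r : Ray P κ) (F : Frm P) (X : Fin 4 → P → ℂ)
    (h x : Fin 3 → P → ℂ) : S.wstep lam r F X h x 1 = fun q => (Complex.I * lam)⁻¹ *
      ((h 1 q + (dot (S.dirv r.w (S.dirv r.t X)) (F.vec x) q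
        + dot (S.dirv r.t (S.dirv r.w X)) (F.vec x) q)) -
        (S.dir r.w (x 0) q + S.dir r.t (x 1) q)) := by
  funext q
  simp only [DAlg.wstep, Matrix.cons_val_one, Matrix.cons_val_zero]
  rw [div_eq_mul_inv]; ring

theorem DAlg.wstep_two (lam : ℝ) (r : Ray P κ) (F : Frm P) (X : Fin 4 → P → ℂ)
    (h x : Fin 3 → P → ℂ) : S.wstep lam r F X h x 2 = fun q =>
      S.dir r.w (S.wstep lam r F X h x 1) q - 1 / 2 * h 2 q := by
  funext q
  simp only [DAlg.wstep, Matrix.cons_val_one, Matrix.cons_val_zero, Matrix.cons_val]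
  ring

theorem DAlg.sm_vec {F : Frm P} {r : Ray P κ} {X : Fin 4 → P → ℂ} (hF : F.Ok S r X)
    {x : Fin 3 → P → ℂ} (hx : ∀ c, S.Sm (x c)) (a : Fin 4) : S.Sm (F.vec x a) :=
  S.q_sm_add' (S.q_sm_add' (S.q_sm_mul' (hx 0) (hF.smP1 a)) (S.q_sm_mul' (hx 1) (hF.smP2 a)))
    (S.q_sm_mul' (hx 2) (hF.smN a))

theorem DAlg.zs_vec {F : Frm P} {r : Ray P κ} {X : Fin 4 → P → ℂ} (hF : F.Ok S r X)
    {x : Fin 3 → P → ℂ} (hx : ∀ c, S.Sm (x c)) (hz : ∀ c, S.Zs r.K (x c)) (a : Fin 4) :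
    S.Zs r.K (F.vec x a) :=
  (((hz 0).q_mul_left (hx 0) (hF.smP1 a)).q_add ((hz 1).q_mul_left (hx 1) (hF.smP2 a))
    (S.q_sm_mul' (hx 0) (hF.smP1 a)) (S.q_sm_mul' (hx 1) (hF.smP2 a))).q_add
    ((hz 2).q_mul_left (hx 2) (hF.smN a))
    (S.q_sm_add' (S.q_sm_mul' (hx 0) (hF.smP1 a)) (S.q_sm_mul' (hx 1) (hF.smP2 a)))
    (S.q_sm_mul' (hx 2) (hF.smN a))

theorem DAlg.sm_dirv {c : κ → P → ℂ} (hc : ∀ j, S.Sm (c j)) {X : Fin 4 → P → ℂ}
    (hX : ∀ a, S.Sm (X a)) (a : Fin 4) : S.Sm (S.dirv c X a) := S.q_sm_dir hc (hX a)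

/-- smoothness and support of a step -/
theorem DAlg.wstep_ok {lam : ℝ} {r : Ray P κ} (hr : r.Ok S) {F : Frm P} {X : Fin 4 → P → ℂ}
    (sX : ∀ a, S.Sm (X a)) (hF : F.Ok S r X) {h x : Fin 3 → P → ℂ} (hh : ∀ c, S.Sm (h c))
    (hx : ∀ c, S.Sm (x c)) : ∀ c, S.Sm (S.wstep lam r F X h x c) := by
  have hV := S.sm_vec hF hx
  have hXt := S.sm_dirv hr.smt sX
  have hXw := S.sm_dirv hr.smw sX
  have h0 : S.Sm (S.wstep lam r F X h x 0) := by
    rw [S.wstep_zero]
    exact S.q_sm_cmul _ (S.q_sm_sub' (S.q_sm_add' (S.q_sm_cmul _ (hh 0))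
      (S.q_sm_dot (S.sm_dirv hr.smt hXt) hV)) (S.q_sm_dir hr.smt (hx 0)))
  have h1 : S.Sm (S.wstep lam r F X h x 1) := by
    rw [S.wstep_one]
    exact S.q_sm_cmul _ (S.q_sm_sub' (S.q_sm_add' (hh 1)
      (S.q_sm_add' (S.q_sm_dot (S.sm_dirv hr.smw hXt) hV)
        (S.q_sm_dot (S.sm_dirv hr.smt hXw) hV)))
      (S.q_sm_add' (S.q_sm_dir hr.smw (hx 0)) (S.q_sm_dir hr.smt (hx 1))))
  have h2 : S.Sm (S.wstep lam r F X h x 2) := by
    rw [S.wstep_two]
    exact S.q_sm_sub' (S.q_sm_dir hr.smw h1) (S.q_sm_cmul _ (hh 2))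
  intro c
  fin_cases c
  · exact h0
  · exact h1
  · exact h2

theorem DAlg.wstep_zs {lam : ℝ} {r : Ray P κ} (hr : r.Ok S) {F : Frm P} {X : Fin 4 → P → ℂ}
    (sX : ∀ a, S.Sm (X a)) (hF : F.Ok S r X) {h x : Fin 3 → P → ℂ} (hh : ∀ c, S.Sm (h c))
    (hx : ∀ c, S.Sm (x c)) (zh : ∀ c, S.Zs r.K (h c)) (zx : ∀ c, S.Zs r.K (x c)) :
    ∀ c, S.Zs r.K (S.wstep lam r F X h x c) := by
  have hV := S.sm_vec hF hx
  have zV := S.zs_vec hF hx zx
  have hXt := S.sm_dirv hr.smt sX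
  have hXw := S.sm_dirv hr.smw sX
  have hs := S.wstep_ok (lam := lam) hr sX hF hh hx
  have h0 : S.Zs r.K (S.wstep lam r F X h x 0) := by
    rw [S.wstep_zero]
    have a1 := S.q_sm_cmul (1 / 2) (hh 0)
    have a2 := S.q_sm_dot (S.sm_dirv hr.smt hXt) hV
    have a3 := S.q_sm_dir hr.smt (hx 0)
    exact ((((zh 0).q_cmul (1 / 2) (hh 0)).q_add
      (DAlg.Zs.q_dot zV (S.sm_dirv hr.smt hXt) hV) a1 a2).q_sub
      ((zx 0).q_dir hr.smt (hx 0)) (S.q_sm_add' a1 a2) a3).q_cmul _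
        (S.q_sm_sub' (S.q_sm_add' a1 a2) a3)
  have h1 : S.Zs r.K (S.wstep lam r F X h x 1) := by
    rw [S.wstep_one]
    have a2 := S.q_sm_dot (S.sm_dirv hr.smw hXt) hV
    have a3 := S.q_sm_dot (S.sm_dirv hr.smt hXw) hV
    have a4 := S.q_sm_dir hr.smw (hx 0)
    have a5 := S.q_sm_dir hr.smt (hx 1)
    exact (((zh 1).q_add ((DAlg.Zs.q_dot zV (S.sm_dirv hr.smw hXt) hV).q_add
      (DAlg.Zs.q_dot zV (S.sm_dirv hr.smt hXw) hV) a2 a3) (hh 1) (S.q_sm_add' a2 a3)).q_sub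
      (((zx 0).q_dir hr.smw (hx 0)).q_add ((zx 1).q_dir hr.smt (hx 1)) a4 a5)
      (S.q_sm_add' (hh 1) (S.q_sm_add' a2 a3)) (S.q_sm_add' a4 a5)).q_cmul _
        (S.q_sm_sub' (S.q_sm_add' (hh 1) (S.q_sm_add' a2 a3)) (S.q_sm_add' a4 a5))
  have h2 : S.Zs r.K (S.wstep lam r F X h x 2) := by
    rw [S.wstep_two]
    exact (h1.q_dir hr.smw (hs 1)).q_sub ((zh 2).q_cmul (1 / 2) (hh 2))
      (S.q_sm_dir hr.smw (hs 1)) (S.q_sm_cmul _ (hh 2))
  intro c
  fin_cases c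
  · exact h0
  · exact h1
  · exact h2

theorem DAlg.wst_zero (lam : ℝ) (r : Ray P κ) (F : Frm P) (X : Fin 4 → P → ℂ)
    (h : Fin 3 → P → ℂ) : S.wst lam r F X h 0 = ![0, 0, fun q => (-1 / 2) * h 2 q] := by
  simp only [DAlg.wst]
  congr 1
  congr 1
  congr 1
  funext q
  ring

theorem DAlg.wst_ok {lam : ℝ} {r : Ray P κ} (hr : r.Ok S) {F : Frm P} {X : Fin 4 → P → ℂ}
    (sX : ∀ a, S.Sm (X a)) (hF : F.Ok S r X) {h : Fin 3 → P → ℂ} (hh : ∀ c, S.Sm (h c)) (m : ℕ) :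
    ∀ c, S.Sm (S.wst lam r F X h m c) := by
  induction m with
  | zero =>
    rw [S.wst_zero]
    intro c
    fin_cases c
    · exact S.q_sm_zero
    · exact S.q_sm_zero
    · exact S.q_sm_cmul _ (hh 2)
  | succ m ih => exact S.wstep_ok hr sX hF hh ih

theorem DAlg.wst_zs {lam : ℝ} {r : Ray P κ} (hr : r.Ok S) {F : Frm P} {X : Fin 4 → P → ℂ}
    (sX : ∀ a, S.Sm (X a)) (hF : F.Ok S r X) {h : Fin 3 → P → ℂ} (hh : ∀ c, S.Sm (h c))
    (zh : ∀ c, S.Zs r.K (h c)) (m : ℕ) :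
    ∀ c, S.Zs r.K (S.wst lam r F X h m c) := by
  induction m with
  | zero =>
    rw [S.wst_zero]
    intro c
    fin_cases c
    · exact DAlg.Zs.q_zero
    · exact DAlg.Zs.q_zero
    · exact (zh 2).q_cmul _ (hh 2)
  | succ m ih => exact S.wstep_zs hr sX hF hh (S.wst_ok hr sX hF hh m) zh ih

/-- `s = w r - h2/2` for every state -/
theorem DAlg.wst_two (lam : ℝ) (r : Ray P κ) (F : Frm P) (X : Fin 4 → P → ℂ)
    (h : Fin 3 → P → ℂ) (m : ℕ) (q : P) :
    S.wst lam r F X h m 2 q = S.dir r.w (S.wst lam r F X h m 1) q - 1 / 2 * h 2 q := by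
  cases m with
  | zero =>
    rw [S.wst_zero]
    simp only [Matrix.cons_val, Matrix.cons_val_one, Matrix.cons_val_zero]
    have : S.dir r.w (0 : P → ℂ) q = 0 := by
      unfold DAlg.dir
      simp [S.q_D_zero]
    rw [this]; ring
  | succ m =>
    show S.wstep lam r F X h (S.wst lam r F X h m) 2 q = _
    rw [S.wstep_two]; rfl

theorem vec_dot (F : Frm P) (x : Fin 3 → P → ℂ) (Y : Fin 4 → P → ℂ) (q : P) :
    dot Y (F.vec x) q = x 0 q * dot F.P1 Y q + x 1 q * dot F.P2 Y q + x 2 q * dot F.N Y q := by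
  unfold dot Frm.vec
  simp only [Finset.mul_sum, ← Finset.sum_add_distrib]
  refine Finset.sum_congr rfl (fun i _ => ?_)
  ring

theorem dot_off {V : Fin 4 → P → ℂ} {q : P} (h : ∀ a, V a q = 0) (Y : Fin 4 → P → ℂ) :
    dot Y V q = 0 := by
  unfold dot
  exact Finset.sum_eq_zero (fun i _ => by rw [h i, mul_zero])

/-- the products of `V` with `X_t, X_w, X_ww` -/
theorem DAlg.vec_t {r : Ray P κ} {F : Frm P} {X : Fin 4 → P → ℂ} (hF : F.Ok S r X)
    {x : Fin 3 → P → ℂ} (hx : ∀ c, S.Sm (x c)) (hz : ∀ c, S.Zs r.K (x c)) :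
    dot (S.dirv r.t X) (F.vec x) = x 0 := by
  funext q
  by_cases hq : q ∈ r.K
  · rw [vec_dot, hF.P1t q hq, hF.P2t q hq, hF.Nt q hq]; ring
  · rw [dot_off (fun a => (S.zs_vec hF hx hz a).q_apply hq), (hz 0).q_apply hq]

theorem DAlg.vec_w {r : Ray P κ} {F : Frm P} {X : Fin 4 → P → ℂ} (hF : F.Ok S r X)
    {x : Fin 3 → P → ℂ} (hx : ∀ c, S.Sm (x c)) (hz : ∀ c, S.Zs r.K (x c)) :
    dot (S.dirv r.w X) (F.vec x) = x 1 := by
  funext q
  by_cases hq : q ∈ r.K
  · rw [vec_dot, hF.P1w q hq, hF.P2w q hq, hF.Nw q hq]; ring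
  · rw [dot_off (fun a => (S.zs_vec hF hx hz a).q_apply hq), (hz 1).q_apply hq]

theorem DAlg.vec_ww {r : Ray P κ} {F : Frm P} {X : Fin 4 → P → ℂ} (hF : F.Ok S r X)
    {x : Fin 3 → P → ℂ} (hx : ∀ c, S.Sm (x c)) (hz : ∀ c, S.Zs r.K (x c)) :
    dot (S.dirv r.w (S.dirv r.w X)) (F.vec x) = x 2 := by
  funext q
  by_cases hq : q ∈ r.K
  · rw [vec_dot, hF.P1ww q hq, hF.P2ww q hq, hF.Nww q hq]; ring
  · rw [dot_off (fun a => (S.zs_vec hF hx hz a).q_apply hq), (hz 2).q_apply hq]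

/-- derivative of `osc * V a` along a field -/
theorem DAlg.dir_osc {lam : ℝ} {Ψ : P → ℂ} (sΨ : S.Sm Ψ) (rΨ : Rl Ψ) (c : κ → P → ℂ)
    {u : P → ℂ} (su : S.Sm u) (q : P) :
    S.dir c (osc lam Ψ * u) q = osc lam Ψ q * (Complex.I * lam * S.dir c Ψ q * u q
      + S.dir c u q) := by
  rw [osc_eq_qph rΨ, S.q_dir_mul c (S.q_sm_ph lam sΨ rΨ) su, S.q_dir_ph c lam sΨ rΨ]
  ring

theorem DAlg.dot_osc {lam : ℝ} {Ψ : P → ℂ} (sΨ : S.Sm Ψ) (rΨ : Rl Ψ) (c : κ → P → ℂ)
    {V : Fin 4 → P → ℂ} (sV : ∀ a, S.Sm (V a)) (Y : Fin 4 → P → ℂ) (q : P) :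
    dot Y (S.dirv c (fun a => osc lam Ψ * V a)) q = osc lam Ψ q *
      (Complex.I * lam * S.dir c Ψ q * dot Y V q + dot Y (S.dirv c V) q) := by
  unfold dot DAlg.dirv
  simp only [Finset.mul_sum, ← Finset.sum_add_distrib]
  refine Finset.sum_congr rfl (fun i _ => ?_)
  rw [S.dir_osc sΨ rΨ c (sV i)]; ring

/-- product rule in the form used below -/
theorem DAlg.dot_dirv {c d : κ → P → ℂ} {Y V : Fin 4 → P → ℂ}
    (sY : ∀ a, S.Sm (Y a)) (sV : ∀ a, S.Sm (V a)) {u : P → ℂ} (e : dot Y V = u) (q : P) :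
    dot Y (S.dirv c V) q = S.dir c u q - dot (S.dirv c Y) V q := by
  have h := S.q_dir_dot c sY sV q
  rw [e] at h
  rw [h]
  unfold DAlg.dirv
  ring

/-- **(W1)** -/
theorem DAlg.wkbAlg : S.WkbAlg := by
  intro lam r F X m h hlam hr sX rX hF sh zh
  have sx := S.wst_ok (lam := lam) hr sX hF sh m
  have zx := S.wst_zs (lam := lam) hr sX hF sh zh m
  have sV : ∀ a, S.Sm (S.wkb lam r F X m h a) := S.sm_vec hF sx
  have zV : ∀ a, S.Zs r.K (S.wkb lam r F X m h a) := S.zs_vec hF sx zx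
  refine ⟨sV, zV, ?_⟩
  intro j k q
  have zx' := S.wst_zs (lam := lam) hr sX hF sh zh (m + 1)
  have sosc : S.Sm (osc lam r.Ψ) := by
    rw [osc_eq_qph hr.rΨ]; exact S.q_sm_ph lam hr.smΨ hr.rΨ
  have sv : ∀ a, S.Sm (osc lam r.Ψ * S.wkb lam r F X m h a) := fun a => S.sm_mul sosc (sV a)
  by_cases hq : q ∈ r.K
  · have key := S.q_lin_ray hr sX sv j k hq
    have sXt := S.sm_dirv hr.smt sX
    have sXw := S.sm_dirv hr.smw sX
    have e0 := S.vec_t hF sx zx
    have e1 := S.vec_w hF sx zx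
    have e2 := S.vec_ww hF sx zx
    have a1 := S.dot_dirv (c := r.t) (d := r.t) sXt sV e0 q
    have a2 := S.dot_dirv (c := r.w) (d := r.t) sXt sV e0 q
    have a3 := S.dot_dirv (c := r.t) (d := r.t) sXw sV e1 q
    have a4 := S.dot_dirv (c := r.w) (d := r.t) sXw sV e1 q
    have b1 := S.dot_osc (lam := lam) hr.smΨ hr.rΨ r.t sV (S.dirv r.t X) q
    have b2 := S.dot_osc (lam := lam) hr.smΨ hr.rΨ r.w sV (S.dirv r.t X) q
    have b3 := S.dot_osc (lam := lam) hr.smΨ hr.rΨ r.t sV (S.dirv r.w X) q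
    have b4 := S.dot_osc (lam := lam) hr.smΨ hr.rΨ r.w sV (S.dirv r.w X) q
    rw [hr.tΨ q hq] at b1 b3
    rw [hr.wΨ q hq] at b2 b4
    have e0' := congrFun e0 q
    have e1' := congrFun e1 q
    have e2' := congrFun e2 q
    change dot (S.dirv r.t X) (S.wkb lam r F X m h) q = _ at e0'
    change dot (S.dirv r.w X) (S.wkb lam r F X m h) q = _ at e1'
    change dot (S.dirv r.w (S.dirv r.w X)) (S.wkb lam r F X m h) q = _ at e2'
    rw [e0', a1] at b1
    rw [e0', a2] at b2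
    rw [e1', a3] at b3
    rw [e1', a4, e2', S.wst_two] at b4
    have hne : (Complex.I * lam : ℂ) ≠ 0 :=
      mul_ne_zero Complex.I_ne_zero (by exact_mod_cast hlam)
    have s0 : Complex.I * lam * S.wst lam r F X h (m + 1) 0 q =
        (1 / 2 * h 0 q + dot (S.dirv r.t (S.dirv r.t X)) (S.wkb lam r F X m h) q)
          - S.dir r.t (S.wst lam r F X h m 0) q := by
      show Complex.I * lam * S.wstep lam r F X h (S.wst lam r F X h m) 0 q = _
      rw [S.wstep_zero]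
      show Complex.I * lam * ((Complex.I * lam)⁻¹ * _) = _
      rw [← mul_assoc, mul_inv_cancel₀ hne, one_mul]
      rfl
    have s1 : Complex.I * lam * S.wst lam r F X h (m + 1) 1 q =
        (h 1 q + (dot (S.dirv r.w (S.dirv r.t X)) (S.wkb lam r F X m h) q
        + dot (S.dirv r.t (S.dirv r.w X)) (S.wkb lam r F X m h) q)) -
        (S.dir r.w (S.wst lam r F X h m 0) q + S.dir r.t (S.wst lam r F X h m 1) q) := by
      show Complex.I * lam * S.wstep lam r F X h (S.wst lam r F X h m) 1 q = _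
      rw [S.wstep_one]
      show Complex.I * lam * ((Complex.I * lam)⁻¹ * _) = _
      rw [← mul_assoc, mul_inv_cancel₀ hne, one_mul]
      rfl
    have lhs : S.lin X (fun a => osc lam r.Ψ * S.wkb lam r F X m h a) j k q =
        S.D j r.Ψ q * S.D k r.Ψ q *
        (2 * dot (S.dirv r.t X) (S.dirv r.t (fun a => osc lam r.Ψ * S.wkb lam r F X m h a)) q) +
      (S.D j r.Ψ q * r.β k q + S.D k r.Ψ q * r.β j q) *
        (dot (S.dirv r.t X) (S.dirv r.w (fun a => osc lam r.Ψ * S.wkb lam r F X m h a)) q +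
          dot (S.dirv r.w X) (S.dirv r.t (fun a => osc lam r.Ψ * S.wkb lam r F X m h a)) q) +
      r.β j q * r.β k q *
        (2 * dot (S.dirv r.w X) (S.dirv r.w (fun a => osc lam r.Ψ * S.wkb lam r F X m h a)) q) :=
      key
    rw [lhs, b1, b2, b3, b4]
    simp only [Ray.ten, DAlg.wres, Matrix.cons_val_zero, Matrix.cons_val_one, Matrix.cons_val]
    linear_combination (osc lam r.Ψ q * S.D j r.Ψ q * S.D k r.Ψ q * 2) * s0 +
      (osc lam r.Ψ q * (S.D j r.Ψ q * r.β k q + r.β j q * S.D k r.Ψ q)) * s1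
  · have zv : ∀ a, S.Zs r.K (osc lam r.Ψ * S.wkb lam r F X m h a) :=
      fun a => (zV a).q_mul_right sosc (sV a)
    have l1 : S.lin X (fun a => osc lam r.Ψ * S.wkb lam r F X m h a) j k q = 0 := by
      unfold DAlg.lin
      rw [dot_off (V := S.Dv k (fun a => osc lam r.Ψ * S.wkb lam r F X m h a))
          (fun a => ((zv a).q_D k).q_apply hq),
        dot_off (V := S.Dv j (fun a => osc lam r.Ψ * S.wkb lam r F X m h a))
          (fun a => ((zv a).q_D j).q_apply hq),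
        add_zero]
    rw [l1]
    have z := fun c => (zh c).q_apply hq
    have z1 := fun c => (zx c).q_apply hq
    have z2 := fun c => (zx' c).q_apply hq
    simp only [Ray.ten, DAlg.wres, Matrix.cons_val_zero, Matrix.cons_val_one, Matrix.cons_val,
      z, z1, z2]
    ring

end Vale.Agent.P205.F
end
end

section

/-!
Bounds for the corrugation of one stage.
-/

noncomputable section

open scoped Classical

namespace Vale.Agent.P205.F

universe u

variable {P : Type u} {κ : Type} [Fintype κ] {S : DAlg P κ}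

section osc

variable {ι : Type*} {μ s : ι → ℝ}

/-- a function with `D_j u = v_j u`, `v_j = O(μ)`, `|u| ≤ 1` is `O(1)` at scale `μ` -/
theorem FO_of_D {u : ι → P → ℂ} {v : κ → ι → P → ℂ} (hμ : ∀ i, 0 ≤ μ i)
    (hu : ∀ i, S.Sm (u i)) (hb : ∀ i p, ‖u i p‖ ≤ 1) (hv : ∀ j, S.FO μ μ (v j))
    (hD : ∀ i j p, S.D j (u i) p = v j i p * u i p) : S.FO μ (fun _ => 1) u := by
  refine ⟨hu, fun k => ?_⟩
  induction k with
  | zero =>
    refine ⟨1, zero_le_one, fun i w hw p => ?_⟩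
    have hw0 : w = [] := List.length_eq_zero_iff.1 (Nat.le_zero.1 hw)
    subst hw0
    simpa using hb i p
  | succ k ih =>
    obtain ⟨C, hC, h⟩ := ih
    choose Cv hCv hv' using fun j => (hv j).2 k
    have hS : 0 ≤ ∑ j, Cv j := Finset.sum_nonneg fun j _ => hCv j
    refine ⟨C + 2 ^ k * ((∑ j, Cv j) * C), by positivity, fun i w hw p => ?_⟩
    have hμw : 0 ≤ μ i ^ w.length := pow_nonneg (hμ i) _
    by_cases hwk : w.length ≤ k
    · refine (h i w hwk p).trans (mul_le_mul_of_nonneg_right ?_ hμw)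
      have : 0 ≤ 2 ^ k * ((∑ j, Cv j) * C) := by positivity
      linarith
    · have hne : w ≠ [] := by
        rintro rfl
        exact hwk (Nat.zero_le _)
      obtain ⟨w', j, rfl⟩ : ∃ w' j, w = w' ++ [j] :=
        ⟨w.dropLast, w.getLast hne, (List.dropLast_append_getLast hne).symm⟩
      have hl : (w' ++ [j]).length = w'.length + 1 := by simp
      have hw' : w'.length ≤ k := by
        rw [hl] at hw; omega
      rw [S.wd_snoc]
      have e : S.D j (u i) = v j i * u i := funext fun p => hD i j p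
      rw [e]
      have hb2 := ((hv' j i).mul ((hv j).1 i) (hu i) (h i)) w' hw' p
      refine hb2.trans ?_
      rw [hl, pow_succ]
      have h1 : Cv j ≤ ∑ j, Cv j := Finset.single_le_sum (fun j _ => hCv j) (Finset.mem_univ j)
      have h2 : 0 ≤ μ i ^ w'.length := pow_nonneg (hμ i) _
      have h3 : 2 ^ k * (Cv j * μ i * (C * 1)) * μ i ^ w'.length
          = (2 ^ k * (Cv j * C)) * (μ i ^ w'.length * μ i) := by ring
      rw [h3]
      refine mul_le_mul_of_nonneg_right ?_ (mul_nonneg h2 (hμ i))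
      have h4 : 2 ^ k * (Cv j * C) ≤ 2 ^ k * ((∑ j, Cv j) * C) := by gcongr
      linarith only [h4, hC]

theorem norm_osc {lam : ℝ} {Ψ : P → ℂ} (h : Rl Ψ) (p : P) : ‖osc lam Ψ p‖ = 1 := by
  unfold osc
  rw [Complex.norm_exp]
  have : (Complex.I * lam * Ψ p).re = 0 := by
    simp [h p]
  rw [this, Real.exp_zero]

/-- the oscillating factor is `O(1)` at scale `λ` -/
theorem FO_osc {lam : ι → ℝ} {Ψ : ι → P → ℂ} (hl : ∀ i, 0 ≤ lam i)
    (sΨ : ∀ i, S.Sm (Ψ i)) (rΨ : ∀ i, Rl (Ψ i))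
    (h : ∀ j, S.FO lam (fun _ => 1) (fun i => S.D j (Ψ i))) :
    S.FO lam (fun _ => 1) (fun i => osc (lam i) (Ψ i)) := by
  refine FO_of_D (v := fun j i p => (Complex.I * lam i) * S.D j (Ψ i) p)
    hl (fun i => ?_) (fun i p => (norm_osc (rΨ i) p).le) (fun j => ?_) (fun i j p => ?_)
  · rw [osc_eq_qph (rΨ i)]; exact S.q_sm_ph _ (sΨ i) (rΨ i)
  · have h1 := DAlg.FO.smul (r := lam) (c := fun i => Complex.I * lam i) (C := 1)
      (fun i => by simp [abs_of_nonneg (hl i)]) hl (h j)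
    exact h1.congr_s fun i => mul_one _
  · rw [osc_eq_qph (rΨ i), S.q_D_ph _ j (sΨ i) (rΨ i)]

omit [Fintype κ] in
theorem FO_re {u : ι → P → ℂ} (hu : S.FO μ s u) : S.FO μ s (fun i p => ((u i p).re : ℂ)) := by
  refine ((hu.add hu.conj).const_mul (1 / 2)).congr fun i p => ?_
  have h2 := Complex.add_conj (u i p)
  simp only [Pi.add_apply, h2]
  push_cast
  ring

theorem FO_cmp {Λ Θ s : ι → ℝ} {c : ι → κ → P → ℂ} {B : ι → κ → Fin 4 → P → ℂ}
    (hc : ∀ j, S.FO Θ Λ (fun i => c i j)) (hB : ∀ j a, S.FO Θ s (fun i => B i j a)) (a : Fin 4) :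
    S.FO Θ (fun i => Λ i * s i) (fun i => cmp (c i) (B i) a) :=
  DAlg.FO.sum' (S := S) (A := (Finset.univ : Finset κ)) (u := fun j i => c i j * B i j a)
    fun j _ => (hc j).mul (hB j a)

omit [Fintype κ] in
theorem FO_twv {Θ s : ι → ℝ} (σ : Bool) {V : ι → Fin 4 → P → ℂ}
    (hV : ∀ a, S.FO Θ s (fun i => V i a)) (a : Fin 4) :
    S.FO Θ s (fun i => twv σ (V i) a) := by
  cases σ
  · exact (hV a).conj
  · exact hV a

end osc

/-- everything that is known before the corrugation is estimated -/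
structure StB (S : DAlg P κ) {Q : Type} [Fintype Q] {ι : Type u} (θ b lam : ι → ℝ)
    (d : ι → PData P κ Q) (X : ι → Fin 4 → P → ℂ) (F : ι → Q ⊕ (Q × Q × Bool) → Frm P)
    (α : ι → Q → P → ℂ) : Prop where
  hb : ∀ i, 1 ≤ b i
  hθ : ∀ i, b i ≤ θ i
  hlam : ∀ i, θ i ≤ lam i
  dOk : ∀ i, (d i).Ok S
  FB : PData.FBd S d θ
  sX : ∀ i a, S.Sm (X i a)
  rX : ∀ i a, Rl (X i a)
  fr : FrmBd S θ b d X F
  sα : ∀ i a, S.Sm (α i a)
  rα : ∀ i a, Rl (α i a)
  zα : ∀ i a, S.Zs ((d i).ray a).K (α i a)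
  bα : ∀ a, S.FO θ (fun _ => 1) (fun i => α i a)

namespace StB

variable {Q : Type} [Fintype Q] {ι : Type u} {θ b lam : ι → ℝ} {d : ι → PData P κ Q}
  {X : ι → Fin 4 → P → ℂ} {F : ι → Q ⊕ (Q × Q × Bool) → Frm P} {α : ι → Q → P → ℂ}

theorem θ1 (H : StB S θ b lam d X F α) (i : ι) : 1 ≤ θ i := (H.hb i).trans (H.hθ i)

theorem θ0 (H : StB S θ b lam d X F α) (i : ι) : 0 ≤ θ i := zero_le_one.trans (H.θ1 i)

theorem lam1 (H : StB S θ b lam d X F α) (i : ι) : 1 ≤ lam i := (H.θ1 i).trans (H.hlam i)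

theorem lam0 (H : StB S θ b lam d X F α) (i : ι) : 0 ≤ lam i := zero_le_one.trans (H.lam1 i)

theorem lampos (H : StB S θ b lam d X F α) (i : ι) : 0 < lam i := zero_lt_one.trans_le (H.lam1 i)

theorem bpos (H : StB S θ b lam d X F α) (i : ι) : 0 < b i := zero_lt_one.trans_le (H.hb i)

theorem ρ0 (H : StB S θ b lam d X F α) (i : ι) : 0 ≤ θ i / lam i :=
  div_nonneg (H.θ0 i) (H.lam0 i)

theorem ρ1 (H : StB S θ b lam d X F α) (i : ι) : θ i / lam i ≤ 1 :=
  (div_le_one (H.lampos i)).2 (H.hlam i)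

theorem slow (H : StB S θ b lam d X F α) {u : ι → P → ℂ}
    (hu : S.FO (fun _ => 1) (fun _ => 1) u) : S.FO θ (fun _ => 1) u :=
  hu.mono_mu H.θ1 (fun _ => zero_le_one) (fun _ => zero_le_one)

theorem ker_bd (H : StB S θ b lam d X F α) (hKB : S.KerB) (m : ℕ) (a : Q) :
    (∀ c, S.FO θ (fun i => 1 / lam i)
      (fun i => S.sk (lam i) (d i) (F i) (X i) m (α i) a c)) ∧
    (∀ j c, S.FO θ (fun i => 1 * (θ i / lam i))
      (fun i q => S.sB (lam i) (d i) (F i) (X i) m (α i) a j c q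
        - α i a q * S.D j ((d i).ray a).Ψ q * (F i (Sum.inl a)).E c q)) ∧
    (∀ c, S.FO θ (fun i => 1 * (θ i / lam i) ^ m)
      (fun i => S.wres (lam i) ((d i).ray a) (F i (Sum.inl a)) (X i) m
        (S.ksrc (lam i) ((d i).ray a) (F i (Sum.inl a)) (X i) (α i a)) c)) := by
  have hu : usedRay (Q := Q) (Sum.inl a) := trivial
  exact hKB ι θ b lam (fun _ => 1) (fun i => (d i).ray a) (fun i => F i (Sum.inl a)) X m
    (fun i => α i a) H.hb H.hθ H.hlam (fun _ => zero_le_one)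
    (fun j => H.slow (H.FB.t _ hu j)) (fun j => H.slow (H.FB.w _ hu j))
    (fun j => H.slow (H.FB.Ψ _ hu j)) (H.fr.E _ hu) (H.fr.N _ hu) (H.fr.P1 _ hu) (H.fr.P2 _ hu)
    (H.fr.tt _ hu) (H.fr.wt _ hu) (H.fr.tw _ hu) (H.bα a)

theorem B_bd (H : StB S θ b lam d X F α) (hKB : S.KerB) (m : ℕ) (a : Q) (j : κ) (c : Fin 4) :
    S.FO θ (fun _ => 1) (fun i => S.sB (lam i) (d i) (F i) (X i) m (α i) a j c) := by
  have hu : usedRay (Q := Q) (Sum.inl a) := trivial
  have h2 : S.FO θ (fun _ => 1) (fun i q => S.sB (lam i) (d i) (F i) (X i) m (α i) a j c q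
        - α i a q * S.D j ((d i).ray a).Ψ q * (F i (Sum.inl a)).E c q) :=
    ((H.ker_bd hKB m a).2.1 j c).mono_s' (fun i => by rw [one_mul]; exact H.ρ1 i) H.θ0
  have h4 : S.FO θ (fun _ => 1) (fun i q => α i a q * S.D j ((d i).ray a).Ψ q
      * (F i (Sum.inl a)).E c q) :=
    (((H.bα a).mul (H.slow (H.FB.Ψ _ hu j))).mul (H.fr.E _ hu c)).congr_s fun i => by norm_num
  exact (h2.add h4).congr fun i q => by simp only [Pi.add_apply]; ring

theorem h_bd (H : StB S θ b lam d X F α) (hKB : S.KerB) (m : ℕ) (x : Q × Q × Bool)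
    (hx : usedRay (Sum.inr x)) (c : Fin 3) :
    S.FO θ (fun _ => 1) (fun i => S.sh (lam i) (d i) (F i) (X i) m (α i) x c) := by
  have hB := fun j c => H.B_bd hKB m x.1 j c
  have hB' := fun j c => FO_twv (S := S) x.2.2 (fun c => H.B_bd hKB m x.2.1 j c) c
  have ht := fun j => H.slow (H.FB.t _ hx j)
  have hw := fun j => H.slow (H.FB.w _ hx j)
  have t1 := FO_cmp ht hB
  have t2 := FO_cmp ht hB'
  have w1 := FO_cmp hw hB
  have w2 := FO_cmp hw hB'
  have e : ∀ i : ι, (1 : ℝ) * 1 * (1 * 1) = 1 := fun i => by norm_num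
  fin_cases c
  · exact ((DAlg.FO.dot t1 t2).congr_s e).const_mul (1 / 2)
  · exact (((DAlg.FO.dot t1 w2).add (DAlg.FO.dot w1 t2)).congr_s e).const_mul (1 / 4)
  · exact ((DAlg.FO.dot w1 w2).congr_s e).const_mul (1 / 2)

theorem w_bd (H : StB S θ b lam d X F α) (hKB : S.KerB) (hWB : S.WkbB) (m : ℕ)
    (x : Q × Q × Bool) (hx : usedRay (Sum.inr x)) :
    (∀ c, S.FO θ (fun i => 1 / b i) (fun i => S.sw (lam i) (d i) (F i) (X i) m (α i) x c)) ∧
    (∀ c, S.FO θ (fun i => 1 * (θ i / lam i) ^ m)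
      (fun i => S.wres (lam i) ((d i).pr x.1 x.2.1 x.2.2) (F i (Sum.inr x)) (X i) m
        (S.sh (lam i) (d i) (F i) (X i) m (α i) x) c)) := by
  have h := hWB ι θ b lam (fun _ => 1) (fun i => (d i).pr x.1 x.2.1 x.2.2)
    (fun i => F i (Sum.inr x)) X m (fun i => S.sh (lam i) (d i) (F i) (X i) m (α i) x)
    H.hb H.hθ H.hlam (fun _ => zero_le_one)
    (fun j => H.slow (H.FB.t _ hx j)) (fun j => H.slow (H.FB.w _ hx j))
    (H.fr.N _ hx) (H.fr.P1 _ hx) (H.fr.P2 _ hx)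
    (H.fr.tt _ hx) (H.fr.wt _ hx) (H.fr.tw _ hx) (H.h_bd hKB m x hx)
  exact ⟨h.1, h.2.2⟩

theorem osc_bd (H : StB S θ b lam d X F α) (x : Q ⊕ (Q × Q × Bool)) (hx : usedRay x) :
    S.FO lam (fun _ => 1) (fun i => osc (lam i) ((d i).rays x).Ψ) := by
  have hok : ∀ i, ((d i).rays x).Ok S := by
    intro i
    rcases x with a | ⟨a, b, σ⟩
    · exact (H.dOk i).ray a
    · exact (H.dOk i).pr a b σ hx
  exact FO_osc H.lam0 (fun i => (hok i).smΨ) (fun i => (hok i).rΨ) fun j =>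
    (H.FB.Ψ x hx j).mono_mu H.lam1 (fun _ => zero_le_one) (fun _ => zero_le_one)

theorem re_osc (H : StB S θ b lam d X F α) (x : Q ⊕ (Q × Q × Bool)) (hx : usedRay x)
    {s : ι → ℝ} (hs : ∀ i, 0 ≤ s i) {u : ι → P → ℂ} (hu : S.FO θ s u) :
    S.FO lam s (fun i q => ((osc (lam i) ((d i).rays x).Ψ q * u i q).re : ℂ)) := by
  have h1 := (H.osc_bd x hx).mul (hu.mono_mu H.hlam H.θ0 hs)
  exact (FO_re (h1.congr_s fun i => one_mul (s i))).congr fun i q => rfl

theorem u1_bd (H : StB S θ b lam d X F α) (hKB : S.KerB) (m : ℕ) (c : Fin 4) :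
    S.FO lam (fun i => 1 / lam i) (fun i => S.su1 (lam i) (d i) (F i) (X i) m (α i) c) := by
  have h : ∀ a ∈ (Finset.univ : Finset Q), S.FO lam (fun i => 1 / lam i)
      (fun i q => ((osc (lam i) ((d i).ray a).Ψ q *
        S.sk (lam i) (d i) (F i) (X i) m (α i) a c q).re : ℂ)) := fun a _ =>
    H.re_osc (Sum.inl a) trivial (fun i => div_nonneg zero_le_one (H.lam0 i))
      ((H.ker_bd hKB m a).1 c)
  exact DAlg.FO.sum' h

theorem u2_bd (H : StB S θ b lam d X F α) (hKB : S.KerB) (hWB : S.WkbB) (m : ℕ)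
    (c : Fin 4) :
    S.FO lam (fun i => 1 / b i) (fun i => S.su2 (lam i) (d i) (F i) (X i) m (α i) c) := by
  have h : ∀ x ∈ (Finset.univ : Finset (Q × Q × Bool)),
      S.FO lam (fun i => 1 / b i)
      (fun i q => if usedRay (Sum.inr x) then ((osc (lam i) ((d i).pr x.1 x.2.1 x.2.2).Ψ q *
        S.sw (lam i) (d i) (F i) (X i) m (α i) x c q).re : ℂ) else 0) := by
    intro x _
    by_cases hx : usedRay (Sum.inr x)
    · simp only [if_pos hx]
      exact H.re_osc (Sum.inr x) hx (fun i => div_nonneg zero_le_one (H.bpos i).le)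
        ((H.w_bd hKB hWB m x hx).1 c)
    · simp only [if_neg hx]
      exact DAlg.FO.zero
  exact (DAlg.FO.sum' h).neg

theorem ten_bd (H : StB S θ b lam d X F α) (x : Q ⊕ (Q × Q × Bool)) (hx : usedRay x)
    {s : ι → ℝ} {h : ι → Fin 3 → P → ℂ} (hh : ∀ c, S.FO θ s (fun i => h i c)) (j k : κ) :
    S.FO θ s (fun i => ((d i).rays x).ten S (h i) j k) := by
  have hj := H.slow (H.FB.Ψ x hx j)
  have hk := H.slow (H.FB.Ψ x hx k)
  have bj := H.slow (H.FB.β x hx j)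
  have bk := H.slow (H.FB.β x hx k)
  exact ((((hj.mul hk).mul (hh 0)).add (((hj.mul bk).add (bj.mul hk)).mul (hh 1))).add
    ((bj.mul bk).mul (hh 2))).congr_s fun i => by ring

theorem t1_bd (H : StB S θ b lam d X F α) (hKB : S.KerB) (m : ℕ) (j k : κ) :
    S.FO lam (fun i => (θ i / lam i) ^ m)
      (fun i q => ∑ a, ((osc (lam i) ((d i).ray a).Ψ q * ((d i).ray a).ten S
        (S.wres (lam i) ((d i).ray a) (F i (Sum.inl a)) (X i) m
          (S.ksrc (lam i) ((d i).ray a) (F i (Sum.inl a)) (X i) (α i a))) j k q).re : ℂ)) := by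
  refine DAlg.FO.sum' fun a _ => ?_
  have h1 := H.ten_bd (Sum.inl a) trivial (H.ker_bd hKB m a).2.2 j k
  exact H.re_osc (Sum.inl a) trivial (fun i => pow_nonneg (H.ρ0 i) m)
    (h1.congr_s fun i => one_mul _)

theorem t2_bd (H : StB S θ b lam d X F α) (hKB : S.KerB) (hWB : S.WkbB) (m : ℕ) (j k : κ) :
    S.FO lam (fun i => (θ i / lam i) ^ m)
      (fun i q => ∑ x : Q × Q × Bool, if usedRay (Sum.inr x) then
        ((osc (lam i) ((d i).pr x.1 x.2.1 x.2.2).Ψ q * ((d i).pr x.1 x.2.1 x.2.2).ten S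
            (S.wres (lam i) ((d i).pr x.1 x.2.1 x.2.2) (F i (Sum.inr x)) (X i) m
              (S.sh (lam i) (d i) (F i) (X i) m (α i) x)) j k q).re : ℂ) else 0) := by
  refine DAlg.FO.sum' fun x _ => ?_
  by_cases hx : usedRay (Sum.inr x)
  · simp only [if_pos hx]
    have h1 := H.ten_bd (Sum.inr x) hx (H.w_bd hKB hWB m x hx).2 j k
    exact H.re_osc (Sum.inr x) hx (fun i => pow_nonneg (H.ρ0 i) m)
      (h1.congr_s fun i => one_mul _)
  · simp only [if_neg hx]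
    exact DAlg.FO.zero

end StB

end Vale.Agent.P205.F
end
end

section

/-!
P205, T1W, block DATA: uniform constants (`geoC_of`).
-/

noncomputable section

set_option linter.unusedSectionVars false

open scoped ContDiff

namespace Vale.Agent.P205.TW

open Vale.Agent.P205.F

universe u

variable {P : Type u} {κ : Type} [Fintype κ] {S : DAlg P κ}

namespace RSm

variable {u v : P → ℂ}

theorem eq_re (h : RSm S u) (p : P) : u p = ((u p).re : ℂ) := (h.2.ofReal_re p).symm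

theorem add (h : RSm S u) (h' : RSm S v) : RSm S (fun p => u p + v p) :=
  ⟨S.sm_add h.1 h'.1, h.2.add h'.2⟩

theorem mul (h : RSm S u) (h' : RSm S v) : RSm S (fun p => u p * v p) :=
  ⟨S.sm_mul h.1 h'.1, h.2.mul h'.2⟩

theorem sub (h : RSm S u) (h' : RSm S v) : RSm S (fun p => u p - v p) :=
  ⟨S.sm_sub h.1 h'.1, h.2.sub h'.2⟩

theorem cst (c : ℝ) : RSm S (fun _ => (c : ℂ)) := ⟨S.sm_const _, fun _ => Complex.ofReal_im c⟩

theorem smul (c : ℝ) (h : RSm S u) : RSm S (fun p => (c : ℂ) * u p) := (cst c).mul h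

theorem sum {ι : Type*} {A : Finset ι} {u : ι → P → ℂ} (h : ∀ a ∈ A, RSm S (u a)) :
    RSm S (fun p => ∑ a ∈ A, u a p) := by
  have h1 := S.sm_sum' (A := A) (u := u) (fun a ha => (h a ha).1)
  have h2 := Rl.sum (A := A) (u := u) (fun a ha => (h a ha).2)
  exact ⟨h1, h2⟩

theorem D (j : κ) (h : RSm S u) : RSm S (S.D j u) := ⟨S.sm_D j h.1, S.rl_D j h.1 h.2⟩

theorem pow2 (h : RSm S u) : RSm S (fun p => u p ^ 2) := by
  have := h.mul h
  simpa only [← pow_two] using this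

theorem comp {f : ℝ → ℝ} (hf : ContDiff ℝ ∞ f) (h : RSm S u) :
    RSm S (fun p => ((f (u p).re : ℝ) : ℂ)) :=
  ⟨S.sm_comp (F := fun x => ((f x : ℝ) : ℂ)) (Complex.ofRealCLM.contDiff.comp hf) h.1 h.2,
    fun _ => Complex.ofReal_im _⟩

end RSm

/-- one derivation is a combination of two others -/
def Cmb (S : DAlg P κ) (p : P) (a b j : κ) (α β : ℝ) : Prop := ∀ u : P → ℂ, S.Sm u →
  S.D j u p = α * S.D a u p + β * S.D b u p

theorem Cmb.tens {T : κ → κ → P → ℂ} (hT : S.IsT T) {p : P} {a b j : κ} {α β : ℝ}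
    (h : Cmb S p a b j α β) (k : κ) : T j k p = α * T a k p + β * T b k p := by
  classical
  have h1 := hT.2 p (fun l => (if l = j then (1 : ℂ) else 0) - (if l = a then (α : ℂ) else 0)
    - (if l = b then (β : ℂ) else 0)) (fun u hu => by
      simp only [sub_mul, ite_mul, zero_mul, one_mul, Finset.sum_sub_distrib, Finset.sum_ite_eq',
        Finset.mem_univ, if_true]
      rw [h u hu]
      ring) k
  simp only [sub_mul, ite_mul, zero_mul, one_mul, Finset.sum_sub_distrib, Finset.sum_ite_eq',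
    Finset.mem_univ, if_true] at h1
  linear_combination h1

/-- quadratic form in terms of the two spanning derivations -/
theorem qfm_pl {T : κ → κ → P → ℂ} (hT : TSm S T) {p : P} {a b : κ} {α β : κ → ℝ}
    (h : ∀ j, Cmb S p a b j (α j) (β j)) (ξ : κ → ℝ) :
    qfm T p ξ = (T a a p).re * (∑ j, α j * ξ j) ^ 2
      + 2 * (T a b p).re * (∑ j, α j * ξ j) * (∑ j, β j * ξ j)
      + (T b b p).re * (∑ j, β j * ξ j) ^ 2 := by
  have h1 : ∀ j k, (T j k p).re = α j * (α k * (T a a p).re + β k * (T a b p).re)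
      + β j * (α k * (T a b p).re + β k * (T b b p).re) := by
    intro j k
    have e1 := (h j).tens hT.1 k
    have e2 := (h k).tens hT.1 a
    have e3 := (h k).tens hT.1 b
    rw [hT.1.1 k a] at e2
    rw [hT.1.1 k b] at e3
    rw [hT.1.1 b a] at e2
    rw [e1, e2, e3]
    simp only [Complex.add_re, Complex.mul_re, Complex.ofReal_re, Complex.ofReal_im, zero_mul,
      sub_zero, Complex.add_im, Complex.mul_im, (hT.2 _ _).2 p, mul_zero, add_zero]
  have inner : ∀ j, ∑ k, (T j k p).re * ξ j * ξ k =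
      (α j * ξ j) * ((T a a p).re * (∑ k, α k * ξ k) + (T a b p).re * ∑ k, β k * ξ k)
      + (β j * ξ j) * ((T a b p).re * (∑ k, α k * ξ k) + (T b b p).re * ∑ k, β k * ξ k) := by
    intro j
    have e1 : ∀ k, (T j k p).re * ξ j * ξ k =
        (α j * ξ j * (T a a p).re + β j * ξ j * (T a b p).re) * (α k * ξ k)
        + (α j * ξ j * (T a b p).re + β j * ξ j * (T b b p).re) * (β k * ξ k) := by
      intro k
      rw [h1]
      ring
    simp_rw [e1]
    rw [Finset.sum_add_distrib, ← Finset.mul_sum, ← Finset.mul_sum]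
    ring
  unfold qfm
  simp_rw [inner]
  rw [Finset.sum_add_distrib, ← Finset.sum_mul, ← Finset.sum_mul]
  ring

theorem RSm.bound {u : P → ℂ} (h : RSm S u) : ∃ C : ℝ, 0 < C ∧ ∀ p, |(u p).re| ≤ C := by
  obtain ⟨C, hC⟩ := S.bdd h.1
  refine ⟨|C| + 1, by positivity, fun p => ?_⟩
  exact (Complex.abs_re_le_norm _).trans ((hC p).trans ((le_abs_self C).trans (by linarith)))

theorem tens_bound {T : κ → κ → P → ℂ} (h : TSm S T) :
    ∃ C : ℝ, 1 ≤ C ∧ ∀ j k p, |(T j k p).re| ≤ C := by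
  choose C hC h1 using fun j k => (h.2 j k).bound
  refine ⟨1 + ∑ j, ∑ k, C j k, ?_, fun j k p => ?_⟩
  · have : 0 ≤ ∑ j, ∑ k, C j k := Finset.sum_nonneg fun j _ => Finset.sum_nonneg fun k _ =>
      (hC j k).le
    linarith
  · have e1 : C j k ≤ ∑ k, C j k := Finset.single_le_sum (f := fun k => C j k)
      (fun k _ => (hC j k).le) (Finset.mem_univ k)
    have e2 : ∑ k, C j k ≤ ∑ j, ∑ k, C j k := Finset.single_le_sum (f := fun j => ∑ k, C j k)
      (fun j _ => Finset.sum_nonneg fun k _ => (hC j k).le) (Finset.mem_univ j)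
    linarith [h1 j k p]

/-- the two form is non negative -/
theorem det_nonneg {T : κ → κ → P → ℂ} (hT : TSm S T) (hp : ∀ p ξ, 0 ≤ qfm T p ξ) (p : P)
    (a b : κ) : 0 ≤ (T a a p).re * (T b b p).re - (T a b p).re ^ 2 ∧ 0 ≤ (T a a p).re := by
  classical
  have key : ∀ x y : ℝ, 0 ≤ (T a a p).re * x ^ 2 + 2 * (T a b p).re * x * y
      + (T b b p).re * y ^ 2 := by
    intro x y
    have h := hp p (fun j => (if j = a then x else 0) + (if j = b then y else 0))
    have e : qfm T p (fun j => (if j = a then x else 0) + (if j = b then y else 0)) =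
        (T a a p).re * x ^ 2 + 2 * (T a b p).re * x * y + (T b b p).re * y ^ 2 := by
      unfold qfm
      simp only [mul_add, add_mul, mul_ite, ite_mul, mul_zero, zero_mul, Finset.sum_add_distrib,
        Finset.sum_ite_eq', Finset.mem_univ, if_true]
      rw [hT.1.1 b a]
      ring_nf
    rwa [e] at h
  have h1 := key 1 0
  have h2 := key 0 1
  have h3 := key (-(T a b p).re) (T a a p).re
  have h4 := key (T b b p).re (-(T a b p).re)
  have h5 := key 1 1
  have h6 := key 1 (-1)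
  simp only [one_pow, mul_one, mul_zero, add_zero, zero_pow, ne_eq, OfNat.ofNat_ne_zero,
    not_false_eq_true, zero_add] at h1 h2
  refine ⟨?_, h1⟩
  rcases eq_or_lt_of_le h1 with h0 | h0
  · rcases eq_or_lt_of_le h2 with h0' | h0'
    · have : (T a b p).re = 0 := by nlinarith
      rw [this, ← h0]; simp
    · have h7 : 0 ≤ (T b b p).re * ((T a a p).re * (T b b p).re - (T a b p).re ^ 2) := by
        linarith only [h4]
      exact nonneg_of_mul_nonneg_right h7 h0'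
  · have h7 : 0 ≤ (T a a p).re * ((T a a p).re * (T b b p).re - (T a b p).re ^ 2) := by
      linarith only [h3]
    exact nonneg_of_mul_nonneg_right h7 h0

/-- pairs with a nonzero two form span -/
def SpanH (S : DAlg P κ) : Prop := ∀ (T : κ → κ → P → ℂ), TSm S T → ∀ p a b,
  (T a a p).re * (T b b p).re - (T a b p).re ^ 2 ≠ 0 → ∀ j, ∃ α β : ℝ, Cmb S p a b j α β

/-- Cramer bounds -/
theorem cramer_bound {T : κ → κ → P → ℂ} (hT : TSm S T) {p : P} {a b j : κ} {α β C d : ℝ}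
    (h : Cmb S p a b j α β) (hC : ∀ j k p, |(T j k p).re| ≤ C) (hd : 0 < d)
    (hdet : d ≤ (T a a p).re * (T b b p).re - (T a b p).re ^ 2) :
    |α| ≤ 2 * C ^ 2 / d ∧ |β| ≤ 2 * C ^ 2 / d := by
  have e1 := congrArg Complex.re (h.tens hT.1 a)
  have e2 := congrArg Complex.re (h.tens hT.1 b)
  rw [hT.1.1 b a] at e1
  simp only [Complex.add_re, Complex.mul_re, Complex.ofReal_re, Complex.ofReal_im, zero_mul,
    sub_zero] at e1 e2
  set A := (T a a p).re
  set B := (T b b p).re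
  set M := (T a b p).re
  have hA := abs_le.1 (hC a a p)
  have hB := abs_le.1 (hC b b p)
  have hM := abs_le.1 (hC a b p)
  have hja := hC j a p
  have hjb := hC j b p
  have hC0 : 0 ≤ C := (abs_nonneg _).trans hja
  have k1 : α * (A * B - M ^ 2) = (T j a p).re * B - (T j b p).re * M := by
    rw [e1, e2]; ring
  have k2 : β * (A * B - M ^ 2) = (T j b p).re * A - (T j a p).re * M := by
    rw [e1, e2]; ring
  have b1 : ∀ x y : ℝ, |x| ≤ C → |y| ≤ C → |x * y| ≤ C ^ 2 := by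
    intro x y hx hy
    rw [abs_mul, pow_two]
    exact mul_le_mul hx hy (abs_nonneg _) hC0
  have hD : 0 < A * B - M ^ 2 := lt_of_lt_of_le hd hdet
  have fin : ∀ x y : ℝ, x * (A * B - M ^ 2) = y → |y| ≤ 2 * C ^ 2 → |x| ≤ 2 * C ^ 2 / d := by
    intro x y hxy hy
    rw [le_div_iff₀ hd]
    calc |x| * d ≤ |x| * (A * B - M ^ 2) := mul_le_mul_of_nonneg_left hdet (abs_nonneg _)
      _ = |x * (A * B - M ^ 2)| := by rw [abs_mul, abs_of_pos hD]
      _ ≤ 2 * C ^ 2 := by rw [hxy]; exact hy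
  refine ⟨fin _ _ k1 ?_, fin _ _ k2 ?_⟩
  · calc _ ≤ |(T j a p).re * B| + |(T j b p).re * M| := abs_sub _ _
      _ ≤ C ^ 2 + C ^ 2 := add_le_add (b1 _ _ hja (hC b b p)) (b1 _ _ hjb (hC a b p))
      _ = 2 * C ^ 2 := by ring
  · calc _ ≤ |(T j b p).re * A| + |(T j a p).re * M| := abs_sub _ _
      _ ≤ C ^ 2 + C ^ 2 := add_le_add (b1 _ _ hjb (hC a a p)) (b1 _ _ hja (hC a b p))
      _ = 2 * C ^ 2 := by ring

theorem exists_pl (hpos : PosS S) (hsp : SpanH S) {T : κ → κ → P → ℂ} (hT : TSm S T)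
    (hp : ∀ p ξ, 0 ≤ qfm T p ξ)
    (hr : ∀ p, ∃ a b, 0 < (T a a p).re * (T b b p).re - (T a b p).re ^ 2) :
    ∃ c : ℝ, 0 < c ∧ Pl S T c := by
  have hu : RSm S (fun p => ∑ a, ∑ b, (T a a p * T b b p - T a b p ^ 2)) :=
    RSm.sum fun a _ => RSm.sum fun b _ => ((hT.2 a a).mul (hT.2 b b)).sub (hT.2 a b).pow2
  have hre : ∀ p, (∑ a, ∑ b, (T a a p * T b b p - T a b p ^ 2)).re =
      ∑ a, ∑ b, ((T a a p).re * (T b b p).re - (T a b p).re ^ 2) := by
    intro p
    rw [Complex.re_sum]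
    refine Finset.sum_congr rfl fun a _ => ?_
    rw [Complex.re_sum]
    refine Finset.sum_congr rfl fun b _ => ?_
    simp only [Complex.sub_re, Complex.mul_re, (hT.2 _ _).2 p, mul_zero, sub_zero, pow_two]
  obtain ⟨c0, hc0, h0⟩ := hpos _ hu (fun p => by
    show 0 < (∑ a, ∑ b, (T a a p * T b b p - T a b p ^ 2)).re
    rw [hre]
    obtain ⟨a, b, hab⟩ := hr p
    have n1 : ∀ a ∈ Finset.univ, 0 ≤ ∑ b, ((T a a p).re * (T b b p).re - (T a b p).re ^ 2) :=
      fun a _ => Finset.sum_nonneg fun b _ => (det_nonneg hT hp p a b).1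
    refine lt_of_lt_of_le hab (le_trans ?_ (Finset.single_le_sum n1 (Finset.mem_univ a)))
    exact Finset.single_le_sum (f := fun b => (T a a p).re * (T b b p).re - (T a b p).re ^ 2)
      (fun b _ => (det_nonneg hT hp p a b).1) (Finset.mem_univ b))
  obtain ⟨C, hC1, hC⟩ := tens_bound hT
  set N : ℝ := (Fintype.card κ : ℝ) ^ 2 + 1 with hN
  have hN0 : 0 < N := by (clear * -; positivity)
  set d : ℝ := c0 / N with hd
  have hd0 : 0 < d := div_pos hc0 hN0
  have hex : ∀ p, ∃ a b, d ≤ (T a a p).re * (T b b p).re - (T a b p).re ^ 2 := by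
    intro p
    by_contra hcon
    push Not at hcon
    have h1 := h0 p
    rw [hre] at h1
    have h2 : ∑ a, ∑ b, ((T a a p).re * (T b b p).re - (T a b p).re ^ 2) ≤
        ∑ _a : κ, ∑ _b : κ, d := Finset.sum_le_sum fun a _ => Finset.sum_le_sum fun b _ =>
          (hcon a b).le
    simp only [Finset.sum_const, Finset.card_univ, nsmul_eq_mul] at h2
    have h3 : (Fintype.card κ : ℝ) * ((Fintype.card κ : ℝ) * d) < c0 := by
      rw [hd]
      rw [← mul_assoc, ← pow_two, ← mul_div_assoc, div_lt_iff₀ hN0, hN]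
      nlinarith [sq_nonneg (Fintype.card κ : ℝ)]
    linarith
  set c := min d (d / (2 * C ^ 2)) with hc
  have hc' : 0 < c := lt_min hd0 (by positivity)
  refine ⟨c, hc', fun p => ?_⟩
  obtain ⟨a, b, hab⟩ := hex p
  choose α β hα using fun j => hsp T hT p a b (ne_of_gt (lt_of_lt_of_le hd0 hab)) j
  have hle : 2 * C ^ 2 / d ≤ 1 / c := by
    rw [div_le_div_iff₀ hd0 hc', one_mul]
    have h1 : c ≤ d / (2 * C ^ 2) := min_le_right _ _
    have h2 : (0 : ℝ) < 2 * C ^ 2 := by positivity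
    calc 2 * C ^ 2 * c ≤ 2 * C ^ 2 * (d / (2 * C ^ 2)) := mul_le_mul_of_nonneg_left h1 h2.le
      _ = d := by field_simp
  refine ⟨a, b, α, β, (min_le_left _ _).trans hab, fun j => ?_, fun j => ?_, fun j u hu =>
    hα j u hu⟩
  · exact ((cramer_bound hT (hα j) hC hd0 hab).1).trans hle
  · exact ((cramer_bound hT (hα j) hC hd0 hab).2).trans hle

theorem Pl.mono {g : κ → κ → P → ℂ} {c c' : ℝ} (h : Pl S g c) (hc' : 0 < c') (hcc : c' ≤ c) :
    Pl S g c' := by
  intro p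
  obtain ⟨a, b, α, β, h1, h2, h3, h4⟩ := h p
  have : 1 / c ≤ 1 / c' := one_div_le_one_div_of_le hc' hcc
  exact ⟨a, b, α, β, hcc.trans h1, fun j => (h2 j).trans this, fun j => (h3 j).trans this, h4⟩

/-- comparison of tensors -/
theorem exists_cmp {g T : κ → κ → P → ℂ} {c : ℝ} (hc : 0 < c) (hpl : Pl S g c) (hg : TSm S g)
    (hp : ∀ p ξ, 0 ≤ qfm g p ξ) (hT : TSm S T) :
    ∃ C : ℝ, 0 < C ∧ ∀ p ξ, |qfm T p ξ| ≤ C * qfm g p ξ := by
  obtain ⟨B, hB1, hB⟩ := tens_bound hT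
  obtain ⟨G, hG1, hG⟩ := tens_bound hg
  refine ⟨2 * B * (2 * G / c), by positivity, fun p ξ => ?_⟩
  obtain ⟨a, b, α, β, h1, -, -, h4⟩ := hpl p
  have hcm : ∀ j, Cmb S p a b j (α j) (β j) := fun j u hu => h4 j u hu
  rw [qfm_pl hT hcm, qfm_pl hg hcm]
  set x := ∑ j, α j * ξ j
  set y := ∑ j, β j * ξ j
  have hnn := (det_nonneg hg hp p a b).2
  have hnn' := (det_nonneg hg hp p b a).2
  set A := (g a a p).re
  set D := (g b b p).re
  set M := (g a b p).re
  have e1 : |(T a a p).re * x ^ 2 + 2 * (T a b p).re * x * y + (T b b p).re * y ^ 2| ≤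
      2 * B * (x ^ 2 + y ^ 2) := by
    have t1 := abs_le.1 (hB a a p)
    have t2 := abs_le.1 (hB a b p)
    have t3 := abs_le.1 (hB b b p)
    rw [abs_le]
    constructor <;> nlinarith [sq_nonneg (x + y), sq_nonneg (x - y), sq_nonneg x, sq_nonneg y,
      mul_nonneg (sub_nonneg.2 t1.2) (sq_nonneg x), mul_nonneg (sub_nonneg.2 t3.2) (sq_nonneg y),
      mul_nonneg (neg_le_iff_add_nonneg.1 t1.1) (sq_nonneg x),
      mul_nonneg (neg_le_iff_add_nonneg.1 t3.1) (sq_nonneg y),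
      mul_nonneg (sub_nonneg.2 t2.2) (sq_nonneg (x + y)),
      mul_nonneg (sub_nonneg.2 t2.2) (sq_nonneg (x - y)),
      mul_nonneg (neg_le_iff_add_nonneg.1 t2.1) (sq_nonneg (x + y)),
      mul_nonneg (neg_le_iff_add_nonneg.1 t2.1) (sq_nonneg (x - y))]
  have e2 : c * (x ^ 2 + y ^ 2) ≤ (2 * G) * (A * x ^ 2 + 2 * M * x * y + D * y ^ 2) := by
    have hA := (abs_le.1 (hG a a p)).2
    have hD := (abs_le.1 (hG b b p)).2
    have q0 : 0 ≤ A * x ^ 2 + 2 * M * x * y + D * y ^ 2 := by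
      have := hp p ξ
      rwa [qfm_pl hg hcm] at this
    have q1 : (A * D - M ^ 2) * (x ^ 2 + y ^ 2) ≤
        (A + D) * (A * x ^ 2 + 2 * M * x * y + D * y ^ 2) := by
      nlinarith [sq_nonneg (A * x + M * y), sq_nonneg (M * x + D * y)]
    calc c * (x ^ 2 + y ^ 2) ≤ (A * D - M ^ 2) * (x ^ 2 + y ^ 2) :=
          mul_le_mul_of_nonneg_right h1 (by positivity)
      _ ≤ (A + D) * (A * x ^ 2 + 2 * M * x * y + D * y ^ 2) := q1
      _ ≤ (2 * G) * (A * x ^ 2 + 2 * M * x * y + D * y ^ 2) :=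
          mul_le_mul_of_nonneg_right (by linarith) q0
  refine e1.trans ?_
  have e3 : x ^ 2 + y ^ 2 ≤ (2 * G) / c * (A * x ^ 2 + 2 * M * x * y + D * y ^ 2) := by
    rw [div_mul_eq_mul_div, le_div_iff₀ hc]
    linarith
  calc 2 * B * (x ^ 2 + y ^ 2) ≤ 2 * B * ((2 * G) / c * (A * x ^ 2 + 2 * M * x * y + D * y ^ 2)) :=
        mul_le_mul_of_nonneg_left e3 (by positivity)
    _ = _ := by ring

open Matrix in
/-- vectors orthogonal to a basis of `ℝ⁴` vanish -/
theorem perp4 {q1 q2 x y v : Fin 4 → ℝ} (h11 : q1 ⬝ᵥ q1 = 1) (h22 : q2 ⬝ᵥ q2 = 1)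
    (h12 : q1 ⬝ᵥ q2 = 0) (h1x : q1 ⬝ᵥ x = 0) (h1y : q1 ⬝ᵥ y = 0) (h2x : q2 ⬝ᵥ x = 0)
    (h2y : q2 ⬝ᵥ y = 0) (hd : (x ⬝ᵥ x) * (y ⬝ᵥ y) - (x ⬝ᵥ y) ^ 2 ≠ 0)
    (h1v : q1 ⬝ᵥ v = 0) (h2v : q2 ⬝ᵥ v = 0) (hxv : x ⬝ᵥ v = 0) (hyv : y ⬝ᵥ v = 0) : v = 0 := by
  set M : Matrix (Fin 4) (Fin 4) ℝ := Matrix.of ![q1, q2, x, y] with hM
  have hMM : M * Mᵀ = !![1, 0, 0, 0; 0, 1, 0, 0; 0, 0, x ⬝ᵥ x, x ⬝ᵥ y; 0, 0, x ⬝ᵥ y, y ⬝ᵥ y] := by
    ext i j
    have e : (M * Mᵀ) i j = (![q1, q2, x, y] i) ⬝ᵥ (![q1, q2, x, y] j) := rfl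
    rw [e]
    fin_cases i <;> fin_cases j <;>
      simp [h11, h22, h12, h1x, h1y, h2x, h2y, dotProduct_comm q2 q1, dotProduct_comm x q1,
        dotProduct_comm x q2, dotProduct_comm y q1, dotProduct_comm y q2, dotProduct_comm y x]
  have hdet : M.det * M.det = (x ⬝ᵥ x) * (y ⬝ᵥ y) - (x ⬝ᵥ y) ^ 2 := by
    have h1 : (M * Mᵀ).det = M.det * M.det := by rw [Matrix.det_mul, Matrix.det_transpose]
    rw [← h1, hMM]
    simp [Matrix.det_succ_row_zero, Fin.sum_univ_succ, Fin.succAbove]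
    ring
  have hM0 : M.det ≠ 0 := by
    intro h
    rw [h, mul_zero] at hdet
    exact hd hdet.symm
  apply Matrix.eq_zero_of_mulVec_eq_zero hM0
  ext i
  have e : (M *ᵥ v) i = (![q1, q2, x, y] i) ⬝ᵥ v := rfl
  rw [e]
  fin_cases i <;> simp [h1v, h2v, hxv, hyv]

namespace DIn

variable {σ : P → P} {g : κ → κ → P → ℂ} (D : DIn S σ g)

/-- the real components of `D j F` -/
def Ev (j : κ) (p : P) : Fin 4 → ℝ := fun a => (S.D j (D.F a) p).re

open Matrix

theorem Ev_eq (j : κ) (p : P) (a : Fin 4) : ((D.Ev j p a : ℝ) : ℂ) = S.D j (D.F a) p :=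
  ((D.rF a).D j).2.ofReal_re p

theorem met_re (j k : κ) (p : P) : (S.met D.F j k p).re = D.Ev j p ⬝ᵥ D.Ev k p := by
  show (∑ a, S.D j (D.F a) p * S.D k (D.F a) p).re = _
  simp_rw [← D.Ev_eq]
  rw [← Complex.ofReal_re (D.Ev j p ⬝ᵥ D.Ev k p)]
  congr 1
  unfold dotProduct
  push_cast
  rfl

theorem metT : TSm S (S.met D.F) := by
  refine ⟨⟨fun j k => ?_, fun p c hc k => ?_⟩, fun j k => ?_⟩
  · funext p
    exact Finset.sum_congr (rfl : (Finset.univ : Finset (Fin 4)) = Finset.univ)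
      fun a _ => mul_comm (S.D j (D.F a) p) (S.D k (D.F a) p)
  · show ∑ j, c j * ∑ a, S.D j (D.F a) p * S.D k (D.F a) p = 0
    simp_rw [Finset.mul_sum, ← mul_assoc]
    rw [Finset.sum_comm]
    refine Finset.sum_eq_zero fun a _ => ?_
    rw [← Finset.sum_mul, hc _ (D.rF a).1, zero_mul]
  · exact RSm.sum (A := Finset.univ) (u := fun a p => S.D j (D.F a) p * S.D k (D.F a) p)
      fun a _ => ((D.rF a).D j).mul ((D.rF a).D k)

theorem qf_met (p : P) (ξ : κ → ℝ) :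
    qfm (S.met D.F) p ξ = ∑ a, (∑ j, D.Ev j p a * ξ j) ^ 2 := by
  have h1 : ∀ a, (∑ j, D.Ev j p a * ξ j) ^ 2 =
      ∑ j, ∑ k, (D.Ev j p a * ξ j) * (D.Ev k p a * ξ k) := by
    intro a
    rw [pow_two, Finset.sum_mul_sum]
  simp_rw [h1]
  rw [Finset.sum_comm]
  unfold qfm
  refine Finset.sum_congr rfl fun j _ => ?_
  rw [Finset.sum_comm]
  refine Finset.sum_congr rfl fun k _ => ?_
  rw [D.met_re, dotProduct, Finset.sum_mul, Finset.sum_mul]
  refine Finset.sum_congr rfl fun a _ => ?_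
  ring

theorem qf_met_nonneg (p : P) (ξ : κ → ℝ) : 0 ≤ qfm (S.met D.F) p ξ := by
  rw [D.qf_met]
  exact Finset.sum_nonneg fun a _ => sq_nonneg _

/-- a vanishing combination of two `Ev` is a relation -/
theorem rel_two {p : P} {a b : κ} {x y : ℝ} (h : ∀ i, x * D.Ev a p i + y * D.Ev b p i = 0)
    (u : P → ℂ) (hu : S.Sm u) : (x : ℂ) * S.D a u p + y * S.D b u p = 0 := by
  classical
  have h1 := D.imm p (fun l => (if l = a then (x : ℂ) else 0) + (if l = b then (y : ℂ) else 0))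
    (fun i => by
      simp only [add_mul, ite_mul, zero_mul, Finset.sum_add_distrib, Finset.sum_ite_eq',
        Finset.mem_univ, if_true]
      rw [← D.Ev_eq, ← D.Ev_eq]
      exact_mod_cast h i) u hu
  simpa only [add_mul, ite_mul, zero_mul, Finset.sum_add_distrib, Finset.sum_ite_eq',
        Finset.mem_univ, if_true] using h1

theorem gram_ne {T : κ → κ → P → ℂ} (hT : TSm S T) {p : P} {a b : κ}
    (hdet : (T a a p).re * (T b b p).re - (T a b p).re ^ 2 ≠ 0) :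
    (D.Ev a p ⬝ᵥ D.Ev a p) * (D.Ev b p ⬝ᵥ D.Ev b p) - (D.Ev a p ⬝ᵥ D.Ev b p) ^ 2 ≠ 0 := by
  classical
  intro h0
  have rel : ∀ x y : ℝ, (∀ i, x * D.Ev a p i + y * D.Ev b p i = 0) →
      ∀ k, x * (T a k p).re + y * (T b k p).re = 0 := by
    intro x y h k
    have h1 := hT.1.2 p (fun l => (if l = a then (x : ℂ) else 0) + (if l = b then (y : ℂ) else 0))
      (fun u hu => by
        have := D.rel_two h u hu
        simpa only [add_mul, ite_mul, zero_mul, Finset.sum_add_distrib, Finset.sum_ite_eq',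
          Finset.mem_univ, if_true] using this) k
    simp only [add_mul, ite_mul, zero_mul, Finset.sum_add_distrib, Finset.sum_ite_eq',
        Finset.mem_univ, if_true] at h1
    have h2 := congrArg Complex.re h1
    simpa only [Complex.add_re, Complex.mul_re, Complex.ofReal_re, Complex.ofReal_im, zero_mul,
      sub_zero, Complex.zero_re] using h2
  have hba : (T b a p).re = (T a b p).re := by rw [hT.1.1 b a]
  by_cases hA : D.Ev a p ⬝ᵥ D.Ev a p = 0
  · have h1 : D.Ev a p = 0 := dotProduct_self_eq_zero.1 hA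
    have h2 := rel 1 0 (fun i => by simp [h1])
    have h3 := h2 a
    have h4 := h2 b
    simp only [one_mul, zero_mul, add_zero] at h3 h4
    apply hdet
    rw [h3, h4]; ring
  · set A := D.Ev a p ⬝ᵥ D.Ev a p with hAd
    set M := D.Ev a p ⬝ᵥ D.Ev b p with hMd
    set B := D.Ev b p ⬝ᵥ D.Ev b p with hBd
    have h1 : (-M) • D.Ev a p + A • D.Ev b p = 0 := by
      rw [← dotProduct_self_eq_zero]
      simp only [add_dotProduct, dotProduct_add, smul_dotProduct, dotProduct_smul, smul_eq_mul,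
        dotProduct_comm (D.Ev b p) (D.Ev a p)]
      rw [← hAd, ← hMd, ← hBd]
      linear_combination A * h0
    have h2 := rel (-M) A (fun i => by
      have := congrFun h1 i
      simpa using this)
    have h3 := h2 a
    have h4 := h2 b
    rw [hba] at h3
    apply hdet
    have h5 : A ^ 2 * ((T a a p).re * (T b b p).re - (T a b p).re ^ 2) = 0 := by
      linear_combination A * (T a a p).re * h4 - (A * (T a b p).re + 0) * h3
        - 0 * h0
    rcases mul_eq_zero.1 h5 with h6 | h6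
    · exact absurd (pow_eq_zero_iff (two_ne_zero)|>.1 h6) hA
    · exact h6

theorem q_perp (j : κ) (p : P) : (fun a => (D.q1 a p).re) ⬝ᵥ D.Ev j p = 0 ∧
    (fun a => (D.q2 a p).re) ⬝ᵥ D.Ev j p = 0 := by
  constructor
  · have h := congrArg Complex.re (D.nf.t1 j p)
    rw [dot, Complex.re_sum] at h
    rw [dotProduct, ← Complex.zero_re, ← h]
    refine Finset.sum_congr rfl fun a _ => ?_
    rw [Complex.mul_re, D.nf.r1 a p, zero_mul, sub_zero]
    rfl
  · have h := congrArg Complex.re (D.nf.t2 j p)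
    rw [dot, Complex.re_sum] at h
    rw [dotProduct, ← Complex.zero_re, ← h]
    refine Finset.sum_congr rfl fun a _ => ?_
    rw [Complex.mul_re, D.nf.r2 a p, zero_mul, sub_zero]
    rfl

theorem q_orth (p : P) : (fun a => (D.q1 a p).re) ⬝ᵥ (fun a => (D.q1 a p).re) = 1 ∧
    (fun a => (D.q2 a p).re) ⬝ᵥ (fun a => (D.q2 a p).re) = 1 ∧
    (fun a => (D.q1 a p).re) ⬝ᵥ (fun a => (D.q2 a p).re) = 0 := by
  have key : ∀ (u v : Fin 4 → P → ℂ) (c : ℝ), (∀ a, Rl (u a)) → dot u v p = (c : ℂ) →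
      (fun a => (u a p).re) ⬝ᵥ (fun a => (v a p).re) = c := by
    intro u v c hu h
    have h1 := congrArg Complex.re h
    rw [dot, Complex.re_sum, Complex.ofReal_re] at h1
    rw [dotProduct, ← h1]
    refine Finset.sum_congr rfl fun a _ => ?_
    rw [Complex.mul_re, hu a p, zero_mul, sub_zero]
  refine ⟨key _ _ 1 D.nf.r1 (by rw [D.nf.n11]; simp), key _ _ 1 D.nf.r2 (by rw [D.nf.n22]; simp),
    key _ _ 0 D.nf.r1 (by rw [D.nf.n12]; simp)⟩

include D in
theorem spanH : SpanH S := by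
  intro T hT p a b hdet j
  classical
  have hG := D.gram_ne hT hdet
  set x := D.Ev a p with hx
  set y := D.Ev b p with hy
  set z := D.Ev j p with hz
  set Δ := (x ⬝ᵥ x) * (y ⬝ᵥ y) - (x ⬝ᵥ y) ^ 2 with hΔ
  set α := ((z ⬝ᵥ x) * (y ⬝ᵥ y) - (z ⬝ᵥ y) * (x ⬝ᵥ y)) / Δ with hα
  set β := ((z ⬝ᵥ y) * (x ⬝ᵥ x) - (z ⬝ᵥ x) * (x ⬝ᵥ y)) / Δ with hβ
  have hv : z - α • x - β • y = 0 := by
    refine perp4 (q1 := fun a => (D.q1 a p).re) (q2 := fun a => (D.q2 a p).re) (x := x) (y := y)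
      (D.q_orth p).1 (D.q_orth p).2.1 (D.q_orth p).2.2 (D.q_perp a p).1 (D.q_perp b p).1
      (D.q_perp a p).2 (D.q_perp b p).2 hG ?_ ?_ ?_ ?_
    · simp only [dotProduct_sub, dotProduct_smul, smul_eq_mul, hz, hx, hy, (D.q_perp _ p).1]
      ring
    · simp only [dotProduct_sub, dotProduct_smul, smul_eq_mul, hz, hx, hy, (D.q_perp _ p).2]
      ring
    · simp only [dotProduct_sub, dotProduct_smul, smul_eq_mul, dotProduct_comm x z]
      rw [hα, hβ]
      field_simp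
      rw [hΔ]
      ring
    · simp only [dotProduct_sub, dotProduct_smul, smul_eq_mul, dotProduct_comm y z,
        dotProduct_comm y x]
      rw [hα, hβ]
      field_simp
      rw [hΔ]
      ring
  refine ⟨α, β, fun u hu => ?_⟩
  have h1 := D.imm p (fun l => (if l = j then (1 : ℂ) else 0) - (if l = a then (α : ℂ) else 0)
    - (if l = b then (β : ℂ) else 0)) (fun i => by
      simp only [sub_mul, ite_mul, zero_mul, one_mul, Finset.sum_sub_distrib, Finset.sum_ite_eq',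
        Finset.mem_univ, if_true]
      rw [← D.Ev_eq, ← D.Ev_eq, ← D.Ev_eq]
      have := congrFun hv i
      simp only [Pi.sub_apply, Pi.smul_apply, smul_eq_mul, Pi.zero_apply] at this
      exact_mod_cast this) u hu
  simp only [sub_mul, ite_mul, zero_mul, one_mul, Finset.sum_sub_distrib, Finset.sum_ite_eq',
        Finset.mem_univ, if_true] at h1
  linear_combination h1

/-- directional derivatives of `F` along a real field -/
theorem qf_dir {w : κ → P → ℂ} (hw : ∀ j, Rl (w j)) (p : P) :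
    qfm (S.met D.F) p (fun j => (w j p).re) = ∑ a, ((S.dir w (D.F a) p).re) ^ 2 := by
  rw [D.qf_met]
  refine Finset.sum_congr rfl fun a _ => ?_
  congr 1
  rw [DAlg.dir, Complex.re_sum]
  refine Finset.sum_congr rfl fun j _ => ?_
  rw [Complex.mul_re, hw j p, zero_mul, sub_zero, mul_comm]
  rfl

end DIn

/-- positive lower bound on a closed set of values of a function -/
theorem low_on (hpos : PosS S) {u r : P → ℂ} (hu : RSm S u) (hr : RSm S r) {h : ℝ → ℝ}
    (hh : ContDiff ℝ ∞ h) (h0 : ∀ x, 0 ≤ h x) (hu0 : ∀ p, 0 ≤ (u p).re)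
    (hpu : ∀ p, h (r p).re = 0 → 0 < (u p).re) :
    ∃ c : ℝ, 0 < c ∧ ∀ p, h (r p).re = 0 → c ≤ (u p).re := by
  obtain ⟨c, hc, hc'⟩ := hpos (fun p => u p + ((h (r p).re : ℝ) : ℂ)) (hu.add (hr.comp hh))
    (fun p => by
      rw [Complex.add_re, Complex.ofReal_re]
      rcases eq_or_lt_of_le (h0 (r p).re) with e | e
      · rw [← e, add_zero]; exact hpu p e.symm
      · exact add_pos_of_nonneg_of_pos (hu0 p) e)
  refine ⟨c, hc, fun p hp => ?_⟩
  have := hc' p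
  rwa [Complex.add_re, Complex.ofReal_re, hp, add_zero] at this

/-- the bump `> 0` exactly on the open interval -/
def hin (a b : ℝ) (x : ℝ) : ℝ := expNegInvGlue ((x - a) * (b - x))

theorem hin_smooth (a b : ℝ) : ContDiff ℝ ∞ (hin a b) :=
  expNegInvGlue.contDiff.comp ((contDiff_id.sub contDiff_const).mul (contDiff_const.sub contDiff_id))

theorem hin_zero {a b x : ℝ} : hin a b x = 0 ↔ (x - a) * (b - x) ≤ 0 := by
  unfold hin
  constructor
  · intro h
    by_contra h1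
    exact absurd h (ne_of_gt (expNegInvGlue.pos_of_pos (not_le.1 h1)))
  · exact expNegInvGlue.zero_of_nonpos

/-- the function `> 0` exactly outside the closed interval -/
def hout (a b : ℝ) (x : ℝ) : ℝ := expNegInvGlue ((x - a) * (x - b))

theorem hout_smooth (a b : ℝ) : ContDiff ℝ ∞ (hout a b) :=
  expNegInvGlue.contDiff.comp ((contDiff_id.sub contDiff_const).mul (contDiff_id.sub contDiff_const))

theorem hout_zero {a b x : ℝ} : hout a b x = 0 ↔ (x - a) * (x - b) ≤ 0 := by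
  unfold hout
  constructor
  · intro h
    by_contra h1
    exact absurd h (ne_of_gt (expNegInvGlue.pos_of_pos (not_le.1 h1)))
  · exact expNegInvGlue.zero_of_nonpos

theorem qfm_smul {T T' : κ → κ → P → ℂ} {c : ℝ} (h : ∀ j k p, T' j k p = (c : ℂ) * T j k p)
    (p : P) (ξ : κ → ℝ) : qfm T' p ξ = c * qfm T p ξ := by
  unfold qfm
  rw [Finset.mul_sum]
  refine Finset.sum_congr rfl fun j _ => ?_
  rw [Finset.mul_sum]
  refine Finset.sum_congr rfl fun k _ => ?_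
  rw [h, Complex.re_ofReal_mul]
  ring

theorem D_smul_real {u : P → ℂ} (hu : S.Sm u) (c : ℝ) (j : κ) (p : P) :
    S.D j (fun q => (c : ℂ) * u q) p = c * S.D j u p := S.D_smul_apply j _ hu p

/-- **(C3)** -/
theorem geoC_of (hpos : PosS S) {σ : P → P} {g : κ → κ → P → ℂ} (D : DIn S σ g) :
    Nonempty (GeoC S σ g) := by
  obtain ⟨c1, hc1, hpl⟩ := exists_pl hpos D.spanH D.gT D.gpos D.grank
  have hmr : ∀ p, ∃ a b, 0 < (S.met D.F a a p).re * (S.met D.F b b p).re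
      - (S.met D.F a b p).re ^ 2 := by
    intro p
    obtain ⟨a, b, hab⟩ := D.grank p
    refine ⟨a, b, ?_⟩
    have h1 := D.gram_ne D.gT (ne_of_gt hab)
    rw [D.met_re, D.met_re, D.met_re]
    have h2 := (det_nonneg D.metT D.qf_met_nonneg p a b).1
    rw [D.met_re, D.met_re, D.met_re] at h2
    exact lt_of_le_of_ne h2 (Ne.symm h1)
  obtain ⟨c2, hc2, hplm⟩ := exists_pl hpos D.spanH D.metT D.qf_met_nonneg hmr
  -- `met F ≤ C3 g`, `g ≤ C4 met F`
  obtain ⟨C3, hC3, h3⟩ := exists_cmp hc1 hpl D.gT D.gpos D.metT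
  obtain ⟨C4, hC4, h4⟩ := exists_cmp hc2 hplm D.metT D.qf_met_nonneg D.gT
  -- the tensor `dψ ⊗ dψ`
  have hψT : TSm S (fun j k p => S.D j D.ψ p * S.D k D.ψ p) := by
    refine ⟨⟨fun j k => ?_, fun p c hc k => ?_⟩, fun j k => (D.rψ.D j).mul (D.rψ.D k)⟩
    · funext p; exact mul_comm _ _
    · show ∑ j, c j * (S.D j D.ψ p * S.D k D.ψ p) = 0
      simp_rw [← mul_assoc]
      rw [← Finset.sum_mul, hc _ D.rψ.1, zero_mul]
  have hψq : ∀ p ξ, qfm (fun j k p => S.D j D.ψ p * S.D k D.ψ p) p ξ =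
      (∑ j, (S.D j D.ψ p).re * ξ j) ^ 2 := by
    intro p ξ
    unfold qfm
    rw [pow_two, Finset.sum_mul_sum]
    refine Finset.sum_congr rfl fun j _ => Finset.sum_congr rfl fun k _ => ?_
    rw [Complex.mul_re, (D.rψ.D j).2 p, zero_mul, sub_zero]
    ring
  obtain ⟨C5, hC5, h5⟩ := exists_cmp hc1 hpl D.gT D.gpos hψT
  set ε : ℝ := min 1 (1 / (8 * C3)) with hε
  have hε0 : 0 < ε := lt_min one_pos (by positivity)
  have hε1 : ε ≤ 1 := min_le_left _ _
  set ρ : ℝ := min 1 (1 / (4 * C5)) with hρ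
  have hρ0 : 0 < ρ := lt_min one_pos (by positivity)
  have hρ1 : ρ ≤ 1 := min_le_left _ _
  -- lower bound for `dψ`
  have hru : RSm S (fun p => ∑ j, S.D j D.ψ p ^ 2) := RSm.sum fun j _ => (D.rψ.D j).pow2
  have hre : ∀ p, (∑ j, S.D j D.ψ p ^ 2).re = ∑ j, (S.D j D.ψ p).re ^ 2 := by
    intro p
    rw [Complex.re_sum]
    refine Finset.sum_congr rfl fun j _ => ?_
    rw [pow_two, Complex.mul_re, (D.rψ.D j).2 p, zero_mul, sub_zero, pow_two]
  have hrr : RSm S D.r.Ψ := ⟨D.ray.smΨ, D.ray.rΨ⟩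
  obtain ⟨c6, hc6, h6⟩ := low_on hpos hru hrr (hin_smooth (11 / 10) (19 / 10))
    (fun x => expNegInvGlue.nonneg _) (fun p => by
      show 0 ≤ (∑ j, S.D j D.ψ p ^ 2).re
      rw [hre]; exact Finset.sum_nonneg fun j _ => sq_nonneg _) (fun p hp => by
      show 0 < (∑ j, S.D j D.ψ p ^ 2).re
      rw [hin_zero] at hp
      have h7 : (D.r.Ψ p).re ≤ 11 / 10 ∨ 19 / 10 ≤ (D.r.Ψ p).re := by
        by_contra hcon
        push Not at hcon
        nlinarith [mul_pos (sub_pos.2 hcon.1) (sub_pos.2 hcon.2)]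
      obtain ⟨j, hj⟩ := D.nd p h7
      rw [hre]
      have h8 : (S.D j D.ψ p).re ≠ 0 := by
        intro h9
        apply hj
        rw [(D.rψ.D j).eq_re, h9]; simp
      refine lt_of_lt_of_le (pow_pos (abs_pos.2 h8) 2) ?_
      rw [sq_abs]
      exact Finset.single_le_sum (f := fun j => (S.D j D.ψ p).re ^ 2) (fun j _ => sq_nonneg _)
        (Finset.mem_univ j))
  -- lower bound for `w`
  have hdir : ∀ a, RSm S (S.dir D.r.w (D.F a)) := fun a =>
    ⟨S.sm_dir D.ray.smw (D.rF a).1, Rl.dir D.ray.rw' (D.rF a).1 (D.rF a).2⟩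
  have hwu : RSm S (fun p => ∑ a, S.dir D.r.w (D.F a) p ^ 2) :=
    RSm.sum fun a _ => (hdir a).pow2
  have hwre : ∀ p, (∑ a, S.dir D.r.w (D.F a) p ^ 2).re =
      ∑ a, (S.dir D.r.w (D.F a) p).re ^ 2 := by
    intro p
    rw [Complex.re_sum]
    refine Finset.sum_congr rfl fun j _ => ?_
    rw [pow_two, Complex.mul_re, (hdir j).2 p, zero_mul, sub_zero, pow_two]
  obtain ⟨c7, hc7, h7⟩ := low_on hpos hwu hrr (hout_smooth (1 / 2) (5 / 2))
    (fun x => expNegInvGlue.nonneg _) (fun p => by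
      show 0 ≤ (∑ a, S.dir D.r.w (D.F a) p ^ 2).re
      rw [hwre]; exact Finset.sum_nonneg fun j _ => sq_nonneg _) (fun p hp => by
      show 0 < (∑ a, S.dir D.r.w (D.F a) p ^ 2).re
      rw [hout_zero] at hp
      have h7 : p ∈ D.r.K := by
        rw [D.rK]
        constructor
        · by_contra hcon
          push Not at hcon
          nlinarith [mul_pos (sub_pos.2 hcon) (show (0 : ℝ) < 5 / 2 - (D.r.Ψ p).re by linarith)]
        · by_contra hcon
          push Not at hcon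
          nlinarith [mul_pos (sub_pos.2 hcon) (show (0 : ℝ) < (D.r.Ψ p).re - 1 / 2 by linarith only [hcon])]
      obtain ⟨a, ha⟩ := D.wne p h7
      rw [hwre]
      have h8 : (S.dir D.r.w (D.F a) p).re ≠ 0 := by
        intro h9
        apply ha
        rw [(hdir a).eq_re, h9]; simp
      refine lt_of_lt_of_le (pow_pos (abs_pos.2 h8) 2) ?_
      rw [sq_abs]
      exact Finset.single_le_sum (f := fun a => (S.dir D.r.w (D.F a) p).re ^ 2)
        (fun j _ => sq_nonneg _) (Finset.mem_univ a))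
  set N : ℝ := (Fintype.card κ : ℝ) + 1 with hN
  have hN0 : 0 < N := by (clear * -; positivity)
  set c : ℝ := min (min c1 (ε ^ 2 / C4)) (min (ρ * Real.sqrt (c6 / N)) (c7 / C3)) with hc
  have hc0 : 0 < c := lt_min (lt_min hc1 (by positivity))
    (lt_min (mul_pos hρ0 (Real.sqrt_pos.2 (by positivity))) (by positivity))
  have hmet : ∀ j k p, S.met (fun a q => (ε : ℂ) * D.F a q) j k p =
      ((ε ^ 2 : ℝ) : ℂ) * S.met D.F j k p := by
    intro j k p
    show ∑ a, S.D j (fun q => (ε : ℂ) * D.F a q) p * S.D k (fun q => (ε : ℂ) * D.F a q) p =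
      ((ε ^ 2 : ℝ) : ℂ) * ∑ a, S.D j (D.F a) p * S.D k (D.F a) p
    rw [Finset.mul_sum]
    refine Finset.sum_congr rfl fun a _ => ?_
    rw [D_smul_real (D.rF a).1, D_smul_real (D.rF a).1]
    push_cast
    ring
  refine ⟨{ X0 := fun a q => (ε : ℂ) * D.F a q, q1 := D.q1, q2 := D.q2,
            ψ := fun q => (ρ : ℂ) * D.ψ q, r := D.r, e := D.e, c := c, cpos := hc0,
            inv := D.inv, gT := D.gT, gev := D.gev, gpos := D.gpos,
            pl := hpl.mono hc0 ((min_le_left _ _).trans (min_le_left _ _)),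
            rX := fun a => (D.rF a).smul ε, nf := ?_, Xev := fun a p => ?_, q1ev := D.q1ev,
            q2od := D.q2od, imm := fun p ξ => ?_, short := fun p ξ => ?_,
            rψ := D.rψ.smul ρ, ψod := fun p => ?_, ψsmall := fun p ξ => ?_,
            nd := fun p hp => ?_, ray := D.ray, rK := D.rK, Ψev := D.Ψev, tev := D.tev,
            wev := D.wev, βev := D.βev, gww := fun p hp => ?_, re := D.re, eod := D.eod,
            esq := D.esq, eD := D.eD, prim := D.prim }⟩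
  · refine ⟨D.nf.s1, D.nf.s2, D.nf.r1, D.nf.r2, D.nf.n11, D.nf.n22, D.nf.n12, fun j p => ?_,
      fun j p => ?_⟩
    · have h := D.nf.t1 j p
      show ∑ a, D.q1 a p * S.D j (fun q => (ε : ℂ) * D.F a q) p = 0
      have h' : ∑ a, D.q1 a p * S.D j (D.F a) p = 0 := h
      simp_rw [D_smul_real (D.rF _).1]
      calc ∑ a, D.q1 a p * (ε * S.D j (D.F a) p) = ε * ∑ a, D.q1 a p * S.D j (D.F a) p := by
            rw [Finset.mul_sum]
            exact Finset.sum_congr rfl fun a _ => by ring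
        _ = 0 := by rw [h', mul_zero]
    · have h := D.nf.t2 j p
      show ∑ a, D.q2 a p * S.D j (fun q => (ε : ℂ) * D.F a q) p = 0
      have h' : ∑ a, D.q2 a p * S.D j (D.F a) p = 0 := h
      simp_rw [D_smul_real (D.rF _).1]
      calc ∑ a, D.q2 a p * (ε * S.D j (D.F a) p) = ε * ∑ a, D.q2 a p * S.D j (D.F a) p := by
            rw [Finset.mul_sum]
            exact Finset.sum_congr rfl fun a _ => by ring
        _ = 0 := by rw [h', mul_zero]
  · show (ε : ℂ) * D.F a (σ p) = ε * D.F a p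
    rw [D.Fev a p]
  · rw [qfm_smul hmet]
    have k1 := (le_abs_self _).trans (h4 p ξ)
    have k2 : c ≤ ε ^ 2 / C4 := (min_le_left _ _).trans (min_le_right _ _)
    have k3 := D.qf_met_nonneg p ξ
    calc c * qfm g p ξ ≤ (ε ^ 2 / C4) * qfm g p ξ := mul_le_mul_of_nonneg_right k2 (D.gpos p ξ)
      _ ≤ (ε ^ 2 / C4) * (C4 * qfm (S.met D.F) p ξ) :=
          mul_le_mul_of_nonneg_left k1 (by positivity)
      _ = ε ^ 2 * qfm (S.met D.F) p ξ := by field_simp
  · rw [qfm_smul hmet]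
    have k1 := (le_abs_self _).trans (h3 p ξ)
    have k2 : ε ^ 2 ≤ 1 / (8 * C3) := by
      calc ε ^ 2 = ε * ε := pow_two _
        _ ≤ 1 * (1 / (8 * C3)) := mul_le_mul hε1 (min_le_right _ _) hε0.le zero_le_one
        _ = _ := one_mul _
    calc ε ^ 2 * qfm (S.met D.F) p ξ ≤ ε ^ 2 * (C3 * qfm g p ξ) :=
          mul_le_mul_of_nonneg_left k1 (by positivity)
      _ ≤ (1 / (8 * C3)) * (C3 * qfm g p ξ) :=
          mul_le_mul_of_nonneg_right k2 (mul_nonneg hC3.le (D.gpos p ξ))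
      _ = 1 / 8 * qfm g p ξ := by field_simp
  · show (ρ : ℂ) * D.ψ (σ p) = -(ρ * D.ψ p)
    rw [D.ψod p]; ring
  · have k0 : (∑ j, (S.D j (fun q => (ρ : ℂ) * D.ψ q) p).re * ξ j) ^ 2 =
        ρ ^ 2 * qfm (fun j k p => S.D j D.ψ p * S.D k D.ψ p) p ξ := by
      rw [hψq, ← mul_pow]
      congr 1
      rw [Finset.mul_sum]
      refine Finset.sum_congr rfl fun j _ => ?_
      rw [D_smul_real D.rψ.1, Complex.re_ofReal_mul]
      ring
    rw [k0]
    have k1 := (le_abs_self _).trans (h5 p ξ)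
    have k2 : ρ ^ 2 ≤ 1 / (4 * C5) := by
      calc ρ ^ 2 = ρ * ρ := pow_two _
        _ ≤ 1 * (1 / (4 * C5)) := mul_le_mul hρ1 (min_le_right _ _) hρ0.le zero_le_one
        _ = _ := one_mul _
    calc ρ ^ 2 * qfm (fun j k p => S.D j D.ψ p * S.D k D.ψ p) p ξ ≤ ρ ^ 2 * (C5 * qfm g p ξ) :=
          mul_le_mul_of_nonneg_left k1 (by positivity)
      _ ≤ (1 / (4 * C5)) * (C5 * qfm g p ξ) :=
          mul_le_mul_of_nonneg_right k2 (mul_nonneg hC5.le (D.gpos p ξ))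
      _ = 1 / 4 * qfm g p ξ := by field_simp
  · have k1 : c6 ≤ ∑ j, (S.D j D.ψ p).re ^ 2 := by
      rw [← hre]
      refine h6 p (hin_zero.2 ?_)
      rcases hp with hp | hp
      · exact mul_nonpos_of_nonpos_of_nonneg (by linarith) (by linarith only [hp])
      · exact mul_nonpos_of_nonneg_of_nonpos (by linarith only [hp]) (by linarith)
    obtain ⟨j, hj⟩ : ∃ j, c6 / N ≤ (S.D j D.ψ p).re ^ 2 := by
      by_contra hcon
      push Not at hcon
      have k2 : ∑ j, (S.D j D.ψ p).re ^ 2 ≤ ∑ _j : κ, c6 / N :=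
        Finset.sum_le_sum fun j _ => (hcon j).le
      rw [Finset.sum_const, Finset.card_univ, nsmul_eq_mul] at k2
      have k3 : (Fintype.card κ : ℝ) * (c6 / N) < c6 := by
        rw [← mul_div_assoc, div_lt_iff₀ hN0, hN]
        linarith only [hc6]
      linarith
    refine ⟨j, ?_⟩
    rw [D_smul_real D.rψ.1, Complex.re_ofReal_mul, abs_mul, abs_of_pos hρ0]
    have k4 : Real.sqrt (c6 / N) ≤ |(S.D j D.ψ p).re| := by
      rw [← Real.sqrt_sq_eq_abs]
      exact Real.sqrt_le_sqrt hj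
    calc c ≤ ρ * Real.sqrt (c6 / N) := (min_le_right _ _).trans (min_le_left _ _)
      _ ≤ _ := mul_le_mul_of_nonneg_left k4 hρ0.le
  · have k1 : c7 ≤ ∑ a, (S.dir D.r.w (D.F a) p).re ^ 2 := by
      rw [← hwre]
      refine h7 p (hout_zero.2 ?_)
      rw [D.rK] at hp
      exact mul_nonpos_of_nonneg_of_nonpos (sub_nonneg.2 hp.1) (sub_nonpos.2 hp.2)
    rw [← D.qf_dir D.ray.rw'] at k1
    have k2 := k1.trans ((le_abs_self _).trans (h3 p _))
    have k3 : c ≤ c7 / C3 := (min_le_right _ _).trans (min_le_right _ _)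
    refine k3.trans ?_
    rw [div_le_iff₀ hC3, mul_comm]
    exact k2

end Vale.Agent.P205.TW
end
end

section

/-!
Compositions with smooth functions of one variable (P205, full question, block PC).
-/

noncomputable section

open scoped ContDiff
open Set Filter

namespace Vale.Agent.P205.F

variable {P κ : Type*} {S : DAlg P κ} {ι : Type*} {μ : ι → ℝ}

/-- all derivatives of a smooth function are bounded -/
theorem DAlg.exists_nb [Finite κ] (k : ℕ) {u : P → ℂ} (hu : S.Sm u) :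
    ∃ C : ℝ, 0 ≤ C ∧ S.Nb k C u := by
  cases nonempty_fintype κ
  induction k generalizing u with
  | zero =>
    obtain ⟨C, hC⟩ := S.bdd hu
    refine ⟨|C|, abs_nonneg C, fun w hw p => ?_⟩
    have h0 : w = [] := List.length_eq_zero_iff.1 (Nat.le_zero.1 hw)
    subst h0
    exact (hC p).trans (le_abs_self C)
  | succ k ih =>
    obtain ⟨C, hC⟩ := S.bdd hu
    choose B hB hB' using fun j => ih (S.sm_D j hu)
    refine ⟨|C| + ∑ j, B j, add_nonneg (abs_nonneg C) (Finset.sum_nonneg fun j _ => hB j),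
      fun w hw p => ?_⟩
    rcases List.eq_nil_or_concat w with rfl | ⟨w', j, rfl⟩
    · exact ((hC p).trans (le_abs_self C)).trans
        (le_add_of_nonneg_right (Finset.sum_nonneg fun j _ => hB j))
    · rw [List.concat_eq_append] at hw ⊢
      have hw' : w'.length ≤ k := by simpa using hw
      rw [S.wd_snoc]
      exact (hB' j w' hw' p).trans ((Finset.single_le_sum (fun j _ => hB j)
        (Finset.mem_univ j)).trans (le_add_of_nonneg_left (abs_nonneg C)))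

/-- a fixed smooth function is `O(1)` at every scale `μ ≥ 1` -/
theorem DAlg.FO.fixed [Finite κ] {u : P → ℂ} (hμ : ∀ i, 1 ≤ μ i) (hu : S.Sm u) :
    S.FO μ (fun _ => 1) (fun _ : ι => u) := by
  refine ⟨fun _ => hu, fun k => ?_⟩
  obtain ⟨C, hC, h⟩ := DAlg.exists_nb k hu
  refine ⟨C, hC, fun i w hw p => ?_⟩
  rw [mul_one]
  exact (h w hw p).trans (le_mul_of_one_le_right hC (one_le_pow₀ (hμ i)))

theorem contDiff_deriv' {F : ℝ → ℂ} (hF : ContDiff ℝ ∞ F) : ContDiff ℝ ∞ (deriv F) := by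
  have h2 := hF
  rw [show (∞ : WithTop ℕ∞) = ∞ + 1 from rfl] at h2
  exact (contDiff_succ_iff_deriv.1 h2).2.2

/-- smooth functions of a bounded real family (compact range) -/
theorem DAlg.FO.compc {F : ℝ → ℂ} (hF : ContDiff ℝ ∞ F) {u : ι → P → ℂ} (hμ : ∀ i, 0 ≤ μ i)
    (hu : S.FO μ (fun _ => 1) u) (hr : ∀ i, Rl (u i)) :
    S.FO μ (fun _ => 1) (fun i p => F (u i p).re) := by
  refine ⟨fun i => S.sm_comp hF (hu.1 i) (hr i), fun k => ?_⟩
  obtain ⟨B, hB, hBu⟩ := hu.apply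
  have h0 : ∀ F : ℝ → ℂ, ContDiff ℝ ∞ F → ∃ C : ℝ, 0 ≤ C ∧ ∀ i p, ‖F (u i p).re‖ ≤ C := by
    intro F hF
    obtain ⟨M, hM⟩ := isCompact_Icc.exists_bound_of_continuousOn (s := Icc (-B) B)
      (f := F) hF.continuous.continuousOn
    refine ⟨|M|, abs_nonneg M, fun i p => (hM _ (abs_le.1 ?_)).trans (le_abs_self M)⟩
    have := hBu i p
    rw [mul_one] at this
    exact (Complex.abs_re_le_norm _).trans this
  induction k generalizing F with
  | zero =>
    obtain ⟨C, hC, h⟩ := h0 F hF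
    refine ⟨C, hC, fun i w hw p => ?_⟩
    have hw0 : w = [] := List.length_eq_zero_iff.1 (Nat.le_zero.1 hw)
    subst hw0
    simpa using h i p
  | succ k ih =>
    obtain ⟨C, hC, h⟩ := h0 F hF
    obtain ⟨C1, hC1, h1⟩ := ih (contDiff_deriv' hF)
    obtain ⟨C2, hC2, h2⟩ := hu.2 (k + 1)
    refine ⟨C + 2 ^ k * (C1 * C2), by positivity, fun i w hw p => ?_⟩
    have hm : ∀ m, 0 ≤ μ i ^ m := fun m => pow_nonneg (hμ i) m
    rcases List.eq_nil_or_concat w with rfl | ⟨w', j, rfl⟩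
    · simp only [S.wd_nil, List.length_nil, pow_zero, mul_one]
      exact (h i p).trans (le_add_of_nonneg_right (by positivity))
    · rw [List.concat_eq_append] at hw ⊢
      have hw' : w'.length ≤ k := by simpa using hw
      have e1 : S.D j (fun p => F (u i p).re) = (fun p => deriv F (u i p).re) * S.D j (u i) := by
        rw [S.D_comp j hF (hu.1 i) (hr i)]
        rfl
      have h3 := (h1 i).mul (S.sm_comp (contDiff_deriv' hF) (hu.1 i) (hr i))
        (S.sm_D j (hu.1 i)) ((h2 i).D j) w' hw' p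
      rw [S.wd_snoc, e1, List.length_append, List.length_singleton, pow_succ]
      refine h3.trans ?_
      have h4 : 0 ≤ C * (μ i ^ w'.length * μ i) := mul_nonneg hC (mul_nonneg (hm _) (hμ i))
      linarith only [h4]

/-- vanishing of order `n` outside `K` -/
def DAlg.Zn (S : DAlg P κ) (n : ℕ) (K : Set P) (u : P → ℂ) : Prop :=
  ∀ w : List κ, w.length ≤ n → ∀ p, p ∉ K → S.wd w u p = 0

theorem DAlg.Zn.mul {n : ℕ} {K : Set P} {u v : P → ℂ} (hu : S.Sm u) (hv : S.Sm v)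
    (h : S.Zn n K u) : S.Zn n K (u * v) := by
  induction n generalizing u v with
  | zero =>
    intro w hw p hp
    have h0 : w = [] := List.length_eq_zero_iff.1 (Nat.le_zero.1 hw)
    subst h0
    have := h [] le_rfl p hp
    rw [S.wd_nil] at this ⊢
    rw [Pi.mul_apply, this, zero_mul]
  | succ n ih =>
    intro w hw p hp
    rcases List.eq_nil_or_concat w with rfl | ⟨w', j, rfl⟩
    · have := h [] (Nat.zero_le _) p hp
      rw [S.wd_nil] at this ⊢
      rw [Pi.mul_apply, this, zero_mul]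
    · rw [List.concat_eq_append] at hw ⊢
      have hw' : w'.length ≤ n := by simpa using hw
      have h1 : S.Zn n K (S.D j u) := fun w hw p hp => by
        rw [← S.wd_snoc]
        exact h _ (by simpa using hw) p hp
      have h2 : S.Zn n K u := fun w hw p hp => h w (hw.trans (Nat.le_succ n)) p hp
      rw [S.wd_snoc, S.D_mul j hu hv,
        S.wd_add w' (S.sm_mul (S.sm_D j hu) hv) (S.sm_mul hu (S.sm_D j hv)), Pi.add_apply,
        ih (S.sm_D j hu) hv h1 w' hw' p hp, ih hu (S.sm_D j hv) h2 w' hw' p hp, add_zero]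

/-- compositions vanish to infinite order where all derivatives of `F` vanish -/
theorem DAlg.Zs.comp {F : ℝ → ℂ} (hF : ContDiff ℝ ∞ F) {u : P → ℂ} {K : Set P} (hu : S.Sm u)
    (hr : Rl u) (h : ∀ p, p ∉ K → ∀ n, iteratedDeriv n F (u p).re = 0) :
    S.Zs K (fun p => F (u p).re) := by
  have key : ∀ n : ℕ, ∀ F : ℝ → ℂ, ContDiff ℝ ∞ F →
      (∀ p, p ∉ K → ∀ n, iteratedDeriv n F (u p).re = 0) →
      S.Zn n K (fun p => F (u p).re) := by
    intro n
    induction n with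
    | zero =>
      intro F hF h w hw p hp
      have h0 : w = [] := List.length_eq_zero_iff.1 (Nat.le_zero.1 hw)
      subst h0
      simpa using h p hp 0
    | succ n ih =>
      intro F hF h w hw p hp
      rcases List.eq_nil_or_concat w with rfl | ⟨w', j, rfl⟩
      · simpa using h p hp 0
      · rw [List.concat_eq_append] at hw ⊢
        have hw' : w'.length ≤ n := by simpa using hw
        have e1 : S.D j (fun p => F (u p).re) = (fun p => deriv F (u p).re) * S.D j u := by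
          rw [S.D_comp j hF hu hr]
          rfl
        rw [S.wd_snoc, e1]
        refine DAlg.Zn.mul (S.sm_comp (contDiff_deriv' hF) hu hr) (S.sm_D j hu)
          (ih (deriv F) (contDiff_deriv' hF) fun p hp m => ?_) w' hw' p hp
        rw [← iteratedDeriv_succ']
        exact h p hp (m + 1)
  exact fun w p hp => key w.length F hF h w le_rfl p hp

/-! ### cut-off functions of one variable -/

/-- a smooth function vanishing on `(-∞, a]` has all derivatives zero there -/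
theorem iteratedDeriv_eq_zero_of_le {F : ℝ → ℂ} (hF : ContDiff ℝ ∞ F) {a : ℝ}
    (h : ∀ v, v ≤ a → F v = 0) {v : ℝ} (hv : v ≤ a) (n : ℕ) : iteratedDeriv n F v = 0 := by
  have hlt : ∀ v, v < a → iteratedDeriv n F v = 0 := by
    intro v hv
    have he : F =ᶠ[nhds v] fun _ => 0 := by
      filter_upwards [Iio_mem_nhds hv] with x hx
      exact h x (le_of_lt hx)
    rw [he.iteratedDeriv_eq n, iteratedDeriv_const]
    split_ifs <;> rfl
  have hc : Continuous (iteratedDeriv n F) := hF.continuous_iteratedDeriv n (by exact_mod_cast le_top)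
  have hcl : IsClosed {v | iteratedDeriv n F v = 0} := isClosed_eq hc continuous_const
  have hsub : closure (Iio a) ⊆ {v | iteratedDeriv n F v = 0} :=
    hcl.closure_subset_iff.2 fun x hx => hlt x hx
  rw [closure_Iio] at hsub
  exact hsub hv

/-- smooth step from `0` (on `v ≤ 1`) to `1` (on `v ≥ 2`) -/
def cutF (v : ℝ) : ℂ := (Real.smoothTransition (v - 1) : ℂ)

theorem contDiff_cutF : ContDiff ℝ ∞ cutF :=
  Complex.ofRealCLM.contDiff.comp
    (Real.smoothTransition.contDiff.comp (contDiff_id.sub contDiff_const))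

theorem cutF_im (v : ℝ) : (cutF v).im = 0 := Complex.ofReal_im _

theorem cutF_eq_zero {v : ℝ} (hv : v ≤ 1) : cutF v = 0 := by
  unfold cutF
  rw [Real.smoothTransition.zero_of_nonpos (by linarith)]
  rfl

theorem cutF_zero {v : ℝ} (hv : v ≤ 1) (n : ℕ) : iteratedDeriv n cutF v = 0 :=
  iteratedDeriv_eq_zero_of_le contDiff_cutF (fun _ h => cutF_eq_zero h) hv n

theorem cutF_one {v : ℝ} (hv : 2 ≤ v) : cutF v = 1 := by
  unfold cutF
  rw [Real.smoothTransition.one_of_one_le (by linarith)]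
  rfl

theorem smooth_cut_mul {f : ℝ → ℝ} (hf : ∀ v, 1 / 8 < v → ContDiffAt ℝ ∞ f v) :
    ContDiff ℝ ∞ fun v => Real.smoothTransition (4 * v - 1) * f v := by
  rw [contDiff_iff_contDiffAt]
  intro v
  rcases lt_or_ge (1 / 8) v with h | h
  · refine ContDiffAt.mul ?_ (hf v h)
    exact (Real.smoothTransition.contDiff.comp
      ((contDiff_const.mul contDiff_id).sub contDiff_const)).contDiffAt
  · have he : (fun v => Real.smoothTransition (4 * v - 1) * f v) =ᶠ[nhds v] fun _ => 0 := by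
      filter_upwards [Iio_mem_nhds (show v < 1 / 4 by linarith only [h])] with x hx
      have hx' : x < 1 / 4 := hx
      rw [Real.smoothTransition.zero_of_nonpos (by linarith), zero_mul]
    exact contDiffAt_const.congr_of_eventuallyEq he

/-- smooth, equal to `1 / v` for `v ≥ 1/2` -/
def invF (v : ℝ) : ℂ := ((Real.smoothTransition (4 * v - 1) * v⁻¹ : ℝ) : ℂ)

theorem contDiff_invF : ContDiff ℝ ∞ invF := by
  refine Complex.ofRealCLM.contDiff.comp (smooth_cut_mul fun v hv => ?_)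
  exact contDiffAt_inv ℝ (ne_of_gt (by linarith))

theorem invF_im (v : ℝ) : (invF v).im = 0 := Complex.ofReal_im _

theorem invF_eq {v : ℝ} (hv : 1 / 2 ≤ v) : invF v = 1 / (v : ℂ) := by
  unfold invF
  rw [Real.smoothTransition.one_of_one_le (by linarith), one_mul]
  push_cast
  rw [one_div]

/-- smooth, `rsF v ^ 2 * v = 1` for `v ≥ 1/2` -/
def rsF (v : ℝ) : ℂ := ((Real.smoothTransition (4 * v - 1) * (√v)⁻¹ : ℝ) : ℂ)

theorem contDiff_rsF : ContDiff ℝ ∞ rsF := by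
  refine Complex.ofRealCLM.contDiff.comp (smooth_cut_mul fun v hv => ?_)
  have hv0 : 0 < v := by linarith only [hv]
  exact (contDiffAt_id.sqrt hv0.ne').inv (Real.sqrt_pos.2 hv0).ne'

theorem rsF_im (v : ℝ) : (rsF v).im = 0 := Complex.ofReal_im _

theorem rsF_sq {v : ℝ} (hv : 1 / 2 ≤ v) : rsF v ^ 2 * (v : ℂ) = 1 := by
  have hv0 : 0 < v := by linarith
  unfold rsF
  rw [Real.smoothTransition.one_of_one_le (by linarith), one_mul]
  rw [← Complex.ofReal_pow, ← Complex.ofReal_mul, inv_pow, Real.sq_sqrt hv0.le,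
    inv_mul_cancel₀ hv0.ne', Complex.ofReal_one]

end Vale.Agent.P205.F
end
end

section

/-!
The rays of the pieces (P205, full question, block PC).

In a coordinate box `x, Y`: the phase `M (l · x) + om ψ` has the covector `M ν`,
`ν = l + (om / M) Yψ`, on the box; `t = (ν · Y) / (M |ν|²)`, `w = ν^⊥ · Y`.
-/

noncomputable section

namespace Vale.Agent.P205.F

open scoped ContDiff
open Vale.Agent.P205.PC

universe u

variable {P : Type u} {κ : Type} [Fintype κ] (S : DAlg P κ)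

/-- data of a ray in a coordinate box -/
structure RIn (P κ : Type*) where
  /-- coordinates -/
  x : Fin 2 → P → ℂ
  /-- coordinate fields -/
  Y : Fin 2 → κ → P → ℂ
  /-- covector -/
  l : Fin 2 → ℝ
  /-- large factor -/
  M : ℝ
  /-- factor of the perturbation -/
  om : ℝ
  /-- perturbation of the phase -/
  ψ : P → ℂ
  /-- region -/
  K : Set P

/-- the covector of the phase divided by `M` -/
def RIn.nu (R : RIn P κ) (i : Fin 2) : P → ℂ :=
  fun p => (R.l i : ℂ) + ((R.om / R.M : ℝ) : ℂ) * S.dir (R.Y i) R.ψ p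

/-- its square -/
def RIn.n2 (R : RIn P κ) : P → ℂ := fun p => R.nu S 0 p * R.nu S 0 p + R.nu S 1 p * R.nu S 1 p

/-- the inverse of the square, cut off -/
def RIn.N (R : RIn P κ) : P → ℂ := fun p => invF (R.n2 S p).re

/-- the ray -/
def RIn.ray (R : RIn P κ) : Ray P κ where
  Ψ := fun p => (R.M : ℂ) * ((R.l 0 : ℂ) * R.x 0 p + (R.l 1 : ℂ) * R.x 1 p) + (R.om : ℂ) * R.ψ p
  t := fun j p => (((R.M⁻¹ : ℝ) : ℂ) * R.N S p) *
    (R.nu S 0 p * R.Y 0 j p + R.nu S 1 p * R.Y 1 j p)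
  w := fun j p => R.nu S 0 p * R.Y 1 j p - R.nu S 1 p * R.Y 0 j p
  β := fun j p => R.N S p * (R.nu S 0 p * S.D j (R.x 1) p - R.nu S 1 p * S.D j (R.x 0) p)
  K := R.K

/-- validity of the data -/
structure RIn.Ok (R : RIn P κ) : Prop where
  smx : ∀ i, S.Sm (R.x i)
  rx : ∀ i, Rl (R.x i)
  smY : ∀ i j, S.Sm (R.Y i j)
  rY : ∀ i j, Rl (R.Y i j)
  smψ : S.Sm R.ψ
  rψ : Rl R.ψ
  M : 0 < R.M
  Yx : ∀ p ∈ R.K, ∀ i j, S.dir (R.Y i) (R.x j) p = if i = j then 1 else 0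
  dec : ∀ u, S.Sm u → ∀ j, ∀ p ∈ R.K, S.D j u p = ∑ i, S.D j (R.x i) p * S.dir (R.Y i) u p
  n2 : ∀ p ∈ R.K, 1 / 2 ≤ (R.n2 S p).re

variable {S}

section basic

variable {R : RIn P κ}

theorem RIn.Ok.sm_nu (h : R.Ok S) (i : Fin 2) : S.Sm (R.nu S i) :=
  S.sm_add (S.sm_const _) (S.sm_smul _ (S.sm_dir (h.smY i) h.smψ))

theorem RIn.Ok.rl_nu (h : R.Ok S) (i : Fin 2) : Rl (R.nu S i) :=
  (Rl.const (Complex.ofReal_im _)).add
    (Rl.smul (Complex.ofReal_im _) (Rl.dir (h.rY i) h.smψ h.rψ))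

theorem RIn.Ok.sm_n2 (h : R.Ok S) : S.Sm (R.n2 S) :=
  S.sm_add (S.sm_mul (h.sm_nu 0) (h.sm_nu 0)) (S.sm_mul (h.sm_nu 1) (h.sm_nu 1))

theorem RIn.Ok.rl_n2 (h : R.Ok S) : Rl (R.n2 S) :=
  ((h.rl_nu 0).mul (h.rl_nu 0)).add ((h.rl_nu 1).mul (h.rl_nu 1))

theorem RIn.Ok.sm_N (h : R.Ok S) : S.Sm (R.N S) := S.sm_comp contDiff_invF h.sm_n2 h.rl_n2

theorem RIn.Ok.rl_N (_h : R.Ok S) : Rl (R.N S) := fun _ => invF_im _

theorem RIn.Ok.N_mul (h : R.Ok S) {p : P} (hp : p ∈ R.K) : R.N S p * R.n2 S p = 1 := by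
  have h1 := h.n2 p hp
  have h2 : ((R.n2 S p).re : ℂ) = R.n2 S p := h.rl_n2.ofReal_re p
  have h3 : ((R.n2 S p).re : ℂ) ≠ 0 := by
    rw [Ne, Complex.ofReal_eq_zero]
    linarith
  rw [RIn.N, invF_eq h1]
  nth_rw 2 [← h2]
  field_simp

theorem RIn.dir_t (R : RIn P κ) (u : P → ℂ) (p : P) :
    S.dir (R.ray S).t u p = (((R.M⁻¹ : ℝ) : ℂ) * R.N S p) *
      (R.nu S 0 p * S.dir (R.Y 0) u p + R.nu S 1 p * S.dir (R.Y 1) u p) := by
  simp only [DAlg.dir, Finset.mul_sum, RIn.ray]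
  rw [← Finset.sum_add_distrib, Finset.mul_sum]
  exact Finset.sum_congr rfl fun j _ => by ring

theorem RIn.dir_w (R : RIn P κ) (u : P → ℂ) (p : P) :
    S.dir (R.ray S).w u p =
      R.nu S 0 p * S.dir (R.Y 1) u p - R.nu S 1 p * S.dir (R.Y 0) u p := by
  simp only [DAlg.dir, Finset.mul_sum, RIn.ray]
  rw [← Finset.sum_sub_distrib]
  exact Finset.sum_congr rfl fun j _ => by ring

theorem RIn.Ok.dir_Ψ (h : R.Ok S) {p : P} (hp : p ∈ R.K) (i : Fin 2) :
    S.dir (R.Y i) (R.ray S).Ψ p = (R.M : ℂ) * R.nu S i p := by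
  have hM : (R.M : ℂ) ≠ 0 := Complex.ofReal_ne_zero.mpr h.M.ne'
  have e : (R.ray S).Ψ = (fun p => (R.M : ℂ) * ((fun p => (R.l 0 : ℂ) * R.x 0 p)
      + fun p => (R.l 1 : ℂ) * R.x 1 p) p) + fun p => (R.om : ℂ) * R.ψ p := rfl
  have s0 := S.sm_smul (R.l 0 : ℂ) (h.smx 0)
  have s1 := S.sm_smul (R.l 1 : ℂ) (h.smx 1)
  rw [e, S.dir_add (S.sm_smul _ (S.sm_add s0 s1)) (S.sm_smul _ h.smψ),
    S.dir_smul _ (S.sm_add s0 s1), S.dir_add s0 s1, S.dir_smul _ (h.smx 0),
    S.dir_smul _ (h.smx 1), S.dir_smul _ h.smψ, h.Yx p hp i 0, h.Yx p hp i 1]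
  simp only [RIn.nu]
  push_cast
  fin_cases i <;> simp <;> field_simp

theorem RIn.Ok.sm_Ψ (h : R.Ok S) : S.Sm (R.ray S).Ψ :=
  S.sm_add (S.sm_smul _ (S.sm_add (S.sm_smul _ (h.smx 0)) (S.sm_smul _ (h.smx 1))))
    (S.sm_smul _ h.smψ)

/-- the ray is valid -/
theorem RIn.Ok.ray_ok (h : R.Ok S) : (R.ray S).Ok S where
  smΨ := h.sm_Ψ
  smt j := S.sm_mul (S.sm_mul (S.sm_const _) h.sm_N)
    (S.sm_add (S.sm_mul (h.sm_nu 0) (h.smY 0 j)) (S.sm_mul (h.sm_nu 1) (h.smY 1 j)))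
  smw j := S.sm_sub (S.sm_mul (h.sm_nu 0) (h.smY 1 j)) (S.sm_mul (h.sm_nu 1) (h.smY 0 j))
  smβ j := S.sm_mul h.sm_N (S.sm_sub (S.sm_mul (h.sm_nu 0) (S.sm_D j (h.smx 1)))
    (S.sm_mul (h.sm_nu 1) (S.sm_D j (h.smx 0))))
  rΨ := (Rl.smul (Complex.ofReal_im _) ((Rl.smul (Complex.ofReal_im _) (h.rx 0)).add
    (Rl.smul (Complex.ofReal_im _) (h.rx 1)))).add (Rl.smul (Complex.ofReal_im _) h.rψ)
  rt j := ((Rl.const (Complex.ofReal_im _)).mul h.rl_N).mul
    (((h.rl_nu 0).mul (h.rY 0 j)).add ((h.rl_nu 1).mul (h.rY 1 j)))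
  rw' j := ((h.rl_nu 0).mul (h.rY 1 j)).sub ((h.rl_nu 1).mul (h.rY 0 j))
  rβ j := h.rl_N.mul (((h.rl_nu 0).mul (S.rl_D j (h.smx 1) (h.rx 1))).sub
    ((h.rl_nu 1).mul (S.rl_D j (h.smx 0) (h.rx 0))))
  tΨ p hp := by
    have hM : (R.M : ℂ) ≠ 0 := Complex.ofReal_ne_zero.mpr h.M.ne'
    have hN := h.N_mul hp
    simp only [RIn.n2] at hN
    rw [R.dir_t, h.dir_Ψ hp 0, h.dir_Ψ hp 1]
    push_cast
    field_simp
    linear_combination hN
  wΨ p hp := by
    rw [R.dir_w, h.dir_Ψ hp 0, h.dir_Ψ hp 1]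
    ring
  dec u hu j p hp := by
    have hM : (R.M : ℂ) ≠ 0 := Complex.ofReal_ne_zero.mpr h.M.ne'
    have hN := h.N_mul hp
    simp only [RIn.n2] at hN
    rw [R.dir_t, R.dir_w, h.dec u hu j p hp, h.dec _ h.sm_Ψ j p hp, Fin.sum_univ_two,
      Fin.sum_univ_two, h.dir_Ψ hp 0, h.dir_Ψ hp 1]
    simp only [RIn.ray]
    push_cast
    field_simp
    linear_combination (-(S.D j (R.x 0) p * S.dir (R.Y 0) u p
      + S.D j (R.x 1) p * S.dir (R.Y 1) u p)) * hN

end basic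

/-! ### the Gram determinant along the ray -/

/-- real part of a vector valued function at a point -/
def rev (X : Fin 4 → P → ℂ) (p : P) : Fin 4 → ℝ := fun a => (X a p).re

theorem dot_re {X Y : Fin 4 → P → ℂ} (hX : ∀ a, Rl (X a)) (_hY : ∀ a, Rl (Y a)) (p : P) :
    (dot X Y p).re = dR (rev X p) (rev Y p) := by
  simp only [dot, dR, rev, Complex.re_sum, Complex.mul_re]
  exact Finset.sum_congr rfl fun a _ => by rw [hX a p, zero_mul, sub_zero]

theorem gram3_rev {X Y Z : Fin 4 → P → ℂ} (hX : ∀ a, Rl (X a)) (hY : ∀ a, Rl (Y a))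
    (hZ : ∀ a, Rl (Z a)) (p : P) :
    (gram3 X Y Z p).re = gR (rev X p) (rev Y p) (rev Z p) := by
  have h0 : ∀ U V : Fin 4 → P → ℂ, (∀ a, Rl (U a)) → (∀ a, Rl (V a)) →
      dot U V p = ((dR (rev U p) (rev V p) : ℝ) : ℂ) := fun U V hU hV => by
    rw [← dot_re hU hV]
    exact ((Rl.dot hU hV).ofReal_re p).symm
  simp only [gram3, gR]
  rw [h0 X X hX hX, h0 Y Y hY hY, h0 Z Z hZ hZ, h0 X Y hX hY, h0 X Z hX hZ, h0 Y Z hY hZ]
  norm_cast

/-- second derivatives in the box -/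
def ddv (S : DAlg P κ) (Y : Fin 2 → κ → P → ℂ) (X : Fin 4 → P → ℂ) (p : P) (i j : Fin 2) :
    Fin 4 → ℝ :=
  rev (S.dirv (Y i) (S.dirv (Y j) X)) p

theorem gR_add_tan (x y z : Fin 4 → ℝ) (a b : ℝ) : gR x y (z + (a • x + b • y)) = gR x y z := by
  rw [gR_eq, gR_eq]
  refine Finset.sum_congr rfl fun m _ => ?_
  rw [M_add, M_add, M_smul, M_smul, M_fst, M_snd, mul_zero, mul_zero, add_zero, add_zero]

theorem re_mul_im {a : ℂ} (h : a.im = 0) (z : ℂ) : (a * z).re = a.re * z.re := by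
  rw [Complex.mul_re, h, zero_mul, sub_zero]

/-- the second derivative along `w` -/
theorem RIn.Ok.dir_ww {R : RIn P κ} (h : R.Ok S) {u : P → ℂ} (hu : S.Sm u) (p : P) :
    S.dir (R.ray S).w (S.dir (R.ray S).w u) p =
      (R.nu S 1 p * (R.nu S 1 p * S.dir (R.Y 0) (S.dir (R.Y 0) u) p)
      - R.nu S 0 p * (R.nu S 1 p * (S.dir (R.Y 0) (S.dir (R.Y 1) u) p
        + S.dir (R.Y 1) (S.dir (R.Y 0) u) p))
      + R.nu S 0 p * (R.nu S 0 p * S.dir (R.Y 1) (S.dir (R.Y 1) u) p))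
      + ((R.nu S 1 p * S.dir (R.Y 0) (R.nu S 1) p - R.nu S 0 p * S.dir (R.Y 1) (R.nu S 1) p)
          * S.dir (R.Y 0) u p
        + (R.nu S 0 p * S.dir (R.Y 1) (R.nu S 0) p - R.nu S 1 p * S.dir (R.Y 0) (R.nu S 0) p)
          * S.dir (R.Y 1) u p) := by
  have e : S.dir (R.ray S).w u = R.nu S 0 * S.dir (R.Y 1) u - R.nu S 1 * S.dir (R.Y 0) u :=
    funext fun q => R.dir_w u q
  have s0 : S.Sm (S.dir (R.Y 0) u) := S.sm_dir (h.smY 0) hu
  have s1 : S.Sm (S.dir (R.Y 1) u) := S.sm_dir (h.smY 1) hu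
  have key : ∀ i, S.dir (R.Y i) (S.dir (R.ray S).w u) p =
      (S.dir (R.Y i) (R.nu S 0) p * S.dir (R.Y 1) u p
        + R.nu S 0 p * S.dir (R.Y i) (S.dir (R.Y 1) u) p)
      - (S.dir (R.Y i) (R.nu S 1) p * S.dir (R.Y 0) u p
        + R.nu S 1 p * S.dir (R.Y i) (S.dir (R.Y 0) u) p) := fun i => by
    rw [e, S.dir_sub (S.sm_mul (h.sm_nu 0) s1) (S.sm_mul (h.sm_nu 1) s0),
      S.dir_mul (h.sm_nu 0) s1, S.dir_mul (h.sm_nu 1) s0]
  rw [R.dir_w, key 0, key 1]
  ring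

theorem RIn.Ok.gram {R : RIn P κ} (h : R.Ok S) {X : Fin 4 → P → ℂ} (hX : ∀ a, S.Sm (X a))
    (hr : ∀ a, Rl (X a)) {p : P} (hp : p ∈ R.K) :
    (gram3 (S.dirv (R.ray S).t X) (S.dirv (R.ray S).w X)
      (S.dirv (R.ray S).w (S.dirv (R.ray S).w X)) p).re =
      R.M⁻¹ ^ 2 * gR (rev (S.dirv (R.Y 0) X) p) (rev (S.dirv (R.Y 1) X) p)
        (vv (ddv S R.Y X p) (fun i => (R.nu S i p).re)) := by
  have hO := h.ray_ok
  have rt : ∀ a, Rl (S.dirv (R.ray S).t X a) := fun a => Rl.dir hO.rt (hX a) (hr a)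
  have rw' : ∀ a, Rl (S.dirv (R.ray S).w X a) := fun a => Rl.dir hO.rw' (hX a) (hr a)
  have sw : ∀ a, S.Sm (S.dirv (R.ray S).w X a) := fun a => S.sm_dir hO.smw (hX a)
  have rww : ∀ a, Rl (S.dirv (R.ray S).w (S.dirv (R.ray S).w X) a) :=
    fun a => Rl.dir hO.rw' (sw a) (rw' a)
  have n0 := h.rl_nu 0 p
  have n1 := h.rl_nu 1 p
  have nN := h.rl_N p
  rw [gram3_rev rt rw' rww]
  set x := rev (S.dirv (R.Y 0) X) p with hx
  set y := rev (S.dirv (R.Y 1) X) p with hy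
  have e1 : rev (S.dirv (R.ray S).t X) p =
      (R.M⁻¹ * ((R.N S p).re * (R.nu S 0 p).re)) • x
        + (R.M⁻¹ * ((R.N S p).re * (R.nu S 1 p).re)) • y := by
    funext a
    simp only [rev, DAlg.dirv, Pi.add_apply, Pi.smul_apply, smul_eq_mul, hx, hy]
    rw [R.dir_t, mul_assoc, re_mul_im (Complex.ofReal_im _), re_mul_im nN, Complex.add_re,
      re_mul_im n0, re_mul_im n1, Complex.ofReal_re]
    ring
  have e2 : rev (S.dirv (R.ray S).w X) p = (-(R.nu S 1 p).re) • x + (R.nu S 0 p).re • y := by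
    funext a
    simp only [rev, DAlg.dirv, Pi.add_apply, Pi.smul_apply, smul_eq_mul, hx, hy]
    rw [R.dir_w, Complex.sub_re, re_mul_im n0, re_mul_im n1]
    ring
  obtain ⟨A, B, e3⟩ : ∃ A B : ℝ, rev (S.dirv (R.ray S).w (S.dirv (R.ray S).w X)) p =
      vv (ddv S R.Y X p) (fun i => (R.nu S i p).re) + (A • x + B • y) := by
    have hA : ((R.nu S 1 p * S.dir (R.Y 0) (R.nu S 1) p
        - R.nu S 0 p * S.dir (R.Y 1) (R.nu S 1) p) : ℂ).im = 0 :=
      (((h.rl_nu 1).mul (Rl.dir (h.rY 0) (h.sm_nu 1) (h.rl_nu 1))).sub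
        ((h.rl_nu 0).mul (Rl.dir (h.rY 1) (h.sm_nu 1) (h.rl_nu 1)))) p
    have hB : ((R.nu S 0 p * S.dir (R.Y 1) (R.nu S 0) p
        - R.nu S 1 p * S.dir (R.Y 0) (R.nu S 0) p) : ℂ).im = 0 :=
      (((h.rl_nu 0).mul (Rl.dir (h.rY 1) (h.sm_nu 0) (h.rl_nu 0))).sub
        ((h.rl_nu 1).mul (Rl.dir (h.rY 0) (h.sm_nu 0) (h.rl_nu 0)))) p
    refine ⟨(R.nu S 1 p * S.dir (R.Y 0) (R.nu S 1) p
        - R.nu S 0 p * S.dir (R.Y 1) (R.nu S 1) p : ℂ).re,
      (R.nu S 0 p * S.dir (R.Y 1) (R.nu S 0) p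
        - R.nu S 1 p * S.dir (R.Y 0) (R.nu S 0) p : ℂ).re, ?_⟩
    funext a
    simp only [rev, DAlg.dirv, Pi.add_apply, Pi.sub_apply, Pi.smul_apply, smul_eq_mul, hx, hy,
      vv, ddv]
    rw [h.dir_ww (hX a) p, Complex.add_re, Complex.add_re, Complex.add_re, Complex.sub_re,
      re_mul_im hA, re_mul_im hB, re_mul_im n1, re_mul_im n1, re_mul_im n0, re_mul_im n1,
      re_mul_im n0, re_mul_im n0, Complex.add_re]
    ring
  rw [e1, e2, e3, gR_comb, gR_add_tan]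
  have h1 : (R.N S p).re * ((R.nu S 0 p).re * (R.nu S 0 p).re
      + (R.nu S 1 p).re * (R.nu S 1 p).re) = 1 := by
    have h2 := congrArg Complex.re (h.N_mul hp)
    rw [re_mul_im nN] at h2
    simp only [RIn.n2, Complex.one_re] at h2
    rwa [Complex.add_re, re_mul_im n0, re_mul_im n1] at h2
  congr 1
  have h3 : R.M⁻¹ * ((R.N S p).re * (R.nu S 0 p).re) * (R.nu S 0 p).re
      - R.M⁻¹ * ((R.N S p).re * (R.nu S 1 p).re) * -(R.nu S 1 p).re = R.M⁻¹ := by
    linear_combination R.M⁻¹ * h1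
  rw [h3]

end Vale.Agent.P205.F
end
end

section

/-!
Second derivatives in a coordinate box and the good triple (P205, full question, block PC).
-/

noncomputable section

namespace Vale.Agent.P205.F

open scoped ContDiff
open Vale.Agent.P205.PC

universe u

variable {P : Type u} {κ : Type} [Fintype κ] {S : DAlg P κ}

section

variable {C : Type} [Fintype C] {G : κ → κ → P → ℂ} {κ0 : ℝ} (B : Boxes S C G κ0)

theorem Boxes.D_eq (c : C) {u : P → ℂ} (hu : S.Sm u) (j : κ) {p : P} (hp : p ∈ B.K c) :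
    S.D j u p = S.D j (B.x c 0) p * S.dir (B.Y c 0) u p
      + S.D j (B.x c 1) p * S.dir (B.Y c 1) u p := by
  rw [B.dec c u hu j p hp, Fin.sum_univ_two]

theorem Boxes.DD_eq (c : C) {u : P → ℂ} (hu : S.Sm u) (j k : κ) {p : P} (hp : p ∈ B.K c) :
    S.D j (S.D k u) p =
      (S.D j (B.x c 0) p * (S.D k (B.x c 0) p * S.dir (B.Y c 0) (S.dir (B.Y c 0) u) p)
      + S.D j (B.x c 0) p * (S.D k (B.x c 1) p * S.dir (B.Y c 0) (S.dir (B.Y c 1) u) p)
      + (S.D j (B.x c 1) p * (S.D k (B.x c 0) p * S.dir (B.Y c 1) (S.dir (B.Y c 0) u) p)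
      + S.D j (B.x c 1) p * (S.D k (B.x c 1) p * S.dir (B.Y c 1) (S.dir (B.Y c 1) u) p)))
      + (S.D j (S.D k (B.x c 0)) p * S.dir (B.Y c 0) u p
      + S.D j (S.D k (B.x c 1)) p * S.dir (B.Y c 1) u p) := by
  have s0 : S.Sm (S.dir (B.Y c 0) u) := S.sm_dir (B.smY c 0) hu
  have s1 : S.Sm (S.dir (B.Y c 1) u) := S.sm_dir (B.smY c 1) hu
  have x0 : S.Sm (S.D k (B.x c 0)) := S.sm_D k (B.smx c 0)
  have x1 : S.Sm (S.D k (B.x c 1)) := S.sm_D k (B.smx c 1)
  have sA := S.sm_mul x0 s0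
  have sB := S.sm_mul x1 s1
  have h1 := B.loc c (S.D k u - (S.D k (B.x c 0) * S.dir (B.Y c 0) u
    + S.D k (B.x c 1) * S.dir (B.Y c 1) u)) (S.sm_sub (S.sm_D k hu) (S.sm_add sA sB))
    (fun q hq => by
      rw [Pi.sub_apply, B.D_eq c hu k hq]
      exact sub_self _) j p hp
  rw [S.D_sub_apply j (S.sm_D k hu) (S.sm_add sA sB), S.D_add_apply j sA sB,
    S.D_mul_apply j x0 s0, S.D_mul_apply j x1 s1, B.D_eq c s0 j hp, B.D_eq c s1 j hp] at h1
  linear_combination h1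

theorem Boxes.ddv_comm (c : C) {f : Fin 4 → P → ℂ} (hf : ∀ a, S.Sm (f a)) {p : P}
    (hp : p ∈ B.K c) : ddv S (B.Y c) f p 1 0 = ddv S (B.Y c) f p 0 1 := by
  funext a
  simp only [ddv, rev, DAlg.dirv]
  rw [B.comm c (f a) (hf a) p hp]

/-- one bad direction in each triple: all Gram determinants are small -/
theorem Boxes.gram_le (c : C) {f : Fin 4 → P → ℂ} (hf : ∀ a, S.Sm (f a)) (hr : ∀ a, Rl (f a))
    {b : ℝ} (hb : ∀ i j p, ‖S.D j (B.x c i) p‖ ≤ b) {σ : ℝ} (hσ : 0 ≤ σ) {p : P}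
    (hp : p ∈ B.K c) (r : Fin 3 → Fin 3)
    (h : ∀ τ, gR (rev (S.dirv (B.Y c 0) f) p) (rev (S.dirv (B.Y c 1) f) p)
      (vv (ddv S (B.Y c) f p) (dl τ (r τ))) ≤ σ ^ 2) (j1 j2 j k : κ) :
    (gram3 (S.Dv j1 f) (S.Dv j2 f) (S.Dv j (S.Dv k f)) p).re ≤ 30976 * b ^ 8 * σ ^ 2 := by
  have rD : ∀ l a, Rl (S.Dv l f a) := fun l a => S.rl_D l (hf a) (hr a)
  have sD : ∀ l a, S.Sm (S.Dv l f a) := fun l a => S.sm_D l (hf a)
  have rDD : ∀ a, Rl (S.Dv j (S.Dv k f) a) := fun a => S.rl_D j (sD k a) (rD k a)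
  rw [gram3_rev (rD j1) (rD j2) rDD]
  set x := rev (S.dirv (B.Y c 0) f) p with hx
  set y := rev (S.dirv (B.Y c 1) f) p with hy
  have rx : ∀ l i, (S.D l (B.x c i) p).im = 0 := fun l i => S.rl_D l (B.smx c i) (B.rx c i) p
  have rxx : ∀ i, (S.D j (S.D k (B.x c i)) p).im = 0 := fun i =>
    S.rl_D j (S.sm_D k (B.smx c i)) (S.rl_D k (B.smx c i) (B.rx c i)) p
  have e1 : ∀ l, rev (S.Dv l f) p = (S.D l (B.x c 0) p).re • x + (S.D l (B.x c 1) p).re • y :=
    fun l => by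
    funext a
    simp only [rev, DAlg.Dv, DAlg.dirv, Pi.add_apply, Pi.smul_apply, smul_eq_mul, hx, hy]
    rw [B.D_eq c (hf a) l hp, Complex.add_re, re_mul_im (rx l 0), re_mul_im (rx l 1)]
  have e2 : rev (S.Dv j (S.Dv k f)) p =
      (∑ i, ∑ i', ((S.D j (B.x c i) p).re * (S.D k (B.x c i') p).re) • ddv S (B.Y c) f p i i')
      + ((S.D j (S.D k (B.x c 0)) p).re • x + (S.D j (S.D k (B.x c 1)) p).re • y) := by
    funext a
    simp only [rev, DAlg.Dv, DAlg.dirv, Pi.add_apply, Pi.smul_apply, smul_eq_mul, hx, hy,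
      Fin.sum_univ_two, ddv]
    rw [B.DD_eq c (hf a) j k hp, Complex.add_re, Complex.add_re, Complex.add_re, Complex.add_re,
      Complex.add_re, re_mul_im (rx j 0), re_mul_im (rx j 0), re_mul_im (rx j 1),
      re_mul_im (rx j 1), re_mul_im (rxx 0), re_mul_im (rxx 1), re_mul_im (rx k 0),
      re_mul_im (rx k 1), re_mul_im (rx k 0), re_mul_im (rx k 1)]
    ring
  have hre : ∀ l i, |(S.D l (B.x c i) p).re| ≤ b := fun l i =>
    (Complex.abs_re_le_norm _).trans (hb i l p)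
  rw [e1, e1, e2]
  refine key_gR (B.ddv_comm c hf hp) hσ r h (fun i i' => ?_) (hre _ _) (hre _ _) (hre _ _)
    (hre _ _)
  rw [abs_mul, sq]
  exact mul_le_mul (hre _ _) (hre _ _) (abs_nonneg _) ((abs_nonneg _).trans (hre j 0))

end

end Vale.Agent.P205.F
end
end

section

/-!
The cut-offs of the pieces (P205, full question, block PC).
-/

noncomputable section

namespace Vale.Agent.P205.F

open scoped ContDiff
open Vale.Agent.P205.PC

universe u

variable {P : Type u} {κ : Type} [Fintype κ] {S : DAlg P κ}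

/-! ### bounds -/

section bounds

variable {ι : Type*} {μ s b : ι → ℝ}

theorem DAlg.FO.dirY (hμ : ∀ i, 1 ≤ μ i) {Y : κ → P → ℂ} (hY : ∀ j, S.Sm (Y j))
    {u : ι → P → ℂ} (hu : ∀ j, S.FO μ s (fun i => S.D j (u i))) :
    S.FO μ s (fun i => S.dir Y (u i)) := by
  have h := DAlg.FO.sum' (S := S) (μ := μ) (s := fun i => 1 * s i)
    (A := (Finset.univ : Finset κ)) (u := fun j i => Y j * S.D j (u i))
    fun j _ => (DAlg.FO.fixed hμ (hY j)).mul (hu j)
  exact h.congr_s fun i => by ring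

theorem DAlg.FO.D_dirY (hμ : ∀ i, 1 ≤ μ i) (hb : ∀ i, 1 ≤ b i) {Y : κ → P → ℂ}
    (hY : ∀ j, S.Sm (Y j)) {u : ι → P → ℂ} (hsm : ∀ i, S.Sm (u i))
    (hu : ∀ j, S.FO μ (fun _ => 1) (fun i => S.D j (u i)))
    (huu : ∀ j k, S.FO μ b (fun i => S.D j (S.D k (u i)))) (k : κ) :
    S.FO μ b (fun i => S.D k (S.dir Y (u i))) := by
  have hμ0 : ∀ i, 0 ≤ μ i := fun i => zero_le_one.trans (hμ i)
  have h1 := (DAlg.FO.dirY hμ (fun j => S.sm_D k (hY j)) hu).mono_s' hb hμ0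
  have h2 := DAlg.FO.sum' (S := S) (μ := μ) (s := fun i => 1 * b i)
    (A := (Finset.univ : Finset κ)) (u := fun j i => Y j * S.D k (S.D j (u i)))
    fun j _ => (DAlg.FO.fixed hμ (hY j)).mul (huu k j)
  refine (h1.add (h2.congr_s fun i => one_mul (b i))).congr fun i p => ?_
  rw [S.D_dir k hY (hsm i) p]
  rfl

theorem DAlg.FO.gram3 {X Y Z : ι → Fin 4 → P → ℂ}
    (hX : ∀ a, S.FO μ (fun _ => 1) (fun i => X i a))
    (hY : ∀ a, S.FO μ (fun _ => 1) (fun i => Y i a))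
    (hZ : ∀ a, S.FO μ b (fun i => Z i a)) :
    S.FO μ (fun i => b i ^ 2) (fun i => gram3 (X i) (Y i) (Z i)) := by
  have xx := (DAlg.FO.dot hX hX).congr_s (s' := fun _ => 1) fun i => by ring
  have yy := (DAlg.FO.dot hY hY).congr_s (s' := fun _ => 1) fun i => by ring
  have xy := (DAlg.FO.dot hX hY).congr_s (s' := fun _ => 1) fun i => by ring
  have xz := (DAlg.FO.dot hX hZ).congr_s (s' := b) fun i => by ring
  have yz := (DAlg.FO.dot hY hZ).congr_s (s' := b) fun i => by ring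
  have zz := (DAlg.FO.dot hZ hZ).congr_s (s' := fun i => b i ^ 2) fun i => by ring
  have a1 := (yy.mul zz).congr_s (s' := fun i => b i ^ 2) fun i => by ring
  have a2 := (yz.mul yz).congr_s (s' := fun i => b i ^ 2) fun i => by ring
  have b1 := (xy.mul zz).congr_s (s' := fun i => b i ^ 2) fun i => by ring
  have b2 := (yz.mul xz).congr_s (s' := fun i => b i ^ 2) fun i => by ring
  have c1 := (xy.mul yz).congr_s (s' := b) fun i => by ring
  have c2 := (yy.mul xz).congr_s (s' := b) fun i => by ring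
  have a := (xx.mul (a1.sub a2)).congr_s (s' := fun i => b i ^ 2) fun i => by ring
  have b' := (xy.mul (b1.sub b2)).congr_s (s' := fun i => b i ^ 2) fun i => by ring
  have c := (xz.mul (c1.sub c2)).congr_s (s' := fun i => b i ^ 2) fun i => by ring
  exact (a.sub b').add c

end bounds

/-! ### the Gram determinant of a direction -/

/-- the second derivative along the kernel direction of the covector `l` -/
def vvc (S : DAlg P κ) (Y : Fin 2 → κ → P → ℂ) (f : Fin 4 → P → ℂ) (l : Fin 2 → ℝ) :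
    Fin 4 → P → ℂ :=
  fun a p => ((l 1 ^ 2 : ℝ) : ℂ) * S.dir (Y 0) (S.dir (Y 0) (f a)) p
    - ((l 0 * l 1 : ℝ) : ℂ) * (S.dir (Y 0) (S.dir (Y 1) (f a)) p
      + S.dir (Y 1) (S.dir (Y 0) (f a)) p)
    + ((l 0 ^ 2 : ℝ) : ℂ) * S.dir (Y 1) (S.dir (Y 1) (f a)) p

/-- the Gram determinant of `X₀, X₁` and the second derivative -/
def qg (S : DAlg P κ) (Y : Fin 2 → κ → P → ℂ) (f : Fin 4 → P → ℂ) (l : Fin 2 → ℝ) : P → ℂ :=
  gram3 (S.dirv (Y 0) f) (S.dirv (Y 1) f) (vvc S Y f l)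

section qgs

variable {Y : Fin 2 → κ → P → ℂ} {f : Fin 4 → P → ℂ} (hY : ∀ i j, S.Sm (Y i j))
  (hYr : ∀ i j, Rl (Y i j)) (hf : ∀ a, S.Sm (f a)) (hr : ∀ a, Rl (f a)) (l : Fin 2 → ℝ)

include hY hf in
theorem sm_vvc (a : Fin 4) : S.Sm (vvc S Y f l a) := by
  have s0 := S.sm_dir (hY 0) (hf a)
  have s1 := S.sm_dir (hY 1) (hf a)
  exact S.sm_add (S.sm_sub (S.sm_smul _ (S.sm_dir (hY 0) s0))
    (S.sm_smul _ (S.sm_add (S.sm_dir (hY 0) s1) (S.sm_dir (hY 1) s0))))
    (S.sm_smul _ (S.sm_dir (hY 1) s1))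

include hY hYr hf hr in
theorem rl_vvc (a : Fin 4) : Rl (vvc S Y f l a) := by
  have s0 := S.sm_dir (hY 0) (hf a)
  have s1 := S.sm_dir (hY 1) (hf a)
  have r0 := Rl.dir (hYr 0) (hf a) (hr a)
  have r1 := Rl.dir (hYr 1) (hf a) (hr a)
  exact ((Rl.smul (Complex.ofReal_im _) (Rl.dir (hYr 0) s0 r0)).sub
    (Rl.smul (Complex.ofReal_im _) ((Rl.dir (hYr 0) s1 r1).add (Rl.dir (hYr 1) s0 r0)))).add
    (Rl.smul (Complex.ofReal_im _) (Rl.dir (hYr 1) s1 r1))

theorem DAlg.sm_gram3 {X Y Z : Fin 4 → P → ℂ} (hX : ∀ a, S.Sm (X a)) (hY : ∀ a, S.Sm (Y a))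
    (hZ : ∀ a, S.Sm (Z a)) : S.Sm (gram3 X Y Z) := by
  have xx := S.sm_dot hX hX
  have yy := S.sm_dot hY hY
  have zz := S.sm_dot hZ hZ
  have xy := S.sm_dot hX hY
  have xz := S.sm_dot hX hZ
  have yz := S.sm_dot hY hZ
  exact S.sm_add (S.sm_sub (S.sm_mul xx (S.sm_sub (S.sm_mul yy zz) (S.sm_mul yz yz)))
    (S.sm_mul xy (S.sm_sub (S.sm_mul xy zz) (S.sm_mul yz xz))))
    (S.sm_mul xz (S.sm_sub (S.sm_mul xy yz) (S.sm_mul yy xz)))

theorem Rl.gram3 {X Y Z : Fin 4 → P → ℂ} (hX : ∀ a, Rl (X a)) (hY : ∀ a, Rl (Y a))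
    (hZ : ∀ a, Rl (Z a)) : Rl (gram3 X Y Z) := by
  have xx := Rl.dot hX hX
  have yy := Rl.dot hY hY
  have zz := Rl.dot hZ hZ
  have xy := Rl.dot hX hY
  have xz := Rl.dot hX hZ
  have yz := Rl.dot hY hZ
  exact ((xx.mul ((yy.mul zz).sub (yz.mul yz))).sub (xy.mul ((xy.mul zz).sub (yz.mul xz)))).add
    (xz.mul ((xy.mul yz).sub (yy.mul xz)))

include hY hf in
theorem sm_qg : S.Sm (qg S Y f l) :=
  DAlg.sm_gram3 (fun a => S.sm_dir (hY 0) (hf a)) (fun a => S.sm_dir (hY 1) (hf a))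
    (sm_vvc hY hf l)

include hY hYr hf hr in
theorem rl_qg : Rl (qg S Y f l) :=
  Rl.gram3 (fun a => Rl.dir (hYr 0) (hf a) (hr a)) (fun a => Rl.dir (hYr 1) (hf a) (hr a))
    (rl_vvc hY hYr hf hr l)

include hY hYr hf hr in
theorem qg_re (p : P) : (qg S Y f l p).re =
    gR (rev (S.dirv (Y 0) f) p) (rev (S.dirv (Y 1) f) p) (vv (ddv S Y f p) l) := by
  have r0 : ∀ a, Rl (S.dirv (Y 0) f a) := fun a => Rl.dir (hYr 0) (hf a) (hr a)
  have r1 : ∀ a, Rl (S.dirv (Y 1) f a) := fun a => Rl.dir (hYr 1) (hf a) (hr a)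
  rw [qg, gram3_rev r0 r1 (rl_vvc hY hYr hf hr l)]
  congr 1
  funext a
  simp only [rev, vvc, vv, ddv, DAlg.dirv, Pi.add_apply, Pi.sub_apply, Pi.smul_apply,
    smul_eq_mul]
  rw [Complex.add_re, Complex.sub_re, Complex.re_ofReal_mul, Complex.re_ofReal_mul,
    Complex.re_ofReal_mul, Complex.add_re]

end qgs

section qgb

variable {ι : Type*} {μ b : ι → ℝ} (hμ : ∀ i, 1 ≤ μ i) (hb : ∀ i, 1 ≤ b i)
  {Y : Fin 2 → κ → P → ℂ} (hY : ∀ i j, S.Sm (Y i j)) {f : ι → Fin 4 → P → ℂ}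
  (hf : ∀ i a, S.Sm (f i a))
  (h1 : ∀ j a, S.FO μ (fun _ => 1) (fun i => S.D j (f i a)))
  (h2 : ∀ j k a, S.FO μ b (fun i => S.D j (S.D k (f i a))))

include hμ hY h1 in
theorem fo_dirv (m : Fin 2) (a : Fin 4) :
    S.FO μ (fun _ => 1) (fun i => S.dirv (Y m) (f i) a) :=
  DAlg.FO.dirY hμ (hY m) fun j => h1 j a

include hμ hb hY hf h1 h2 in
theorem fo_ddv (m n : Fin 2) (a : Fin 4) :
    S.FO μ b (fun i => S.dir (Y m) (S.dir (Y n) (f i a))) :=
  DAlg.FO.dirY hμ (hY m) fun k => DAlg.FO.D_dirY hμ hb (hY n) (fun i => hf i a)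
    (fun j => h1 j a) (fun j k => h2 j k a) k

include hμ hb hY hf h1 h2 in
theorem fo_vvc (l : Fin 2 → ℝ) (a : Fin 4) : S.FO μ b (fun i => vvc S Y (f i) l a) :=
  ((DAlg.FO.const_mul _ (fo_ddv hμ hb hY hf h1 h2 0 0 a)).sub
    (DAlg.FO.const_mul _ ((fo_ddv hμ hb hY hf h1 h2 0 1 a).add
      (fo_ddv hμ hb hY hf h1 h2 1 0 a)))).add
    (DAlg.FO.const_mul _ (fo_ddv hμ hb hY hf h1 h2 1 1 a))

include hμ hb hY hf h1 h2 in
theorem fo_qg (l : Fin 2 → ℝ) : S.FO μ (fun i => b i ^ 2) (fun i => qg S Y (f i) l) :=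
  DAlg.FO.gram3 (fun a => fo_dirv hμ hY h1 0 a) (fun a => fo_dirv hμ hY h1 1 a)
    (fun a => fo_vvc hμ hb hY hf h1 h2 l a)

end qgb

/-! ### the cut-offs -/

/-- cut-off of a direction -/
def cu (S : DAlg P κ) (Y : Fin 2 → κ → P → ℂ) (f : Fin 4 → P → ℂ) (A : ℝ) (τ r : Fin 3) :
    P → ℂ :=
  fun p => cutF ((A : ℂ) * qg S Y f (dl τ r) p).re

/-- cut-off of a triple -/
def th (S : DAlg P κ) (Y : Fin 2 → κ → P → ℂ) (f : Fin 4 → P → ℂ) (A : ℝ) (τ : Fin 3) :
    P → ℂ :=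
  cu S Y f A τ 0 * (cu S Y f A τ 1 * cu S Y f A τ 2)

/-- the sum of the squares -/
def den (S : DAlg P κ) (Y : Fin 2 → κ → P → ℂ) (f : Fin 4 → P → ℂ) (A : ℝ) : P → ℂ :=
  th S Y f A 0 * th S Y f A 0 + (th S Y f A 1 * th S Y f A 1 + th S Y f A 2 * th S Y f A 2)

/-- the weight of a triple -/
def wt (S : DAlg P κ) (Y : Fin 2 → κ → P → ℂ) (f : Fin 4 → P → ℂ) (A : ℝ) (τ : Fin 3) :
    P → ℂ :=
  th S Y f A τ * fun p => rsF (den S Y f A p).re

section cut

variable {Y : Fin 2 → κ → P → ℂ} {f : Fin 4 → P → ℂ} (hY : ∀ i j, S.Sm (Y i j))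
  (hYr : ∀ i j, Rl (Y i j)) (hf : ∀ a, S.Sm (f a)) (hr : ∀ a, Rl (f a)) (A : ℝ)

include hY hYr hf hr in
theorem sm_cu (τ r : Fin 3) : S.Sm (cu S Y f A τ r) :=
  S.sm_comp contDiff_cutF (S.sm_smul _ (sm_qg hY hf _))
    (Rl.smul (Complex.ofReal_im _) (rl_qg hY hYr hf hr _))

theorem rl_cu (τ r : Fin 3) : Rl (cu S Y f A τ r) := fun _ => cutF_im _

include hY hYr hf hr in
theorem sm_th (τ : Fin 3) : S.Sm (th S Y f A τ) :=
  S.sm_mul (sm_cu hY hYr hf hr A τ 0) (S.sm_mul (sm_cu hY hYr hf hr A τ 1)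
    (sm_cu hY hYr hf hr A τ 2))

theorem rl_th (τ : Fin 3) : Rl (th S Y f A τ) :=
  (rl_cu A τ 0).mul ((rl_cu A τ 1).mul (rl_cu A τ 2))

include hY hYr hf hr in
theorem sm_den : S.Sm (den S Y f A) :=
  S.sm_add (S.sm_mul (sm_th hY hYr hf hr A 0) (sm_th hY hYr hf hr A 0))
    (S.sm_add (S.sm_mul (sm_th hY hYr hf hr A 1) (sm_th hY hYr hf hr A 1))
      (S.sm_mul (sm_th hY hYr hf hr A 2) (sm_th hY hYr hf hr A 2)))

theorem rl_den : Rl (den S Y f A) :=
  ((rl_th A 0).mul (rl_th A 0)).add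
    (((rl_th A 1).mul (rl_th A 1)).add ((rl_th A 2).mul (rl_th A 2)))

include hY hYr hf hr in
theorem sm_wt (τ : Fin 3) : S.Sm (wt S Y f A τ) :=
  S.sm_mul (sm_th hY hYr hf hr A τ) (S.sm_comp contDiff_rsF (sm_den hY hYr hf hr A) (rl_den A))

theorem rl_wt (τ : Fin 3) : Rl (wt S Y f A τ) := (rl_th A τ).mul fun _ => rsF_im _

include hY hYr hf hr in
theorem zs_wt (τ r : Fin 3) :
    S.Zs {p | 1 ≤ A * (qg S Y f (dl τ r) p).re} (wt S Y f A τ) := by
  have h0 : ∀ r, S.Zs {p | 1 ≤ A * (qg S Y f (dl τ r) p).re} (cu S Y f A τ r) := fun r => by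
    refine DAlg.Zs.comp contDiff_cutF (S.sm_smul _ (sm_qg hY hf _))
      (Rl.smul (Complex.ofReal_im _) (rl_qg hY hYr hf hr _)) fun p hp n => ?_
    refine cutF_zero ?_ n
    rw [Complex.re_ofReal_mul]
    exact (not_le.mp hp).le
  have sc := sm_cu hY hYr hf hr A τ
  have h1 : S.Zs {p | 1 ≤ A * (qg S Y f (dl τ r) p).re} (th S Y f A τ) := by
    have e : r = 0 ∨ r = 1 ∨ r = 2 := by fin_cases r <;> simp
    rcases e with rfl | rfl | rfl
    · exact DAlg.Zs.mul_left (sc 0) (S.sm_mul (sc 1) (sc 2)) (h0 0)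
    · exact DAlg.Zs.mul_right (sc 0) (S.sm_mul (sc 1) (sc 2))
        (DAlg.Zs.mul_left (sc 1) (sc 2) (h0 1))
    · exact DAlg.Zs.mul_right (sc 0) (S.sm_mul (sc 1) (sc 2))
        (DAlg.Zs.mul_right (sc 1) (sc 2) (h0 2))
  exact DAlg.Zs.mul_left (sm_th hY hYr hf hr A τ)
    (S.sm_comp contDiff_rsF (sm_den hY hYr hf hr A) (rl_den A)) h1

/-- a good triple: the weights are a partition of unity -/
theorem wt_sum {p : P} (h : ∃ τ, ∀ r, 2 ≤ A * (qg S Y f (dl τ r) p).re) :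
    ∑ τ, wt S Y f A τ p ^ 2 = 1 := by
  obtain ⟨τ, h⟩ := h
  have hth : th S Y f A τ p = 1 := by
    simp only [th, Pi.mul_apply, cu, Complex.re_ofReal_mul]
    rw [cutF_one (h 0), cutF_one (h 1), cutF_one (h 2)]
    norm_num
  have hre : ∀ σ, (th S Y f A σ p * th S Y f A σ p).re = (th S Y f A σ p).re ^ 2 := fun σ => by
    rw [re_mul_im (rl_th A σ p), sq]
  have hd : (den S Y f A p).re = (th S Y f A 0 p).re ^ 2 + ((th S Y f A 1 p).re ^ 2
      + (th S Y f A 2 p).re ^ 2) := by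
    simp only [den, Pi.add_apply, Pi.mul_apply, Complex.add_re, hre]
  have hden : 1 ≤ (den S Y f A p).re := by
    rw [hd]
    have e : τ = 0 ∨ τ = 1 ∨ τ = 2 := by fin_cases τ <;> simp
    have h0 := sq_nonneg (th S Y f A 0 p).re
    have h1 := sq_nonneg (th S Y f A 1 p).re
    have h2 := sq_nonneg (th S Y f A 2 p).re
    rcases e with rfl | rfl | rfl <;> rw [hth] <;> simp only [Complex.one_re] <;> linarith
  have h3 := rsF_sq (by linarith : (1:ℝ) / 2 ≤ (den S Y f A p).re)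
  have h4 : (((den S Y f A p).re : ℝ) : ℂ) = den S Y f A p := (rl_den A).ofReal_re p
  rw [h4] at h3
  rw [← h3, Fin.sum_univ_three]
  simp only [wt, den, Pi.add_apply, Pi.mul_apply]
  ring

end cut

section cutb

variable {ι : Type*} {μ b : ι → ℝ} (hμ : ∀ i, 1 ≤ μ i) (hb : ∀ i, 1 ≤ b i)
  {Y : Fin 2 → κ → P → ℂ} (hY : ∀ i j, S.Sm (Y i j)) (hYr : ∀ i j, Rl (Y i j))
  {f : ι → Fin 4 → P → ℂ}
  (hf : ∀ i a, S.Sm (f i a)) (hr : ∀ i a, Rl (f i a))
  (h1 : ∀ j a, S.FO μ (fun _ => 1) (fun i => S.D j (f i a)))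
  (h2 : ∀ j k a, S.FO μ b (fun i => S.D j (S.D k (f i a)))) (A : ℝ) (hA : 0 ≤ A)

include hμ hb hY hYr hf hr h1 h2 hA in
theorem fo_cu (τ r : Fin 3) :
    S.FO μ (fun _ => 1) (fun i => cu S Y (f i) (A / b i ^ 2) τ r) := by
  have hμ0 : ∀ i, 0 ≤ μ i := fun i => zero_le_one.trans (hμ i)
  have hb0 : ∀ i, 0 < b i := fun i => zero_lt_one.trans_le (hb i)
  have h3 := DAlg.FO.real_mul (r := fun i => A / b i ^ 2)
    (fun i => div_nonneg hA (sq_nonneg _)) (fo_qg hμ hb hY hf h1 h2 (dl τ r))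
  have h4 : S.FO μ (fun _ => 1)
      (fun i p => ((A / b i ^ 2 : ℝ) : ℂ) * qg S Y (f i) (dl τ r) p) :=
    h3.mono_s (C := A) (fun i => by
      have := (hb0 i).ne'
      simp only [mul_one]
      rw [div_mul_cancel₀]
      positivity) (fun _ => zero_le_one) hμ0
  exact DAlg.FO.compc contDiff_cutF hμ0 h4
    fun i => Rl.smul (Complex.ofReal_im _) (rl_qg hY hYr (hf i) (hr i) _)

include hμ hb hY hYr hf hr h1 h2 hA in
theorem fo_th (τ : Fin 3) : S.FO μ (fun _ => 1) (fun i => th S Y (f i) (A / b i ^ 2) τ) := by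
  have h := fo_cu hμ hb hY hYr hf hr h1 h2 A hA τ
  exact ((h 0).mul ((h 1).mul (h 2))).congr_s fun i => by ring

include hμ hb hY hYr hf hr h1 h2 hA in
theorem fo_wt (τ : Fin 3) : S.FO μ (fun _ => 1) (fun i => wt S Y (f i) (A / b i ^ 2) τ) := by
  have hμ0 : ∀ i, 0 ≤ μ i := fun i => zero_le_one.trans (hμ i)
  have h := fo_th hμ hb hY hYr hf hr h1 h2 A hA
  have hd : S.FO μ (fun _ => 1) (fun i => den S Y (f i) (A / b i ^ 2)) := by
    have h0 := ((h 0).mul (h 0)).congr_s (s' := fun _ => 1) fun i => by ring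
    have h1 := ((h 1).mul (h 1)).congr_s (s' := fun _ => 1) fun i => by ring
    have h2 := ((h 2).mul (h 2)).congr_s (s' := fun _ => 1) fun i => by ring
    exact h0.add (h1.add h2)
  exact ((h τ).mul (DAlg.FO.compc contDiff_rsF hμ0 hd fun i => rl_den _)).congr_s
    fun i => by ring

end cutb

end Vale.Agent.P205.F
end
end

section

/-!
The rays of the pieces in all boxes: single rays and pair rays with lacunary phases
(P205, full question, block PC).
-/

noncomputable section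

namespace Vale.Agent.P205.F

open scoped ContDiff
open Vale.Agent.P205.PC

universe u

variable {P : Type u} {κ : Type} [Fintype κ] {S : DAlg P κ}

/-- index set of the pieces: box, triple, member -/
abbrev PQ (C : Type) : Type := C × Fin 3 × Fin 3

section

variable {C : Type} [Fintype C] {G : κ → κ → P → ℂ} {κ0 : ℝ}

/-- position of an index -/
def pidx (a : PQ C) : ℕ := (Fintype.equivFin (PQ C) a).val + 1

theorem pidx_inj {a b : PQ C} (h : pidx a = pidx b) : a = b := by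
  have h1 : (Fintype.equivFin (PQ C) a).val = (Fintype.equivFin (PQ C) b).val :=
    Nat.succ_injective h
  exact (Fintype.equivFin (PQ C)).injective (Fin.ext h1)

theorem pidx_le (a : PQ C) : pidx a ≤ Fintype.card (PQ C) :=
  (Fintype.equivFin (PQ C) a).isLt

/-- sign -/
def sg : Bool → ℝ
  | true => 1
  | false => -1

variable (B : Boxes S C G κ0)

/-- phase of an index without the large factor -/
def phi (a : PQ C) : P → ℂ :=
  fun p => (dl a.2.1 a.2.2 0 : ℂ) * B.x a.1 0 p + (dl a.2.1 a.2.2 1 : ℂ) * B.x a.1 1 p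

/-- data of a ray with leading index `a` -/
def rmk (a : PQ C) (s M om : ℝ) (ψ : P → ℂ) (K : Set P) : RIn P κ where
  x := B.x a.1
  Y := B.Y a.1
  l := fun i => s * dl a.2.1 a.2.2 i
  M := M
  om := om
  ψ := ψ
  K := K

open Classical in
/-- data of all rays -/
def prm (H : ℝ) (K : Set P) : PQ C ⊕ (PQ C × PQ C × Bool) → RIn P κ
  | Sum.inl a => rmk B a 1 (H ^ pidx a) 0 (fun _ => 0) K
  | Sum.inr (a, b, σ) =>
    if a = b then rmk B a 1 (2 * H ^ pidx a) 0 (fun _ => 0) K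
    else if pidx a < pidx b then rmk B b (sg σ) (H ^ pidx b) (H ^ pidx a) (phi B a) K
    else rmk B a 1 (H ^ pidx a) (sg σ * H ^ pidx b) (phi B b) K

theorem prm_K (H : ℝ) (K : Set P) (x) : (prm B H K x).K = K := by
  rcases x with a | ⟨a, b, σ⟩
  · rfl
  · simp only [prm]
    split_ifs <;> rfl

theorem prm_Ψ (H : ℝ) (K : Set P) (x) :
    ((prm B H K x).ray S).Ψ = ((prm B H ∅ x).ray S).Ψ := by
  rcases x with a | ⟨a, b, σ⟩
  · rfl
  · simp only [prm]
    split_ifs <;> rfl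

theorem prm_t (H : ℝ) (K : Set P) (x) :
    ((prm B H K x).ray S).t = ((prm B H ∅ x).ray S).t := by
  rcases x with a | ⟨a, b, σ⟩
  · rfl
  · simp only [prm]
    split_ifs <;> rfl

theorem prm_w (H : ℝ) (K : Set P) (x) :
    ((prm B H K x).ray S).w = ((prm B H ∅ x).ray S).w := by
  rcases x with a | ⟨a, b, σ⟩
  · rfl
  · simp only [prm]
    split_ifs <;> rfl

theorem prm_β (H : ℝ) (K : Set P) (x) :
    ((prm B H K x).ray S).β = ((prm B H ∅ x).ray S).β := by
  rcases x with a | ⟨a, b, σ⟩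
  · rfl
  · simp only [prm]
    split_ifs <;> rfl

theorem phase_inl (H : ℝ) (K : Set P) (a : PQ C) :
    ((prm B H K (Sum.inl a)).ray S).Ψ = fun p => ((H ^ pidx a : ℝ) : ℂ) * phi B a p := by
  funext p
  simp only [prm, rmk, RIn.ray, phi]
  push_cast
  ring

theorem phase_true (H : ℝ) (K : Set P) (a b : PQ C) :
    ((prm B H K (Sum.inr (a, b, true))).ray S).Ψ =
      ((prm B H K (Sum.inl a)).ray S).Ψ + ((prm B H K (Sum.inl b)).ray S).Ψ := by
  rw [phase_inl, phase_inl]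
  funext p
  simp only [prm, Pi.add_apply]
  split_ifs with h h'
  · subst h
    simp only [rmk, RIn.ray, phi]
    push_cast
    ring
  · simp only [rmk, RIn.ray, phi, sg]
    push_cast
    ring
  · simp only [rmk, RIn.ray, phi, sg]
    push_cast
    ring

theorem phase_false (H : ℝ) (K : Set P) {a b : PQ C} (hab : a ≠ b) :
    ((prm B H K (Sum.inr (a, b, false))).ray S).Ψ =
      ((prm B H K (Sum.inl a)).ray S).Ψ - ((prm B H K (Sum.inl b)).ray S).Ψ := by
  rw [phase_inl, phase_inl]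
  funext p
  simp only [prm, Pi.sub_apply, if_neg hab]
  split_ifs with h'
  · simp only [rmk, RIn.ray, phi, sg]
    push_cast
    ring
  · simp only [rmk, RIn.ray, phi, sg]
    push_cast
    ring

/-- region of a piece -/
def KK (f : Fin 4 → P → ℂ) (A : ℝ) (a : PQ C) : Set P :=
  B.K a.1 ∩ {p | ∀ r, 1 ≤ A * (qg S (B.Y a.1) f (dl a.2.1 r) p).re}

/-- region of a ray -/
def KS (f : Fin 4 → P → ℂ) (A : ℝ) : PQ C ⊕ (PQ C × PQ C × Bool) → Set P
  | Sum.inl a => KK B f A a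
  | Sum.inr (a, b, _) => KK B f A a ∩ KK B f A b

/-- a good ray -/
structure GoodR (f : Fin 4 → P → ℂ) (A e Mx : ℝ) (R : RIn P κ) (a : PQ C) (s : ℝ) : Prop where
  x : R.x = B.x a.1
  Y : R.Y = B.Y a.1
  l : R.l = fun i => s * dl a.2.1 a.2.2 i
  s : s = 1 ∨ s = -1
  M : 1 ≤ R.M
  Mx : R.M ≤ Mx
  smψ : S.Sm R.ψ
  rψ : Rl R.ψ
  small : ∀ i p, ‖((R.om / R.M : ℝ) : ℂ) * S.dir (R.Y i) R.ψ p‖ ≤ e
  K : ∀ p ∈ R.K, p ∈ B.K a.1
  K' : ∀ p ∈ R.K, 1 ≤ A * (qg S (B.Y a.1) f (dl a.2.1 a.2.2) p).re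

variable {B}

theorem sg_abs (σ : Bool) : |sg σ| = 1 := by cases σ <;> simp [sg]

theorem sg_or (σ : Bool) : sg σ = 1 ∨ sg σ = -1 := by cases σ <;> simp [sg]

theorem sm_phi (a : PQ C) : S.Sm (phi B a) :=
  S.sm_add (S.sm_smul _ (B.smx a.1 0)) (S.sm_smul _ (B.smx a.1 1))

theorem rl_phi (a : PQ C) : Rl (phi B a) :=
  (Rl.smul (Complex.ofReal_im _) (B.rx a.1 0)).add (Rl.smul (Complex.ofReal_im _) (B.rx a.1 1))

/-- all rays are good -/
theorem prm_good {f : Fin 4 → P → ℂ} {A H Cψ : ℝ} (hH : 1 ≤ H) (hC : 0 ≤ Cψ)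
    (hψ : ∀ (c : C) i (a : PQ C) p, ‖S.dir (B.Y c i) (phi B a) p‖ ≤ Cψ) {K : Set P}
    (x : PQ C ⊕ (PQ C × PQ C × Bool)) (hK : K ⊆ KS B f A x) :
    ∃ a s, GoodR B f A (Cψ / H) (2 * H ^ Fintype.card (PQ C)) (prm B H K x) a s := by
  classical
  have hH0 : 0 < H := zero_lt_one.trans_le hH
  have h1 : ∀ a : PQ C, 1 ≤ H ^ pidx a := fun a => one_le_pow₀ hH
  have h2 : ∀ a : PQ C, H ^ pidx a ≤ H ^ Fintype.card (PQ C) := fun a =>
    pow_le_pow_right₀ hH (pidx_le a)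
  have hN : (1 : ℝ) ≤ H ^ Fintype.card (PQ C) := one_le_pow₀ hH
  have hz : ∀ (M : ℝ) (Y : κ → P → ℂ) p,
      ‖((0 / M : ℝ) : ℂ) * S.dir Y (fun _ => 0) p‖ ≤ Cψ / H := fun M Y p => by
    rw [zero_div, Complex.ofReal_zero, zero_mul, norm_zero]
    positivity
  have hsm : ∀ (a b c : PQ C) (t : ℝ) i p, |t| = 1 → pidx a < pidx b →
      ‖((t * H ^ pidx a / H ^ pidx b : ℝ) : ℂ) * S.dir (B.Y c.1 i) (phi B a) p‖ ≤ Cψ / H :=
    fun a b c t i p ht hab => by
      rw [norm_mul, Complex.norm_real, Real.norm_eq_abs, abs_div, abs_mul, ht, one_mul,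
        abs_of_pos (pow_pos hH0 _), abs_of_pos (pow_pos hH0 _)]
      have e1 : H ^ pidx a / H ^ pidx b ≤ 1 / H := by
        rw [div_le_div_iff₀ (pow_pos hH0 _) hH0, one_mul, ← pow_succ]
        exact pow_le_pow_right₀ hH hab
      calc H ^ pidx a / H ^ pidx b * ‖S.dir (B.Y c.1 i) (phi B a) p‖ ≤ 1 / H * Cψ :=
            mul_le_mul e1 (hψ _ _ _ _) (norm_nonneg _) (by positivity)
        _ = Cψ / H := by ring
  rcases x with a | ⟨a, b, σ⟩
  · refine ⟨a, 1, ⟨rfl, rfl, rfl, Or.inl rfl, h1 a, ?_, S.sm_const 0, Rl.const rfl,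
      fun i p => hz _ _ p, fun p hp => (hK hp).1, fun p hp => (hK hp).2 _⟩⟩
    show H ^ pidx a ≤ _
    linarith [h2 a]
  · simp only [prm]
    split_ifs with h h'
    · refine ⟨a, 1, ⟨rfl, rfl, rfl, Or.inl rfl, ?_, ?_, S.sm_const 0, Rl.const rfl,
        fun i p => hz _ _ p, fun p hp => (hK hp).1.1, fun p hp => (hK hp).1.2 _⟩⟩
      · show 1 ≤ 2 * H ^ pidx a
        linarith [h1 a]
      · show 2 * H ^ pidx a ≤ _
        linarith [h2 a]
    · refine ⟨b, sg σ, ⟨rfl, rfl, rfl, sg_or σ, h1 b, ?_, sm_phi a, rl_phi a,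
        fun i p => ?_, fun p hp => (hK hp).2.1, fun p hp => (hK hp).2.2 _⟩⟩
      · show H ^ pidx b ≤ _
        linarith [h2 b]
      · have := hsm a b b 1 i p (by simp) h'
        rwa [one_mul] at this
    · have hlt : pidx b < pidx a := by
        rcases lt_trichotomy (pidx a) (pidx b) with h3 | h3 | h3
        · exact absurd h3 h'
        · exact absurd (pidx_inj h3) h
        · exact h3
      refine ⟨a, 1, ⟨rfl, rfl, rfl, Or.inl rfl, h1 a, ?_, sm_phi b, rl_phi b,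
        fun i p => ?_, fun p hp => (hK hp).1.1, fun p hp => (hK hp).1.2 _⟩⟩
      · show H ^ pidx a ≤ _
        linarith [h2 a]
      · exact hsm b a a (sg σ) i p (sg_abs σ) hlt

section good

variable {f : Fin 4 → P → ℂ} {A e Mx : ℝ} {R : RIn P κ} {a : PQ C} {s : ℝ}

theorem GoodR.nu_re (h : GoodR B f A e Mx R a s) (he : e ≤ 1 / 24) (i : Fin 2) (p : P) :
    |(R.nu S i p).re - s * dl a.2.1 a.2.2 i| ≤ e := by
  have h1 : (R.nu S i p).re - s * dl a.2.1 a.2.2 i =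
      (((R.om / R.M : ℝ) : ℂ) * S.dir (R.Y i) R.ψ p).re := by
    simp only [RIn.nu, h.l, Complex.add_re, Complex.ofReal_re]
    ring
  rw [h1]
  exact (Complex.abs_re_le_norm _).trans (h.small i p)

/-- a good ray is valid -/
theorem GoodR.ok (h : GoodR B f A e Mx R a s) (he : e ≤ 1 / 24) : R.Ok S where
  smx i := by rw [h.x]; exact B.smx _ i
  rx i := by rw [h.x]; exact B.rx _ i
  smY i j := by rw [h.Y]; exact B.smY _ i j
  rY i j := by rw [h.Y]; exact B.rY _ i j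
  smψ := h.smψ
  rψ := h.rψ
  M := zero_lt_one.trans_le h.M
  Yx p hp i j := by rw [h.Y, h.x]; exact B.Yx _ p (h.K p hp) i j
  dec u hu j p hp := by rw [h.Y, h.x]; exact B.dec _ u hu j p (h.K p hp)
  n2 p hp := by
    have hrl : ∀ i, (R.nu S i p).im = 0 := fun i => by
      have e1 : Rl (R.nu S i) := (Rl.const (Complex.ofReal_im _)).add
        (Rl.smul (Complex.ofReal_im _) (Rl.dir (by rw [h.Y]; exact B.rY _ i) h.smψ h.rψ))
      exact e1 p
    have h0 := abs_le.mp ((h.nu_re he 0 p).trans he)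
    have h1 := abs_le.mp ((h.nu_re he 1 p).trans he)
    have d0 := abs_le.mp (dl_abs a.2.1 a.2.2 0)
    have d1 := abs_le.mp (dl_abs a.2.1 a.2.2 1)
    have hd := dl_sq a.2.1 a.2.2
    have key : ∀ n l : ℝ, (-(1 / 24) ≤ n - s * l ∧ n - s * l ≤ 1 / 24) → (-3 ≤ l ∧ l ≤ 3) →
        l ^ 2 - 1 / 4 ≤ n * n := fun n l hn hl => by
      have hs := h.s
      have h5 : |s * l * (n - s * l)| ≤ 3 * (1 / 24) := by
        rw [abs_mul]
        refine mul_le_mul ?_ (abs_le.mpr hn) (abs_nonneg _) (by norm_num)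
        rw [abs_mul]
        have : |s| = 1 := by rcases hs with rfl | rfl <;> simp
        rw [this, one_mul]
        exact abs_le.mpr hl
      have h6 := (abs_le.mp h5).1
      have h7 : s * s = 1 := by rcases hs with rfl | rfl <;> norm_num
      have h8 : n * n = s * s * l ^ 2 + 2 * (s * l * (n - s * l)) + (n - s * l) ^ 2 := by ring
      rw [h8, h7]
      linarith only [sq_nonneg (n - s * l), h6]
    have k0 := key _ _ h0 d0
    have k1 := key _ _ h1 d1
    simp only [RIn.n2, Complex.add_re]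
    rw [re_mul_im (hrl 0), re_mul_im (hrl 1)]
    linarith only [k1, k0, hd]

theorem vv_smul_sign (Y : Fin 2 → Fin 2 → Fin 4 → ℝ) (l : Fin 2 → ℝ) {s : ℝ}
    (hs : s = 1 ∨ s = -1) : vv Y (fun i => s * l i) = vv Y l := by
  have h : s * s = 1 := by rcases hs with rfl | rfl <;> norm_num
  simp only [vv]
  congr 1
  · congr 1
    · congr 1
      linear_combination (l 1 ^ 2) * h
    · congr 1
      linear_combination (l 0 * l 1) * h
  · congr 1
    linear_combination (l 0 ^ 2) * h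

/-- nondegeneracy along a good ray -/
theorem GoodR.nondeg (h : GoodR B f A e Mx R a s) (hf : ∀ a, S.Sm (f a)) (hr : ∀ a, Rl (f a))
    (he0 : 0 ≤ e) (he : e ≤ 1 / 24) {A0 b CM : ℝ} (hA0 : 0 < A0) (hb : 0 < b)
    (hA : A = A0 / b ^ 2) {p : P} (hp : p ∈ R.K)
    (hCM : ∀ m i j, |PC.M m (rev (S.dirv (B.Y a.1 0) f) p) (rev (S.dirv (B.Y a.1 1) f) p)
      (ddv S (B.Y a.1) f p i j)| ≤ CM * b) (hsm : 112 * (e * CM) * √A0 ≤ 1) :
    1 / (16 * A0 * Mx ^ 2) * b ^ 2 ≤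
      (gram3 (S.dirv (R.ray S).t f) (S.dirv (R.ray S).w f)
        (S.dirv (R.ray S).w (S.dirv (R.ray S).w f)) p).re := by
  have hO := h.ok he
  have hM1 := h.M
  have hM0 : 0 < R.M := hO.M
  have hMx := h.Mx
  have hMx0 : 0 < Mx := hM0.trans_le hMx
  have hA1 : 0 < √A0 := Real.sqrt_pos.mpr hA0
  have hA2 : √A0 ^ 2 = A0 := Real.sq_sqrt hA0.le
  rw [hO.gram hf hr hp]
  rw [h.Y]
  have hq := h.K' p hp
  rw [qg_re (B.smY a.1) (B.rY a.1) hf hr, hA] at hq
  set x := rev (S.dirv (B.Y a.1 0) f) p with hx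
  set y := rev (S.dirv (B.Y a.1 1) f) p with hy
  set Y := ddv S (B.Y a.1) f p with hYdef
  have hq1 : (b / √A0) ^ 2 ≤ gR x y (vv Y (fun i => s * dl a.2.1 a.2.2 i)) := by
    rw [vv_smul_sign _ _ h.s, div_pow, hA2, div_le_iff₀ hA0]
    have hb2 : 0 < b ^ 2 := by positivity
    rw [div_mul_eq_mul_div, le_div_iff₀ hb2, one_mul] at hq
    rw [mul_comm]
    exact hq
  have hst := gR_vv_stable (x := x) (y := y) (Y := Y) (l := fun i => s * dl a.2.1 a.2.2 i)
    (n := fun i => (R.nu S i p).re) (e := e) (C := CM * b) (s := b / √A0) he0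
    (he.trans (by norm_num)) (fun i => by
      have : |s| = 1 := by rcases h.s with h1 | h1 <;> rw [h1] <;> simp
      rw [abs_mul, this, one_mul]
      exact dl_abs _ _ i) (fun i => h.nu_re he i p) hCM (by positivity) hq1 (by
      rw [le_div_iff₀ hA1]
      calc 112 * (e * (CM * b)) * √A0 = 112 * (e * CM) * √A0 * b := by ring
        _ ≤ 1 * b := mul_le_mul_of_nonneg_right hsm hb.le
        _ = b := one_mul b)
  rw [div_pow, hA2] at hst
  calc 1 / (16 * A0 * Mx ^ 2) * b ^ 2 = Mx⁻¹ ^ 2 * (b ^ 2 / A0 / 16) := by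
        field_simp
    _ ≤ R.M⁻¹ ^ 2 * gR x y (vv Y fun i => (R.nu S i p).re) := by
        refine mul_le_mul ?_ hst (by positivity) (by positivity)
        exact pow_le_pow_left₀ (by positivity) (inv_anti₀ hM0 hMx) 2

end good

end

end Vale.Agent.P205.F
end
end

section

/-!
Second derivatives in a box and the existence of a good triple (P205, full question, block PC).
-/

noncomputable section

open scoped ContDiff
open Set Filter

namespace Vale.Agent.P205.F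

open Vale.Agent.P205.PC (dR gR vv dl key_gR dl_sq dl_abs)

universe u

variable {P : Type u} {κ : Type} [Fintype κ] {S : DAlg P κ}

/-! ### real parts of Gram determinants -/

/-- real parts at a point -/
def rv (x : Fin 4 → P → ℂ) (p : P) : Fin 4 → ℝ := fun a => (x a p).re

theorem eq_rv {x : Fin 4 → P → ℂ} (hx : ∀ a, Rl (x a)) (a : Fin 4) (p : P) :
    x a p = (rv x p a : ℂ) := ((hx a).ofReal_re p).symm

theorem gram3_eq {x y z : Fin 4 → P → ℂ} (hx : ∀ a, Rl (x a)) (hy : ∀ a, Rl (y a))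
    (hz : ∀ a, Rl (z a)) (p : P) :
    gram3 x y z p = ((gR (rv x p) (rv y p) (rv z p) : ℝ) : ℂ) := by
  have e1 : ∀ u v : Fin 4 → P → ℂ, (∀ a, Rl (u a)) → (∀ a, Rl (v a)) →
      dot u v p = ((dR (rv u p) (rv v p) : ℝ) : ℂ) := by
    intro u v hu hv
    unfold dot dR
    push_cast
    exact Finset.sum_congr rfl fun a _ => by rw [eq_rv hu a p, eq_rv hv a p]
  unfold gram3 gR
  rw [e1 x x hx hx, e1 x y hx hy, e1 x z hx hz, e1 y y hy hy, e1 y z hy hz, e1 z z hz hz]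
  push_cast
  ring

theorem gram3_re {x y z : Fin 4 → P → ℂ} (hx : ∀ a, Rl (x a)) (hy : ∀ a, Rl (y a))
    (hz : ∀ a, Rl (z a)) (p : P) :
    (gram3 x y z p).re = gR (rv x p) (rv y p) (rv z p) := by
  rw [gram3_eq hx hy hz, Complex.ofReal_re]

/-! ### second derivatives in a box -/

namespace Boxes

variable {C : Type} [Fintype C] {G : κ → κ → P → ℂ} {κ0 : ℝ} (B : Boxes S C G κ0)

/-- second derivatives in a box -/
theorem snd_der {u : P → ℂ} (hu : S.Sm u) (c : C) {p : P} (hp : p ∈ B.K c) (j k : κ) :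
    S.D j (S.D k u) p = ∑ i, S.D j (S.D k (B.x c i)) p * S.dir (B.Y c i) u p
      + ∑ i, ∑ l, S.D k (B.x c i) p * S.D j (B.x c l) p
        * S.dir (B.Y c l) (S.dir (B.Y c i) u) p := by
  have hsY : ∀ i, S.Sm (S.dir (B.Y c i) u) := fun i => S.sm_dir (B.smY c i) hu
  have hsx : ∀ i, S.Sm (S.D k (B.x c i)) := fun i => S.sm_D k (B.smx c i)
  have hs1 : S.Sm (fun p => ∑ i, (S.D k (B.x c i) * S.dir (B.Y c i) u) p) :=
    S.sm_sum' (A := Finset.univ) (u := fun i => S.D k (B.x c i) * S.dir (B.Y c i) u)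
      fun i _ => S.sm_mul (hsx i) (hsY i)
  have h0 := B.loc c (S.D k u - fun p => ∑ i, (S.D k (B.x c i) * S.dir (B.Y c i) u) p)
    (S.sm_sub (S.sm_D k hu) hs1) (fun q hq => ?_) j p hp
  · rw [S.D_sub_apply j (S.sm_D k hu) hs1, sub_eq_zero] at h0
    rw [h0, S.D_sum_apply (A := Finset.univ) (u := fun i => S.D k (B.x c i) * S.dir (B.Y c i) u)
      j fun i _ => S.sm_mul (hsx i) (hsY i), ← Finset.sum_add_distrib]
    refine Finset.sum_congr rfl fun i _ => ?_
    rw [S.D_mul_apply j (hsx i) (hsY i), B.dec c _ (hsY i) j p hp, Finset.mul_sum]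
    congr 1
    exact Finset.sum_congr rfl fun l _ => by ring
  · rw [Pi.sub_apply, B.dec c u hu k q hq, sub_eq_zero]
    rfl

/-- second derivative along the kernel direction of the covector `l` -/
def V (X : Fin 4 → P → ℂ) (c : C) (l : Fin 2 → ℝ) : Fin 4 → P → ℂ := fun a p =>
  ((l 1 ^ 2 : ℝ) : ℂ) * S.dir (B.Y c 0) (S.dir (B.Y c 0) (X a)) p
    - ((l 0 * l 1 : ℝ) : ℂ) * (S.dir (B.Y c 0) (S.dir (B.Y c 1) (X a)) p
      + S.dir (B.Y c 1) (S.dir (B.Y c 0) (X a)) p)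
    + ((l 0 ^ 2 : ℝ) : ℂ) * S.dir (B.Y c 1) (S.dir (B.Y c 1) (X a)) p

/-- the nondegeneracy function of the covector `l` -/
def N (X : Fin 4 → P → ℂ) (c : C) (l : Fin 2 → ℝ) : P → ℂ :=
  gram3 (S.dirv (B.Y c 0) X) (S.dirv (B.Y c 1) X) (B.V X c l)

/-- real second derivatives -/
def YY (X : Fin 4 → P → ℂ) (c : C) (p : P) (i j : Fin 2) : Fin 4 → ℝ :=
  fun a => (S.dir (B.Y c i) (S.dir (B.Y c j) (X a)) p).re

variable {X : Fin 4 → P → ℂ}

theorem rl_dir2 (hX : ∀ a, S.Sm (X a)) (hXr : ∀ a, Rl (X a)) (c : C) (i j : Fin 2) (a : Fin 4) :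
    Rl (S.dir (B.Y c i) (S.dir (B.Y c j) (X a))) :=
  Rl.dir (B.rY c i) (S.sm_dir (B.smY c j) (hX a)) (Rl.dir (B.rY c j) (hX a) (hXr a))

theorem rl_dir1 (hX : ∀ a, S.Sm (X a)) (hXr : ∀ a, Rl (X a)) (c : C) (i : Fin 2) (a : Fin 4) :
    Rl (S.dirv (B.Y c i) X a) := Rl.dir (B.rY c i) (hX a) (hXr a)

theorem rv_V (X : Fin 4 → P → ℂ) (c : C) (l : Fin 2 → ℝ) (p : P) :
    rv (B.V X c l) p = vv (B.YY X c p) l := by
  funext a
  simp only [rv, V, vv, YY, Pi.add_apply, Pi.sub_apply, Pi.smul_apply, smul_eq_mul,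
    Complex.add_re, Complex.sub_re, Complex.re_ofReal_mul]

theorem rl_V (hX : ∀ a, S.Sm (X a)) (hXr : ∀ a, Rl (X a)) (c : C) (l : Fin 2 → ℝ) (a : Fin 4) :
    Rl (B.V X c l a) := fun p => by
  have h := fun i j => B.rl_dir2 hX hXr c i j a p
  simp only [V, Complex.add_im, Complex.sub_im, Complex.im_ofReal_mul, h]
  ring

theorem re_N (hX : ∀ a, S.Sm (X a)) (hXr : ∀ a, Rl (X a)) (c : C) (l : Fin 2 → ℝ) (p : P) :
    (B.N X c l p).re = gR (rv (S.dirv (B.Y c 0) X) p) (rv (S.dirv (B.Y c 1) X) p)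
      (vv (B.YY X c p) l) := by
  unfold N
  rw [gram3_re (B.rl_dir1 hX hXr c 0) (B.rl_dir1 hX hXr c 1) (B.rl_V hX hXr c l), B.rv_V]

theorem rv_Dv (hX : ∀ a, S.Sm (X a)) (hXr : ∀ a, Rl (X a)) (c : C) {p : P} (hp : p ∈ B.K c)
    (j : κ) : rv (S.Dv j X) p = (S.D j (B.x c 0) p).re • rv (S.dirv (B.Y c 0) X) p
      + (S.D j (B.x c 1) p).re • rv (S.dirv (B.Y c 1) X) p := by
  funext a
  have h := B.dec c (X a) (hX a) j p hp
  have h1 := fun i => S.rl_D j (B.smx c i) (B.rx c i) p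
  have h2 := fun i => B.rl_dir1 hX hXr c i a p
  simp only [DAlg.dirv] at h2
  simp only [rv, DAlg.Dv, DAlg.dirv, Pi.add_apply, Pi.smul_apply, smul_eq_mul]
  rw [h, Fin.sum_univ_two, Complex.add_re, Complex.mul_re, Complex.mul_re, h1, h1]
  ring

theorem rv_DDv (hX : ∀ a, S.Sm (X a)) (hXr : ∀ a, Rl (X a)) (c : C) {p : P} (hp : p ∈ B.K c)
    (j k : κ) : rv (S.Dv j (S.Dv k X)) p
      = (∑ l, ∑ i, ((S.D j (B.x c l) p).re * (S.D k (B.x c i) p).re) • B.YY X c p l i)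
        + ((S.D j (S.D k (B.x c 0)) p).re • rv (S.dirv (B.Y c 0) X) p
        + (S.D j (S.D k (B.x c 1)) p).re • rv (S.dirv (B.Y c 1) X) p) := by
  funext a
  have h := B.snd_der (hX a) c hp j k
  have h1 := fun i => S.rl_D j (B.smx c i) (B.rx c i) p
  have h1' := fun i => S.rl_D k (B.smx c i) (B.rx c i) p
  have h2 := fun i => B.rl_dir1 hX hXr c i a p
  have h3 := fun i l => B.rl_dir2 hX hXr c i l a p
  have h4 := fun i => S.rl_D j (S.sm_D k (B.smx c i)) (S.rl_D k (B.smx c i) (B.rx c i)) p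
  simp only [DAlg.dirv] at h2
  simp only [rv, DAlg.Dv, DAlg.dirv, YY, Pi.add_apply, Pi.smul_apply, smul_eq_mul,
    Fin.sum_univ_two]
  rw [h]
  simp only [Fin.sum_univ_two, Complex.add_re, Complex.mul_re, Complex.mul_im, h1, h1', h2, h3,
    h4]
  ring

/-- **a good triple exists** -/
theorem good (hX : ∀ a, S.Sm (X a)) (hXr : ∀ a, Rl (X a)) {c0 b BB Cq : ℝ} (hc0 : 0 < c0)
    (hb : 0 < b) (hBB : 0 ≤ BB) (hCq : 30976 * BB ^ 8 < c0 * Cq) (c : C) {p : P}
    (hp : p ∈ B.K c) (hx : ∀ i j, ‖S.D j (B.x c i) p‖ ≤ BB)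
    (h : ∃ j1 j2 j k, c0 * b ^ 2 ≤
      (gram3 (S.Dv j1 X) (S.Dv j2 X) (S.Dv j (S.Dv k X)) p).re) :
    ∃ τ, ∀ r, b ^ 2 / Cq ≤ (B.N X c (dl τ r) p).re := by
  have hCq0 : 0 < Cq := by
    by_contra hneg
    rw [not_lt] at hneg
    have h1 : c0 * Cq ≤ 0 := mul_nonpos_of_nonneg_of_nonpos hc0.le hneg
    have h2 : 0 ≤ 30976 * BB ^ 8 := by positivity
    linarith
  by_contra hcon
  push Not at hcon
  choose r hr using hcon
  obtain ⟨j1, j2, j, k, hg⟩ := h
  have hD1 : ∀ j a, Rl (S.Dv j X a) := fun j a => S.rl_D j (hX a) (hXr a)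
  have hD2 : ∀ a, Rl (S.Dv j (S.Dv k X) a) := fun a =>
    S.rl_D j (S.sm_D k (hX a)) (S.rl_D k (hX a) (hXr a))
  rw [gram3_re (hD1 j1) (hD1 j2) hD2, B.rv_Dv hX hXr c hp, B.rv_Dv hX hXr c hp,
    B.rv_DDv hX hXr c hp] at hg
  have hre : ∀ i j, |(S.D j (B.x c i) p).re| ≤ BB := fun i j =>
    (Complex.abs_re_le_norm _).trans (hx i j)
  have hY : B.YY X c p 1 0 = B.YY X c p 0 1 := by
    funext a
    simp only [YY]
    rw [B.comm c (X a) (hX a) p hp]
  have hσ : 0 ≤ b / √Cq := by positivity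
  have hσ2 : (b / √Cq) ^ 2 = b ^ 2 / Cq := by rw [div_pow, Real.sq_sqrt hCq0.le]
  have key := key_gR (x := rv (S.dirv (B.Y c 0) X) p) (y := rv (S.dirv (B.Y c 1) X) p)
    (Y := B.YY X c p) hY (σ := b / √Cq) (B := BB) hσ r (fun τ => ?_)
    (A := fun l i => (S.D j (B.x c l) p).re * (S.D k (B.x c i) p).re)
    (α := (S.D j (S.D k (B.x c 0)) p).re) (β := (S.D j (S.D k (B.x c 1)) p).re)
    (fun l i => ?_) (hre 0 j1) (hre 1 j1) (hre 0 j2) (hre 1 j2)
  · rw [hσ2] at key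
    have h1 := hg.trans key
    have h2 : 30976 * BB ^ 8 * (b ^ 2 / Cq) < c0 * b ^ 2 := by
      rw [← mul_div_assoc, div_lt_iff₀ hCq0]
      have hb2 : 0 < b ^ 2 := pow_pos hb 2
      linarith only [mul_pos (sub_pos.2 hCq) (sub_pos.2 hb2)]
    linarith only [h2, h1]
  · rw [hσ2, ← B.re_N hX hXr]
    exact (hr τ).le
  · rw [abs_mul, pow_two]
    exact mul_le_mul (hre l j) (hre i k) (abs_nonneg _) hBB

/-! ### bounds for families -/

section family

variable {ι : Type*} {θ b : ι → ℝ} {f : ι → Fin 4 → P → ℂ}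

end family

end Boxes

end Vale.Agent.P205.F
end
end

section

/-!
Decomposition of tensors into the pieces (P205, full question, block PC).
-/

noncomputable section

open scoped ContDiff
open Set Filter

namespace Vale.Agent.P205.F

open Vale.Agent.P205.PC (dR gR vv dl lc lam lam_dec lam_ge dl_sq dl_abs)

universe u

variable {P : Type u} {κ : Type} [Fintype κ] {S : DAlg P κ}

namespace Boxes

variable {C : Type} [Fintype C] {G : κ → κ → P → ℂ} {κ0 : ℝ} (B : Boxes S C G κ0)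

/-- phase of a piece: `Λ (l₀ x₀ + l₁ x₁)` -/
def ph (c : C) (l : Fin 2 → ℝ) (Λ : ℝ) : P → ℂ :=
  fun p => (Λ : ℂ) * ∑ i, (l i : ℂ) * B.x c i p

theorem D_ph (c : C) (l : Fin 2 → ℝ) (Λ : ℝ) (j : κ) (p : P) :
    S.D j (B.ph c l Λ) p = (Λ : ℂ) * ∑ i, (l i : ℂ) * S.D j (B.x c i) p := by
  have h1 : ∀ i ∈ (Finset.univ : Finset (Fin 2)), S.Sm (fun p => (l i : ℂ) * B.x c i p) :=
    fun i _ => S.sm_smul _ (B.smx c i)
  unfold ph
  rw [S.D_smul_apply j _ (S.sm_sum' (A := Finset.univ)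
    (u := fun i p => (l i : ℂ) * B.x c i p) h1), S.D_sum_apply j h1]
  congr 1
  exact Finset.sum_congr rfl fun i _ => S.D_smul_apply j _ (B.smx c i) p

/-- coefficient functional of a piece -/
def el (c : C) (τ r : Fin 3) (Λ : ℝ) (j k : κ) : P → ℂ :=
  fun p => ((1 / Λ ^ 2 : ℝ) : ℂ) * ∑ i, ∑ m, (lc τ r i m : ℂ) * (B.Y c i j p * B.Y c m k p)

theorem sm_el (c : C) (τ r : Fin 3) (Λ : ℝ) (j k : κ) : S.Sm (B.el c τ r Λ j k) := by
  have h1 : ∀ i m, S.Sm (fun p => (lc τ r i m : ℂ) * (B.Y c i j * B.Y c m k) p) := fun i m =>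
    S.sm_smul _ (S.sm_mul (B.smY c i j) (B.smY c m k))
  have h2 : ∀ i, S.Sm (fun p => ∑ m, (lc τ r i m : ℂ) * (B.Y c i j * B.Y c m k) p) := fun i =>
    S.sm_sum' (A := Finset.univ)
      (u := fun m p => (lc τ r i m : ℂ) * (B.Y c i j * B.Y c m k) p) fun m _ => h1 i m
  exact S.sm_smul _ (S.sm_sum' (A := Finset.univ)
    (u := fun i p => ∑ m, (lc τ r i m : ℂ) * (B.Y c i j * B.Y c m k) p) fun i _ => h2 i)

theorem rl_el (c : C) (τ r : Fin 3) (Λ : ℝ) (j k : κ) : Rl (B.el c τ r Λ j k) :=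
  Rl.smul (Complex.ofReal_im _) (Rl.sum (A := Finset.univ)
    (u := fun i p => ∑ m, (lc τ r i m : ℂ) * (B.Y c i j * B.Y c m k) p) fun i _ =>
      Rl.sum (A := Finset.univ) (u := fun m p => (lc τ r i m : ℂ) * (B.Y c i j * B.Y c m k) p)
        fun m _ => ((B.rY c i j).mul (B.rY c m k)).smul (Complex.ofReal_im _))

/-- the components of a tensor in a box -/
def tc (c : C) (T : κ → κ → P → ℂ) (i m : Fin 2) : P → ℂ :=
  fun p => ∑ j, ∑ k, B.Y c i j p * B.Y c m k p * T j k p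

/-- contraction of the first index -/
theorem isT_fst {T : κ → κ → P → ℂ} (hT : S.IsT T) (c : C) {p : P} (hp : p ∈ B.K c) (j k : κ) :
    T j k p = ∑ i, S.D j (B.x c i) p * ∑ j', B.Y c i j' p * T j' k p := by
  classical
  have h := hT.2 p (fun j' => (if j' = j then 1 else 0)
    - ∑ i, S.D j (B.x c i) p * B.Y c i j' p) (fun u hu => ?_) k
  · simp only [sub_mul, Finset.sum_sub_distrib, ite_mul, one_mul, zero_mul,
      Finset.sum_ite_eq', Finset.mem_univ, if_true] at h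
    rw [sub_eq_zero] at h
    rw [h]
    simp only [Finset.sum_mul, Finset.mul_sum]
    rw [Finset.sum_comm]
    refine Finset.sum_congr rfl fun i _ => Finset.sum_congr rfl fun j' _ => ?_
    ring
  · simp only [sub_mul, Finset.sum_sub_distrib, ite_mul, one_mul, zero_mul,
      Finset.sum_ite_eq', Finset.mem_univ, if_true]
    rw [B.dec c u hu j p hp, sub_eq_zero]
    simp only [Finset.sum_mul, DAlg.dir, Finset.mul_sum]
    rw [Finset.sum_comm]
    refine Finset.sum_congr rfl fun i _ => Finset.sum_congr rfl fun j' _ => ?_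
    ring

/-- a tensor in a box -/
theorem isT_box {T : κ → κ → P → ℂ} (hT : S.IsT T) (c : C) {p : P} (hp : p ∈ B.K c) (j k : κ) :
    T j k p = ∑ i, ∑ m, S.D j (B.x c i) p * S.D k (B.x c m) p * B.tc c T i m p := by
  rw [B.isT_fst hT c hp j k]
  have h2 : ∀ j', T j' k p = ∑ m, S.D k (B.x c m) p * ∑ k', B.Y c m k' p * T j' k' p := by
    intro j'
    rw [hT.1 j' k, B.isT_fst hT c hp k j']
    refine Finset.sum_congr rfl fun m _ => ?_
    congr 1
    exact Finset.sum_congr rfl fun k' _ => by rw [hT.1 k' j']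
  refine Finset.sum_congr rfl fun i _ => ?_
  unfold tc
  rw [Finset.mul_sum]
  simp only [h2, Finset.mul_sum]
  rw [Finset.sum_comm]
  refine Finset.sum_congr rfl fun m _ => Finset.sum_congr rfl fun j' _ =>
    Finset.sum_congr rfl fun k' _ => ?_
  ring

/-- complex version of `lam_dec` -/
theorem lam_dec_complex (τ : Fin 3) (T : Fin 2 → Fin 2 → ℂ) (hT : T 1 0 = T 0 1) (i j : Fin 2) :
    T i j = ∑ r, (∑ a, ∑ b, (lc τ r a b : ℂ) * T a b) * ((dl τ r i : ℂ) * (dl τ r j : ℂ)) := by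
  fin_cases τ <;> fin_cases i <;> fin_cases j <;>
    simp [lc, dl, Vale.Agent.P205.PC.dz, Fin.sum_univ_three, Fin.sum_univ_two, hT] <;> ring

theorem tc_symm {T : κ → κ → P → ℂ} (hT : S.IsT T) (c : C) (p : P) :
    B.tc c T 1 0 p = B.tc c T 0 1 p := by
  unfold tc
  rw [Finset.sum_comm]
  refine Finset.sum_congr rfl fun k _ => Finset.sum_congr rfl fun j _ => ?_
  rw [hT.1 j k]
  ring

/-- the value of the functional in terms of the components -/
theorem ell_eq (c : C) (τ r : Fin 3) (Λ : ℝ) (T : κ → κ → P → ℂ) (p : P) :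
    ∑ j, ∑ k, B.el c τ r Λ j k p * T j k p
      = ((1 / Λ ^ 2 : ℝ) : ℂ) * ∑ i, ∑ m, (lc τ r i m : ℂ) * B.tc c T i m p := by
  unfold el tc
  simp only [Fin.sum_univ_two, Finset.mul_sum]
  simp only [← Finset.sum_add_distrib, Finset.mul_sum]
  refine Finset.sum_congr rfl fun j _ => Finset.sum_congr rfl fun k _ => ?_
  ring

/-- **decomposition by one triple** -/
theorem dec_triple {T : κ → κ → P → ℂ} (hT : S.IsT T) (c : C) {p : P} (hp : p ∈ B.K c)
    (τ : Fin 3) {Λ : Fin 3 → ℝ} (hΛ : ∀ r, Λ r ≠ 0) (j k : κ) :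
    T j k p = ∑ r, (∑ j', ∑ k', B.el c τ r (Λ r) j' k' p * T j' k' p)
      * (S.D j (B.ph c (dl τ r) (Λ r)) p * S.D k (B.ph c (dl τ r) (Λ r)) p) := by
  have h1 : ∀ r, (∑ j', ∑ k', B.el c τ r (Λ r) j' k' p * T j' k' p)
      * (S.D j (B.ph c (dl τ r) (Λ r)) p * S.D k (B.ph c (dl τ r) (Λ r)) p)
      = ∑ i, ∑ m, S.D j (B.x c i) p * S.D k (B.x c m) p *
        ((∑ a, ∑ b, (lc τ r a b : ℂ) * B.tc c T a b p)
          * ((dl τ r i : ℂ) * (dl τ r m : ℂ))) := by
    intro r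
    rw [B.ell_eq, B.D_ph, B.D_ph]
    have hr : (Λ r : ℂ) ≠ 0 := by exact_mod_cast hΛ r
    simp only [Fin.sum_univ_two]
    push_cast
    field_simp
  rw [B.isT_box hT c hp j k, Finset.sum_congr rfl fun r _ => h1 r]
  have h2 := lam_dec_complex τ (fun i m => B.tc c T i m p) (B.tc_symm hT c p)
  conv_rhs => rw [Finset.sum_comm]
  refine Finset.sum_congr rfl fun i _ => ?_
  conv_rhs => rw [Finset.sum_comm]
  refine Finset.sum_congr rfl fun m _ => ?_
  rw [← Finset.mul_sum, ← h2 i m]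

/-- **decomposition by all pieces** -/
theorem dec_all {T : κ → κ → P → ℂ} (hT : S.IsT T) {Λ : C → Fin 3 → Fin 3 → ℝ}
    (hΛ : ∀ c τ r, Λ c τ r ≠ 0) {χ : C → Fin 3 → P → ℂ}
    (hχ : ∀ c p, ∑ τ, χ c τ p ^ 2 = B.ρ c p ^ 2) (hχK : ∀ c τ p, p ∉ B.K c → χ c τ p = 0)
    (j k : κ) (p : P) :
    T j k p = ∑ c, ∑ τ, ∑ r, χ c τ p ^ 2 *
      (∑ j', ∑ k', B.el c τ r (Λ c τ r) j' k' p * T j' k' p)
      * (S.D j (B.ph c (dl τ r) (Λ c τ r)) p * S.D k (B.ph c (dl τ r) (Λ c τ r)) p) := by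
  have h1 : ∀ c, (∑ τ, ∑ r, χ c τ p ^ 2 *
      (∑ j', ∑ k', B.el c τ r (Λ c τ r) j' k' p * T j' k' p)
      * (S.D j (B.ph c (dl τ r) (Λ c τ r)) p * S.D k (B.ph c (dl τ r) (Λ c τ r)) p))
      = B.ρ c p ^ 2 * T j k p := by
    intro c
    by_cases hp : p ∈ B.K c
    · rw [← hχ c p, Finset.sum_mul]
      refine Finset.sum_congr rfl fun τ _ => ?_
      conv_rhs => rw [B.dec_triple hT c hp τ (hΛ c τ) j k, Finset.mul_sum]
      exact Finset.sum_congr rfl fun r _ => by ring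
    · have h0 : B.ρ c p = 0 := (B.zρ c).apply hp
      rw [h0]
      simp only [hχK c _ p hp]
      simp
  rw [Finset.sum_congr rfl fun c _ => h1 c, ← Finset.sum_mul, B.sum p, one_mul]

/-- **lower bound of the coefficients** -/
theorem el_ge {T : κ → κ → P → ℂ} (c : C) {p : P} {BY κ1 : ℝ} (hBY : ∀ i j, ‖B.Y c i j p‖ ≤ BY)
    (hp : p ∈ B.K c) (hT : ∀ j k, ‖T j k p - G j k p‖ ≤ κ1) (hκ0 : κ0 ≤ 1 / 200)
    (hκ1 : (Fintype.card κ : ℝ) ^ 2 * BY ^ 2 * κ1 ≤ 1 / 200) (τ r : Fin 3) {Λ : ℝ}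
    (hΛ : Λ ≠ 0) :
    1 / (20 * Λ ^ 2) ≤ (∑ j, ∑ k, B.el c τ r Λ j k p * T j k p).re := by
  have hBY0 : 0 ≤ BY ∨ IsEmpty κ := by
    by_cases h : IsEmpty κ
    · exact Or.inr h
    · rw [not_isEmpty_iff] at h
      exact Or.inl ((norm_nonneg _).trans (hBY 0 (Classical.arbitrary κ)))
  have hclose : ∀ i m, ‖B.tc c T i m p - (if i = m then 1 else 0)‖ ≤ 1 / 100 := by
    intro i m
    have h1 : B.tc c T i m p - B.tc c G i m p
        = ∑ j, ∑ k, B.Y c i j p * B.Y c m k p * (T j k p - G j k p) := by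
      unfold tc
      rw [← Finset.sum_sub_distrib]
      refine Finset.sum_congr rfl fun j _ => ?_
      rw [← Finset.sum_sub_distrib]
      exact Finset.sum_congr rfl fun k _ => by ring
    have h2 : ‖B.tc c T i m p - B.tc c G i m p‖ ≤ 1 / 200 := by
      rw [h1]
      rcases hBY0 with hB0 | hem
      · have h3 : ∀ j k, ‖B.Y c i j p * B.Y c m k p * (T j k p - G j k p)‖ ≤ BY ^ 2 * κ1 := by
          intro j k
          rw [norm_mul, norm_mul, pow_two]
          exact mul_le_mul (mul_le_mul (hBY i j) (hBY m k) (norm_nonneg _) hB0) (hT j k)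
            (norm_nonneg _) (mul_nonneg hB0 hB0)
        have h4 : ‖∑ j, ∑ k, B.Y c i j p * B.Y c m k p * (T j k p - G j k p)‖
            ≤ ∑ _j : κ, ∑ _k : κ, BY ^ 2 * κ1 :=
          (norm_sum_le _ _).trans (Finset.sum_le_sum fun j _ =>
            (norm_sum_le _ _).trans (Finset.sum_le_sum fun k _ => h3 j k))
        refine h4.trans (le_trans (le_of_eq ?_) hκ1)
        simp only [Finset.sum_const, Finset.card_univ, nsmul_eq_mul]
        ring
      · simp
    have h5 := B.near c p hp i m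
    have h6 : B.tc c T i m p - (if i = m then 1 else 0)
        = (B.tc c T i m p - B.tc c G i m p) + (B.tc c G i m p - (if i = m then 1 else 0)) := by
      ring
    rw [h6]
    refine (norm_add_le _ _).trans ?_
    have h7 : ‖B.tc c G i m p - (if i = m then 1 else 0)‖ ≤ 1 / 200 := h5.trans hκ0
    linarith only [h7, h2]
  rw [B.ell_eq, Complex.re_ofReal_mul]
  have hlam := lam_ge τ r (fun i m => (B.tc c T i m p).re) fun i m => by
    have h1 := (Complex.abs_re_le_norm _).trans (hclose i m)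
    rw [Complex.sub_re] at h1
    split_ifs at h1 ⊢ with h
    · simpa using h1
    · simpa using h1
  have hre : (∑ i, ∑ m, (lc τ r i m : ℂ) * B.tc c T i m p).re
      = lam τ r (fun i m => (B.tc c T i m p).re) := by
    unfold lam
    rw [Complex.re_sum]
    refine Finset.sum_congr rfl fun i _ => ?_
    rw [Complex.re_sum]
    exact Finset.sum_congr rfl fun m _ => Complex.re_ofReal_mul _ _
  rw [hre]
  have hΛ2 : 0 < Λ ^ 2 := by positivity
  calc 1 / (20 * Λ ^ 2) = 1 / Λ ^ 2 * (1 / 20) := by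
        field_simp
    _ ≤ 1 / Λ ^ 2 * lam τ r (fun i m => (B.tc c T i m p).re) :=
        mul_le_mul_of_nonneg_left hlam (by positivity)

end Boxes

end Vale.Agent.P205.F
end
end

section

/-!
**The pieces exist** (P205, full question, block PC): `theorem DAlg.pieces : S.Pieces`.
-/

noncomputable section

namespace Vale.Agent.P205.F

open scoped ContDiff
open Vale.Agent.P205.PC (dR gR vv dl lc lam dl_sq dl_abs gR_eq abs_M_le)

universe u

variable {P : Type u} {κ : Type} [Fintype κ] {S : DAlg P κ}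

/-- uniform bound of finitely many smooth functions -/
theorem exists_bdd {J : Type*} [Finite J] {u : J → P → ℂ} (hu : ∀ j, S.Sm (u j)) :
    ∃ C : ℝ, 1 ≤ C ∧ ∀ j p, ‖u j p‖ ≤ C := by
  classical
  have := Fintype.ofFinite J
  choose C hC using fun j => S.bdd (hu j)
  refine ⟨1 + ∑ j, |C j|, le_add_of_nonneg_right (Finset.sum_nonneg fun j _ => abs_nonneg _),
    fun j p => ?_⟩
  have h1 : |C j| ≤ ∑ j, |C j| :=
    Finset.single_le_sum (f := fun j => |C j|) (fun j _ => abs_nonneg _) (Finset.mem_univ j)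
  linarith [hC j p, le_abs_self (C j)]

/-- uniform bound of finitely many families -/
theorem exists_fo {J ι : Type*} [Finite J] {μ s : ι → ℝ} (hs : ∀ i, 0 ≤ s i)
    {u : J → ι → P → ℂ} (hu : ∀ j, S.FO μ s (u j)) :
    ∃ C : ℝ, 0 ≤ C ∧ ∀ j i p, ‖u j i p‖ ≤ C * s i := by
  classical
  have := Fintype.ofFinite J
  choose C hC0 hC using fun j => (hu j).apply
  refine ⟨∑ j, C j, Finset.sum_nonneg fun j _ => hC0 j, fun j i p => (hC j i p).trans ?_⟩
  exact mul_le_mul_of_nonneg_right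
    (Finset.single_le_sum (f := C) (fun j _ => hC0 j) (Finset.mem_univ j)) (hs i)

section

variable {C : Type} [Fintype C] {G : κ → κ → P → ℂ} {κ0 : ℝ} (B : Boxes S C G κ0)

/-- the pieces -/
def pdat (f : Fin 4 → P → ℂ) (A H : ℝ) : PData P κ (PQ C) where
  ray a := (prm B H (KS B f A (Sum.inl a)) (Sum.inl a)).ray S
  pr a b σ := (prm B H (KS B f A (Sum.inr (a, b, σ))) (Sum.inr (a, b, σ))).ray S
  χ a := B.ρ a.1 * wt S (B.Y a.1) f A a.2.1
  ℓ a j k := B.el a.1 a.2.1 a.2.2 (H ^ pidx a) j k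

theorem pdat_rays (f : Fin 4 → P → ℂ) (A H : ℝ) (x) :
    (pdat B f A H).rays x = (prm B H (KS B f A x) x).ray S := by
  rcases x with a | ⟨a, b, σ⟩ <;> rfl

theorem phase_ph (H : ℝ) (K : Set P) (a : PQ C) :
    ((prm B H K (Sum.inl a)).ray S).Ψ = B.ph a.1 (dl a.2.1 a.2.2) (H ^ pidx a) := by
  rw [phase_inl]
  funext p
  simp only [phi, Boxes.ph, Fin.sum_univ_two]

theorem pdat_K (f : Fin 4 → P → ℂ) (A H : ℝ) (a : PQ C) :
    ((pdat B f A H).ray a).K = KK B f A a := rfl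

variable {B}

theorem pdat_ok {f : Fin 4 → P → ℂ} (hf : ∀ a, S.Sm (f a)) (hr : ∀ a, Rl (f a)) {A H Cψ : ℝ}
    (hH : 1 ≤ H) (hC : 0 ≤ Cψ) (hψ : ∀ (c : C) i (a : PQ C) p,
      ‖S.dir (B.Y c i) (phi B a) p‖ ≤ Cψ) (he : Cψ / H ≤ 1 / 24)
    (hg : ∀ c, ∀ p ∈ B.K c, ∃ τ, ∀ r, 2 ≤ A * (qg S (B.Y c) f (dl τ r) p).re) :
    (pdat B f A H).Ok S := by
  have hH0 : 0 < H := zero_lt_one.trans_le hH
  have hray : ∀ x, ((prm B H (KS B f A x) x).ray S).Ok S := fun x => by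
    obtain ⟨a, s, h⟩ := prm_good (f := f) (A := A) hH hC hψ x le_rfl
    exact (h.ok he).ray_ok
  have swt : ∀ a : PQ C, S.Sm (wt S (B.Y a.1) f A a.2.1) := fun a =>
    sm_wt (B.smY a.1) (B.rY a.1) hf hr A a.2.1
  have hχsum : ∀ c p, ∑ τ, (B.ρ c * wt S (B.Y c) f A τ) p ^ 2 = B.ρ c p ^ 2 := fun c p => by
    by_cases hp : p ∈ B.K c
    · have h1 := wt_sum A (hg c p hp)
      simp only [Pi.mul_apply, mul_pow]
      rw [← Finset.mul_sum, h1, mul_one]
    · have h0 : B.ρ c p = 0 := (B.zρ c).apply hp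
      simp only [Pi.mul_apply, h0, zero_mul]
      simp
  exact
  { ray := fun a => hray (Sum.inl a)
    pr := fun a b σ _ => hray (Sum.inr (a, b, σ))
    prΨ := fun a b => by
      show ((prm B H (KS B f A (Sum.inr (a, b, true))) (Sum.inr (a, b, true))).ray S).Ψ =
        ((prm B H (KS B f A (Sum.inl a)) (Sum.inl a)).ray S).Ψ
          + ((prm B H (KS B f A (Sum.inl b)) (Sum.inl b)).ray S).Ψ
      rw [prm_Ψ B H (KS B f A (Sum.inr (a, b, true))),
        prm_Ψ B H (KS B f A (Sum.inl a)), prm_Ψ B H (KS B f A (Sum.inl b))]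
      exact phase_true B H ∅ a b
    prΨ' := fun a b hab => by
      show ((prm B H (KS B f A (Sum.inr (a, b, false))) (Sum.inr (a, b, false))).ray S).Ψ =
        ((prm B H (KS B f A (Sum.inl a)) (Sum.inl a)).ray S).Ψ
          - ((prm B H (KS B f A (Sum.inl b)) (Sum.inl b)).ray S).Ψ
      rw [prm_Ψ B H (KS B f A (Sum.inr (a, b, false))),
        prm_Ψ B H (KS B f A (Sum.inl a)), prm_Ψ B H (KS B f A (Sum.inl b))]
      exact phase_false B H ∅ hab
    prK := fun a b σ => prm_K B H (KS B f A (Sum.inr (a, b, σ))) (Sum.inr (a, b, σ))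
    smχ := fun a => S.sm_mul (B.smρ _) (swt a)
    rχ := fun a => (B.rρ _).mul (rl_wt A _)
    zχ := fun a => by
      rw [pdat_K]
      intro w p hp
      by_cases hpK : p ∈ B.K a.1
      · have h1 : ∃ r, ¬ (1 ≤ A * (qg S (B.Y a.1) f (dl a.2.1 r) p).re) := by
          by_contra hcon
          push Not at hcon
          exact hp ⟨hpK, fun r => hcon r⟩
        obtain ⟨r, h1⟩ := h1
        exact DAlg.Zs.mul_right (B.smρ a.1) (swt a)
          (zs_wt (B.smY a.1) (B.rY a.1) hf hr A a.2.1 r) w p h1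
      · exact DAlg.Zs.mul_left (B.smρ a.1) (swt a) (B.zρ a.1) w p hpK
    smℓ := fun a j k => B.sm_el _ _ _ _ j k
    rℓ := fun a j k => B.rl_el _ _ _ _ j k
    dec := fun T hT j k p => by
      have h1 := B.dec_all hT (Λ := fun c τ r => H ^ pidx (c, τ, r))
        (fun c τ r => (pow_pos hH0 _).ne')
        (χ := fun c τ => B.ρ c * wt S (B.Y c) f A τ) hχsum (fun c τ p hp => by
          rw [Pi.mul_apply, (B.zρ c).apply hp, zero_mul]) j k p
      rw [h1, Fintype.sum_prod_type]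
      refine Finset.sum_congr rfl fun c _ => ?_
      rw [Fintype.sum_prod_type]
      refine Finset.sum_congr rfl fun τ _ => Finset.sum_congr rfl fun r _ => ?_
      simp only [pdat, PData.ell, phase_ph] }

end

/-- **(PC)** the pieces exist -/
theorem DAlg.pieces (S : DAlg P κ) : S.Pieces := by
  classical
  refine ⟨1 / 200, by norm_num, fun C _ G hGT hGr hGs B => ?_⟩
  obtain ⟨BY, hBY1, hBY⟩ := exists_bdd (S := S) (J := C × Fin 2 × κ)
    (u := fun x => B.Y x.1 x.2.1 x.2.2) fun x => B.smY _ _ _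
  obtain ⟨BX, hBX1, hBX⟩ := exists_bdd (S := S) (J := C × Fin 2 × κ)
    (u := fun x => S.D x.2.2 (B.x x.1 x.2.1)) fun x => S.sm_D _ (B.smx _ _)
  obtain ⟨Cψ, hCψ1, hCψ⟩ := exists_bdd (S := S) (J := C × Fin 2 × PQ C)
    (u := fun x => S.dir (B.Y x.1 x.2.1) (phi B x.2.2)) fun x => S.sm_dir (B.smY _ _) (sm_phi _)
  have hBY0 : 0 ≤ BY := zero_le_one.trans hBY1
  have hBX0 : 0 < BX := zero_lt_one.trans_le hBX1
  have hCψ0 : 0 ≤ Cψ := zero_le_one.trans hCψ1
  set κ1 : ℝ := 1 / (200 * ((Fintype.card κ : ℝ) ^ 2 * BY ^ 2 + 1)) with hκ1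
  have hden : 0 < (Fintype.card κ : ℝ) ^ 2 * BY ^ 2 + 1 := by (clear * - hBY1; positivity)
  have hκ1pos : 0 < κ1 := by (clear * - hBY1; positivity)
  have hκ1le : (Fintype.card κ : ℝ) ^ 2 * BY ^ 2 * κ1 ≤ 1 / 200 := by
    rw [hκ1, mul_one_div, div_le_div_iff₀ (by positivity) (by norm_num)]
    linarith only []
  refine ⟨κ1, hκ1pos, fun ι θ b f c0 hc0 hb hbθ hf hr h1 h2 hnd => ?_⟩
  have hθ : ∀ i, 1 ≤ θ i := fun i => (hb i).trans (hbθ i)
  have hb0 : ∀ i, 0 < b i := fun i => zero_lt_one.trans_le (hb i)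
  -- bounds of the first and second derivatives in the boxes
  obtain ⟨C1, hC10, hC1⟩ := exists_fo (S := S) (J := C × Fin 2 × Fin 4) (s := fun _ => 1)
    (μ := θ) (fun _ => zero_le_one) (u := fun x i => S.dirv (B.Y x.1 x.2.1) (f i) x.2.2)
    fun x => fo_dirv hθ (B.smY x.1) h1 x.2.1 x.2.2
  obtain ⟨C2, hC20, hC2⟩ := exists_fo (S := S) (J := C × Fin 2 × Fin 2 × Fin 4) (s := b)
    (μ := θ) (fun i => (hb0 i).le)
    (u := fun x i => S.dir (B.Y x.1 x.2.1) (S.dir (B.Y x.1 x.2.2.1) (f i x.2.2.2)))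
    fun x => fo_ddv hθ hb (B.smY x.1) hf h1 h2 x.2.1 x.2.2.1 x.2.2.2
  set CM : ℝ := 6 * (C1 * C1 * C2) with hCM
  have hCM0 : 0 ≤ CM := by (clear * - hC10 hC20; positivity)
  -- threshold
  set Cq : ℝ := 30977 * BX ^ 8 / c0 with hCq
  have hCq0 : 0 < Cq := by positivity
  set A0 : ℝ := 2 * Cq with hA0def
  have hA0 : 0 < A0 := by positivity
  -- lacunary constant
  set H : ℝ := 1 + 24 * Cψ + 112 * (Cψ * CM) * √A0 with hHdef
  have hsq : 0 ≤ √A0 := Real.sqrt_nonneg _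
  have hH1 : 1 ≤ H := by
    have h3 : 0 ≤ 24 * Cψ := by positivity
    have h4 : 0 ≤ 112 * (Cψ * CM) * √A0 := by (clear * - hCψ1 hC10 hC20 hBX1 hc0; positivity)
    rw [hHdef]; linarith only [h4, hCψ1]
  have hH0 : 0 < H := zero_lt_one.trans_le hH1
  have he : Cψ / H ≤ 1 / 24 := by
    rw [div_le_div_iff₀ hH0 (by norm_num)]
    have h4 : 0 ≤ 112 * (Cψ * CM) * √A0 := by (clear * - hCψ1 hC10 hC20 hBX1 hc0; positivity)
    rw [hHdef]; linarith
  have he0 : 0 ≤ Cψ / H := by (clear * - hCψ1 hC10 hC20 hBX1 hc0; positivity)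
  have hsm : 112 * (Cψ / H * CM) * √A0 ≤ 1 := by
    have e1 : 112 * (Cψ / H * CM) * √A0 = 112 * (Cψ * CM) * √A0 / H := by ring
    rw [e1, div_le_one hH0, hHdef]
    have h3 : 0 ≤ 24 * Cψ := by positivity
    linarith
  have hψ : ∀ (c : C) i (a : PQ C) p, ‖S.dir (B.Y c i) (phi B a) p‖ ≤ Cψ :=
    fun c i a p => hCψ (c, i, a) p
  -- the good triple
  have hg : ∀ i c, ∀ p ∈ B.K c, ∃ τ, ∀ r,
      2 ≤ A0 / b i ^ 2 * (qg S (B.Y c) (f i) (dl τ r) p).re := by
    intro i c p hp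
    by_contra hcon
    push Not at hcon
    choose r hr' using hcon
    obtain ⟨j1, j2, j, k, hlow⟩ := hnd i p
    have hbi := hb0 i
    have hb2 : 0 < b i ^ 2 := by positivity
    have hle := B.gram_le c (hf i) (hr i) (b := BX) (fun m l q => hBX (c, m, l) q)
      (σ := √(b i ^ 2 / Cq)) (Real.sqrt_nonneg _) hp r (fun τ => by
        rw [Real.sq_sqrt (by positivity), ← qg_re (B.smY c) (B.rY c) (hf i) (hr i)]
        have h5 := hr' τ
        rw [div_mul_eq_mul_div, div_lt_iff₀ hb2, hA0def] at h5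
        rw [le_div_iff₀ hCq0]
        linarith only [h5]) j1 j2 j k
    rw [Real.sq_sqrt (by positivity)] at hle
    have h6 : 30976 * BX ^ 8 * (b i ^ 2 / Cq) < c0 * b i ^ 2 := by
      rw [hCq]
      have e2 : 30976 * BX ^ 8 * (b i ^ 2 / (30977 * BX ^ 8 / c0)) =
          30976 / 30977 * (c0 * b i ^ 2) := by
        field_simp
      rw [e2]
      have : 0 < c0 * b i ^ 2 := by positivity
      linarith only [this]
    linarith only [h6, hle, hlow]
  have hok : ∀ i, (pdat B (f i) (A0 / b i ^ 2) H).Ok S := fun i =>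
    pdat_ok (hf i) (hr i) hH1 hCψ0 hψ he (hg i)
  have hgood := fun i x => prm_good (B := B) (f := f i) (A := A0 / b i ^ 2) hH1 hCψ0 hψ
    (K := KS B (f i) (A0 / b i ^ 2) x) x le_rfl
  -- rays without region
  have hfix : ∀ x, ((prm B H ∅ x).ray S).Ok S := fun x => by
    obtain ⟨a, s, h⟩ := prm_good (B := B) (f := fun _ _ => 0) (A := 0) hH1 hCψ0 hψ
      (K := ∅) x (Set.empty_subset _)
    exact (h.ok he).ray_ok
  set Mx : ℝ := 2 * H ^ Fintype.card (PQ C) with hMx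
  have hMx0 : 0 < Mx := by (clear * - hCψ1 hC10 hC20 hBX1 hc0; positivity)
  set c1 : ℝ := min (1 / (16 * A0 * Mx ^ 2)) (1 / (20 * Mx ^ 2)) with hc1
  have hc1pos : 0 < c1 := lt_min (by (clear * - hBX1 hc0 hCψ1 hC10 hC20; positivity)) (by (clear * - hCψ1 hC10 hC20 hBX1 hc0; positivity))
  have hθ0 : ∀ i, 0 ≤ θ i := fun i => zero_le_one.trans (hθ i)
  refine ⟨PQ C, inferInstance, fun i => pdat B (f i) (A0 / b i ^ 2) H, c1, hc1pos, hok, ?_, ?_,
    ?_⟩
  · exact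
    { Ψ := fun x _ j => by
        have e : (fun i => S.D j ((pdat B (f i) (A0 / b i ^ 2) H).rays x).Ψ) =
            fun _ : ι => S.D j ((prm B H ∅ x).ray S).Ψ := by
          funext i
          rw [pdat_rays, prm_Ψ]
        rw [e]
        exact DAlg.FO.fixed (fun _ => le_rfl) (S.sm_D j (hfix x).smΨ)
      t := fun x _ j => by
        have e : (fun i => ((pdat B (f i) (A0 / b i ^ 2) H).rays x).t j) =
            fun _ : ι => ((prm B H ∅ x).ray S).t j := by
          funext i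
          rw [pdat_rays, prm_t]
        rw [e]
        exact DAlg.FO.fixed (fun _ => le_rfl) ((hfix x).smt j)
      w := fun x _ j => by
        have e : (fun i => ((pdat B (f i) (A0 / b i ^ 2) H).rays x).w j) =
            fun _ : ι => ((prm B H ∅ x).ray S).w j := by
          funext i
          rw [pdat_rays, prm_w]
        rw [e]
        exact DAlg.FO.fixed (fun _ => le_rfl) ((hfix x).smw j)
      β := fun x _ j => by
        have e : (fun i => ((pdat B (f i) (A0 / b i ^ 2) H).rays x).β j) =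
            fun _ : ι => ((prm B H ∅ x).ray S).β j := by
          funext i
          rw [pdat_rays, prm_β]
        rw [e]
        exact DAlg.FO.fixed (fun _ => le_rfl) ((hfix x).smβ j)
      χ := fun a => ((DAlg.FO.fixed hθ (B.smρ a.1)).mul
        (fo_wt hθ hb (B.smY a.1) (B.rY a.1) hf hr h1 h2 A0 hA0.le a.2.1)).congr_s
          fun i => by ring
      ℓ := fun a j k => DAlg.FO.fixed (fun _ => le_rfl) (B.sm_el _ _ _ _ j k) }
  · intro i x _ p hp
    obtain ⟨a, s, h⟩ := hgood i x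
    have hp' : p ∈ (prm B H (KS B (f i) (A0 / b i ^ 2) x) x).K := by
      have e : ((pdat B (f i) (A0 / b i ^ 2) H).rays x).K =
          (prm B H (KS B (f i) (A0 / b i ^ 2) x) x).K := by
        rw [pdat_rays]
        rfl
      rwa [e] at hp
    have hn := h.nondeg (hf i) (hr i) he0 he hA0 (hb0 i) rfl hp' (CM := CM) (fun m k l => by
      have h3 : ∀ q, |rev (S.dirv (B.Y a.1 0) (f i)) p q| ≤ C1 := fun q => by
        have := hC1 (a.1, 0, q) i p
        rw [mul_one] at this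
        exact (Complex.abs_re_le_norm _).trans this
      have h4 : ∀ q, |rev (S.dirv (B.Y a.1 1) (f i)) p q| ≤ C1 := fun q => by
        have := hC1 (a.1, 1, q) i p
        rw [mul_one] at this
        exact (Complex.abs_re_le_norm _).trans this
      have h5 : ∀ q, |ddv S (B.Y a.1) (f i) p k l q| ≤ C2 * b i := fun q =>
        (Complex.abs_re_le_norm _).trans (hC2 (a.1, k, l, q) i p)
      refine (abs_M_le h3 h4 h5 m).trans (le_of_eq ?_)
      rw [hCM]
      ring) hsm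
    rw [pdat_rays]
    refine le_trans ?_ hn
    exact mul_le_mul_of_nonneg_right (min_le_left _ _) (sq_nonneg _)
  · intro i a T hT p hp
    have hpK : p ∈ B.K a.1 := hp.1
    have h3 := B.el_ge (T := T) a.1 (p := p) (BY := BY) (κ1 := κ1)
      (fun m j => hBY (a.1, m, j) p) hpK (fun j k => hT j k p) (le_refl _) hκ1le a.2.1 a.2.2
      (Λ := H ^ pidx a) (pow_pos hH0 _).ne'
    refine le_trans ?_ h3
    refine (min_le_right _ _).trans ?_
    have h4 : H ^ pidx a ≤ Mx := by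
      have h5 : H ^ pidx a ≤ H ^ Fintype.card (PQ C) := pow_le_pow_right₀ hH1 (pidx_le a)
      have h6 : 0 < H ^ Fintype.card (PQ C) := pow_pos hH0 _
      rw [hMx]
      linarith only [h6, h5]
    have h7 : 0 < H ^ pidx a := pow_pos hH0 _
    exact one_div_le_one_div_of_le (by (clear * - hCψ1 hC10 hC20 hBX1 hc0; positivity))
      (mul_le_mul_of_nonneg_left (pow_le_pow_left₀ h7.le h4 2) (by norm_num))

end Vale.Agent.P205.F
end
end
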