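import Mathlib
import Vale.Agent.P205.Bdl.B1
import Vale.Agent.P205.Bdl.B5
import Vale.Agent.P205.Bdl.B9
import Vale.Agent.P205.Bdl.B7
import Vale.Agent.P205.Bdl.B6
import Vale.Agent.P205.Bdl.B3
import Vale.Agent.P205.Bdl.B8
import Vale.Agent.P205.Bdl.B4

set_option linter.all false

section

/-!
Smoothing operators on a compact manifold (P205, full question), part C: the differential
function space `K.dalg b` of `Inst0.lean` has finitely many charts in the sense of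
`DAlg.Charts`, hence smoothing operators of every order.
-/

open Set Function Filter
open scoped Manifold ContDiff Topology

noncomputable section

namespace Vale.Agent.P205.F

namespace Cov

variable {E : Type*} [NormedAddCommGroup E] [NormedSpace ℝ E]
  {M : Type*} [TopologicalSpace M] [ChartedSpace E M]
  (K : Cov E M)

/-! ### from the manifold to the chart -/

/-- `f` read in the chart `i`, extended by zero -/
def psh (i : Fin K.n) (f : M → ℂ) : E → ℂ :=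
  (K.ph i).target.indicator (f ∘ (K.ph i).symm)

theorem psh_of_mem {i : Fin K.n} {f : M → ℂ} {x : E} (hx : x ∈ (K.ph i).target) :
    K.psh i f x = f ((K.ph i).symm x) := indicator_of_mem hx _

theorem psh_of_notMem {i : Fin K.n} {f : M → ℂ} {x : E} (hx : x ∉ (K.ph i).target) :
    K.psh i f x = 0 := indicator_of_notMem hx _

theorem psh_eventuallyEq {i : Fin K.n} {f : M → ℂ} {x : E} (hx : x ∈ (K.ph i).target) :
    K.psh i f =ᶠ[𝓝 x] f ∘ (K.ph i).symm := by
  filter_upwards [(K.isOpen_target i).mem_nhds hx] with y hy using K.psh_of_mem hy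

/-- the compact set carrying `psh i f` -/
def car (i : Fin K.n) (f : M → ℂ) : Set E := K.ph i '' tsupport f

theorem psh_zero_of_notMem_car {i : Fin K.n} {f : M → ℂ} {x : E} (hx : x ∉ K.car i f) :
    K.psh i f x = 0 := by
  by_cases h : x ∈ (K.ph i).target
  · rw [K.psh_of_mem h]
    by_contra h2
    exact hx ⟨_, subset_tsupport _ h2, (K.ph i).right_inv h⟩
  · exact K.psh_of_notMem h

theorem car_sub {i : Fin K.n} {f : M → ℂ} (hf : tsupport f ⊆ (K.ph i).source) :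
    K.car i f ⊆ (K.ph i).target := by
  rintro _ ⟨p, hp, rfl⟩
  exact (K.ph i).map_source (hf hp)

theorem isCompact_car [CompactSpace M] {i : Fin K.n} {f : M → ℂ}
    (hf : tsupport f ⊆ (K.ph i).source) : IsCompact (K.car i f) := by
  refine ((isClosed_tsupport f).isCompact).image_of_continuousOn ?_
  exact (continuousOn_extChartAt (K.c i)).mono hf

theorem psh_cc [CompactSpace M] [IsManifold 𝓘(ℝ, E) ∞ M] {i : Fin K.n} {f : M → ℂ}
    (hf : ContMDiff 𝓘(ℝ, E) 𝓘(ℝ, ℂ) ∞ f) (hs : tsupport f ⊆ (K.ph i).source) :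
    Cc (K.psh i f) := by
  have hK := K.isCompact_car hs
  refine ⟨?_, ?_⟩
  · rw [contDiff_iff_contDiffAt]
    intro x
    by_cases hx : x ∈ (K.ph i).target
    · exact (((K.contDiffOn_symm hf i).contDiffAt ((K.isOpen_target i).mem_nhds hx))).congr_of_eventuallyEq
        (K.psh_eventuallyEq hx)
    · have h1 : x ∈ (K.car i f)ᶜ := fun h => hx (K.car_sub hs h)
      have h2 : K.psh i f =ᶠ[𝓝 x] fun _ => 0 := by
        filter_upwards [hK.isClosed.isOpen_compl.mem_nhds h1] with y hy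
        exact K.psh_zero_of_notMem_car hy
      exact contDiffAt_const.congr_of_eventuallyEq h2
  · exact HasCompactSupport.intro hK fun x hx => K.psh_zero_of_notMem_car hx

variable {A : Type*} (b : A → E)

theorem Dv_notMem_tsupport {f : M → ℂ} {p : M} (hp : p ∉ tsupport f) (j : Fin K.n × A) :
    K.Dv b j f p = 0 := by
  by_cases hs : p ∈ (K.ph j.1).source
  · have h1 : f =ᶠ[𝓝 p] 0 := notMem_tsupport_iff_eventuallyEq.1 hp
    have h2 : Tendsto (K.ph j.1).symm (𝓝 (K.ph j.1 p)) (𝓝 p) := by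
      have h3 : ContinuousAt (K.ph j.1).symm (K.ph j.1 p) :=
        continuousAt_extChartAt_symm' (by exact hs)
      have h4 := h3.tendsto
      rwa [(K.ph j.1).left_inv hs] at h4
    have h5 : (f ∘ (K.ph j.1).symm) =ᶠ[𝓝 (K.ph j.1 p)] fun _ => 0 := h2.eventually h1
    rw [Dv, h5.fderiv_eq]
    simp
  · exact K.Dv_eq_zero b j f hs

theorem tsupport_Dv (f : M → ℂ) (j : Fin K.n × A) : tsupport (K.Dv b j f) ⊆ tsupport f := by
  refine closure_minimal (fun p hp => ?_) (isClosed_tsupport f)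
  by_contra h
  exact hp (K.Dv_notMem_tsupport b h j)

theorem dd_psh [CompactSpace M] [IsManifold 𝓘(ℝ, E) ∞ M] {i : Fin K.n} {f : M → ℂ}
    (hs : tsupport f ⊆ K.V i) (a : A) :
    dd (b a) (K.psh i f) = K.psh i (K.Dv b (i, a) f) := by
  have hs' : tsupport f ⊆ (K.ph i).source := hs.trans (K.V_sub i)
  have hK := K.isCompact_car hs'
  funext x
  by_cases hc : x ∈ K.car i f
  · have hx := K.car_sub hs' hc
    rw [K.psh_of_mem hx, dd, (K.psh_eventuallyEq hx).fderiv_eq, Dv]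
    obtain ⟨p, hp, rfl⟩ := hc
    rw [(K.ph i).left_inv (hs' hp), K.one i p (hs hp), one_smul]
  · have h2 : K.psh i f =ᶠ[𝓝 x] fun _ => 0 := by
      filter_upwards [hK.isClosed.isOpen_compl.mem_nhds hc] with y hy
      exact K.psh_zero_of_notMem_car hy
    rw [dd, h2.fderiv_eq]
    have h3 : x ∉ K.car i (K.Dv b (i, a) f) := by
      rintro ⟨p, hp, rfl⟩
      exact hc ⟨p, K.tsupport_Dv b f _ hp, rfl⟩
    rw [K.psh_zero_of_notMem_car h3]
    simp

theorem ddw_psh [CompactSpace M] [IsManifold 𝓘(ℝ, E) ∞ M] {i : Fin K.n} {f : M → ℂ}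
    (hs : tsupport f ⊆ K.V i) (w : List A) :
    ddw b w (K.psh i f) = K.psh i ((K.dalg b).wd (w.map fun a => (i, a)) f) ∧
      tsupport ((K.dalg b).wd (w.map fun a => (i, a)) f) ⊆ K.V i := by
  induction w with
  | nil => exact ⟨rfl, hs⟩
  | cons a w ih =>
    refine ⟨?_, ?_⟩
    · rw [ddw, ih.1, K.dd_psh b ih.2]
      rfl
    · exact (K.tsupport_Dv b _ _).trans ih.2

theorem norm_psh_le {i : Fin K.n} {f : M → ℂ} {C : ℝ} (hC : 0 ≤ C) (h : ∀ p, ‖f p‖ ≤ C) (x : E) :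
    ‖K.psh i f x‖ ≤ C := by
  by_cases hx : x ∈ (K.ph i).target
  · rw [K.psh_of_mem hx]
    exact h _
  · rw [K.psh_of_notMem hx]
    simpa using hC

theorem EN_psh [CompactSpace M] [IsManifold 𝓘(ℝ, E) ∞ M] {i : Fin K.n} {f : M → ℂ} {k : ℕ}
    {C : ℝ} (hC : 0 ≤ C) (hs : tsupport f ⊆ K.V i) (h : (K.dalg b).Nb k C f) :
    EN b k C (K.psh i f) := by
  intro w hw x
  rw [(K.ddw_psh b hs w).1]
  exact K.norm_psh_le hC (h _ (by simpa using hw)) x

/-! ### from the chart to the manifold -/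

/-- the cut off chart, a smooth map on `M` -/
def zt (i : Fin K.n) : M → E := fun p => K.χ i p • K.ph i p

theorem zt_sm [IsManifold 𝓘(ℝ, E) ∞ M] (i : Fin K.n) :
    ContMDiff 𝓘(ℝ, E) 𝓘(ℝ, E) ∞ (K.zt i) := by
  refine contMDiff_of_tsupport fun p hp => ?_
  have h1 : p ∈ (chartAt E (K.c i)).source := K.sup i (tsupport_smul_subset_left _ _ hp)
  exact (K.sm i).contMDiffAt.smul ((contMDiffOn_extChartAt (x := K.c i)).contMDiffAt
    ((chartAt E (K.c i)).open_source.mem_nhds h1))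

theorem zt_of_mem {i : Fin K.n} {p : M} (hp : p ∈ K.V i) : K.zt i p = K.ph i p := by
  rw [zt, K.one i p hp, one_smul]

theorem Dv_comp_zt [IsManifold 𝓘(ℝ, E) ∞ M] {g : E → ℂ} (hg : ContDiff ℝ ∞ g) {z : M → E}
    (hz : ContMDiff 𝓘(ℝ, E) 𝓘(ℝ, E) ∞ z) (j : Fin K.n × A) (p : M) :
    K.Dv b j (g ∘ z) p = fderiv ℝ g (z p) (K.Dv b j z p) := by
  by_cases hp : p ∈ (K.ph j.1).source
  · have h1 : HasFDerivAt g (fderiv ℝ g ((z ∘ (K.ph j.1).symm) (K.ph j.1 p)))
        ((z ∘ (K.ph j.1).symm) (K.ph j.1 p)) :=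
      (hg.differentiable (by simp)).differentiableAt.hasFDerivAt
    have h2 := (h1.comp (K.ph j.1 p) (K.differentiableAt_symm hz hp).hasFDerivAt).fderiv
    have h3 : fderiv ℝ ((g ∘ z) ∘ (K.ph j.1).symm) (K.ph j.1 p) =
      (fderiv ℝ g ((z ∘ (K.ph j.1).symm) (K.ph j.1 p))).comp
        (fderiv ℝ (z ∘ (K.ph j.1).symm) (K.ph j.1 p)) := h2
    rw [Dv, h3, Function.comp_apply, (K.ph j.1).left_inv hp, Dv, map_smul]
    rfl
  · rw [K.Dv_eq_zero b j _ hp, K.Dv_eq_zero b j _ hp, map_zero]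

section basis

variable [Fintype A] (b : Module.Basis A ℝ E) [FiniteDimensional ℝ E]

/-- coefficients of the fields in the chart `i` -/
def cf (i : Fin K.n) (j : Fin K.n × A) (a : A) : M → ℂ :=
  fun p => ((b.repr (K.Dv b j (K.zt i) p) a : ℝ) : ℂ)

omit [Fintype A] in
theorem cf_sm [IsManifold 𝓘(ℝ, E) ∞ M] (i : Fin K.n) (j : Fin K.n × A) (a : A) :
    ContMDiff 𝓘(ℝ, E) 𝓘(ℝ, ℂ) ∞ (K.cf b i j a) := by
  have h1 : ContMDiff 𝓘(ℝ, E) 𝓘(ℝ, E) ∞ (K.Dv b j (K.zt i)) := K.Dv_contMDiff b (K.zt_sm i) j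
  let L : E →L[ℝ] ℝ := LinearMap.toContinuousLinearMap (b.coord a)
  have h2 : ContDiff ℝ ∞ fun x : E => ((L x : ℝ) : ℂ) :=
    Complex.ofRealCLM.contDiff.comp L.contDiff
  exact h2.comp_contMDiff h1

omit [FiniteDimensional ℝ E] in
theorem Dv_comp_sum [IsManifold 𝓘(ℝ, E) ∞ M] {g : E → ℂ} (hg : ContDiff ℝ ∞ g) (i : Fin K.n)
    (j : Fin K.n × A) :
    K.Dv b j (g ∘ K.zt i) = ∑ a, K.cf b i j a * (dd (b a) g ∘ K.zt i) := by
  funext p
  rw [K.Dv_comp_zt b hg (K.zt_sm i), Finset.sum_apply]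
  conv_lhs => rw [← b.sum_repr (K.Dv b j (K.zt i) p), map_sum]
  refine Finset.sum_congr rfl fun a _ => ?_
  rw [map_smul]
  simp [cf, dd]

variable [IsManifold 𝓘(ℝ, E) ∞ M] [CompactSpace M]

omit [Fintype A] [FiniteDimensional ℝ E] in
/-- `η * (g ∘ chart)` -/
theorem pll_sm {η : M → ℂ} (hη : (K.dalg b).Sm η) {g : E → ℂ} (hg : ContDiff ℝ ∞ g)
    (i : Fin K.n) : (K.dalg b).Sm (η * (g ∘ K.zt i)) :=
  (K.dalg b).sm_mul hη (hg.comp_contMDiff (K.zt_sm i))

theorem pll_bound (i : Fin K.n) (w : List (Fin K.n × A)) : ∀ η : M → ℂ, (K.dalg b).Sm η →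
    ∃ C : ℝ, 0 ≤ C ∧ ∀ (B : ℝ) (g : E → ℂ), Cc g → EN b w.length B g →
      ∀ p, ‖(K.dalg b).wd w (η * (g ∘ K.zt i)) p‖ ≤ C * B := by
  induction w using List.reverseRecOn with
  | nil =>
    intro η hη
    obtain ⟨C, hC⟩ := (K.dalg b).bdd hη
    refine ⟨max C 0, le_max_right _ _, fun B g hg hB p => ?_⟩
    simp only [DAlg.wd_nil, Pi.mul_apply, norm_mul, comp_apply]
    exact mul_le_mul ((hC p).trans (le_max_left _ _)) (hB [] (by simp) _) (norm_nonneg _)
      (le_max_right _ _)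
  | append_singleton w j ih =>
    intro η hη
    obtain ⟨C₀, hC₀0, hC₀⟩ := ih ((K.dalg b).D j η) ((K.dalg b).sm_D j hη)
    have hcf : ∀ a, (K.dalg b).Sm (η * K.cf b i j a) := fun a =>
      (K.dalg b).sm_mul hη (K.cf_sm b i j a)
    choose C hC0 hC using fun a => ih (η * K.cf b i j a) (hcf a)
    refine ⟨C₀ + ∑ a, C a, add_nonneg hC₀0 (Finset.sum_nonneg fun a _ => hC0 a),
      fun B g hg hB p => ?_⟩
    have hgd : ∀ a, Cc (dd (b a) g) := fun a => hg.dd _
    have h1 : (K.dalg b).D j (η * (g ∘ K.zt i)) =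
        (K.dalg b).D j η * (g ∘ K.zt i) + ∑ a, (η * K.cf b i j a) * (dd (b a) g ∘ K.zt i) := by
      rw [(K.dalg b).D_mul j hη (hg.1.comp_contMDiff (K.zt_sm i))]
      congr 1
      have h2 : (K.dalg b).D j (g ∘ K.zt i) = K.Dv b j (g ∘ K.zt i) := rfl
      rw [h2, K.Dv_comp_sum b hg.1, Finset.mul_sum]
      exact Finset.sum_congr rfl fun a _ => (mul_assoc _ _ _).symm
    rw [DAlg.wd_snoc, h1, (K.dalg b).wd_add w
      (K.pll_sm b ((K.dalg b).sm_D j hη) hg.1 i)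
      ((K.dalg b).sm_sum fun a _ => K.pll_sm b (hcf a) (hgd a).1 i),
      (K.dalg b).wd_sum w fun a _ => K.pll_sm b (hcf a) (hgd a).1 i, Pi.add_apply,
      Finset.sum_apply]
    refine (norm_add_le _ _).trans ?_
    rw [add_mul, Finset.sum_mul]
    have hlen : (w ++ [j]).length = w.length + 1 := by simp
    rw [hlen] at hB
    refine add_le_add (hC₀ B g hg (hB.mono (by omega) le_rfl) p)
      ((norm_sum_le _ _).trans (Finset.sum_le_sum fun a _ => ?_))
    exact hC a B (dd (b a) g) (hgd a) (EN.ddw (k := w.length) [a] hB) p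

theorem pll_Nb (i : Fin K.n) {η : M → ℂ} (hη : (K.dalg b).Sm η) (k : ℕ) :
    ∃ C : ℝ, 0 ≤ C ∧ ∀ (B : ℝ) (g : E → ℂ), Cc g → EN b k B g →
      (K.dalg b).Nb k (C * B) (η * (g ∘ K.zt i)) := by
  choose C hC0 hC using fun w => K.pll_bound b i w η hη
  obtain ⟨C', hC'0, hC'⟩ := exists_word_bound C k
  refine ⟨C', hC'0, fun B g hg hB w hw p => ?_⟩
  exact (hC w B g hg (hB.mono hw le_rfl) p).trans
    (mul_le_mul_of_nonneg_right (hC' w hw) hB.nonneg)

end basis

end Cov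

/-- every smooth function is bounded in all norms -/
theorem DAlg.exists_Nb {P κ : Type*} [Finite κ] (S : DAlg P κ) {u : P → ℂ} (hu : S.Sm u) (k : ℕ) :
    ∃ C : ℝ, 0 ≤ C ∧ S.Nb k C u := by
  choose C hC using fun w => S.bdd (S.sm_wd w hu)
  obtain ⟨C', hC'0, hC'⟩ := exists_word_bound C k
  exact ⟨C', hC'0, fun w hw p => (hC w p).trans (hC' w hw)⟩

section main

variable {E : Type*} [NormedAddCommGroup E] [NormedSpace ℝ E] [FiniteDimensional ℝ E]
  {M : Type*} [TopologicalSpace M] [ChartedSpace E M] [IsManifold 𝓘(ℝ, E) ∞ M]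
  [CompactSpace M] [T2Space M] (K : Cov E M) {A : Type*} [Fintype A] (b : Module.Basis A ℝ E)

/-- the charts of the differential function space of a compact manifold -/
theorem Cov.exists_charts : Nonempty ((K.dalg b).Charts E b) := by
  classical
  obtain ⟨ψ, hψ⟩ := SmoothPartitionOfUnity.exists_isSubordinate 𝓘(ℝ, E) (isClosed_univ (X := M))
    K.V (fun i => K.opn i) (fun p _ => by
      obtain ⟨i, hi⟩ := K.cov p
      exact mem_iUnion.2 ⟨i, hi⟩)
  -- the outer cut-offs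
  have hom : ∀ i, ∃ f : C^∞⟮𝓘(ℝ, E), M; 𝓘(ℝ), ℝ⟯, EqOn f 0 (K.V i)ᶜ ∧
      EqOn f 1 (tsupport (ψ i)) := fun i => by
    obtain ⟨f, h1, h2, -⟩ := exists_contMDiffMap_zero_one_of_isClosed 𝓘(ℝ, E)
      (K.opn i).isClosed_compl (isClosed_tsupport (ψ i))
      (disjoint_left.2 fun p hp hp' => hp (hψ i hp'))
    exact ⟨f, h1, h2⟩
  choose om hom0 hom1 using hom
  let S := K.dalg b
  let Ψ : Fin K.n → M → ℂ := fun i p => ((ψ i p : ℝ) : ℂ)
  let Ω : Fin K.n → M → ℂ := fun i p => ((om i p : ℝ) : ℂ)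
  have hΨ : ∀ i, S.Sm (Ψ i) := fun i =>
    Complex.ofRealCLM.contDiff.comp_contMDiff (ψ i).contMDiff
  have hΩ : ∀ i, S.Sm (Ω i) := fun i =>
    Complex.ofRealCLM.contDiff.comp_contMDiff (om i).contMDiff
  have hsup : ∀ i (u : M → ℂ), tsupport (Ψ i * u) ⊆ K.V i := by
    intro i u
    refine (closure_mono ?_).trans (hψ i)
    intro p hp
    have h1 : Ψ i p ≠ 0 := fun h => hp (by simp [h])
    simpa [Ψ] using h1
  refine ⟨{
    ι := Fin K.n
    fin := inferInstance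
    down := fun i u => K.psh i (Ψ i * u)
    up := fun i g => Ω i * (g ∘ K.zt i)
    down_cc := fun i {u} hu => K.psh_cc (S.sm_mul (hΨ i) hu) ((hsup i u).trans (K.V_sub i))
    down_real := fun i {u} hu hr x => ?_
    down_nb := fun i k => ?_
    up_sm := fun i {g} hg => K.pll_sm b (hΩ i) hg.1 i
    up_real := fun i {g} hg hr p => ?_
    up_nb := fun i k => K.pll_Nb b i (hΩ i) k
    up_sub := fun i {g g'} _ _ => ?_
    sum_eq := fun {u} hu => ?_ }⟩
  · by_cases hx : x ∈ (K.ph i).target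
    · rw [K.psh_of_mem hx]
      have h1 : (u ((K.ph i).symm x)).im = 0 := hr _
      simp only [Pi.mul_apply, Complex.mul_im, h1, mul_zero, Ψ, Complex.ofReal_im, zero_mul,
        add_zero]
    · rw [K.psh_of_notMem hx]
      rfl
  · obtain ⟨C, hC0, hC⟩ := S.exists_Nb (hΨ i) k
    refine ⟨2 ^ k * C, by positivity, fun B u hB hu hN => ?_⟩
    refine K.EN_psh b (by positivity) (hsup i u) ?_
    have := DAlg.Nb.mul (hΨ i) hu hC hN
    rwa [← mul_assoc] at this
  · simp [Ω, hr]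
  · funext p
    simp [mul_sub]
  · funext p
    rw [Finset.sum_apply]
    have h1 : ∀ i, (Ω i * (K.psh i (Ψ i * u) ∘ K.zt i)) p = Ψ i p * u p := by
      intro i
      by_cases hp : p ∈ K.V i
      · have h2 : K.ph i p ∈ (K.ph i).target := (K.ph i).map_source (K.V_sub i hp)
        simp only [Pi.mul_apply, comp_apply]
        rw [K.zt_of_mem hp, K.psh_of_mem h2, (K.ph i).left_inv (K.V_sub i hp)]
        by_cases hs : p ∈ tsupport (ψ i)
        · have h3 : Ω i p = 1 := by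
            have := hom1 i hs
            simp [Ω, this]
          rw [h3, one_mul]
          rfl
        · have h3 : Ψ i p = 0 := by
            have : ψ i p = 0 := image_eq_zero_of_notMem_tsupport hs
            simp [Ψ, this]
          simp [h3]
      · have h3 : Ω i p = 0 := by
          have := hom0 i hp
          simp [Ω, this]
        have h4 : Ψ i p = 0 := by
          have : ψ i p = 0 := image_eq_zero_of_notMem_tsupport fun h => hp (hψ i h)
          simp [Ψ, this]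
        simp [h3, h4]
    rw [Finset.sum_congr rfl fun i _ => h1 i, ← Finset.sum_mul]
    have h5 : ∑ i, Ψ i p = 1 := by
      have h := ψ.sum_eq_one (mem_univ p)
      rw [finsum_eq_sum_of_fintype] at h
      simp only [Ψ]
      rw [← Complex.ofReal_sum, h, Complex.ofReal_one]
    rw [h5, one_mul]

/-- **smoothing operators** of every order on a compact manifold -/
theorem Cov.smoothing (m : ℕ) : Nonempty ((K.dalg b).Smoothing m) :=
  (K.exists_charts b).elim fun c => c.smoothing b m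

end main

end Vale.Agent.P205.F
end
end

section

/-!
Assembly of the stage `StageF` from `Prep`, the absorption of the slow part, `QuadAlg`, `KerB`,
`WkbB`.
-/

noncomputable section

open scoped Classical

namespace Vale.Agent.P205.F

universe u

variable {P : Type u} {κ : Type} [Fintype κ] {S : DAlg P κ}

/-- **(S)** absorption of the slow part, in the form used by the stage -/
def DAlg.AbsU (S : DAlg P κ) (Q : Type) [Fintype Q] : Prop :=
  ∀ (m : ℕ) (ι : Type u) (θ b lam : ι → ℝ) (c0 : ℝ) (d : ι → PData P κ Q)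
    (X : ι → Fin 4 → P → ℂ) (F : ι → Q ⊕ (Q × Q × Bool) → Frm P) (T : ι → κ → κ → P → ℂ),
    0 < c0 → (∀ i, 1 ≤ b i) → (∀ i, b i ≤ θ i) → (∀ i, θ i ≤ lam i) →
    (∀ i, (d i).Ok S) → PData.FBd S d θ → (∀ i a, S.Sm (X i a)) → (∀ i a, Rl (X i a)) →
    FrmBd S θ b d X F →
    (∀ i, S.IsT (T i)) → (∀ i j k, Rl (T i j k)) →
    (∀ j k, S.FO θ (fun _ => 1) (fun i => T i j k)) →
    (∀ i a p, p ∈ ((d i).ray a).K → c0 ≤ ((d i).ell a (T i) p).re) →
    ∃ α : ι → Q → P → ℂ, (∀ i a, S.Sm (α i a)) ∧ (∀ i a, Rl (α i a)) ∧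
      (∀ i a, S.Zs ((d i).ray a).K (α i a)) ∧ (∀ a, S.FO θ (fun _ => 1) (fun i => α i a)) ∧
      ∀ j k, S.FO θ (fun i => (θ i / lam i) ^ m)
        (fun i p => slowM (S.sB (lam i) (d i) (F i) (X i) m (α i)) j k p - T i j k p)

namespace StB

variable {Q : Type} [Fintype Q] {ι : Type u} {θ b lam : ι → ℝ} {d : ι → PData P κ Q}
  {X : ι → Fin 4 → P → ℂ} {F : ι → Q ⊕ (Q × Q × Bool) → Frm P} {α : ι → Q → P → ℂ}

theorem lb1 (H : StB S θ b lam d X F α) (i : ι) : 1 ≤ lam i / b i :=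
  (one_le_div (H.bpos i)).2 ((H.hθ i).trans (H.hlam i))

theorem Du1_bd (H : StB S θ b lam d X F α) (hKB : S.KerB) (m : ℕ) (j : κ) (c : Fin 4) :
    S.FO lam (fun _ => 1)
      (fun i => S.Dv j (S.su1 (lam i) (d i) (F i) (X i) m (α i)) c) :=
  ((H.u1_bd hKB m c).D j).congr_s fun i => div_mul_cancel₀ _ (H.lampos i).ne'

theorem Du2_bd (H : StB S θ b lam d X F α) (hKB : S.KerB) (hWB : S.WkbB) (m : ℕ) (j : κ)
    (c : Fin 4) :
    S.FO lam (fun i => lam i / b i)
      (fun i => S.Dv j (S.su2 (lam i) (d i) (F i) (X i) m (α i)) c) :=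
  ((H.u2_bd hKB hWB m c).D j).congr_s fun i => by ring

theorem y_bd (H : StB S θ b lam d X F α) (hKB : S.KerB) (hWB : S.WkbB) (m : ℕ) {ε : ι → ℝ}
    (hε : ∀ i, 0 ≤ ε i) (hε1 : ∀ i, ε i ≤ 1) (c : Fin 4) :
    S.FO lam (fun i => ε i / b i)
      (fun i => S.sy (lam i) (d i) (F i) (X i) m (α i) (ε i) c) := by
  have h1 := (DAlg.FO.real_mul hε (H.u1_bd hKB m c)).mono_s' (s' := fun i => ε i / b i)
    (fun i => by
      rw [mul_one_div]
      exact div_le_div_of_nonneg_left (hε i) (H.bpos i) ((H.hθ i).trans (H.hlam i))) H.lam0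
  have h2 := (DAlg.FO.real_mul (fun i => pow_nonneg (hε i) 2) (H.u2_bd hKB hWB m c)).mono_s'
    (s' := fun i => ε i / b i) (fun i => by
      rw [mul_one_div]
      refine div_le_div_of_nonneg_right ?_ (H.bpos i).le
      linarith only [mul_nonneg (sub_nonneg.2 (hε i)) (sub_nonneg.2 (hε1 i))]) H.lam0
  refine (h1.add h2).congr fun i q => ?_
  simp only [Pi.add_apply, DAlg.sy]
  push_cast
  rfl

theorem rl_su1 (lam : ℝ) (d : PData P κ Q) (F : Q ⊕ (Q × Q × Bool) → Frm P)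
    (X : Fin 4 → P → ℂ) (m : ℕ) (α : Q → P → ℂ) (c : Fin 4) :
    Rl (S.su1 lam d F X m α c) := by
  unfold DAlg.su1
  exact Rl.sum fun a _ => Rl.ofReal _

theorem rl_su2 (lam : ℝ) (d : PData P κ Q) (F : Q ⊕ (Q × Q × Bool) → Frm P)
    (X : Fin 4 → P → ℂ) (m : ℕ) (α : Q → P → ℂ) (c : Fin 4) :
    Rl (S.su2 lam d F X m α c) := by
  unfold DAlg.su2
  refine Rl.neg (u := fun q => _) (Rl.sum fun x _ => ?_)
  by_cases hx : usedRay (Sum.inr x)
  · simp only [if_pos hx]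
    exact Rl.ofReal _
  · simp only [if_neg hx]
    exact Rl.const (by simp)

theorem rl_sy (lam : ℝ) (d : PData P κ Q) (F : Q ⊕ (Q × Q × Bool) → Frm P)
    (X : Fin 4 → P → ℂ) (m : ℕ) (α : Q → P → ℂ) (ε : ℝ) (c : Fin 4) :
    Rl (S.sy lam d F X m α ε c) := by
  intro q
  have h1 := rl_su1 (S := S) lam d F X m α c q
  have h2 := rl_su2 (S := S) lam d F X m α c q
  simp only [DAlg.sy, Complex.add_im, Complex.mul_im, h1, h2, Complex.ofReal_im]
  have h3 : ((ε : ℂ) ^ 2).im = 0 := by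
    rw [← Complex.ofReal_pow]; exact Complex.ofReal_im _
  rw [h3]; ring

theorem err_bd (H : StB S θ b lam d X F α) (hKB : S.KerB) (hWB : S.WkbB) (hQ : S.QuadAlg Q)
    (m : ℕ) {ε : ι → ℝ} (hε : ∀ i, 0 ≤ ε i) (hε1 : ∀ i, ε i ≤ 1) {T : ι → κ → κ → P → ℂ}
    (hM : ∀ j k, S.FO θ (fun i => (θ i / lam i) ^ m)
        (fun i p => slowM (S.sB (lam i) (d i) (F i) (X i) m (α i)) j k p - T i j k p))
    (j k : κ) :
    S.FO lam (fun i => ε i * (θ i / lam i) ^ m + ε i ^ 3 * (lam i / b i) ^ 2)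
        (fun i p => S.met (fun a => X i a + S.sy (lam i) (d i) (F i) (X i) m (α i) (ε i) a) j k p
          - S.met (X i) j k p - ε i ^ 2 * T i j k p) := by
  have r0 : ∀ i, 0 ≤ (θ i / lam i) ^ m := fun i => pow_nonneg (H.ρ0 i) m
  have l0 : ∀ i, 0 ≤ ε i ^ 3 * (lam i / b i) ^ 2 := fun i =>
    mul_nonneg (pow_nonneg (hε i) 3) (sq_nonneg _)
  have e0 : ∀ i, 0 ≤ ε i * (θ i / lam i) ^ m := fun i => mul_nonneg (hε i) (r0 i)
  have e2 : ∀ i, ε i ^ 2 ≤ ε i := fun i => by linarith only [mul_nonneg (sub_nonneg.2 (hε i)) (sub_nonneg.2 (hε1 i))]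
  have e2' : ∀ i, ε i ^ 2 * (θ i / lam i) ^ m ≤
      ε i * (θ i / lam i) ^ m + ε i ^ 3 * (lam i / b i) ^ 2 := fun i => by
    have := mul_le_mul_of_nonneg_right (e2 i) (r0 i)
    linarith [l0 i]
  have A1 := (DAlg.FO.real_mul hε (H.t1_bd hKB m j k)).mono_s'
    (s' := fun i => ε i * (θ i / lam i) ^ m + ε i ^ 3 * (lam i / b i) ^ 2)
    (fun i => by linarith [l0 i]) H.lam0
  have A2 := (DAlg.FO.real_mul (fun i => pow_nonneg (hε i) 2) (H.t2_bd hKB hWB m j k)).mono_s'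
    (s' := fun i => ε i * (θ i / lam i) ^ m + ε i ^ 3 * (lam i / b i) ^ 2) e2' H.lam0
  have A3 := (DAlg.FO.real_mul (fun i => pow_nonneg (hε i) 2)
    ((hM j k).mono_mu H.hlam H.θ0 r0)).mono_s'
    (s' := fun i => ε i * (θ i / lam i) ^ m + ε i ^ 3 * (lam i / b i) ^ 2) e2' H.lam0
  have D1 := fun j c => H.Du1_bd hKB m j c
  have D2 := fun j c => H.Du2_bd hKB hWB m j c
  have A4 : S.FO lam (fun i => ε i * (θ i / lam i) ^ m + ε i ^ 3 * (lam i / b i) ^ 2)
      (fun i p => ((ε i ^ 3 : ℝ) : ℂ) * ((fun i =>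
        dot (S.Dv j (S.su1 (lam i) (d i) (F i) (X i) m (α i)))
          (S.Dv k (S.su2 (lam i) (d i) (F i) (X i) m (α i)))
        + dot (S.Dv j (S.su2 (lam i) (d i) (F i) (X i) m (α i)))
          (S.Dv k (S.su1 (lam i) (d i) (F i) (X i) m (α i)))) i p)) := by
    refine (DAlg.FO.real_mul (fun i => pow_nonneg (hε i) 3)
      (((DAlg.FO.dot (D1 j) (D2 k)).congr_s fun i => one_mul _).add
        ((DAlg.FO.dot (D2 j) (D1 k)).congr_s fun i => mul_one _))).mono_s' (fun i => ?_) H.lam0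
    have h1 := H.lb1 i
    have h2 : lam i / b i ≤ (lam i / b i) ^ 2 := by nlinarith
    have h3 := mul_le_mul_of_nonneg_left h2 (pow_nonneg (hε i) 3)
    linarith [e0 i]
  have A5 : S.FO lam (fun i => ε i * (θ i / lam i) ^ m + ε i ^ 3 * (lam i / b i) ^ 2)
      (fun i p => ((ε i ^ 4 : ℝ) : ℂ) * ((fun i =>
        dot (S.Dv j (S.su2 (lam i) (d i) (F i) (X i) m (α i)))
          (S.Dv k (S.su2 (lam i) (d i) (F i) (X i) m (α i)))) i p)) := by
    refine (DAlg.FO.real_mul (fun i => pow_nonneg (hε i) 4)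
      ((DAlg.FO.dot (D2 j) (D2 k)).congr_s fun i => rfl)).mono_s' (fun i => ?_) H.lam0
    have h1 : 0 ≤ (lam i / b i) ^ 2 := sq_nonneg _
    have h2 : ε i ^ 4 ≤ ε i ^ 3 := by
      have := pow_nonneg (hε i) 3
      nlinarith [hε1 i]
    have h3 := mul_le_mul_of_nonneg_right h2 h1
    have h4 : ε i ^ 4 * (lam i / b i * (lam i / b i)) = ε i ^ 4 * (lam i / b i) ^ 2 := by ring
    rw [h4]
    linarith [e0 i]
  refine ((((A1.add A2).neg.add A3).add A4).add A5).congr fun i p => ?_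
  have h := hQ (lam i) (ε i) (d i) (F i) (X i) m (α i) (H.lampos i).ne' (H.dOk i) (H.sX i)
    (H.rX i) (H.fr.ok i) (H.sα i) (H.zα i) (H.rα i) j k p
  rw [h]
  simp only [Pi.add_apply, Pi.neg_apply]
  push_cast
  ring

end StB

/-- **(ST)** -/
theorem DAlg.stageF {Q : Type} [Fintype Q] (hP : S.Prep Q) (hA : S.AbsU Q) (hQ : S.QuadAlg Q)
    (hKB : S.KerB) (hWB : S.WkbB) : S.StageF Q := by
  intro m ι θ b lam ε c0 d X T hc0 hb hθ hlam hε hε1 dOk FB Nd sX rX DX DDX tT rT bT pT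
  obtain ⟨F, hF⟩ := hP ι θ b c0 d X hc0 hb hθ dOk FB Nd sX rX DX DDX
  obtain ⟨α, sα, rα, zα, bα, hM⟩ := hA m ι θ b lam c0 d X F T hc0 hb hθ hlam dOk FB sX rX hF
    tT rT bT pT
  have H : StB S θ b lam d X F α :=
    { hb := hb, hθ := hθ, hlam := hlam, dOk := dOk, FB := FB, sX := sX, rX := rX, fr := hF,
      sα := sα, rα := rα, zα := zα, bα := bα }
  refine ⟨1, one_pos, fun i => S.sy (lam i) (d i) (F i) (X i) m (α i) (ε i),
    fun i a => (H.y_bd hKB hWB m hε hε1 a).1 i, fun i a => StB.rl_sy _ _ _ _ _ _ _ a,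
    fun a => ?_, fun j k => ?_⟩
  · exact DAlg.FO.reindex (fun i : {i // θ i / lam i ≤ 1} => i.1) (H.y_bd hKB hWB m hε hε1 a)
  · exact DAlg.FO.reindex (fun i : {i // θ i / lam i ≤ 1} => i.1)
      (H.err_bd hKB hWB hQ m hε hε1 hM j k)

end Vale.Agent.P205.F
end
end

section

/-!
Absorption of the slow part of the quadratic term: statement (scale invariant form,
`1 ≤ b ≤ θ ≤ λ`, all constants `O(1)`).
-/

noncomputable section

namespace Vale.Agent.P205.F

universe u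

variable {P : Type u} {κ : Type} [Fintype κ] (S : DAlg P κ)

/-- **(S)** absorption of the slow part: amplitudes `α = O(1)` with
`slowM(sB α) = T + O((θ/λ)^(n+1))`; no restriction of the family is needed -/
def DAlg.AbsorbU (Q : Type) [Fintype Q] : Prop :=
  ∀ (m n : ℕ) (ι : Type u) (θ b lam : ι → ℝ) (c0 : ℝ) (d : ι → PData P κ Q)
    (X : ι → Fin 4 → P → ℂ) (F : ι → Q ⊕ (Q × Q × Bool) → Frm P) (T : ι → κ → κ → P → ℂ),
    0 < c0 → (∀ i, 1 ≤ b i) → (∀ i, b i ≤ θ i) → (∀ i, θ i ≤ lam i) →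
    (∀ i, (d i).Ok S) → PData.FBd S d θ → (∀ i a, S.Sm (X i a)) → (∀ i a, Rl (X i a)) →
    FrmBd S θ b d X F →
    (∀ i, S.IsT (T i)) → (∀ i j k, Rl (T i j k)) →
    (∀ j k, S.FO θ (fun _ => 1) (fun i => T i j k)) →
    (∀ i a p, p ∈ ((d i).ray a).K → c0 ≤ ((d i).ell a (T i) p).re) →
    ∃ α : ι → Q → P → ℂ, (∀ i a, S.Sm (α i a)) ∧ (∀ i a, Rl (α i a)) ∧
      (∀ i a, S.Zs ((d i).ray a).K (α i a)) ∧
      (∀ a, S.FO θ (fun _ => 1) (fun i => α i a)) ∧
      ∀ j k, S.FO θ (fun i => (θ i / lam i) ^ (n + 1))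
        (fun i p => slowM (S.sB (lam i) (d i) (F i) (X i) m (α i)) j k p - T i j k p)

end Vale.Agent.P205.F
end
end

section

/-!
Absorption of the slow part of the quadratic term: the iteration in abstract form, part 2.
-/

noncomputable section

namespace Vale.Agent.P205.F

universe u

section

variable {P κ : Type*} {S : DAlg P κ} {ι : Type*} {μ s : ι → ℝ} {u : ι → P → ℂ}

/-- a constant factor in the scale is harmless -/
theorem DAlg.FO.const_mu {c : ℝ} (hc : 1 ≤ c) (hμ : ∀ i, 0 ≤ μ i) (hs : ∀ i, 0 ≤ s i)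
    (hu : S.FO (fun i => μ i * c) s u) : S.FO μ s u := by
  refine ⟨hu.1, fun k => ?_⟩
  obtain ⟨C, hC, h⟩ := hu.2 k
  refine ⟨C * c ^ k, by positivity, fun i w hw p => (h i w hw p).trans ?_⟩
  rw [mul_pow]
  have h1 : c ^ w.length ≤ c ^ k := pow_le_pow_right₀ hc hw
  have h2 : 0 ≤ μ i ^ w.length := pow_nonneg (hμ i) _
  have h3 := hs i
  calc C * s i * (μ i ^ w.length * c ^ w.length)
      = (C * s i * μ i ^ w.length) * c ^ w.length := by ring
    _ ≤ (C * s i * μ i ^ w.length) * c ^ k :=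
        mul_le_mul_of_nonneg_left h1 (by positivity)
    _ = C * c ^ k * s i * μ i ^ w.length := by ring

end

variable {P : Type u} {κ : Type} [Fintype κ] {S : DAlg P κ} {ι : Type u} {Q : Type} [Fintype Q]
  {θ x : ι → ℝ} {R : ι → Q → Set P}
  {K : Q → κ → Fin 4 → (ι → P → ℂ) → ι → P → ℂ} {dΨ : Q → κ → ι → P → ℂ}
  {E : Q → Fin 4 → ι → P → ℂ}

/-- coefficient functionals -/
def ellF (ℓ : Q → κ → κ → ι → P → ℂ) (a : Q) (T : κ → κ → ι → P → ℂ) : ι → P → ℂ :=
  fun i p => ∑ j, ∑ k, ℓ a j k i p * T j k i p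

/-- cut-offs and coefficient functionals -/
structure AbsData (S : DAlg P κ) (θ : ι → ℝ) (R : ι → Q → Set P) (dΨ : Q → κ → ι → P → ℂ)
    (χ : Q → ι → P → ℂ) (ℓ : Q → κ → κ → ι → P → ℂ) : Prop where
  aχ : Amp S R χ
  fχ : ∀ a, S.FO θ (fun _ => 1) (χ a)
  rℓ : ∀ a j k i, Rl (ℓ a j k i)
  fℓ : ∀ a j k, S.FO θ (fun _ => 1) (ℓ a j k)
  dec : ∀ (T : κ → κ → ι → P → ℂ) i, S.IsT (fun j k => T j k i) → ∀ j k p, T j k i p =
    ∑ a, χ a i p ^ 2 * ellF ℓ a T i p * (dΨ a j i p * dΨ a k i p)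

variable {χ : Q → ι → P → ℂ} {ℓ : Q → κ → κ → ι → P → ℂ}

theorem AbsData.ell_fo (hD : AbsData S θ R dΨ χ ℓ) (a : Q) {s : ι → ℝ}
    {T : κ → κ → ι → P → ℂ} (hT : ∀ j k, S.FO θ s (T j k)) : S.FO θ s (ellF ℓ a T) := by
  have h := DAlg.FO.sum' (S := S) (μ := θ) (s := s) (A := (Finset.univ : Finset κ))
    (u := fun j i p => ∑ k ∈ (Finset.univ : Finset κ), (ℓ a j k i * T j k i) p)
    fun j _ => DAlg.FO.sum' (S := S) (μ := θ) (s := s) (A := (Finset.univ : Finset κ))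
      (u := fun k i => ℓ a j k i * T j k i)
      fun k _ => ((hD.fℓ a j k).mul (hT j k)).congr_s fun i => by ring
  exact h

theorem AbsData.ell_rl (hD : AbsData S θ R dΨ χ ℓ) (a : Q)
    {T : κ → κ → ι → P → ℂ} {i : ι} (hT : ∀ j k, Rl (T j k i)) : Rl (ellF ℓ a T i) :=
  Rl.sum (A := (Finset.univ : Finset κ)) (u := fun j p => ∑ k, ℓ a j k i p * T j k i p)
    fun j _ => Rl.sum (A := (Finset.univ : Finset κ)) (u := fun k p => ℓ a j k i p * T j k i p)
      fun k _ => (hD.rℓ a j k i).mul (hT j k)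

/-- Hypotheses for the iteration after the square root: `α0 = χ ρ`, `γ(E) = χ σ ell E` -/
structure Root (S : DAlg P κ) (θ : ι → ℝ) (R : ι → Q → Set P) (ℓ : Q → κ → κ → ι → P → ℂ)
    (T : κ → κ → ι → P → ℂ) (σ : Q → ι → P → ℂ) : Prop where
  rl : ∀ a i, Rl (σ a i)
  fo : ∀ a, S.FO θ (fun _ => 1) (σ a)
  sq : ∀ a i, ∀ p ∈ R i a, σ a i p ^ 2 * (2 * ellF ℓ a T i p) = 1

theorem AbsData.exists_root (hD : AbsData S θ R dΨ χ ℓ) (hθ : ∀ i, 0 ≤ θ i)
    {T : κ → κ → ι → P → ℂ} (hTr : ∀ j k i, Rl (T j k i))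
    (hT : ∀ j k, S.FO θ (fun _ => 1) (T j k)) {c0 : ℝ} (hc : 0 < c0)
    (hlow : ∀ a i, ∀ p ∈ R i a, c0 ≤ (ellF ℓ a T i p).re) :
    ∃ σ, Root S θ R ℓ T σ := by
  have h : ∀ a, ∃ σ : ι → P → ℂ, (∀ i, Rl (σ i)) ∧ S.FO θ (fun _ => 1) σ ∧
      ∀ i, ∀ p ∈ R i a, σ i p ^ 2 * (2 * ellF ℓ a T i p) = 1 := by
    intro a
    set L : ℝ := max 1 (1 / (2 * c0)) with hL
    have hL1 : 1 ≤ L := le_max_left _ _
    have hL0 : 0 < L := by linarith
    have hu : S.FO θ (fun _ => 1) (fun i p => (2 : ℂ) * ellF ℓ a T i p) :=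
      (hD.ell_fo a hT).const_mul 2
    obtain ⟨σ, h1, h2, h3⟩ := DAlg.FO.exists_invSqrt (L := fun _ => L) hu hθ (fun _ => hL1)
      (fun _ => le_rfl) (fun i => Rl.smul (c := 2) (by simp) (hD.ell_rl a fun j k => hTr j k i))
      (fun i => R i a) (fun i p hp => by
        have h4 := hlow a i p hp
        have h5 : ((2 : ℂ) * ellF ℓ a T i p).re = 2 * (ellF ℓ a T i p).re := by simp
        rw [h5, div_le_iff₀ hL0]
        have h6 : 1 / (2 * c0) ≤ L := le_max_right _ _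
        rw [div_le_iff₀ (by positivity)] at h6
        (by_contra nlg; linarith only [nlg, mul_nonneg (sub_nonneg.2 h4) (sub_nonneg.2 h6), mul_nonneg (le_of_lt (sub_pos.2 hc)) (sub_nonneg.2 h6), mul_pos (sub_pos.2 (not_le.1 nlg)) (sub_pos.2 hc), h4]))
    refine ⟨σ, h1, ?_, h3⟩
    have h4 : S.FO (fun i => θ i * L) (fun _ => L) σ := h2.congr_mu fun i => by ring
    have h5 := h4.const_mu hL1 hθ fun _ => hL0.le
    exact h5.mono_s (C := L) (fun i => by simp) (fun _ => zero_le_one) hθ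
  choose σ h1 h2 h3 using h
  exact ⟨σ, h1, h2, h3⟩

theorem Bf_sub_left (hK : KOp S θ x R K dΨ E) {α γ β : Q → ι → P → ℂ} (hα : Amp S R α)
    (hγ : Amp S R γ) (j k : κ) (i : ι) (p : P) :
    Bf K (fun a i => α a i - γ a i) β j k i p = Bf K α β j k i p - Bf K γ β j k i p := by
  unfold Bf
  rw [← Finset.sum_sub_distrib]
  refine Finset.sum_congr rfl fun a _ => ?_
  rw [← Finset.sum_sub_distrib]
  refine Finset.sum_congr rfl fun b _ => ?_
  rw [hK.sub a j b (α a) (γ a) (hα.sm a) (hγ.sm a) (hα.zs a) (hγ.zs a) i p, map_sub]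
  ring

theorem Bf_sub_right (hK : KOp S θ x R K dΨ E) {α γ β : Q → ι → P → ℂ} (hα : Amp S R α)
    (hγ : Amp S R γ) (j k : κ) (i : ι) (p : P) :
    Bf K β (fun a i => α a i - γ a i) j k i p = Bf K β α j k i p - Bf K β γ j k i p := by
  unfold Bf
  rw [← Finset.sum_sub_distrib]
  refine Finset.sum_congr rfl fun a _ => ?_
  rw [← Finset.sum_sub_distrib]
  refine Finset.sum_congr rfl fun b _ => ?_
  rw [hK.sub a k b (α a) (γ a) (hα.sm a) (hγ.sm a) (hα.zs a) (hγ.zs a) i p, map_sub]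
  ring

/-- **the absorption, abstract form** -/
theorem absorb_core (hK : KOp S θ x R K dΨ E) (hD : AbsData S θ R dΨ χ ℓ)
    (hθ : ∀ i, 0 ≤ θ i) (hx0 : ∀ i, 0 ≤ x i) (hx1 : ∀ i, x i ≤ 1)
    {T : κ → κ → ι → P → ℂ} (hTi : ∀ i, S.IsT (fun j k => T j k i))
    (hTr : ∀ j k i, Rl (T j k i)) (hT : ∀ j k, S.FO θ (fun _ => 1) (T j k)) {c0 : ℝ}
    (hc : 0 < c0) (hlow : ∀ a i, ∀ p ∈ R i a, c0 ≤ (ellF ℓ a T i p).re) (n : ℕ) :
    ∃ α : Q → ι → P → ℂ, Amp S R α ∧ (∀ a, S.FO θ (fun _ => 1) (α a)) ∧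
      ∀ j k, S.FO θ (fun i => x i ^ (n + 1)) (fun i p => Bf K α α j k i p - T j k i p) := by
  obtain ⟨σ, hσ⟩ := hD.exists_root hθ hTr hT hc hlow
  have h10 : ∀ _ : ι, (0 : ℝ) ≤ 1 := fun _ => zero_le_one
  -- the operator `γ`
  set g : (κ → κ → ι → P → ℂ) → Q → ι → P → ℂ :=
    fun W a i => χ a i * (σ a i * ellF ℓ a W i) with hg
  have gfo : ∀ (W : κ → κ → ι → P → ℂ) (s : ι → ℝ), (∀ j k, S.FO θ s (W j k)) →
      ∀ a, S.FO θ s (g W a) := by
    intro W s hW a
    exact ((hD.fχ a).mul ((hσ.fo a).mul (hD.ell_fo a hW))).congr_s fun i => by ring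
  have gamp : ∀ (W : κ → κ → ι → P → ℂ) (s : ι → ℝ), (∀ j k, S.FO θ s (W j k)) →
      (∀ j k i, Rl (W j k i)) → Amp S R (g W) := by
    intro W s hW hr
    have hsm : ∀ a i, S.Sm (σ a i * ellF ℓ a W i) := fun a i =>
      S.sm_mul ((hσ.fo a).sm i) ((hD.ell_fo a hW).sm i)
    exact ⟨fun a i => S.sm_mul (hD.aχ.sm a i) (hsm a i),
      fun a i => (hD.aχ.rl a i).mul ((hσ.rl a i).mul (hD.ell_rl a fun j k => hr j k i)),
      fun a i => DAlg.Zs.mul_left (hD.aχ.sm a i) (hsm a i) (hD.aχ.zs a i)⟩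
  -- the first amplitudes
  set α0 : Q → ι → P → ℂ := g (fun j k i p => 2 * T j k i p) with hα0
  have h2T : ∀ j k, S.FO θ (fun _ => 1) (fun i p => 2 * T j k i p) := fun j k =>
    (hT j k).const_mul 2
  have h2Tr : ∀ j k i, Rl (fun p => 2 * T j k i p) := fun j k i =>
    Rl.smul (c := 2) (by simp) (hTr j k i)
  have a0 : Amp S R α0 := gamp _ _ h2T h2Tr
  have f0 : ∀ a, S.FO θ (fun _ => 1) (α0 a) := gfo _ _ h2T
  have ell2 : ∀ a i p, ellF ℓ a (fun j k i p => 2 * T j k i p) i p = 2 * ellF ℓ a T i p := by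
    intro a i p
    unfold ellF
    rw [Finset.mul_sum]
    refine Finset.sum_congr rfl fun j _ => ?_
    rw [Finset.mul_sum]
    refine Finset.sum_congr rfl fun k _ => ?_
    ring
  -- products with `α0`
  have prod : ∀ (W : κ → κ → ι → P → ℂ) a i p,
      α0 a i p * g W a i p = χ a i p ^ 2 * ellF ℓ a W i p := by
    intro W a i p
    by_cases hp : p ∈ R i a
    · have h1 := hσ.sq a i p hp
      simp only [hα0, hg, Pi.mul_apply, ell2]
      linear_combination (χ a i p ^ 2 * ellF ℓ a W i p) * h1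
    · have z : χ a i p = 0 := (hD.aχ.zs a i).apply hp
      simp [hg, z]
  have lead : ∀ (W : κ → κ → ι → P → ℂ), (∀ i, S.IsT (fun j k => W j k i)) → ∀ j k i p,
      Lf dΨ α0 (g W) j k i p + Lf dΨ (g W) α0 j k i p = W j k i p := by
    intro W hW j k i p
    rw [hD.dec W i (hW i) j k p]
    unfold Lf
    rw [← Finset.sum_add_distrib]
    refine Finset.sum_congr rfl fun a _ => ?_
    have h1 := prod W a i p
    linear_combination (dΨ a j i p * dΨ a k i p) * h1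
  have claim : ∃ α : Q → ι → P → ℂ, Amp S R α ∧ (∀ a, S.FO θ x (fun i => α a i - α0 a i)) ∧
      ∀ j k, S.FO θ (fun i => x i ^ (n + 1)) (fun i p => Bf K α α j k i p - T j k i p) := by
    induction n with
    | zero =>
      refine ⟨α0, a0, fun a => ?_, fun j k => ?_⟩
      · refine (DAlg.FO.zero (S := S) (μ := θ) (s := x)).congr fun i p => ?_
        simp
      · have h1 := Bf_lead hK hx0 hx1 hθ h10 h10 a0 a0 f0 f0 j k
        refine (h1.congr_s fun i => by ring).congr fun i p => ?_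
        have h2 : Lf dΨ α0 α0 j k i p = T j k i p := by
          have h3 := lead (fun j k i p => 2 * T j k i p) (fun i => by
            refine ⟨fun j k => ?_, fun p c hc k => ?_⟩
            · funext p
              have := congrFun ((hTi i).1 j k) p
              simp only at this ⊢
              rw [this]
            · have h4 := (hTi i).2 p c hc k
              have h5 : ∀ j, c j * (2 * T j k i p) = 2 * (c j * T j k i p) := fun j => by ring
              simp only [h5, ← Finset.mul_sum]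
              rw [h4, mul_zero]) j k i p
          have h6 : Lf dΨ α0 α0 j k i p + Lf dΨ α0 α0 j k i p = 2 * T j k i p := h3
          linear_combination (1 / 2 : ℂ) * h6
        rw [h2]
    | succ n ih =>
      obtain ⟨α, hα, hδ, hR⟩ := ih
      -- the remainder
      set W : κ → κ → ι → P → ℂ := fun j k i p => Bf K α α j k i p - T j k i p with hW
      have hWi : ∀ i, S.IsT (fun j k => W j k i) := fun i => (Bf_isT hK hα i).sub (hTi i)
      have hWr : ∀ j k i, Rl (W j k i) := fun j k i => (Bf_real α j k i).sub (hTr j k i)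
      set s : ι → ℝ := fun i => x i ^ (n + 1) with hs
      have hs0 : ∀ i, 0 ≤ s i := fun i => pow_nonneg (hx0 i) _
      have hs1 : ∀ i, s i ≤ 1 := fun i => pow_le_one₀ (hx0 i) (hx1 i)
      have hγ : Amp S R (g W) := gamp W s hR hWr
      have fγ : ∀ a, S.FO θ s (g W a) := gfo W s hR
      have hd : Amp S R (fun a i => α a i - α0 a i) := hα.sub a0
      refine ⟨fun a i => α a i - g W a i, hα.sub hγ, fun a => ?_, fun j k => ?_⟩
      · have h1 : S.FO θ x (g W a) := (fγ a).mono_s' (fun i => by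
          simp only [hs, pow_succ]
          exact mul_le_of_le_one_left (hx0 i) (pow_le_one₀ (hx0 i) (hx1 i))) hθ
        refine ((hδ a).sub h1).congr fun i p => ?_
        simp only [Pi.sub_apply]
        ring
      · -- the terms of the new remainder
        have e1 := Bf_lead hK hx0 hx1 hθ h10 hs0 a0 hγ f0 fγ j k
        have e2 := Bf_lead hK hx0 hx1 hθ hs0 h10 hγ a0 fγ f0 j k
        have e3 := Bf_fo hK hx0 hx1 hθ hx0 hs0 hd hγ hδ fγ j k
        have e4 := Bf_fo hK hx0 hx1 hθ hs0 hx0 hγ hd fγ hδ j k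
        have e5 := Bf_fo hK hx0 hx1 hθ hs0 hs0 hγ hγ fγ fγ j k
        have s1 : ∀ i, 1 * s i * x i = x i ^ (n + 1 + 1) := fun i => by
          simp only [hs]
          ring
        have s2 : ∀ i, s i * 1 * x i = x i ^ (n + 1 + 1) := fun i => by
          simp only [hs]
          ring
        have s3 : ∀ i, x i * s i = x i ^ (n + 1 + 1) := fun i => by
          simp only [hs]
          ring
        have s4 : ∀ i, s i * x i = x i ^ (n + 1 + 1) := fun i => by
          simp only [hs]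
          ring
        have s5 : ∀ i, s i * s i ≤ x i ^ (n + 1 + 1) := fun i => by
          have h1 : s i ≤ x i := by
            simp only [hs, pow_succ]
            exact mul_le_of_le_one_left (hx0 i) (pow_le_one₀ (hx0 i) (hx1 i))
          calc s i * s i ≤ s i * x i := mul_le_mul_of_nonneg_left h1 (hs0 i)
            _ = x i ^ (n + 1 + 1) := s4 i
        have f := (((((e1.congr_s s1).add (e2.congr_s s2)).add (e3.congr_s s3)).add
          (e4.congr_s s4)).neg).add (e5.mono_s' s5 hθ)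
        refine f.congr fun i p => ?_
        have l1 := lead W hWi j k i p
        have l2 : W j k i p = Bf K α α j k i p - T j k i p := rfl
        rw [Bf_sub_left hK hα hγ, Bf_sub_right hK hα hγ, Bf_sub_right hK hα hγ]
        simp only [Pi.add_apply, Pi.neg_apply]
        rw [Bf_sub_left hK hα a0, Bf_sub_right hK hα a0]
        linear_combination l1 - l2
  obtain ⟨α, h1, h2, h3⟩ := claim
  refine ⟨α, h1, fun a => ?_, h3⟩
  have h4 := ((h2 a).mono_s' (s' := fun _ => 1) hx1 hθ).add (f0 a)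
  refine h4.congr fun i p => ?_
  simp only [Pi.add_apply, Pi.sub_apply]
  ring

end Vale.Agent.P205.F
end
end

section

/-!
Absorption of the slow part of the quadratic term.
-/

noncomputable section

namespace Vale.Agent.P205.F

universe u

variable {P : Type u} {κ : Type} [Fintype κ] {S : DAlg P κ} {Q : Type} [Fintype Q] {ι : Type u}

/-- the operator `α ↦ kerB α` of the family -/
def KF (S : DAlg P κ) (lam : ι → ℝ) (d : ι → PData P κ Q) (X : ι → Fin 4 → P → ℂ)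
    (F : ι → Q ⊕ (Q × Q × Bool) → Frm P) (m : ℕ) (a : Q) (j : κ) (b : Fin 4)
    (α : ι → P → ℂ) : ι → P → ℂ :=
  fun i p => S.kerB (lam i) ((d i).ray a) (F i (Sum.inl a)) (X i) m (α i) j b p

theorem slowM_eq_Bf (lam : ι → ℝ) (d : ι → PData P κ Q) (X : ι → Fin 4 → P → ℂ)
    (F : ι → Q ⊕ (Q × Q × Bool) → Frm P) (m : ℕ) (α : Q → ι → P → ℂ) (j k : κ) (i : ι) (p : P) :
    slowM (S.sB (lam i) (d i) (F i) (X i) m (fun a => α a i)) j k p =
      Bf (KF S lam d X F m) α α j k i p := by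
  unfold slowM Bf KF DAlg.sB dot cjv
  refine Finset.sum_congr rfl fun a _ => ?_
  rw [Finset.mul_sum, Complex.re_sum]
  push_cast
  refine Finset.sum_congr rfl fun b _ => ?_
  rw [Complex.re_eq_add_conj, map_mul, map_mul, Complex.conj_conj]
  simp only [map_div₀, map_one, map_ofNat]
  ring

theorem kop (hA : S.KerAlg) (hB : S.KerB) (hL : S.KerLin) (m : ℕ) {θ b lam : ι → ℝ}
    {d : ι → PData P κ Q} {X : ι → Fin 4 → P → ℂ} {F : ι → Q ⊕ (Q × Q × Bool) → Frm P}
    (hb : ∀ i, 1 ≤ b i) (hbθ : ∀ i, b i ≤ θ i) (hθl : ∀ i, θ i ≤ lam i)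
    (hd : ∀ i, (d i).Ok S) (hfd : PData.FBd S d θ) (hX : ∀ i a, S.Sm (X i a))
    (hXr : ∀ i a, Rl (X i a)) (hF : FrmBd S θ b d X F) :
    KOp S θ (fun i => θ i / lam i) (fun i a => ((d i).ray a).K) (KF S lam d X F m)
      (fun a j i => S.D j ((d i).ray a).Ψ) (fun a b' i => (F i (Sum.inl a)).E b') := by
  have h1θ : ∀ i, 1 ≤ θ i := fun i => (hb i).trans (hbθ i)
  have hθ0 : ∀ i, 0 ≤ θ i := fun i => zero_le_one.trans (h1θ i)
  have hl0 : ∀ i, lam i ≠ 0 := fun i => by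
    have := (h1θ i).trans (hθl i)
    positivity
  have hu : ∀ a : Q, usedRay (Sum.inl a : Q ⊕ (Q × Q × Bool)) := fun _ => trivial
  have hok : ∀ i a, (F i (Sum.inl a)).Ok S ((d i).ray a) (X i) := fun i a =>
    hF.ok i (Sum.inl a) (hu a)
  have slow : ∀ (v : ι → P → ℂ), S.FO (fun _ => 1) (fun _ => 1) v → S.FO θ (fun _ => 1) v :=
    fun v hv => hv.mono_mu h1θ (fun _ => zero_le_one) fun _ => zero_le_one
  have smB : ∀ a (α : ι → P → ℂ), (∀ i, S.Sm (α i)) → (∀ i, S.Zs ((d i).ray a).K (α i)) →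
      ∀ i c, S.Sm (S.ker (lam i) ((d i).ray a) (F i (Sum.inl a)) (X i) m (α i) c) := by
    intro a α hα hz i c
    exact (hA (lam i) ((d i).ray a) (F i (Sum.inl a)) (X i) m (α i) (hl0 i) ((hd i).ray a)
      (hX i) (hXr i) (hok i a) (hα i) (hz i)).1 c
  refine ⟨?_, ?_, ?_, ?_, ?_, ?_, ?_, ?_, ?_⟩
  · intro a j b' α β hα hβ zα zβ i p
    have e : ∀ c, S.ker (lam i) ((d i).ray a) (F i (Sum.inl a)) (X i) m (α i - β i) c
        = S.ker (lam i) ((d i).ray a) (F i (Sum.inl a)) (X i) m (α i) c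
          - S.ker (lam i) ((d i).ray a) (F i (Sum.inl a)) (X i) m (β i) c := by
      intro c
      funext q
      have h1 := hL (lam i) ((d i).ray a) (F i (Sum.inl a)) (X i) m (α i) (β i) (-1)
        ((hd i).ray a) (hX i) (hok i a) (hα i) (hβ i) c q
      have h2 : (fun q => α i q + (-1 : ℂ) * β i q) = α i - β i := by
        funext q
        simp only [Pi.sub_apply]
        ring
      rw [h2] at h1
      rw [h1, Pi.sub_apply]
      ring
    unfold KF DAlg.kerB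
    simp only [e]
    rw [S.D_sub j (smB a α hα zα i b') (smB a β hβ zβ i b')]
    simp only [Pi.sub_apply]
    ring
  · intro a b' α hα hz i p c hc
    unfold KF DAlg.kerB
    have h1 := hc _ (smB a α hα hz i b')
    have h2 := hc _ ((hd i).ray a).smΨ
    simp only [mul_add, Finset.sum_add_distrib]
    rw [h1, zero_add]
    have e : ∀ j, c j * (Complex.I * (lam i) * S.D j ((d i).ray a).Ψ p *
        S.ker (lam i) ((d i).ray a) (F i (Sum.inl a)) (X i) m (α i) b' p)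
        = (c j * S.D j ((d i).ray a).Ψ p) * (Complex.I * (lam i) *
          S.ker (lam i) ((d i).ray a) (F i (Sum.inl a)) (X i) m (α i) b' p) := fun j => by ring
    simp only [e]
    rw [← Finset.sum_mul, h2, zero_mul]
  · intro a b' α hα hz i p c hc
    unfold KF DAlg.kerB
    have h1 := DAlg.Ann.conj hc (smB a α hα hz i b')
    have h2 := DAlg.Ann.conj hc ((hd i).ray a).smΨ
    simp only [map_add, mul_add, Finset.sum_add_distrib]
    rw [h1, zero_add]
    have e : ∀ j, c j * (starRingEnd ℂ) (Complex.I * (lam i) * S.D j ((d i).ray a).Ψ p *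
        S.ker (lam i) ((d i).ray a) (F i (Sum.inl a)) (X i) m (α i) b' p)
        = (c j * (starRingEnd ℂ) (S.D j ((d i).ray a).Ψ p)) * ((starRingEnd ℂ)
          (Complex.I * (lam i)) * (starRingEnd ℂ)
          (S.ker (lam i) ((d i).ray a) (F i (Sum.inl a)) (X i) m (α i) b' p)) := fun j => by
      simp only [map_mul]
      ring
    simp only [e]
    rw [← Finset.sum_mul, h2, zero_mul]
  · intro a j b' s α hs hz hα
    have h := (hB ι θ b lam s (fun i => (d i).ray a) (fun i => F i (Sum.inl a)) X m α hb hbθ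
      hθl hs (fun j => slow _ (hfd.t (Sum.inl a) (hu a) j))
      (fun j => slow _ (hfd.w (Sum.inl a) (hu a) j))
      (fun j => slow _ (hfd.Ψ (Sum.inl a) (hu a) j))
      (hF.E (Sum.inl a) (hu a)) (hF.N (Sum.inl a) (hu a)) (hF.P1 (Sum.inl a) (hu a))
      (hF.P2 (Sum.inl a) (hu a)) (hF.tt (Sum.inl a) (hu a)) (hF.wt (Sum.inl a) (hu a))
      (hF.tw (Sum.inl a) (hu a)) hα).2.1 j b'
    exact h
  · intro a i p hp
    exact (hok i a).EE p hp
  · exact fun a b' i => (hok i a).rE b'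
  · exact fun a j i => S.rl_D j ((hd i).ray a).smΨ ((hd i).ray a).rΨ
  · exact fun a b' => hF.E (Sum.inl a) (hu a) b'
  · exact fun a j => slow _ (hfd.Ψ (Sum.inl a) (hu a) j)

/-- **(S)** the absorption -/
theorem DAlg.absorbU (hA : S.KerAlg) (hB : S.KerB) (hL : S.KerLin) : S.AbsorbU Q := by
  intro m n ι θ b lam c0 d X F T hc0 hb hbθ hθl hd hfd hX hXr hF hTi hTr hT hlow
  have h1θ : ∀ i, 1 ≤ θ i := fun i => (hb i).trans (hbθ i)
  have hθ0 : ∀ i, 0 ≤ θ i := fun i => zero_le_one.trans (h1θ i)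
  have hl0 : ∀ i, 0 < lam i := fun i => by
    have := (h1θ i).trans (hθl i)
    positivity
  have slow : ∀ (v : ι → P → ℂ), S.FO (fun _ => 1) (fun _ => 1) v → S.FO θ (fun _ => 1) v :=
    fun v hv => hv.mono_mu h1θ (fun _ => zero_le_one) fun _ => zero_le_one
  have hK := kop hA hB hL m hb hbθ hθl hd hfd hX hXr hF
  have hD : AbsData S θ (fun i a => ((d i).ray a).K) (fun a j i => S.D j ((d i).ray a).Ψ)
      (fun a i => (d i).χ a) (fun a j k i => (d i).ℓ a j k) := by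
    refine ⟨⟨fun a i => (hd i).smχ a, fun a i => (hd i).rχ a, fun a i => (hd i).zχ a⟩,
      hfd.χ, fun a j k i => (hd i).rℓ a j k, fun a j k => slow _ (hfd.ℓ a j k), ?_⟩
    intro T' i hT' j k p
    exact (hd i).dec (fun j k => T' j k i) hT' j k p
  obtain ⟨α, hα, fα, hR⟩ := absorb_core hK hD hθ0
    (fun i => div_nonneg (hθ0 i) (hl0 i).le) (fun i => (div_le_one (hl0 i)).2 (hθl i))
    (T := fun j k i => T i j k) (fun i => hTi i) (fun j k i => hTr i j k) hT hc0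
    (fun a i p hp => hlow i a p hp) n
  refine ⟨fun i a => α a i, fun i a => hα.sm a i, fun i a => hα.rl a i, fun i a => hα.zs a i,
    fα, fun j k => (hR j k).congr fun i p => ?_⟩
  rw [slowM_eq_Bf]

end Vale.Agent.P205.F
end
end

section

/-!
The absorption in the form used by the stage.
-/

noncomputable section

namespace Vale.Agent.P205.F

universe u

variable {P : Type u} {κ : Type} [Fintype κ] {S : DAlg P κ} {Q : Type} [Fintype Q]

theorem DAlg.absU (hA : S.KerAlg) (hB : S.KerB) (hL : S.KerLin) : S.AbsU Q := by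
  intro m ι θ b lam c0 d X F T hc0 hb hbθ hθl hd hfd hX hXr hF hTi hTr hT hlow
  obtain ⟨α, h1, h2, h3, h4, h5⟩ := DAlg.absorbU hA hB hL m m ι θ b lam c0 d X F T hc0 hb hbθ
    hθl hd hfd hX hXr hF hTi hTr hT hlow
  refine ⟨α, h1, h2, h3, h4, fun j k => (h5 j k).mono_s' (fun i => ?_)
    fun i => zero_le_one.trans ((hb i).trans (hbθ i))⟩
  have h6 : 1 ≤ θ i := (hb i).trans (hbθ i)
  have h7 : 0 < lam i := by linarith [hθl i]
  exact pow_le_pow_of_le_one (div_nonneg (by linarith) h7.le) ((div_le_one h7).2 (hθl i))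
    (Nat.le_succ m)

end Vale.Agent.P205.F
end
end

section

/-!
The kernel solutions of the linearised equation along a ray (P205, block K).
-/

set_option linter.all false

noncomputable section

namespace Vale.Agent.P205.F

universe u

variable {P : Type u} {κ : Type} [Fintype κ] (S : DAlg P κ)

/-- the leading term `α E / (iλ)` -/
def kE (lam : ℝ) (F : Frm P) (α : P → ℂ) : Fin 4 → P → ℂ :=
  fun a q => α q * F.E a q / (Complex.I * lam)

theorem kE_eq (lam : ℝ) (F : Frm P) (α : P → ℂ) (a : Fin 4) :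
    kE lam F α a = fun q => (Complex.I * lam)⁻¹ * (α * F.E a) q := by
  funext q; simp only [kE, Pi.mul_apply]; rw [div_eq_mul_inv]; ring

theorem DAlg.sm_kE {lam : ℝ} {r : Ray P κ} {F : Frm P} {X : Fin 4 → P → ℂ} (hF : F.Ok S r X)
    {α : P → ℂ} (hα : S.Sm α) (a : Fin 4) : S.Sm (kE lam F α a) := by
  rw [kE_eq]; exact S.q_sm_cmul _ (S.sm_mul hα (hF.smE a))

theorem DAlg.zs_kE {lam : ℝ} {r : Ray P κ} {F : Frm P} {X : Fin 4 → P → ℂ} (hF : F.Ok S r X)
    {α : P → ℂ} (hα : S.Sm α) (zα : S.Zs r.K α) (a : Fin 4) : S.Zs r.K (kE lam F α a) := by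
  rw [kE_eq]
  exact (zα.q_mul_left hα (hF.smE a)).q_cmul _ (S.sm_mul hα (hF.smE a))

theorem ksrc_zero (lam : ℝ) (r : Ray P κ) (F : Frm P) (X : Fin 4 → P → ℂ) (α : P → ℂ) :
    S.ksrc lam r F X α 0 = fun q => (-2 * (Complex.I * lam)⁻¹) *
      (α * dot (S.dirv r.t (S.dirv r.t X)) F.E) q := by
  funext q
  simp only [DAlg.ksrc, Matrix.cons_val_zero, Pi.mul_apply]
  rw [div_eq_mul_inv]; ring

theorem ksrc_one (lam : ℝ) (r : Ray P κ) (F : Frm P) (X : Fin 4 → P → ℂ) (α : P → ℂ) :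
    S.ksrc lam r F X α 1 = fun q => (-(Complex.I * lam)⁻¹) *
      (α * (dot (S.dirv r.w (S.dirv r.t X)) F.E + dot (S.dirv r.t (S.dirv r.w X)) F.E)) q := by
  funext q
  simp only [DAlg.ksrc, Matrix.cons_val_one, Matrix.cons_val_zero, Pi.mul_apply, Pi.add_apply]
  rw [div_eq_mul_inv]; ring

theorem ksrc_two (lam : ℝ) (r : Ray P κ) (F : Frm P) (X : Fin 4 → P → ℂ) (α : P → ℂ) :
    S.ksrc lam r F X α 2 = 0 := rfl

theorem DAlg.sm_ksrc {lam : ℝ} {r : Ray P κ} (hr : r.Ok S) {F : Frm P} {X : Fin 4 → P → ℂ}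
    (sX : ∀ a, S.Sm (X a)) (hF : F.Ok S r X) {α : P → ℂ} (hα : S.Sm α) (c : Fin 3) :
    S.Sm (S.ksrc lam r F X α c) := by
  have d1 := S.q_sm_dot (S.sm_dirv hr.smt (S.sm_dirv hr.smt sX)) hF.smE
  have d2 := S.q_sm_dot (S.sm_dirv hr.smw (S.sm_dirv hr.smt sX)) hF.smE
  have d3 := S.q_sm_dot (S.sm_dirv hr.smt (S.sm_dirv hr.smw sX)) hF.smE
  fin_cases c
  · show S.Sm (S.ksrc lam r F X α 0)
    rw [ksrc_zero]; exact S.q_sm_cmul _ (S.sm_mul hα d1)
  · show S.Sm (S.ksrc lam r F X α 1)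
    rw [ksrc_one]; exact S.q_sm_cmul _ (S.sm_mul hα (S.sm_add d2 d3))
  · show S.Sm (S.ksrc lam r F X α 2)
    rw [ksrc_two]; exact S.q_sm_zero

theorem DAlg.zs_ksrc {lam : ℝ} {r : Ray P κ} (hr : r.Ok S) {F : Frm P} {X : Fin 4 → P → ℂ}
    (sX : ∀ a, S.Sm (X a)) (hF : F.Ok S r X) {α : P → ℂ} (hα : S.Sm α) (zα : S.Zs r.K α)
    (c : Fin 3) : S.Zs r.K (S.ksrc lam r F X α c) := by
  have d1 := S.q_sm_dot (S.sm_dirv hr.smt (S.sm_dirv hr.smt sX)) hF.smE
  have d2 := S.q_sm_dot (S.sm_dirv hr.smw (S.sm_dirv hr.smt sX)) hF.smE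
  have d3 := S.q_sm_dot (S.sm_dirv hr.smt (S.sm_dirv hr.smw sX)) hF.smE
  fin_cases c
  · show S.Zs r.K (S.ksrc lam r F X α 0)
    rw [ksrc_zero]; exact (zα.q_mul_left hα d1).q_cmul _ (S.sm_mul hα d1)
  · show S.Zs r.K (S.ksrc lam r F X α 1)
    rw [ksrc_one]
    exact (zα.q_mul_left hα (S.sm_add d2 d3)).q_cmul _ (S.sm_mul hα (S.sm_add d2 d3))
  · show S.Zs r.K (S.ksrc lam r F X α 2)
    rw [ksrc_two]; exact DAlg.Zs.q_zero

theorem kE_dot (lam : ℝ) (F : Frm P) (α : P → ℂ) (Y : Fin 4 → P → ℂ) (q : P) :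
    dot Y (kE lam F α) q = α q * dot Y F.E q / (Complex.I * lam) := by
  unfold dot kE
  rw [Finset.mul_sum, Finset.sum_div]
  refine Finset.sum_congr rfl (fun i _ => ?_)
  ring

theorem dot_swap (X Y : Fin 4 → P → ℂ) (q : P) : dot X Y q = dot Y X q := by
  unfold dot
  exact Finset.sum_congr rfl (fun i _ => mul_comm _ _)

theorem DAlg.kE_orth {lam : ℝ} {r : Ray P κ} {F : Frm P} {Y : Fin 4 → P → ℂ} {α : P → ℂ}
    (zα : S.Zs r.K α) (h : ∀ p ∈ r.K, dot F.E Y p = 0) : dot Y (kE lam F α) = 0 := by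
  funext q
  rw [kE_dot]
  by_cases hq : q ∈ r.K
  · rw [dot_swap, h q hq, mul_zero, zero_div]; rfl
  · rw [zα.q_apply hq, zero_mul, zero_div]; rfl

/-- the linearised metric of the leading term -/
theorem DAlg.lin_kE {lam : ℝ} {r : Ray P κ} (hr : r.Ok S) {F : Frm P} {X : Fin 4 → P → ℂ}
    (sX : ∀ a, S.Sm (X a)) (hF : F.Ok S r X) {α : P → ℂ} (hα : S.Sm α)
    (zα : S.Zs r.K α) (j k : κ) (q : P) :
    S.lin X (fun a => osc lam r.Ψ * kE lam F α a) j k q =
      osc lam r.Ψ q * r.ten S (S.ksrc lam r F X α) j k q := by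
  have sV : ∀ a, S.Sm (kE lam F α a) := S.sm_kE hF hα
  have zV : ∀ a, S.Zs r.K (kE lam F α a) := S.zs_kE hF hα zα
  have sosc : S.Sm (osc lam r.Ψ) := by
    rw [osc_eq_qph hr.rΨ]; exact S.q_sm_ph lam hr.smΨ hr.rΨ
  have sv : ∀ a, S.Sm (osc lam r.Ψ * kE lam F α a) := fun a => S.sm_mul sosc (sV a)
  by_cases hq : q ∈ r.K
  · have key := S.q_lin_ray hr sX sv j k hq
    have sXt := S.sm_dirv hr.smt sX
    have sXw := S.sm_dirv hr.smw sX
    have e0 := S.kE_orth (lam := lam) zα hF.Et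
    have e1 := S.kE_orth (lam := lam) zα hF.Ew
    have e2 := S.kE_orth (lam := lam) zα hF.Eww
    have a1 := S.dot_dirv (c := r.t) (d := r.t) sXt sV e0 q
    have a2 := S.dot_dirv (c := r.w) (d := r.t) sXt sV e0 q
    have a3 := S.dot_dirv (c := r.t) (d := r.t) sXw sV e1 q
    have a4 := S.dot_dirv (c := r.w) (d := r.t) sXw sV e1 q
    have b1 := S.dot_osc (lam := lam) hr.smΨ hr.rΨ r.t sV (S.dirv r.t X) q
    have b2 := S.dot_osc (lam := lam) hr.smΨ hr.rΨ r.w sV (S.dirv r.t X) q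
    have b3 := S.dot_osc (lam := lam) hr.smΨ hr.rΨ r.t sV (S.dirv r.w X) q
    have b4 := S.dot_osc (lam := lam) hr.smΨ hr.rΨ r.w sV (S.dirv r.w X) q
    have d0 : ∀ c : κ → P → ℂ, S.dir c (0 : P → ℂ) q = 0 := by
      intro c
      unfold DAlg.dir
      exact Finset.sum_eq_zero (fun j _ => by rw [S.q_D_zero]; exact mul_zero _)
    have e0' := congrFun e0 q
    have e1' := congrFun e1 q
    have e2' := congrFun e2 q
    rw [e0', a1, d0] at b1
    rw [e0', a2, d0] at b2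
    rw [e1', a3, d0] at b3
    rw [e1', a4, e2', d0] at b4
    have lhs : S.lin X (fun a => osc lam r.Ψ * kE lam F α a) j k q =
        S.D j r.Ψ q * S.D k r.Ψ q *
        (2 * dot (S.dirv r.t X) (S.dirv r.t (fun a => osc lam r.Ψ * kE lam F α a)) q) +
      (S.D j r.Ψ q * r.β k q + S.D k r.Ψ q * r.β j q) *
        (dot (S.dirv r.t X) (S.dirv r.w (fun a => osc lam r.Ψ * kE lam F α a)) q +
          dot (S.dirv r.w X) (S.dirv r.t (fun a => osc lam r.Ψ * kE lam F α a)) q) +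
      r.β j q * r.β k q *
        (2 * dot (S.dirv r.w X) (S.dirv r.w (fun a => osc lam r.Ψ * kE lam F α a)) q) :=
      key
    rw [lhs, b1, b2, b3, b4]
    simp only [Ray.ten, DAlg.ksrc, Matrix.cons_val_zero, Matrix.cons_val_one, Matrix.cons_val,
      kE_dot, Pi.zero_apply]
    ring
  · have zv : ∀ a, S.Zs r.K (osc lam r.Ψ * kE lam F α a) :=
      fun a => (zV a).q_mul_right sosc (sV a)
    have l1 : S.lin X (fun a => osc lam r.Ψ * kE lam F α a) j k q = 0 := by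
      unfold DAlg.lin
      rw [dot_off (V := S.Dv k (fun a => osc lam r.Ψ * kE lam F α a))
          (fun a => ((zv a).q_D k).q_apply hq),
        dot_off (V := S.Dv j (fun a => osc lam r.Ψ * kE lam F α a))
          (fun a => ((zv a).q_D j).q_apply hq),
        add_zero]
    rw [l1]
    have z := fun c => (S.zs_ksrc (lam := lam) hr sX hF hα zα c).q_apply hq
    simp only [Ray.ten, z]
    ring

theorem ker_eq (lam : ℝ) (r : Ray P κ) (F : Frm P) (X : Fin 4 → P → ℂ) (m : ℕ)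
    (α : P → ℂ) (a : Fin 4) :
    S.ker lam r F X m α a = kE lam F α a - S.wkb lam r F X m (S.ksrc lam r F X α) a := rfl

theorem DAlg.lin_sub {X v v' : Fin 4 → P → ℂ} (sv : ∀ a, S.Sm (v a))
    (sv' : ∀ a, S.Sm (v' a)) (j k : κ) (q : P) :
    S.lin X (fun a => v a - v' a) j k q = S.lin X v j k q - S.lin X v' j k q := by
  unfold DAlg.lin dot DAlg.Dv
  simp only [← Finset.sum_add_distrib, ← Finset.sum_sub_distrib]
  refine Finset.sum_congr rfl (fun i _ => ?_)
  rw [S.q_D_sub k (sv i) (sv' i), S.q_D_sub j (sv i) (sv' i)]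
  simp only [Pi.sub_apply]; ring

/-- **(K1)** -/
theorem DAlg.kerAlg (W : S.WkbAlg) : S.KerAlg := by
  intro lam r F X m α hlam hr sX rX hF sα zα
  have sE : ∀ a, S.Sm (kE lam F α a) := S.sm_kE hF sα
  have zE : ∀ a, S.Zs r.K (kE lam F α a) := S.zs_kE hF sα zα
  have sh : ∀ c, S.Sm (S.ksrc lam r F X α c) := S.sm_ksrc hr sX hF sα
  have zh : ∀ c, S.Zs r.K (S.ksrc lam r F X α c) := S.zs_ksrc hr sX hF sα zα
  obtain ⟨sW, zW, eW⟩ := W lam r F X m _ hlam hr sX rX hF sh zh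
  have sk : ∀ a, S.Sm (S.ker lam r F X m α a) := fun a => S.q_sm_sub (sE a) (sW a)
  have zk : ∀ a, S.Zs r.K (S.ker lam r F X m α a) := fun a =>
    (zE a).q_sub (zW a) (sE a) (sW a)
  have sosc : S.Sm (osc lam r.Ψ) := by
    rw [osc_eq_qph hr.rΨ]; exact S.q_sm_ph lam hr.smΨ hr.rΨ
  have ekB : ∀ j a, S.kerB lam r F X m α j a = S.D j (S.ker lam r F X m α a)
      + fun q => (Complex.I * lam) * (S.D j r.Ψ * S.ker lam r F X m α a) q := by
    intro j a
    funext q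
    simp only [DAlg.kerB, Pi.add_apply, Pi.mul_apply]
    ring
  have s1 : ∀ j a, S.Sm (S.D j r.Ψ * S.ker lam r F X m α a) := fun j a =>
    S.sm_mul (S.sm_D j hr.smΨ) (sk a)
  refine ⟨sk, zk, ?_, ?_, ?_, ?_⟩
  · intro j a
    rw [ekB]
    exact S.sm_add (S.sm_D j (sk a)) (S.q_sm_cmul _ (s1 j a))
  · intro j a
    rw [ekB]
    exact ((zk a).q_D j).q_add (((zk a).q_mul_right (S.sm_D j hr.smΨ) (sk a)).q_cmul _
      (s1 j a)) (S.sm_D j (sk a)) (S.q_sm_cmul _ (s1 j a))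
  · intro j a q
    rw [S.D_mul j sosc (sk a)]
    simp only [Pi.add_apply, Pi.mul_apply]
    have := S.q_D_ph lam j hr.smΨ hr.rΨ q
    rw [← osc_eq_qph hr.rΨ] at this
    rw [this, DAlg.kerB]; ring
  · intro j k q
    have e : (fun a => osc lam r.Ψ * S.ker lam r F X m α a) =
        fun a => (osc lam r.Ψ * kE lam F α a)
          - (osc lam r.Ψ * S.wkb lam r F X m (S.ksrc lam r F X α) a) := by
      funext a
      rw [ker_eq, mul_sub]
    rw [e, S.lin_sub (fun a => S.sm_mul sosc (sE a)) (fun a => S.sm_mul sosc (sW a)),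
      S.lin_kE hr sX hF sα zα, eW]
    ring

/-- **(K3)** -/
theorem DAlg.kerLin (W : S.WkbLin) : S.KerLin := by
  intro lam r F X m α α' c hr sX hF sα sα' a q
  have sh := S.sm_ksrc (lam := lam) hr sX hF sα
  have sh' := S.sm_ksrc (lam := lam) hr sX hF sα'
  have e : S.ksrc lam r F X (fun q => α q + c * α' q) =
      fun b q => S.ksrc lam r F X α b q + c * S.ksrc lam r F X α' b q := by
    funext b p
    fin_cases b
    · simp only [DAlg.ksrc, Fin.zero_eta, Matrix.cons_val_zero]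
      ring
    · simp only [DAlg.ksrc, Fin.mk_one, Matrix.cons_val_one, Matrix.cons_val_zero]
      ring
    · simp [DAlg.ksrc]
  have h := W lam r F X m _ _ c hr sX hF sh sh' a q
  simp only [DAlg.ker]
  rw [e, h]
  ring

/-- **(K2')** scale invariant form -/
theorem DAlg.kerB_of (W : S.WkbB) : S.KerB := by
  intro ι θ b lam s r F X m α hb hbθ hlam hs ht hw hΨ hE hN hP1 hP2 htt hwt htw hα
  have hb0 : ∀ i, 0 < b i := fun i => zero_lt_one.trans_le (hb i)
  have hθ0 : ∀ i, 0 < θ i := fun i => (hb0 i).trans_le (hbθ i)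
  have hθ0' : ∀ i, 0 ≤ θ i := fun i => (hθ0 i).le
  have hl0 : ∀ i, 0 < lam i := fun i => (hθ0 i).trans_le (hlam i)
  have hinv : ∀ i, ‖(Complex.I * (lam i : ℂ))⁻¹‖ ≤ 1 * (lam i)⁻¹ := fun i => by
    rw [norm_inv, norm_mul, Complex.norm_I, one_mul, one_mul, Complex.norm_real,
      Real.norm_eq_abs, abs_of_pos (hl0 i)]
  have hinv2 : ∀ i, ‖-2 * (Complex.I * (lam i : ℂ))⁻¹‖ ≤ 2 * (lam i)⁻¹ := fun i => by
    rw [norm_mul, norm_neg, Complex.norm_ofNat]
    have := hinv i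
    rw [one_mul] at this
    exact mul_le_mul_of_nonneg_left this (by norm_num)
  have hinv3 : ∀ i, ‖-(Complex.I * (lam i : ℂ))⁻¹‖ ≤ 1 * (lam i)⁻¹ := fun i => by
    rw [norm_neg]; exact hinv i
  have hl0' : ∀ i, 0 ≤ (lam i)⁻¹ := fun i => inv_nonneg.2 (hl0 i).le
  have hbl : ∀ i, 0 ≤ b i / lam i := fun i => div_nonneg (hb0 i).le (hl0 i).le
  have hbl1 : ∀ i, b i / lam i ≤ 1 := fun i => by
    rw [div_le_one (hl0 i)]; exact (hbθ i).trans (hlam i)
  -- the source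
  have c0 : S.FO θ (fun i => s i * (b i / lam i))
      (fun i => S.ksrc (lam i) (r i) (F i) (X i) (α i) 0) := by
    have h1 := DAlg.FO.smul (S := S) hinv2 hl0' (hα.mul (DAlg.FO.dot htt hE))
    refine (h1.congr_s fun i => ?_).congr fun i p => ?_
    · rw [div_eq_mul_inv]; ring
    · rw [ksrc_zero]
  have c1 : S.FO θ (fun i => s i * (b i / lam i))
      (fun i => S.ksrc (lam i) (r i) (F i) (X i) (α i) 1) := by
    have h1 := DAlg.FO.smul (S := S) hinv3 hl0' (hα.mul ((DAlg.FO.dot hwt hE).add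
      (DAlg.FO.dot htw hE)))
    refine (h1.congr_s fun i => ?_).congr fun i p => ?_
    · rw [div_eq_mul_inv]; ring
    · rw [ksrc_one]
  have c2 : S.FO θ (fun i => s i * (b i / lam i))
      (fun i => S.ksrc (lam i) (r i) (F i) (X i) (α i) 2) := DAlg.FO.zero
  have hh : ∀ c, S.FO θ (fun i => s i * (b i / lam i))
      (fun i => S.ksrc (lam i) (r i) (F i) (X i) (α i) c) := by
    intro c
    fin_cases c
    · exact c0
    · exact c1
    · exact c2
  have hs' : ∀ i, 0 ≤ s i * (b i / lam i) := fun i => mul_nonneg (hs i) (hbl i)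
  obtain ⟨w1, w2, w3⟩ := W ι θ b lam _ r F X m
    (fun i => S.ksrc (lam i) (r i) (F i) (X i) (α i)) hb hbθ hlam hs' ht hw hN hP1 hP2
    htt hwt htw hh
  have hk1 : ∀ a, S.FO θ (fun i => s i / lam i)
      (fun i => kE (lam i) (F i) (α i) a) := fun a => by
    have h1 := DAlg.FO.smul (S := S) hinv hl0' (hα.mul (hE a))
    refine (h1.congr_s fun i => ?_).congr fun i p => ?_
    · rw [div_eq_mul_inv]; ring
    · rw [kE_eq]
  have hk : ∀ a, S.FO θ (fun i => s i / lam i)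
      (fun i => S.ker (lam i) (r i) (F i) (X i) m (α i) a) := fun a => by
    have h2 := (w1 a).congr_s (s' := fun i => s i / lam i) fun i => by
      have := (hb0 i).ne'
      field_simp
    exact (hk1 a).sub h2
  refine ⟨hk, ?_, ?_⟩
  · intro j a
    have hw2 : S.FO θ (fun i => (lam i)⁻¹ * (s i * (θ i / lam i)))
        (fun i => S.wkb (lam i) (r i) (F i) (X i) m
          (S.ksrc (lam i) (r i) (F i) (X i) (α i)) a) := by
      refine ((w2 a).congr_s fun i => ?_).congr fun i p => ?_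
      · have h1 := (hb0 i).ne'
        have h2 := (hl0 i).ne'
        field_simp
      · rw [ksrc_two]; simp
    have hil : ∀ i, ‖Complex.I * (lam i : ℂ)‖ ≤ 1 * lam i := fun i => by
      rw [norm_mul, Complex.norm_I, one_mul, one_mul, Complex.norm_real,
        Real.norm_eq_abs, abs_of_pos (hl0 i)]
    have h3 := DAlg.FO.smul (S := S) hil (fun i => (hl0 i).le) ((hΨ j).mul hw2)
    have h3' := h3.congr_s (s' := fun i => s i * (θ i / lam i)) fun i => by
      have := (hl0 i).ne'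
      field_simp
    have h4 := ((hk a).D j).congr_s (s' := fun i => s i * (θ i / lam i))
      (fun i => by ring)
    refine (h4.sub h3').congr fun i p => ?_
    have hne : (Complex.I * (lam i : ℂ)) ≠ 0 :=
      mul_ne_zero Complex.I_ne_zero (by exact_mod_cast (hl0 i).ne')
    have e1 : S.ker (lam i) (r i) (F i) (X i) m (α i) a p =
      α i p * (F i).E a p / (Complex.I * lam i)
        - S.wkb (lam i) (r i) (F i) (X i) m (S.ksrc (lam i) (r i) (F i) (X i) (α i)) a p := rfl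
    have e2 : Complex.I * (lam i : ℂ) * (α i p * (F i).E a p / (Complex.I * lam i))
        = α i p * (F i).E a p := mul_div_cancel₀ _ hne
    simp only [Pi.sub_apply, Pi.mul_apply, DAlg.kerB]
    rw [e1]
    linear_combination (-S.D j (r i).Ψ p) * e2
  · intro c
    refine (w3 c).mono_s' (fun i => ?_) hθ0'
    have h1 : 0 ≤ (θ i / lam i) ^ m := pow_nonneg (div_nonneg (hθ0' i) (hl0 i).le) m
    refine mul_le_mul_of_nonneg_right ?_ h1
    exact mul_le_of_le_one_right (hs i) (hbl1 i)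

end Vale.Agent.P205.F
end
end

section

/-!
The quadratic identity `QuadAlg` for the corrugation of one stage.
-/

set_option linter.all false

noncomputable section

open scoped Classical

namespace Vale.Agent.P205.F

universe u

variable {P : Type u} {κ : Type} [Fintype κ] (S : DAlg P κ)

/-! ### real parts -/

omit [Fintype κ] in
theorem DAlg.D_re {u : P → ℂ} (j : κ) (hu : S.Sm u) (p : P) :
    S.D j (fun q => ((u q).re : ℂ)) p = ((S.D j u p).re : ℂ) := by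
  have e : (fun q => ((u q).re : ℂ)) = fun q => (1 / 2 : ℂ) * (u + fun q => (starRingEnd ℂ) (u q)) q := by
    funext q
    have h := Complex.add_conj (u q)
    simp only [Pi.add_apply, h]
    push_cast
    ring
  rw [e, S.D_smul_apply j _ (S.sm_add hu (S.sm_conj hu)), S.D_add_apply j hu (S.sm_conj hu),
    S.D_conj_apply j hu]
  have h := Complex.add_conj (S.D j u p)
  rw [h]
  push_cast
  ring

theorem DAlg.lin_re {X v : Fin 4 → P → ℂ} (sX : ∀ a, S.Sm (X a)) (rX : ∀ a, Rl (X a))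
    (sv : ∀ a, S.Sm (v a)) (j k : κ) (q : P) :
    S.lin X (fun a q => ((v a q).re : ℂ)) j k q = ((S.lin X v j k q).re : ℂ) := by
  unfold DAlg.lin dot DAlg.Dv
  have h : ∀ l i, S.D l (fun q => ((v i q).re : ℂ)) q = ((S.D l (v i) q).re : ℂ) := fun l i =>
    S.D_re l (sv i) q
  have hX : ∀ l i, S.D l (X i) q = ((S.D l (X i) q).re : ℂ) := fun l i =>
    ((S.rl_D l (sX i) (rX i)).ofReal_re q).symm
  have hm : ∀ l l' i, ((S.D l (X i) q * S.D l' (v i) q).re : ℂ)
      = S.D l (X i) q * ((S.D l' (v i) q).re : ℂ) := fun l l' i => by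
    have h1 : (S.D l (X i) q).im = 0 := S.rl_D l (sX i) (rX i) q
    rw [Complex.mul_re, h1, zero_mul, sub_zero]
    push_cast
    rw [← hX]
  simp only [h]
  rw [Complex.add_re, Complex.re_sum, Complex.re_sum]
  push_cast
  simp only [hm]

theorem DAlg.lin_sum {ι : Type*} [Fintype ι] {X : Fin 4 → P → ℂ} {v : ι → Fin 4 → P → ℂ}
    (sv : ∀ x a, S.Sm (v x a)) (j k : κ) (q : P) :
    S.lin X (fun a q => ∑ x, v x a q) j k q = ∑ x, S.lin X (v x) j k q := by
  unfold DAlg.lin dot DAlg.Dv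
  have h : ∀ l i, S.D l (fun q => ∑ x, v x i q) q = ∑ x, S.D l (v x i) q := fun l i =>
    S.D_sum_apply l (fun x _ => sv x i) q
  simp only [h]
  rw [Finset.sum_add_distrib, Finset.sum_comm (s := (Finset.univ : Finset ι)),
    Finset.sum_comm (s := (Finset.univ : Finset ι))]
  simp only [Finset.mul_sum]

theorem DAlg.lin_comb {X v v' : Fin 4 → P → ℂ} (sv : ∀ a, S.Sm (v a))
    (sv' : ∀ a, S.Sm (v' a)) (c c' : ℂ) (j k : κ) (q : P) :
    S.lin X (fun a q => c * v a q + c' * v' a q) j k q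
      = c * S.lin X v j k q + c' * S.lin X v' j k q := by
  unfold DAlg.lin dot DAlg.Dv
  have h : ∀ l i, S.D l (fun q => c * v i q + c' * v' i q) q
      = c * S.D l (v i) q + c' * S.D l (v' i) q := fun l i => by
    have h1 := S.D_add_apply l (S.sm_smul c (sv i)) (S.sm_smul c' (sv' i)) q
    rw [S.D_smul_apply l c (sv i), S.D_smul_apply l c' (sv' i)] at h1
    exact h1
  simp only [h, mul_add, Finset.mul_sum, ← Finset.sum_add_distrib]
  refine Finset.sum_congr rfl (fun i _ => ?_)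
  ring

/-- expansion of the metric -/
theorem DAlg.met_add {X v v' : Fin 4 → P → ℂ} (sX : ∀ a, S.Sm (X a)) (sv : ∀ a, S.Sm (v a))
    (sv' : ∀ a, S.Sm (v' a)) (c c' : ℂ) (j k : κ) (q : P) :
    S.met (fun a => X a + fun q => c * v a q + c' * v' a q) j k q - S.met X j k q =
      c * S.lin X v j k q + c' * S.lin X v' j k q
      + c ^ 2 * dot (S.Dv j v) (S.Dv k v) q
      + c * c' * (dot (S.Dv j v) (S.Dv k v') q + dot (S.Dv j v') (S.Dv k v) q)
      + c' ^ 2 * dot (S.Dv j v') (S.Dv k v') q := by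
  unfold DAlg.met DAlg.lin dot DAlg.Dv
  have h : ∀ l i, S.D l (X i + fun q => c * v i q + c' * v' i q) q
      = S.D l (X i) q + (c * S.D l (v i) q + c' * S.D l (v' i) q) := fun l i => by
    have h1 := S.D_add_apply l (S.sm_smul c (sv i)) (S.sm_smul c' (sv' i)) q
    rw [S.D_smul_apply l c (sv i), S.D_smul_apply l c' (sv' i)] at h1
    have h2 := S.D_add_apply l (sX i) (S.sm_add (S.sm_smul c (sv i)) (S.sm_smul c' (sv' i))) q
    rw [h1] at h2
    exact h2
  simp only [h, mul_add, Finset.mul_sum, ← Finset.sum_add_distrib, ← Finset.sum_sub_distrib]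
  refine Finset.sum_congr rfl (fun i _ => ?_)
  ring

/-! ### tensors along a ray -/

/-- decomposition of `B` along the ray at `q` -/
def LrAt (r : Ray P κ) (B : κ → Fin 4 → P → ℂ) (q : P) : Prop :=
  ∀ j c, B j c q = S.D j r.Ψ q * cmp r.t B c q + r.β j q * cmp r.w B c q

theorem ten_pairH {r : Ray P κ} {B B' : κ → Fin 4 → P → ℂ} {q : P} (h : LrAt S r B q)
    (h' : LrAt S r B' q) (j k : κ) :
    r.ten S (pairH r B B') j k q
      = 1 / 4 * (dot (B j) (B' k) q + dot (B k) (B' j) q) := by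
  unfold Ray.ten pairH
  simp only [Matrix.cons_val_zero, Matrix.cons_val_one, Matrix.cons_val]
  unfold dot
  have e : ∀ c, 1 / 4 * (B j c q * B' k c q + B k c q * B' j c q) =
      S.D j r.Ψ q * S.D k r.Ψ q * (1 / 2 * (cmp r.t B c q * cmp r.t B' c q))
      + (S.D j r.Ψ q * r.β k q + r.β j q * S.D k r.Ψ q) *
        (1 / 4 * (cmp r.t B c q * cmp r.w B' c q + cmp r.w B c q * cmp r.t B' c q))
      + r.β j q * r.β k q * (1 / 2 * (cmp r.w B c q * cmp r.w B' c q)) := by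
    intro c
    rw [h j c, h k c, h' j c, h' k c]
    ring
  have e' : 1 / 4 * (∑ c, B j c q * B' k c q + ∑ c, B k c q * B' j c q)
      = ∑ c, 1 / 4 * (B j c q * B' k c q + B k c q * B' j c q) := by
    rw [← Finset.sum_add_distrib, Finset.mul_sum]
  rw [e', Finset.sum_congr rfl fun c _ => e c]
  simp only [Finset.sum_add_distrib, Finset.mul_sum, mul_add]

theorem ten_pairH_off {r : Ray P κ} {B B' : κ → Fin 4 → P → ℂ} {q : P}
    (h : (∀ j c, B j c q = 0) ∨ (∀ j c, B' j c q = 0)) (j k : κ) :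
    r.ten S (pairH r B B') j k q
      = 1 / 4 * (dot (B j) (B' k) q + dot (B k) (B' j) q) := by
  have hc : ∀ (V : κ → Fin 4 → P → ℂ), (∀ j c, V j c q = 0) → ∀ (t : κ → P → ℂ) c,
      cmp t V c q = 0 := fun V hV t c => by
    unfold cmp
    exact Finset.sum_eq_zero fun j _ => by rw [hV j c, mul_zero]
  unfold Ray.ten pairH
  simp only [Matrix.cons_val_zero, Matrix.cons_val_one, Matrix.cons_val]
  unfold dot
  rcases h with h | h
  · simp only [h, hc B h, zero_mul, Finset.sum_const_zero, mul_zero, add_zero]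
  · simp only [h, hc B' h, zero_mul, Finset.sum_const_zero, mul_zero, add_zero]

theorem twv_apply (σ : Bool) (V : Fin 4 → P → ℂ) (c : Fin 4) (q : P) :
    twv σ V c q = bif σ then V c q else (starRingEnd ℂ) (V c q) := by
  cases σ <;> rfl

theorem cmp_twv {t : κ → P → ℂ} (rt : ∀ j, Rl (t j)) (σ : Bool) (B : κ → Fin 4 → P → ℂ)
    (c : Fin 4) (q : P) :
    cmp t (fun k => twv σ (B k)) c q = bif σ then cmp t B c q
      else (starRingEnd ℂ) (cmp t B c q) := by
  cases σ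
  · simp only [cmp, twv_apply, cond_false, map_sum, map_mul]
    refine Finset.sum_congr rfl fun j _ => ?_
    rw [Complex.conj_eq_iff_im.2 (rt j q)]
  · rfl

theorem LrAt.twv {r : Ray P κ} (hr : r.Ok S) {B : κ → Fin 4 → P → ℂ} {q : P}
    (h : LrAt S r B q) (σ : Bool) : LrAt S r (fun k => twv σ (B k)) q := by
  intro j c
  rw [cmp_twv hr.rt, cmp_twv hr.rw']
  have h1 := h j c
  cases σ
  · simp only [twv_apply, cond_false]
    rw [h1, map_add, map_mul, map_mul, Complex.conj_eq_iff_im.2 (hr.rβ j q),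
      Complex.conj_eq_iff_im.2 (S.rl_D j hr.smΨ hr.rΨ q)]
  · simpa only [twv_apply, cond_true] using h1

/-- `kerB` decomposes along every ray -/
theorem lrAt_kerB {r r' : Ray P κ} (hr : r.Ok S) (hr' : r'.Ok S) {lam : ℝ} {F : Frm P}
    {X : Fin 4 → P → ℂ} {m : ℕ} {α : P → ℂ}
    (sk : ∀ a, S.Sm (S.ker lam r' F X m α a)) {q : P} (hq : q ∈ r.K) :
    LrAt S r (S.kerB lam r' F X m α) q := by
  intro j c
  have h1 := hr.dec _ (sk c) j q hq
  have h2 := hr.dec _ hr'.smΨ j q hq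
  have h3 : ∀ t : κ → P → ℂ, cmp t (S.kerB lam r' F X m α) c q =
      S.dir t (S.ker lam r' F X m α c) q
        + Complex.I * lam * S.dir t r'.Ψ q * S.ker lam r' F X m α c q := by
    intro t
    unfold cmp DAlg.kerB DAlg.dir
    rw [Finset.mul_sum, Finset.sum_mul, ← Finset.sum_add_distrib]
    refine Finset.sum_congr rfl fun i _ => ?_
    ring
  rw [h3, h3]
  unfold DAlg.kerB
  rw [h1, h2]
  ring

theorem sm_cmp {t : κ → P → ℂ} (st : ∀ j, S.Sm (t j)) {B : κ → Fin 4 → P → ℂ}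
    (sB : ∀ j c, S.Sm (B j c)) (c : Fin 4) : S.Sm (cmp t B c) :=
  S.sm_sum' fun j _ => S.sm_mul (st j) (sB j c)

theorem zs_cmp {K : Set P} {t : κ → P → ℂ} (st : ∀ j, S.Sm (t j)) {B : κ → Fin 4 → P → ℂ}
    (sB : ∀ j c, S.Sm (B j c)) (zB : ∀ j c, S.Zs K (B j c)) (c : Fin 4) :
    S.Zs K (cmp t B c) :=
  DAlg.Zs.sum' (A := Finset.univ) (u := fun j => t j * B j c)
    (fun j _ => S.sm_mul (st j) (sB j c)) fun j _ => (zB j c).mul_right (st j) (sB j c)

theorem sm_twv (σ : Bool) {V : Fin 4 → P → ℂ} (sV : ∀ a, S.Sm (V a)) (a : Fin 4) :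
    S.Sm (twv σ V a) := by
  cases σ
  · exact S.sm_conj (sV a)
  · exact sV a

theorem zs_twv {K : Set P} (σ : Bool) {V : Fin 4 → P → ℂ} (sV : ∀ a, S.Sm (V a))
    (zV : ∀ a, S.Zs K (V a)) (a : Fin 4) : S.Zs K (twv σ V a) := by
  cases σ
  · exact (zV a).conj (sV a)
  · exact zV a

theorem sm_pairH {r : Ray P κ} (hr : r.Ok S) {B B' : κ → Fin 4 → P → ℂ}
    (sB : ∀ j c, S.Sm (B j c)) (sB' : ∀ j c, S.Sm (B' j c)) (c : Fin 3) :
    S.Sm (pairH r B B' c) := by
  have t1 := sm_cmp S hr.smt sB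
  have t2 := sm_cmp S hr.smt sB'
  have w1 := sm_cmp S hr.smw sB
  have w2 := sm_cmp S hr.smw sB'
  fin_cases c
  · exact S.sm_smul _ (S.sm_dot t1 t2)
  · exact S.sm_smul _ (S.sm_add (S.sm_dot t1 w2) (S.sm_dot w1 t2))
  · exact S.sm_smul _ (S.sm_dot w1 w2)

theorem zs_pairH_left {K : Set P} {r : Ray P κ} (hr : r.Ok S) {B B' : κ → Fin 4 → P → ℂ}
    (sB : ∀ j c, S.Sm (B j c)) (sB' : ∀ j c, S.Sm (B' j c)) (zB : ∀ j c, S.Zs K (B j c))
    (c : Fin 3) : S.Zs K (pairH r B B' c) := by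
  have t1 := sm_cmp S hr.smt sB
  have t2 := sm_cmp S hr.smt sB'
  have w1 := sm_cmp S hr.smw sB
  have w2 := sm_cmp S hr.smw sB'
  have zt := zs_cmp S hr.smt sB zB
  have zw := zs_cmp S hr.smw sB zB
  fin_cases c
  · exact DAlg.Zs.smul (S.sm_dot t1 t2) _ (DAlg.Zs.dot_left t1 t2 zt)
  · exact DAlg.Zs.smul (S.sm_add (S.sm_dot t1 w2) (S.sm_dot w1 t2)) _
      (DAlg.Zs.add (S.sm_dot t1 w2) (S.sm_dot w1 t2) (DAlg.Zs.dot_left t1 w2 zt)
        (DAlg.Zs.dot_left w1 t2 zw))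
  · exact DAlg.Zs.smul (S.sm_dot w1 w2) _ (DAlg.Zs.dot_left w1 w2 zw)

theorem zs_pairH_right {K : Set P} {r : Ray P κ} (hr : r.Ok S) {B B' : κ → Fin 4 → P → ℂ}
    (sB : ∀ j c, S.Sm (B j c)) (sB' : ∀ j c, S.Sm (B' j c)) (zB' : ∀ j c, S.Zs K (B' j c))
    (c : Fin 3) : S.Zs K (pairH r B B' c) := by
  have t1 := sm_cmp S hr.smt sB
  have t2 := sm_cmp S hr.smt sB'
  have w1 := sm_cmp S hr.smw sB
  have w2 := sm_cmp S hr.smw sB'
  have zt := zs_cmp S hr.smt sB' zB'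
  have zw := zs_cmp S hr.smw sB' zB'
  fin_cases c
  · exact DAlg.Zs.smul (S.sm_dot t1 t2) _ (DAlg.Zs.dot_right t1 t2 zt)
  · exact DAlg.Zs.smul (S.sm_add (S.sm_dot t1 w2) (S.sm_dot w1 t2)) _
      (DAlg.Zs.add (S.sm_dot t1 w2) (S.sm_dot w1 t2) (DAlg.Zs.dot_right t1 w2 zw)
        (DAlg.Zs.dot_right w1 t2 zt))
  · exact DAlg.Zs.smul (S.sm_dot w1 w2) _ (DAlg.Zs.dot_right w1 w2 zw)

/-! ### products of real parts -/

/-- the factor of the pair -/
def pfac (σ : Bool) (A A' : ℂ) : ℂ := A * (bif σ then A' else (starRingEnd ℂ) A')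

theorem re_mul_re (z w : ℂ) :
    ((z.re : ℂ) * (w.re : ℂ)) = ((1 / 2 * (z * w)).re : ℂ)
      + ((1 / 2 * (z * (starRingEnd ℂ) w)).re : ℂ) := by
  rw [← Complex.ofReal_mul, ← Complex.ofReal_add]
  congr 1
  simp only [Complex.mul_re, Complex.conj_re, Complex.conj_im, Complex.mul_im]
  norm_num
  ring

theorem pair_c (A A' b b' : ℂ) :
    (((A * b).re : ℂ) * ((A' * b').re : ℂ)) =
      ((pfac true A A' * (1 / 2 * (b * b'))).re : ℂ)
      + ((pfac false A A' * (1 / 2 * (b * (starRingEnd ℂ) b'))).re : ℂ) := by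
  rw [re_mul_re]
  simp only [pfac, cond_true, cond_false, map_mul]
  congr 3 <;> ring

/-- finite-dimensional form of the quadratic identity -/
theorem quad_point {Q : Type} [Fintype Q] (A : Q → ℂ) (hA : ∀ a, A a * (starRingEnd ℂ) (A a) = 1)
    (B : Q → κ → Fin 4 → P → ℂ) (j k : κ) (q : P) :
    ∑ c : Fin 4, (∑ a, ((A a * B a j c q).re : ℂ)) * (∑ b, ((A b * B b k c q).re : ℂ)) =
      (∑ x : Q × Q × Bool, if usedRay (Sum.inr x) then
        ((pfac x.2.2 (A x.1) (A x.2.1) * (1 / 4 * (dot (B x.1 j) (twv x.2.2 (B x.2.1 k)) q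
          + dot (B x.1 k) (twv x.2.2 (B x.2.1 j)) q))).re : ℂ) else 0)
      + slowM B j k q := by
  -- the products for a pair
  have hP : ∀ (j k : κ) (a b : Q), ∑ c : Fin 4, ((A a * B a j c q).re : ℂ) * ((A b * B b k c q).re : ℂ) =
      ((pfac true (A a) (A b) * (1 / 2 * dot (B a j) (twv true (B b k)) q)).re : ℂ)
      + ((pfac false (A a) (A b) * (1 / 2 * dot (B a j) (twv false (B b k)) q)).re : ℂ) := by
    intro j k a b
    simp only [pair_c, Finset.sum_add_distrib, dot, Finset.mul_sum, twv_apply, cond_true,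
      cond_false, Complex.re_sum, Complex.ofReal_sum]
  have hS : ∀ j k : κ, ∑ c : Fin 4, (∑ a, ((A a * B a j c q).re : ℂ)) * (∑ b, ((A b * B b k c q).re : ℂ))
      = ∑ a, ∑ b, ∑ c : Fin 4, ((A a * B a j c q).re : ℂ) * ((A b * B b k c q).re : ℂ) := by
    intro j k
    simp only [Finset.sum_mul_sum]
    rw [Finset.sum_comm]
    refine Finset.sum_congr rfl fun a _ => ?_
    rw [Finset.sum_comm]
  have hsym : ∑ c : Fin 4, (∑ a, ((A a * B a j c q).re : ℂ)) * (∑ b, ((A b * B b k c q).re : ℂ))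
      = ∑ c : Fin 4, (∑ a, ((A a * B a k c q).re : ℂ)) * (∑ b, ((A b * B b j c q).re : ℂ)) :=
    Finset.sum_congr rfl fun c _ => mul_comm _ _
  -- the symmetrised form
  have h1 : ∑ c : Fin 4, (∑ a, ((A a * B a j c q).re : ℂ)) * (∑ b, ((A b * B b k c q).re : ℂ))
      = ∑ a, ∑ b, ∑ σ : Bool,
        ((pfac σ (A a) (A b) * (1 / 4 * (dot (B a j) (twv σ (B b k)) q
          + dot (B a k) (twv σ (B b j)) q))).re : ℂ) := by
    have h2 : ∑ c : Fin 4, (∑ a, ((A a * B a j c q).re : ℂ)) * (∑ b, ((A b * B b k c q).re : ℂ))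
      = (1 / 2) * ((∑ c : Fin 4, (∑ a, ((A a * B a j c q).re : ℂ)) * (∑ b, ((A b * B b k c q).re : ℂ)))
        + ∑ c : Fin 4, (∑ a, ((A a * B a k c q).re : ℂ)) * (∑ b, ((A b * B b j c q).re : ℂ))) := by
      rw [← hsym]; ring
    rw [h2, hS, hS, ← Finset.sum_add_distrib, Finset.mul_sum]
    refine Finset.sum_congr rfl fun a _ => ?_
    rw [← Finset.sum_add_distrib, Finset.mul_sum]
    refine Finset.sum_congr rfl fun b _ => ?_
    rw [hP, hP, Fintype.sum_bool]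
    have h3 : ∀ z w w' : ℂ, ((z * (1 / 4 * (w + w'))).re : ℂ)
        = 1 / 2 * (((z * (1 / 2 * w)).re : ℂ) + ((z * (1 / 2 * w')).re : ℂ)) := by
      intro z w w'
      have : z * (1 / 4 * (w + w')) = ((1 / 2 : ℝ) : ℂ) * (z * (1 / 2 * w) + z * (1 / 2 * w')) := by
        push_cast; ring
      rw [this, Complex.re_ofReal_mul, Complex.add_re]
      push_cast
      ring
    rw [h3, h3]
    ring
  rw [h1]
  rw [Fintype.sum_prod_type]
  simp only [Fintype.sum_prod_type]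
  have h4 : ∀ a b : Q, (∑ σ : Bool,
        ((pfac σ (A a) (A b) * (1 / 4 * (dot (B a j) (twv σ (B b k)) q
          + dot (B a k) (twv σ (B b j)) q))).re : ℂ)) =
      (∑ σ : Bool, if usedRay (Q := Q) (Sum.inr (a, b, σ)) then
        ((pfac σ (A a) (A b) * (1 / 4 * (dot (B a j) (twv σ (B b k)) q
          + dot (B a k) (twv σ (B b j)) q))).re : ℂ) else 0)
      + if a = b then (((1 / 2) * dot (B a j) (cjv (B a k)) q).re : ℂ) else 0 := by
    intro a b
    rw [Fintype.sum_bool, Fintype.sum_bool]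
    have u1 : usedRay (Q := Q) (Sum.inr (a, b, true)) := Or.inl rfl
    rw [if_pos u1]
    by_cases hab : a = b
    · subst hab
      have u2 : ¬ usedRay (Q := Q) (Sum.inr (a, a, false)) := by
        rintro (h | h)
        · exact Bool.noConfusion h
        · exact h rfl
      rw [if_neg u2, if_pos rfl, add_zero]
      congr 1
      have h5 : pfac false (A a) (A a) = 1 := hA a
      rw [h5, one_mul]
      congr 1
      have h6 : (dot (B a k) (cjv (B a j)) q).re = (dot (B a j) (cjv (B a k)) q).re := by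
        unfold dot cjv
        rw [Complex.re_sum, Complex.re_sum]
        refine Finset.sum_congr rfl fun c _ => ?_
        simp only [Complex.mul_re, Complex.conj_re, Complex.conj_im]
        ring
      have h7 : ∀ z w : ℂ, z.re = w.re → (1 / 4 * (w + z)).re = (1 / 2 * w).re := by
        intro z w h
        have e1 : (1 / 4 : ℂ) = ((1 / 4 : ℝ) : ℂ) := by push_cast; rfl
        have e2 : (1 / 2 : ℂ) = ((1 / 2 : ℝ) : ℂ) := by push_cast; rfl
        rw [e1, e2, Complex.re_ofReal_mul, Complex.re_ofReal_mul, Complex.add_re, h]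
        ring
      exact h7 _ _ h6
    · have u2 : usedRay (Q := Q) (Sum.inr (a, b, false)) := Or.inr hab
      rw [if_pos u2, if_neg hab, add_zero]
  simp only [h4, Finset.sum_add_distrib]
  congr 1
  unfold slowM
  refine Finset.sum_congr rfl fun a _ => ?_
  rw [Finset.sum_ite_eq]
  simp

/-! ### the quadratic identity -/

theorem osc_add (lam : ℝ) (Ψ Ψ' : P → ℂ) (q : P) :
    osc lam (Ψ + Ψ') q = pfac true (osc lam Ψ q) (osc lam Ψ' q) := by
  simp only [pfac, cond_true, osc, Pi.add_apply]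
  rw [← Complex.exp_add]
  congr 1
  ring

theorem conj_osc {lam : ℝ} {Ψ : P → ℂ} (h : Rl Ψ) (q : P) :
    (starRingEnd ℂ) (osc lam Ψ q) = Complex.exp (-(Complex.I * lam * Ψ q)) := by
  unfold osc
  rw [← Complex.exp_conj, map_mul, map_mul, Complex.conj_I, Complex.conj_ofReal,
    Complex.conj_eq_iff_im.2 (h q)]
  congr 1
  ring

theorem osc_sub (lam : ℝ) {Ψ Ψ' : P → ℂ} (h : Rl Ψ') (q : P) :
    osc lam (Ψ - Ψ') q = pfac false (osc lam Ψ q) (osc lam Ψ' q) := by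
  simp only [pfac, cond_false]
  rw [conj_osc h]
  unfold osc
  rw [← Complex.exp_add]
  congr 1
  simp only [Pi.sub_apply]
  ring

theorem osc_mul_conj {lam : ℝ} {Ψ : P → ℂ} (h : Rl Ψ) (q : P) :
    osc lam Ψ q * (starRingEnd ℂ) (osc lam Ψ q) = 1 := by
  rw [conj_osc h]
  unfold osc
  rw [← Complex.exp_add, add_neg_cancel, Complex.exp_zero]

/-- **(QA)** -/
theorem DAlg.quadAlg (Q : Type) [Fintype Q] : S.QuadAlg Q := by
  intro lam ε d F X m α hlam hd sX rX hF sα zα rα j k q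
  have K1 := fun a => S.kerAlg S.wkbAlg lam (d.ray a) (F (Sum.inl a)) X m (α a) hlam (hd.ray a)
    sX rX (hF (Sum.inl a) trivial) (sα a) (zα a)
  have sk : ∀ a c, S.Sm (S.sk lam d F X m α a c) := fun a => (K1 a).1
  have sB : ∀ a j c, S.Sm (S.sB lam d F X m α a j c) := fun a => (K1 a).2.2.1
  have zB : ∀ a j c, S.Zs (d.ray a).K (S.sB lam d F X m α a j c) := fun a => (K1 a).2.2.2.1
  have eB : ∀ a j c q, S.D j (osc lam (d.ray a).Ψ * S.sk lam d F X m α a c) q =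
      osc lam (d.ray a).Ψ q * S.sB lam d F X m α a j c q := fun a => (K1 a).2.2.2.2.1
  have lk : ∀ a j k q, S.lin X (fun c => osc lam (d.ray a).Ψ * S.sk lam d F X m α a c) j k q =
      - (osc lam (d.ray a).Ψ q * (d.ray a).ten S (S.wres lam (d.ray a) (F (Sum.inl a)) X m
        (S.ksrc lam (d.ray a) (F (Sum.inl a)) X (α a))) j k q) := fun a => (K1 a).2.2.2.2.2
  have sosc : ∀ {r : Ray P κ}, r.Ok S → S.Sm (osc lam r.Ψ) := fun {r} hr => by
    rw [osc_eq_qph hr.rΨ]; exact S.q_sm_ph lam hr.smΨ hr.rΨ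
  -- the sources of the pairs
  have sh : ∀ x : Q × Q × Bool, usedRay (Sum.inr x) → ∀ c, S.Sm (S.sh lam d F X m α x c) :=
    fun x hx c => sm_pairH S (hd.pr x.1 x.2.1 x.2.2 hx) (sB x.1)
      (fun k => sm_twv S x.2.2 (sB x.2.1 k)) c
  have zh : ∀ x : Q × Q × Bool, usedRay (Sum.inr x) → ∀ c,
      S.Zs (d.pr x.1 x.2.1 x.2.2).K (S.sh lam d F X m α x c) := by
    intro x hx c w p hp
    have hr := hd.pr x.1 x.2.1 x.2.2 hx
    rw [hd.prK] at hp
    by_cases h1 : p ∈ (d.ray x.1).K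
    · have h2 : p ∉ (d.ray x.2.1).K := fun h => hp ⟨h1, h⟩
      exact zs_pairH_right S hr (sB x.1) (fun k => sm_twv S x.2.2 (sB x.2.1 k))
        (fun k => zs_twv S x.2.2 (sB x.2.1 k) (zB x.2.1 k)) c w p h2
    · exact zs_pairH_left S hr (sB x.1) (fun k => sm_twv S x.2.2 (sB x.2.1 k))
        (zB x.1) c w p h1
  have W := fun x (hx : usedRay (Q := Q) (Sum.inr x)) =>
    S.wkbAlg lam (d.pr x.1 x.2.1 x.2.2) (F (Sum.inr x)) X m (S.sh lam d F X m α x) hlam
      (hd.pr x.1 x.2.1 x.2.2 hx) sX rX (hF (Sum.inr x) hx) (sh x hx) (zh x hx)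
  -- the vector fields of the pairs
  have tenh : ∀ x : Q × Q × Bool, usedRay (Sum.inr x) →
      (d.pr x.1 x.2.1 x.2.2).ten S (S.sh lam d F X m α x) j k q =
      1 / 4 * (dot (S.sB lam d F X m α x.1 j) (twv x.2.2 (S.sB lam d F X m α x.2.1 k)) q
        + dot (S.sB lam d F X m α x.1 k) (twv x.2.2 (S.sB lam d F X m α x.2.1 j)) q) := by
    intro x hx
    have hr := hd.pr x.1 x.2.1 x.2.2 hx
    by_cases hq : q ∈ (d.pr x.1 x.2.1 x.2.2).K
    · exact ten_pairH S (lrAt_kerB S hr (hd.ray x.1) (sk x.1) hq)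
        ((lrAt_kerB S hr (hd.ray x.2.1) (sk x.2.1) hq).twv S hr x.2.2) j k
    · rw [hd.prK] at hq
      refine ten_pairH_off S ?_ j k
      by_cases h1 : q ∈ (d.ray x.1).K
      · have h2 : q ∉ (d.ray x.2.1).K := fun h => hq ⟨h1, h⟩
        refine Or.inr fun j c => ?_
        exact (zs_twv S x.2.2 (sB x.2.1 j) (zB x.2.1 j) c).q_apply h2
      · exact Or.inl fun j c => (zB x.1 j c).q_apply h1
  -- smoothness of the parts
  have s1 : ∀ a c, S.Sm (osc lam (d.ray a).Ψ * S.sk lam d F X m α a c) := fun a c =>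
    S.sm_mul (sosc (hd.ray a)) (sk a c)
  have s1' : ∀ a c, S.Sm (fun q => ((osc lam (d.ray a).Ψ q * S.sk lam d F X m α a c q).re : ℂ)) :=
    fun a c => S.sm_re (s1 a c)
  have su1 : ∀ c, S.Sm (S.su1 lam d F X m α c) := fun c =>
    S.sm_sum' fun a _ => s1' a c
  have s2 : ∀ x, usedRay (Q := Q) (Sum.inr x) → ∀ c,
      S.Sm (osc lam (d.pr x.1 x.2.1 x.2.2).Ψ * S.sw lam d F X m α x c) := fun x hx c =>
    S.sm_mul (sosc (hd.pr x.1 x.2.1 x.2.2 hx)) ((W x hx).1 c)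
  have s2' : ∀ x : Q × Q × Bool, ∀ c, S.Sm (fun q => if usedRay (Sum.inr x) then
      ((osc lam (d.pr x.1 x.2.1 x.2.2).Ψ q * S.sw lam d F X m α x c q).re : ℂ) else 0) := by
    intro x c
    by_cases hx : usedRay (Sum.inr x)
    · simp only [if_pos hx]
      exact S.sm_re (s2 x hx c)
    · simp only [if_neg hx]
      exact S.sm_zero
  have su2' : ∀ c, S.Sm (fun q => ∑ x : Q × Q × Bool, if usedRay (Sum.inr x) then
      ((osc lam (d.pr x.1 x.2.1 x.2.2).Ψ q * S.sw lam d F X m α x c q).re : ℂ) else 0) := fun c =>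
    S.sm_sum' fun x _ => s2' x c
  have su2 : ∀ c, S.Sm (S.su2 lam d F X m α c) := fun c => S.sm_neg (su2' c)
  -- the linear terms
  have L1 : S.lin X (S.su1 lam d F X m α) j k q =
      - ∑ a, ((osc lam (d.ray a).Ψ q * (d.ray a).ten S (S.wres lam (d.ray a)
          (F (Sum.inl a)) X m (S.ksrc lam (d.ray a) (F (Sum.inl a)) X (α a))) j k q).re : ℂ) := by
    have h := S.lin_sum (X := X) (v := fun a c q =>
      ((osc lam (d.ray a).Ψ q * S.sk lam d F X m α a c q).re : ℂ)) s1' j k q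
    have h' : S.lin X (S.su1 lam d F X m α) j k q = _ := h
    rw [h', ← Finset.sum_neg_distrib]
    refine Finset.sum_congr rfl fun a _ => ?_
    have h2 := S.lin_re sX rX (s1 a) j k q
    rw [lk a j k q] at h2
    rw [Complex.neg_re] at h2
    push_cast at h2
    exact h2
  have L2 : S.lin X (S.su2 lam d F X m α) j k q =
      - ∑ x : Q × Q × Bool, if usedRay (Sum.inr x) then
        ((osc lam (d.pr x.1 x.2.1 x.2.2).Ψ q *
          ((d.pr x.1 x.2.1 x.2.2).ten S (S.sh lam d F X m α x) j k q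
          + (d.pr x.1 x.2.1 x.2.2).ten S
            (S.wres lam (d.pr x.1 x.2.1 x.2.2) (F (Sum.inr x)) X m
              (S.sh lam d F X m α x)) j k q)).re : ℂ) else 0 := by
    have h := S.lin_sum (X := X) (v := fun (x : Q × Q × Bool) c q =>
      if usedRay (Sum.inr x) then
        ((osc lam (d.pr x.1 x.2.1 x.2.2).Ψ q * S.sw lam d F X m α x c q).re : ℂ) else 0)
      s2' j k q
    have h0 := S.lin_comb (X := X) (v := fun c q => ∑ x : Q × Q × Bool,
      if usedRay (Sum.inr x) then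
        ((osc lam (d.pr x.1 x.2.1 x.2.2).Ψ q * S.sw lam d F X m α x c q).re : ℂ) else 0)
      (v' := fun _ _ => 0) su2' (fun _ => S.sm_zero) (-1) 0 j k q
    have e0 : (fun (c : Fin 4) (q : P) => (-1 : ℂ) * (∑ x : Q × Q × Bool,
      if usedRay (Sum.inr x) then
        ((osc lam (d.pr x.1 x.2.1 x.2.2).Ψ q * S.sw lam d F X m α x c q).re : ℂ) else 0)
        + 0 * 0) = S.su2 lam d F X m α := by
      funext c q
      simp only [DAlg.su2]
      ring
    rw [e0] at h0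
    rw [h0, h, zero_mul, add_zero, neg_one_mul]
    congr 1
    refine Finset.sum_congr rfl fun x _ => ?_
    by_cases hx : usedRay (Sum.inr x)
    · simp only [if_pos hx]
      have h2 := S.lin_re sX rX (s2 x hx) j k q
      have h3 : S.lin X (fun a => osc lam (d.pr x.1 x.2.1 x.2.2).Ψ * S.sw lam d F X m α x a)
          j k q = _ := (W x hx).2.2 j k q
      rw [h3] at h2
      exact h2
    · simp only [if_neg hx]
      unfold DAlg.lin dot DAlg.Dv
      have z : ∀ l : κ, S.D l (fun _ : P => (0 : ℂ)) q = 0 := fun l => S.D_const_apply l 0 q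
      simp only [z, mul_zero, Finset.sum_const_zero, add_zero]
  -- the quadratic term
  have D1 : ∀ l c, S.Dv l (S.su1 lam d F X m α) c q =
      ∑ a, ((osc lam (d.ray a).Ψ q * S.sB lam d F X m α a l c q).re : ℂ) := by
    intro l c
    have h1 : S.Dv l (S.su1 lam d F X m α) c q = _ := S.D_sum_apply (A := Finset.univ)
      (u := fun a q => ((osc lam (d.ray a).Ψ q * S.sk lam d F X m α a c q).re : ℂ)) l
      (fun a _ => s1' a c) q
    rw [h1]
    refine Finset.sum_congr rfl fun a _ => ?_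
    have h2 := S.D_re l (s1 a c) q
    rw [eB a l c q] at h2
    exact h2
  have Q1 : dot (S.Dv j (S.su1 lam d F X m α)) (S.Dv k (S.su1 lam d F X m α)) q =
      (∑ x : Q × Q × Bool, if usedRay (Sum.inr x) then
        ((osc lam (d.pr x.1 x.2.1 x.2.2).Ψ q *
          ((d.pr x.1 x.2.1 x.2.2).ten S (S.sh lam d F X m α x) j k q)).re : ℂ) else 0)
      + slowM (S.sB lam d F X m α) j k q := by
    have h := quad_point (κ := κ) (fun a => osc lam (d.ray a).Ψ q)
      (fun a => osc_mul_conj (hd.ray a).rΨ q) (S.sB lam d F X m α) j k q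
    have h' : dot (S.Dv j (S.su1 lam d F X m α)) (S.Dv k (S.su1 lam d F X m α)) q =
        ∑ c : Fin 4, (∑ a, ((osc lam (d.ray a).Ψ q * S.sB lam d F X m α a j c q).re : ℂ))
          * (∑ b, ((osc lam (d.ray b).Ψ q * S.sB lam d F X m α b k c q).re : ℂ)) := by
      unfold dot
      simp only [D1]
    rw [h', h]
    congr 1
    refine Finset.sum_congr rfl fun x _ => ?_
    by_cases hx : usedRay (Sum.inr x)
    · rw [if_pos hx, if_pos hx, tenh x hx]
      congr 3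
      obtain ⟨a, b, σ⟩ := x
      cases σ
      · have hab : a ≠ b := by
          rcases hx with h | h
          · exact Bool.noConfusion h
          · exact h
        simp only [hd.prΨ' a b hab]
        exact (osc_sub lam (hd.ray b).rΨ q).symm
      · simp only [hd.prΨ a b]
        exact (osc_add lam _ _ q).symm
    · rw [if_neg hx, if_neg hx]
  -- assembly
  have M := S.met_add (X := X) (v := S.su1 lam d F X m α) (v' := S.su2 lam d F X m α) sX su1 su2
    (ε : ℂ) ((ε : ℂ) ^ 2) j k q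
  have eM : (fun a => X a + S.sy lam d F X m α ε a) =
      fun a => X a + fun q => (ε : ℂ) * S.su1 lam d F X m α a q
        + (ε : ℂ) ^ 2 * S.su2 lam d F X m α a q := rfl
  rw [eM, M, L1, L2, Q1]
  have split : (∑ x : Q × Q × Bool, if usedRay (Sum.inr x) then
        ((osc lam (d.pr x.1 x.2.1 x.2.2).Ψ q *
          ((d.pr x.1 x.2.1 x.2.2).ten S (S.sh lam d F X m α x) j k q
          + (d.pr x.1 x.2.1 x.2.2).ten S
            (S.wres lam (d.pr x.1 x.2.1 x.2.2) (F (Sum.inr x)) X m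
              (S.sh lam d F X m α x)) j k q)).re : ℂ) else 0) =
      (∑ x : Q × Q × Bool, if usedRay (Sum.inr x) then
        ((osc lam (d.pr x.1 x.2.1 x.2.2).Ψ q *
          ((d.pr x.1 x.2.1 x.2.2).ten S (S.sh lam d F X m α x) j k q)).re : ℂ) else 0)
      + ∑ x : Q × Q × Bool, if usedRay (Sum.inr x) then
          ((osc lam (d.pr x.1 x.2.1 x.2.2).Ψ q * (d.pr x.1 x.2.1 x.2.2).ten S
            (S.wres lam (d.pr x.1 x.2.1 x.2.2) (F (Sum.inr x)) X m
              (S.sh lam d F X m α x)) j k q).re : ℂ) else 0 := by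
    rw [← Finset.sum_add_distrib]
    refine Finset.sum_congr rfl fun x _ => ?_
    by_cases hx : usedRay (Sum.inr x)
    · simp only [if_pos hx]
      rw [mul_add, Complex.add_re]
      push_cast
      rfl
    · simp only [if_neg hx, add_zero]
  rw [split]
  ring

end Vale.Agent.P205.F
end
end

section

/-!
Bounds for families: local calculus used for the WKB solve (P205, block W).
-/

set_option linter.all false

open scoped ContDiff

noncomputable section

namespace Vale.Agent.P205.F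

universe u

variable {P : Type u} {κ : Type} (S : DAlg P κ)

theorem DAlg.q_Bd_mono {μ C C' : ℝ} {k k' : ℕ} {u : P → ℂ} (h : S.Bd μ k C u) (hμ : 0 ≤ μ)
    (hk : k' ≤ k) (hC : C ≤ C') : S.Bd μ k' C' u := fun w hw p =>
  (h w (hw.trans hk) p).trans (mul_le_mul_of_nonneg_right hC (pow_nonneg hμ _))

theorem DAlg.q_Bd_D {μ C : ℝ} {k : ℕ} {u : P → ℂ} (h : S.Bd μ (k + 1) C u) (j : κ) :
    S.Bd μ k (C * μ) (S.D j u) := by
  intro w hw p
  have := h (w ++ [j]) (by simpa using hw) p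
  rw [S.q_wd_append] at this
  refine this.trans (le_of_eq ?_)
  rw [List.length_append, List.length_singleton, pow_succ]; ring

theorem DAlg.q_Bd_add {μ C C' : ℝ} {k : ℕ} {u v : P → ℂ} (hu : S.Bd μ k C u)
    (hv : S.Bd μ k C' v) (su : S.Sm u) (sv : S.Sm v) : S.Bd μ k (C + C') (u + v) := by
  intro w hw p
  rw [S.q_wd_add w su sv]
  refine (norm_add_le _ _).trans ?_
  rw [add_mul]
  exact add_le_add (hu w hw p) (hv w hw p)

theorem DAlg.q_wd_cmul {u : P → ℂ} (w : List κ) (c : ℂ) (hu : S.Sm u) :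
    S.wd w (fun p => c * u p) = fun p => c * S.wd w u p := by
  induction w with
  | nil => rfl
  | cons a w ih =>
    show S.D a (S.wd w (fun p => c * u p)) = _
    rw [ih]
    exact S.q_D_cmul a c (S.q_sm_wd w hu)

theorem DAlg.q_Bd_cmul {μ C : ℝ} {k : ℕ} {u : P → ℂ} (hu : S.Bd μ k C u) (c : ℂ)
    (su : S.Sm u) : S.Bd μ k (‖c‖ * C) (fun p => c * u p) := by
  intro w hw p
  rw [S.q_wd_cmul w c su]
  rw [norm_mul, mul_assoc]
  exact mul_le_mul_of_nonneg_left (hu w hw p) (norm_nonneg _)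

theorem DAlg.q_Bd_mul_aux {μ : ℝ} (hμ : 0 ≤ μ) (w : List κ) :
    ∀ (u v : P → ℂ) (C C' : ℝ), S.Sm u → S.Sm v → S.Bd μ w.length C u →
      S.Bd μ w.length C' v → ∀ p, ‖S.wd w (u * v) p‖ ≤ 2 ^ w.length * (C * C') * μ ^ w.length := by
  induction w using List.reverseRecOn with
  | nil =>
    intro u v C C' su sv hu hv p
    have h1 := hu [] le_rfl p
    have h2 := hv [] le_rfl p
    simp only [DAlg.wd, List.length_nil, pow_zero, mul_one, one_mul, Pi.mul_apply, norm_mul] at *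
    exact mul_le_mul h1 h2 (norm_nonneg _) ((norm_nonneg _).trans h1)
  | append_singleton w j ih =>
    intro u v C C' su sv hu hv p
    rw [List.length_append, List.length_singleton] at hu hv
    rw [S.q_wd_append, S.D_mul j su sv,
      S.q_wd_add w (S.sm_mul (S.sm_D j su) sv) (S.sm_mul su (S.sm_D j sv))]
    have h1 := ih (S.D j u) v (C * μ) C' (S.sm_D j su) sv (S.q_Bd_D hu j)
      (S.q_Bd_mono hv hμ (Nat.le_succ _) le_rfl) p
    have h2 := ih u (S.D j v) C (C' * μ) su (S.sm_D j sv)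
      (S.q_Bd_mono hu hμ (Nat.le_succ _) le_rfl) (S.q_Bd_D hv j) p
    refine (norm_add_le _ _).trans ((add_le_add h1 h2).trans (le_of_eq ?_))
    rw [List.length_append, List.length_singleton, pow_succ, pow_succ]; ring

theorem DAlg.q_Bd_mul {μ C C' : ℝ} {k : ℕ} {u v : P → ℂ} (hμ : 0 ≤ μ) (hC : 0 ≤ C)
    (hC' : 0 ≤ C') (su : S.Sm u) (sv : S.Sm v)
    (hu : S.Bd μ k C u) (hv : S.Bd μ k C' v) : S.Bd μ k (2 ^ k * (C * C')) (u * v) := by
  intro w hw p
  refine (S.q_Bd_mul_aux hμ w u v C C' su sv (S.q_Bd_mono hu hμ hw le_rfl)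
    (S.q_Bd_mono hv hμ hw le_rfl) p).trans ?_
  refine mul_le_mul_of_nonneg_right (mul_le_mul_of_nonneg_right
    (pow_le_pow_right₀ one_le_two hw) (mul_nonneg hC hC')) (pow_nonneg hμ _)

/-! ### families -/

variable {ι : Type*} {S}
variable {μ s s' : ι → ℝ} {u v : ι → P → ℂ}

theorem DAlg.FO.q_mono (h : S.FO μ s u) (hμ : ∀ i, 0 ≤ μ i) (hs : ∀ i, s i ≤ s' i) :
    S.FO μ s' u := by
  refine ⟨h.1, fun k => ?_⟩
  obtain ⟨C, hC, hb⟩ := h.2 k
  exact ⟨C, hC, fun i => S.q_Bd_mono (hb i) (hμ i) le_rfl (mul_le_mul_of_nonneg_left (hs i) hC)⟩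

theorem DAlg.FO.q_add (hu : S.FO μ s u) (hv : S.FO μ s v) :
    S.FO μ s (fun i p => u i p + v i p) := by
  refine ⟨fun i => S.sm_add (hu.1 i) (hv.1 i), fun k => ?_⟩
  obtain ⟨C, hC, hb⟩ := hu.2 k
  obtain ⟨C', hC', hb'⟩ := hv.2 k
  refine ⟨C + C', add_nonneg hC hC', fun i => ?_⟩
  have := S.q_Bd_add (hb i) (hb' i) (hu.1 i) (hv.1 i)
  rw [← add_mul] at this
  exact this

theorem DAlg.FO.q_cmul (hu : S.FO μ s u) {τ : ι → ℝ} {c : ι → ℂ} (hμ : ∀ i, 0 ≤ μ i)
    (hs : ∀ i, 0 ≤ s i) (hc : ∀ i, ‖c i‖ ≤ τ i) : S.FO μ (fun i => τ i * s i)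
      (fun i p => c i * u i p) := by
  refine ⟨fun i => S.q_sm_cmul _ (hu.1 i), fun k => ?_⟩
  obtain ⟨C, hC, hb⟩ := hu.2 k
  refine ⟨C, hC, fun i => ?_⟩
  have h1 := S.q_Bd_cmul (hb i) (c i) (hu.1 i)
  refine S.q_Bd_mono h1 (hμ i) le_rfl ?_
  have : ‖c i‖ * (C * s i) ≤ τ i * (C * s i) :=
    mul_le_mul_of_nonneg_right (hc i) (mul_nonneg hC (hs i))
  linarith [this, mul_left_comm (τ i) C (s i)]

theorem DAlg.FO.q_kmul (hu : S.FO μ s u) (c : ℂ) : S.FO μ s (fun i p => c * u i p) := by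
  refine ⟨fun i => S.q_sm_cmul _ (hu.1 i), fun k => ?_⟩
  obtain ⟨C, hC, hb⟩ := hu.2 k
  refine ⟨‖c‖ * C, mul_nonneg (norm_nonneg _) hC, fun i => ?_⟩
  have h1 := S.q_Bd_cmul (hb i) c (hu.1 i)
  rw [← mul_assoc] at h1
  exact h1

theorem DAlg.FO.q_neg (hu : S.FO μ s u) : S.FO μ s (fun i p => - u i p) := by
  have h := hu.q_kmul (-1)
  simpa using h

theorem DAlg.FO.q_sub (hu : S.FO μ s u) (hv : S.FO μ s v) :
    S.FO μ s (fun i p => u i p - v i p) := by
  have h := hu.q_add hv.q_neg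
  simpa [sub_eq_add_neg] using h

theorem DAlg.FO.q_mul (hu : S.FO μ s u) (hv : S.FO μ s' v) (hμ : ∀ i, 0 ≤ μ i)
    (hs : ∀ i, 0 ≤ s i) (hs' : ∀ i, 0 ≤ s' i) :
    S.FO μ (fun i => s i * s' i) (fun i p => u i p * v i p) := by
  refine ⟨fun i => S.sm_mul (hu.1 i) (hv.1 i), fun k => ?_⟩
  obtain ⟨C, hC, hb⟩ := hu.2 k
  obtain ⟨C', hC', hb'⟩ := hv.2 k
  refine ⟨2 ^ k * (C * C'), by positivity, fun i => ?_⟩
  have h1 := S.q_Bd_mul (hμ i) (mul_nonneg hC (hs i)) (mul_nonneg hC' (hs' i)) (hu.1 i)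
    (hv.1 i) (hb i) (hb' i)
  refine S.q_Bd_mono h1 (hμ i) le_rfl (le_of_eq ?_)
  ring

theorem DAlg.FO.q_zero : S.FO μ s (fun _ _ => 0) := by
  refine ⟨fun i => S.q_sm_zero, fun k => ⟨0, le_rfl, fun i => ?_⟩⟩
  intro w hw p
  have : ∀ w : List κ, S.wd w (fun _ : P => (0 : ℂ)) = 0 := by
    intro w
    induction w with
    | nil => rfl
    | cons a w ih => simp only [DAlg.wd, ih]; exact S.q_D_zero a
  rw [this]; simp

theorem DAlg.FO.q_sum {α : Type*} (t : Finset α) {u : α → ι → P → ℂ}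
    (h : ∀ a ∈ t, S.FO μ s (u a)) : S.FO μ s (fun i p => ∑ a ∈ t, u a i p) := by
  classical
  induction t using Finset.induction_on with
  | empty => simpa using DAlg.FO.q_zero
  | insert a t ha ih =>
    have e : (fun i p => ∑ b ∈ insert a t, u b i p) =
        (fun i p => u a i p + ∑ b ∈ t, u b i p) := by
      funext i p; rw [Finset.sum_insert ha]
    rw [e]
    exact (h a (Finset.mem_insert_self _ _)).q_add
      (ih (fun b hb => h b (Finset.mem_insert_of_mem hb)))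

theorem DAlg.FO.q_D (hu : S.FO μ s u) (j : κ) :
    S.FO μ (fun i => s i * μ i) (fun i => S.D j (u i)) := by
  refine ⟨fun i => S.sm_D j (hu.1 i), fun k => ?_⟩
  obtain ⟨C, hC, hb⟩ := hu.2 (k + 1)
  refine ⟨C, hC, fun i => ?_⟩
  have h1 := S.q_Bd_D (hb i) j
  rw [mul_assoc] at h1
  exact h1

theorem DAlg.FO.q_dot {X V : ι → Fin 4 → P → ℂ} (hX : ∀ a, S.FO μ s (fun i => X i a))
    (hV : ∀ a, S.FO μ s' (fun i => V i a)) (hμ : ∀ i, 0 ≤ μ i)
    (hs : ∀ i, 0 ≤ s i) (hs' : ∀ i, 0 ≤ s' i) :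
    S.FO μ (fun i => s i * s' i) (fun i => Vale.Agent.P205.F.dot (X i) (V i)) :=
  DAlg.FO.q_sum _ (fun a _ => (hX a).q_mul (hV a) hμ hs hs')

theorem DAlg.FO.q_dir [Fintype κ] {c : ι → κ → P → ℂ}
    (hc : ∀ j, S.FO μ s (fun i => c i j)) (hu : S.FO μ s' u) (hμ : ∀ i, 0 ≤ μ i)
    (hs : ∀ i, 0 ≤ s i) (hs' : ∀ i, 0 ≤ s' i) :
    S.FO μ (fun i => s i * (s' i * μ i)) (fun i => S.dir (c i) (u i)) :=
  DAlg.FO.q_sum _ (fun j _ => (hc j).q_mul (hu.q_D j) hμ hs
    (fun i => mul_nonneg (hs' i) (hμ i)))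

end Vale.Agent.P205.F
end
end

section

/-!
Bounds for the WKB solve and linearity (P205, block W).
-/

set_option linter.all false

open scoped ContDiff

noncomputable section

namespace Vale.Agent.P205.F

universe u

variable {P : Type u} {κ : Type} [Fintype κ] (S : DAlg P κ)

section
variable {S} {ι : Type*} {L θ lam σ : ι → ℝ} {r : ι → Ray P κ} {F : ι → Frm P}
  {X : ι → Fin 4 → P → ℂ}

theorem vec_sub (F : Frm P) (x y : Fin 3 → P → ℂ) (Y : Fin 4 → P → ℂ) (q : P) :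
    dot Y (F.vec (fun c q => x c q - y c q)) q = dot Y (F.vec x) q - dot Y (F.vec y) q := by
  rw [vec_dot, vec_dot, vec_dot]; ring

theorem DAlg.q_dir_sub' (S : DAlg P κ) (c : κ → P → ℂ) {u v : P → ℂ} (hu : S.Sm u)
    (hv : S.Sm v) (p : P) :
    S.dir c (fun q => u q - v q) p = S.dir c u p - S.dir c v p := S.q_dir_sub c hu hv p

/-- difference of two steps -/
theorem wstep_sub (S : DAlg P κ) (lam : ℝ) (r : Ray P κ) (F : Frm P) (X : Fin 4 → P → ℂ)
    (h x y : Fin 3 → P → ℂ) (sx : ∀ c, S.Sm (x c)) (sy : ∀ c, S.Sm (y c)) :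
    (∀ q, S.wstep lam r F X h x 0 q - S.wstep lam r F X h y 0 q =
      S.wstep lam r F X (fun _ _ => 0) (fun c q => x c q - y c q) 0 q) ∧
    (∀ q, S.wstep lam r F X h x 1 q - S.wstep lam r F X h y 1 q =
      S.wstep lam r F X (fun _ _ => 0) (fun c q => x c q - y c q) 1 q) := by
  constructor
  · intro q
    rw [S.wstep_zero, S.wstep_zero, S.wstep_zero]
    simp only [vec_sub, S.q_dir_sub' r.t (sx 0) (sy 0)]
    ring
  · intro q
    rw [S.wstep_one, S.wstep_one, S.wstep_one]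
    simp only [vec_sub, S.q_dir_sub' r.t (sx 1) (sy 1), S.q_dir_sub' r.w (sx 0) (sy 0)]
    ring

end

/-! ### linearity -/

theorem DAlg.q_dir_lin (c : κ → P → ℂ) {u v : P → ℂ} (hu : S.Sm u) (hv : S.Sm v) (a : ℂ) (p : P) :
    S.dir c (fun q => u q + a * v q) p = S.dir c u p + a * S.dir c v p := by
  have h1 := S.q_dir_add c hu (S.q_sm_cmul a hv) p
  rw [S.q_dir_cmul c a hv] at h1
  exact h1

theorem vec_lin (F : Frm P) (x y : Fin 3 → P → ℂ) (a : ℂ) (Y : Fin 4 → P → ℂ) (q : P) :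
    dot Y (F.vec (fun c q => x c q + a * y c q)) q =
      dot Y (F.vec x) q + a * dot Y (F.vec y) q := by
  rw [vec_dot, vec_dot, vec_dot]; ring

theorem wst_lin {lam : ℝ} {r : Ray P κ} {F : Frm P} {X : Fin 4 → P → ℂ}
    (hr : r.Ok S) (sX : ∀ a, S.Sm (X a)) (hF : F.Ok S r X) {h h' : Fin 3 → P → ℂ}
    (sh : ∀ c, S.Sm (h c)) (sh' : ∀ c, S.Sm (h' c)) (c : ℂ) (m : ℕ) :
    S.wst lam r F X (fun b q => h b q + c * h' b q) m =
      fun b q => S.wst lam r F X h m b q + c * S.wst lam r F X h' m b q := by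
  have shh : ∀ b, S.Sm (fun q => h b q + c * h' b q) := fun b =>
    S.q_sm_add' (sh b) (S.q_sm_cmul c (sh' b))
  induction m with
  | zero =>
    funext b q
    rw [S.wst_zero, S.wst_zero, S.wst_zero]
    fin_cases b
    · simp
    · simp
    · show (-1 / 2 : ℂ) * (h 2 q + c * h' 2 q) = (-1 / 2) * h 2 q + c * ((-1 / 2) * h' 2 q)
      ring
  | succ m ih =>
    have sx := S.wst_ok (lam := lam) hr sX hF sh m
    have sy := S.wst_ok (lam := lam) hr sX hF sh' m
    have sx' := S.wst_ok (lam := lam) hr sX hF sh (m + 1)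
    have sy' := S.wst_ok (lam := lam) hr sX hF sh' (m + 1)
    have e0 : S.wst lam r F X (fun b q => h b q + c * h' b q) (m + 1) 0 =
        fun q => S.wst lam r F X h (m + 1) 0 q + c * S.wst lam r F X h' (m + 1) 0 q := by
      funext q
      show S.wstep lam r F X _ (S.wst lam r F X (fun b q => h b q + c * h' b q) m) 0 q =
        S.wstep lam r F X h (S.wst lam r F X h m) 0 q +
          c * S.wstep lam r F X h' (S.wst lam r F X h' m) 0 q
      rw [ih, S.wstep_zero, S.wstep_zero, S.wstep_zero]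
      simp only [vec_lin, S.q_dir_lin r.t (sx 0) (sy 0) c]
      ring
    have e1 : S.wst lam r F X (fun b q => h b q + c * h' b q) (m + 1) 1 =
        fun q => S.wst lam r F X h (m + 1) 1 q + c * S.wst lam r F X h' (m + 1) 1 q := by
      funext q
      show S.wstep lam r F X _ (S.wst lam r F X (fun b q => h b q + c * h' b q) m) 1 q =
        S.wstep lam r F X h (S.wst lam r F X h m) 1 q +
          c * S.wstep lam r F X h' (S.wst lam r F X h' m) 1 q
      rw [ih, S.wstep_one, S.wstep_one, S.wstep_one]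
      simp only [vec_lin, S.q_dir_lin r.t (sx 1) (sy 1) c, S.q_dir_lin r.w (sx 0) (sy 0) c]
      ring
    have e2 : S.wst lam r F X (fun b q => h b q + c * h' b q) (m + 1) 2 =
        fun q => S.wst lam r F X h (m + 1) 2 q + c * S.wst lam r F X h' (m + 1) 2 q := by
      funext q
      rw [S.wst_two, S.wst_two, S.wst_two, e1, S.q_dir_lin r.w (sx' 1) (sy' 1) c]
      ring
    funext b
    fin_cases b
    · exact e0
    · exact e1
    · exact e2

/-- **(W3)** -/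
theorem DAlg.wkbLin : S.WkbLin := by
  intro lam r F X m h h' c hr sX hF sh sh' a q
  simp only [DAlg.wkb]
  rw [wst_lin S hr sX hF sh sh' c m]
  simp only [Frm.vec]
  ring

end Vale.Agent.P205.F
end
end

section

/-!
Scale invariant bounds for the WKB solve (P205, block W): `wkbB`.
-/

set_option linter.all false

open scoped ContDiff

noncomputable section

namespace Vale.Agent.P205.F

universe u

variable {P : Type u} {κ : Type} [Fintype κ] (S : DAlg P κ)

/-- bounds on the geometric data, scale invariant form -/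
structure WGeoB {ι : Type*} (b θ : ι → ℝ) (r : ι → Ray P κ) (F : ι → Frm P)
    (X : ι → Fin 4 → P → ℂ) : Prop where
  t : ∀ j, S.FO θ (fun _ => 1) (fun i => (r i).t j)
  w : ∀ j, S.FO θ (fun _ => 1) (fun i => (r i).w j)
  N : ∀ a, S.FO θ (fun i => 1 / b i) (fun i => (F i).N a)
  P1 : ∀ a, S.FO θ (fun _ => 1) (fun i => (F i).P1 a)
  P2 : ∀ a, S.FO θ (fun _ => 1) (fun i => (F i).P2 a)
  tt : ∀ a, S.FO θ b (fun i => S.dirv (r i).t (S.dirv (r i).t (X i)) a)
  wt : ∀ a, S.FO θ b (fun i => S.dirv (r i).w (S.dirv (r i).t (X i)) a)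
  tw : ∀ a, S.FO θ b (fun i => S.dirv (r i).t (S.dirv (r i).w (X i)) a)

section
variable {S} {ι : Type*} {b θ lam σ : ι → ℝ} {r : ι → Ray P κ} {F : ι → Frm P}
  {X : ι → Fin 4 → P → ℂ}

theorem vecB_bd (G : WGeoB S b θ r F X) (hb : ∀ i, 1 ≤ b i) (hθ : ∀ i, b i ≤ θ i)
    (hσ : ∀ i, 0 ≤ σ i) {x : ι → Fin 3 → P → ℂ}
    (x0 : S.FO θ (fun i => σ i / θ i) (fun i => x i 0))
    (x1 : S.FO θ (fun i => σ i / θ i) (fun i => x i 1))
    (x2 : S.FO θ σ (fun i => x i 2)) (a : Fin 4) :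
    S.FO θ (fun i => σ i / b i) (fun i => (F i).vec (x i) a) := by
  have hb0 : ∀ i, 0 < b i := fun i => zero_lt_one.trans_le (hb i)
  have hθpos : ∀ i, 0 < θ i := fun i => (hb0 i).trans_le (hθ i)
  have hθ0 : ∀ i, 0 ≤ θ i := fun i => (hθpos i).le
  have hq : ∀ i, σ i / θ i ≤ σ i / b i := fun i =>
    div_le_div_of_nonneg_left (hσ i) (hb0 i) (hθ i)
  have hq0 : ∀ i, 0 ≤ σ i / b i := fun i => div_nonneg (hσ i) (hb0 i).le
  have h1 : ∀ i : ι, (0 : ℝ) ≤ (fun _ => 1 : ι → ℝ) i := fun i => zero_le_one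
  have hb1 : ∀ i : ι, (0 : ℝ) ≤ 1 / b i := fun i => by have := hb0 i; positivity
  have y0 := x0.q_mono hθ0 hq
  have y1 := x1.q_mono hθ0 hq
  have l1 : ∀ i, σ i / b i * 1 ≤ σ i / b i := fun i => by rw [mul_one]
  have l2 : ∀ i, σ i * (1 / b i) ≤ σ i / b i := fun i => le_of_eq (by ring)
  exact (((y0.q_mul (G.P1 a) hθ0 hq0 h1).q_mono hθ0 l1).q_add
    ((y1.q_mul (G.P2 a) hθ0 hq0 h1).q_mono hθ0 l1)).q_add
    ((x2.q_mul (G.N a) hθ0 hσ hb1).q_mono hθ0 l2)

theorem wstepB_bd (G : WGeoB S b θ r F X) (hb : ∀ i, 1 ≤ b i) (hθ : ∀ i, b i ≤ θ i)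
    (hlam : ∀ i, θ i ≤ lam i) (hσ : ∀ i, 0 ≤ σ i) {h x : ι → Fin 3 → P → ℂ}
    (h0 : S.FO θ σ (fun i => h i 0)) (h1 : S.FO θ σ (fun i => h i 1))
    (x0 : S.FO θ (fun i => σ i / θ i) (fun i => x i 0))
    (x1 : S.FO θ (fun i => σ i / θ i) (fun i => x i 1))
    (x2 : S.FO θ σ (fun i => x i 2)) :
    S.FO θ (fun i => σ i / lam i)
      (fun i => S.wstep (lam i) (r i) (F i) (X i) (h i) (x i) 0) ∧
    S.FO θ (fun i => σ i / lam i)
      (fun i => S.wstep (lam i) (r i) (F i) (X i) (h i) (x i) 1) ∧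
    S.FO θ (fun i => σ i * (θ i / lam i))
      (fun i => S.dir (r i).w (S.wstep (lam i) (r i) (F i) (X i) (h i) (x i) 1)) := by
  have hb0 : ∀ i, 0 < b i := fun i => zero_lt_one.trans_le (hb i)
  have hbn : ∀ i, 0 ≤ b i := fun i => (hb0 i).le
  have hθpos : ∀ i, 0 < θ i := fun i => (hb0 i).trans_le (hθ i)
  have hθ0 : ∀ i, 0 ≤ θ i := fun i => (hθpos i).le
  have hlpos : ∀ i, 0 < lam i := fun i => (hθpos i).trans_le (hlam i)
  have hone : ∀ i : ι, (0 : ℝ) ≤ (fun _ => 1 : ι → ℝ) i := fun i => zero_le_one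
  have hσb : ∀ i, 0 ≤ σ i / b i := fun i => div_nonneg (hσ i) (hbn i)
  have hσθ : ∀ i, 0 ≤ σ i / θ i := fun i => div_nonneg (hσ i) (hθ0 i)
  have hV := fun a => vecB_bd G hb hθ hσ x0 x1 x2 a
  -- the products
  have c1 : ∀ i, b i * (σ i / b i) ≤ σ i := fun i => le_of_eq (by
    have := (hb0 i).ne'; field_simp)
  have d1 := (DAlg.FO.q_dot (fun a => G.tt a) hV hθ0 hbn hσb).q_mono hθ0 c1
  have d2 := (DAlg.FO.q_dot (fun a => G.wt a) hV hθ0 hbn hσb).q_mono hθ0 c1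
  have d3 := (DAlg.FO.q_dot (fun a => G.tw a) hV hθ0 hbn hσb).q_mono hθ0 c1
  have c2 : ∀ i, (1 : ℝ) * (σ i / θ i * θ i) ≤ σ i := fun i => le_of_eq (by
    have := (hθpos i).ne'; field_simp)
  have t0 := (DAlg.FO.q_dir G.t x0 hθ0 hone hσθ).q_mono hθ0 c2
  have t1 := (DAlg.FO.q_dir G.t x1 hθ0 hone hσθ).q_mono hθ0 c2
  have w0 := (DAlg.FO.q_dir G.w x0 hθ0 hone hσθ).q_mono hθ0 c2
  have hc : ∀ i, ‖(Complex.I * (lam i : ℂ))⁻¹‖ ≤ (lam i)⁻¹ := fun i => by
    rw [norm_inv, norm_mul, Complex.norm_I, one_mul, Complex.norm_real, Real.norm_eq_abs,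
      abs_of_pos (hlpos i)]
  have hfin : ∀ i, (lam i)⁻¹ * (σ i) ≤ σ i / lam i := fun i =>
    le_of_eq (by rw [div_eq_mul_inv]; ring)
  have r0 : S.FO θ (fun i => σ i / lam i)
      (fun i => S.wstep (lam i) (r i) (F i) (X i) (h i) (x i) 0) := by
    simp only [S.wstep_zero]
    exact ((((h0.q_kmul (1 / 2)).q_add d1).q_sub t0).q_cmul hθ0 hσ hc).q_mono hθ0 hfin
  have r1 : S.FO θ (fun i => σ i / lam i)
      (fun i => S.wstep (lam i) (r i) (F i) (X i) (h i) (x i) 1) := by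
    simp only [S.wstep_one]
    exact (((h1.q_add (d2.q_add d3)).q_sub (w0.q_add t1)).q_cmul hθ0 hσ hc).q_mono hθ0 hfin
  refine ⟨r0, r1, ?_⟩
  have hs1 : ∀ i, 0 ≤ σ i / lam i := fun i => div_nonneg (hσ i) (hlpos i).le
  refine (DAlg.FO.q_dir G.w r1 hθ0 hone hs1).q_mono hθ0 (fun i => le_of_eq ?_)
  ring

/-- bounds for the states -/
theorem wstB_bd (G : WGeoB S b θ r F X) (hb : ∀ i, 1 ≤ b i) (hθ : ∀ i, b i ≤ θ i)
    (hlam : ∀ i, θ i ≤ lam i) {s : ι → ℝ} (hs : ∀ i, 0 ≤ s i)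
    {h : ι → Fin 3 → P → ℂ} (hh : ∀ c, S.FO θ s (fun i => h i c)) (m : ℕ) :
    S.FO θ (fun i => s i / lam i)
      (fun i => S.wst (lam i) (r i) (F i) (X i) (h i) m 0) ∧
    S.FO θ (fun i => s i / lam i)
      (fun i => S.wst (lam i) (r i) (F i) (X i) (h i) m 1) ∧
    S.FO θ (fun i => s i * (θ i / lam i))
      (fun i => S.dir (r i).w (S.wst (lam i) (r i) (F i) (X i) (h i) m 1)) := by
  have hb0 : ∀ i, 0 < b i := fun i => zero_lt_one.trans_le (hb i)
  have hθpos : ∀ i, 0 < θ i := fun i => (hb0 i).trans_le (hθ i)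
  have hθ0 : ∀ i, 0 ≤ θ i := fun i => (hθpos i).le
  have hlpos : ∀ i, 0 < lam i := fun i => (hθpos i).trans_le (hlam i)
  induction m with
  | zero =>
    have e0 : (fun i => S.wst (lam i) (r i) (F i) (X i) (h i) 0 0) = fun _ _ => 0 := by
      funext i; rw [S.wst_zero]; rfl
    have e1 : (fun i => S.wst (lam i) (r i) (F i) (X i) (h i) 0 1) = fun _ _ => 0 := by
      funext i; rw [S.wst_zero]; rfl
    have e2 : (fun i => S.dir (r i).w (S.wst (lam i) (r i) (F i) (X i) (h i) 0 1)) =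
        fun _ _ => 0 := by
      funext i
      have : S.wst (lam i) (r i) (F i) (X i) (h i) 0 1 = 0 := by rw [S.wst_zero]; rfl
      rw [this]
      funext q
      unfold DAlg.dir
      simp [S.q_D_zero]
    rw [e0, e1, e2]
    exact ⟨DAlg.FO.q_zero, DAlg.FO.q_zero, DAlg.FO.q_zero⟩
  | succ m ih =>
    obtain ⟨i0, i1, i2⟩ := ih
    have c : ∀ i, s i / lam i ≤ s i / θ i := fun i =>
      div_le_div_of_nonneg_left (hs i) (hθpos i) (hlam i)
    have c2 : ∀ i, s i * (θ i / lam i) ≤ s i := fun i => by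
      have : θ i / lam i ≤ 1 := (div_le_one (hlpos i)).2 (hlam i)
      linarith only [mul_nonneg (sub_nonneg.2 this) (sub_nonneg.2 (hs i))]
    have y2 : S.FO θ s (fun i => S.wst (lam i) (r i) (F i) (X i) (h i) m 2) := by
      have e : (fun i => S.wst (lam i) (r i) (F i) (X i) (h i) m 2) =
          fun i q => S.dir (r i).w (S.wst (lam i) (r i) (F i) (X i) (h i) m 1) q
            - 1 / 2 * h i 2 q := by
        funext i q; rw [S.wst_two]
      rw [e]
      exact (i2.q_mono hθ0 c2).q_sub ((hh 2).q_kmul (1 / 2))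
    exact wstepB_bd G hb hθ hlam hs (hh 0) (hh 1) (i0.q_mono hθ0 c) (i1.q_mono hθ0 c) y2

theorem wstB_sm (G : WGeoB S b θ r F X) (hb : ∀ i, 1 ≤ b i) (hθ : ∀ i, b i ≤ θ i)
    (hlam : ∀ i, θ i ≤ lam i) {s : ι → ℝ} (hs : ∀ i, 0 ≤ s i)
    {h : ι → Fin 3 → P → ℂ} (hh : ∀ c, S.FO θ s (fun i => h i c)) (m : ℕ) (i : ι) (c : Fin 3) :
    S.Sm (S.wst (lam i) (r i) (F i) (X i) (h i) m c) := by
  obtain ⟨a0, a1, a2⟩ := wstB_bd G hb hθ hlam hs hh m
  have h2 : S.Sm (S.wst (lam i) (r i) (F i) (X i) (h i) m 2) := by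
    have e : S.wst (lam i) (r i) (F i) (X i) (h i) m 2 =
        fun q => S.dir (r i).w (S.wst (lam i) (r i) (F i) (X i) (h i) m 1) q
          - 1 / 2 * h i 2 q := by
      funext q; rw [S.wst_two]
    rw [e]
    exact S.q_sm_sub' (a2.1 i) (S.q_sm_cmul _ ((hh 2).1 i))
  fin_cases c
  · exact a0.1 i
  · exact a1.1 i
  · exact h2

/-- bounds for the differences of consecutive states -/
theorem wdiffB_bd (G : WGeoB S b θ r F X) (hb : ∀ i, 1 ≤ b i) (hθ : ∀ i, b i ≤ θ i)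
    (hlam : ∀ i, θ i ≤ lam i) {s : ι → ℝ} (hs : ∀ i, 0 ≤ s i)
    {h : ι → Fin 3 → P → ℂ} (hh : ∀ c, S.FO θ s (fun i => h i c)) (m : ℕ) :
    S.FO θ (fun i => s i * (θ i / lam i) ^ m / lam i)
      (fun i q => S.wst (lam i) (r i) (F i) (X i) (h i) m 0 q
        - S.wst (lam i) (r i) (F i) (X i) (h i) (m + 1) 0 q) ∧
    S.FO θ (fun i => s i * (θ i / lam i) ^ m / lam i)
      (fun i q => S.wst (lam i) (r i) (F i) (X i) (h i) m 1 q
        - S.wst (lam i) (r i) (F i) (X i) (h i) (m + 1) 1 q) ∧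
    S.FO θ (fun i => s i * (θ i / lam i) ^ (m + 1))
      (fun i q => S.wst (lam i) (r i) (F i) (X i) (h i) m 2 q
        - S.wst (lam i) (r i) (F i) (X i) (h i) (m + 1) 2 q) := by
  have hb0 : ∀ i, 0 < b i := fun i => zero_lt_one.trans_le (hb i)
  have hθpos : ∀ i, 0 < θ i := fun i => (hb0 i).trans_le (hθ i)
  have hθ0 : ∀ i, 0 ≤ θ i := fun i => (hθpos i).le
  have hlpos : ∀ i, 0 < lam i := fun i => (hθpos i).trans_le (hlam i)
  have hρ : ∀ i, 0 ≤ θ i / lam i := fun i => div_nonneg (hθ0 i) (hlpos i).le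
  induction m with
  | zero =>
    obtain ⟨a0, a1, a2⟩ := wstB_bd G hb hθ hlam hs hh 0
    obtain ⟨b0, b1, b2⟩ := wstB_bd G hb hθ hlam hs hh 1
    have c : ∀ i, s i / lam i ≤
        s i * (θ i / lam i) ^ 0 / lam i := fun i => by
      rw [pow_zero, mul_one]
    have c' : ∀ i, s i * (θ i / lam i) ≤
        s i * (θ i / lam i) ^ (0 + 1) := fun i => by
      rw [zero_add, pow_one]
    refine ⟨(a0.q_sub b0).q_mono hθ0 c, (a1.q_sub b1).q_mono hθ0 c, ?_⟩
    have e : (fun i q => S.wst (lam i) (r i) (F i) (X i) (h i) 0 2 q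
        - S.wst (lam i) (r i) (F i) (X i) (h i) (0 + 1) 2 q) =
        fun i q => S.dir (r i).w (S.wst (lam i) (r i) (F i) (X i) (h i) 0 1) q
          - S.dir (r i).w (S.wst (lam i) (r i) (F i) (X i) (h i) 1 1) q := by
      funext i q
      rw [S.wst_two, S.wst_two]; ring
    rw [e]
    exact (a2.q_sub b2).q_mono hθ0 c'
  | succ m ih =>
    obtain ⟨i0, i1, i2⟩ := ih
    have sx := wstB_sm G hb hθ hlam hs hh m
    have sy := wstB_sm G hb hθ hlam hs hh (m + 1)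
    have sz := wstB_sm G hb hθ hlam hs hh (m + 2)
    have hρ' : ∀ i, 0 ≤ s i * (θ i / lam i) ^ (m + 1) := fun i =>
      mul_nonneg (hs i) (pow_nonneg (hρ i) _)
    have cc : ∀ i, s i * (θ i / lam i) ^ m / lam i ≤
        s i * (θ i / lam i) ^ (m + 1) / θ i := fun i => by
      refine le_of_eq ?_
      rw [pow_succ (θ i / lam i) m]
      generalize (θ i / lam i) ^ m = A
      have := (hlpos i).ne'; have := (hθpos i).ne'
      field_simp
    have key := wstepB_bd (lam := lam)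
      (x := fun i c q => S.wst (lam i) (r i) (F i) (X i) (h i) m c q
        - S.wst (lam i) (r i) (F i) (X i) (h i) (m + 1) c q) (h := fun _ _ _ => 0)
      G hb hθ hlam hρ' DAlg.FO.q_zero DAlg.FO.q_zero
      (i0.q_mono hθ0 cc) (i1.q_mono hθ0 cc) i2
    obtain ⟨k0, k1, k2⟩ := key
    have d := fun i => wstep_sub S (lam i) (r i) (F i) (X i) (h i)
      (S.wst (lam i) (r i) (F i) (X i) (h i) m) (S.wst (lam i) (r i) (F i) (X i) (h i) (m + 1))
      (sx i) (sy i)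
    have f0 : (fun i q => S.wst (lam i) (r i) (F i) (X i) (h i) (m + 1) 0 q
        - S.wst (lam i) (r i) (F i) (X i) (h i) (m + 1 + 1) 0 q) =
        (fun i => S.wstep (lam i) (r i) (F i) (X i) (fun _ _ => 0)
          (fun c q => S.wst (lam i) (r i) (F i) (X i) (h i) m c q
            - S.wst (lam i) (r i) (F i) (X i) (h i) (m + 1) c q) 0) := by
      funext i q; exact (d i).1 q
    have f1 : (fun i q => S.wst (lam i) (r i) (F i) (X i) (h i) (m + 1) 1 q
        - S.wst (lam i) (r i) (F i) (X i) (h i) (m + 1 + 1) 1 q) =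
        (fun i => S.wstep (lam i) (r i) (F i) (X i) (fun _ _ => 0)
          (fun c q => S.wst (lam i) (r i) (F i) (X i) (h i) m c q
            - S.wst (lam i) (r i) (F i) (X i) (h i) (m + 1) c q) 1) := by
      funext i q; exact (d i).2 q
    refine ⟨by rw [f0]; exact k0, by rw [f1]; exact k1, ?_⟩
    have f2 : (fun i q => S.wst (lam i) (r i) (F i) (X i) (h i) (m + 1) 2 q
        - S.wst (lam i) (r i) (F i) (X i) (h i) (m + 1 + 1) 2 q) =
        (fun i => S.dir (r i).w (S.wstep (lam i) (r i) (F i) (X i) (fun _ _ => 0)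
          (fun c q => S.wst (lam i) (r i) (F i) (X i) (h i) m c q
            - S.wst (lam i) (r i) (F i) (X i) (h i) (m + 1) c q) 1)) := by
      funext i q
      have e : (fun q => S.wst (lam i) (r i) (F i) (X i) (h i) (m + 1) 1 q
        - S.wst (lam i) (r i) (F i) (X i) (h i) (m + 1 + 1) 1 q) =
        S.wstep (lam i) (r i) (F i) (X i) (fun _ _ => 0)
          (fun c q => S.wst (lam i) (r i) (F i) (X i) (h i) m c q
            - S.wst (lam i) (r i) (F i) (X i) (h i) (m + 1) c q) 1 := congrFun f1 i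
      rw [← e, S.q_dir_sub' (r i).w (sy i 1) (sz i 1), S.wst_two, S.wst_two]
      ring
    rw [f2]
    refine k2.q_mono hθ0 (fun i => le_of_eq ?_)
    rw [pow_succ (θ i / lam i) (m + 1)]
    ring

end

/-- **(W2')** -/
theorem DAlg.wkbB : S.WkbB := by
  intro ι θ b lam s r F X m h hb hθ hlam hs gt gw gN gP1 gP2 gtt gwt gtw hh
  have G : WGeoB S b θ r F X := ⟨gt, gw, gN, gP1, gP2, gtt, gwt, gtw⟩
  have hb0 : ∀ i, 0 < b i := fun i => zero_lt_one.trans_le (hb i)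
  have hθpos : ∀ i, 0 < θ i := fun i => (hb0 i).trans_le (hθ i)
  have hθ0 : ∀ i, 0 ≤ θ i := fun i => (hθpos i).le
  have hlpos : ∀ i, 0 < lam i := fun i => (hθpos i).trans_le (hlam i)
  have hρ : ∀ i, 0 ≤ θ i / lam i := fun i => div_nonneg (hθ0 i) (hlpos i).le
  have hone : ∀ i : ι, (0 : ℝ) ≤ (fun _ => 1 : ι → ℝ) i := fun i => zero_le_one
  have hb1 : ∀ i : ι, (0 : ℝ) ≤ 1 / b i := fun i => by have := hb0 i; positivity
  obtain ⟨i0, i1, i2⟩ := wstB_bd G hb hθ hlam hs hh m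
  have c : ∀ i, s i / lam i ≤ s i / θ i := fun i =>
    div_le_div_of_nonneg_left (hs i) (hθpos i) (hlam i)
  have c2 : ∀ i, s i * (θ i / lam i) ≤ s i := fun i => by
    have : θ i / lam i ≤ 1 := (div_le_one (hlpos i)).2 (hlam i)
    linarith only [mul_nonneg (sub_nonneg.2 this) (sub_nonneg.2 (hs i))]
  have y2 : S.FO θ s (fun i => S.wst (lam i) (r i) (F i) (X i) (h i) m 2) := by
    have e : (fun i => S.wst (lam i) (r i) (F i) (X i) (h i) m 2) =
        fun i q => S.dir (r i).w (S.wst (lam i) (r i) (F i) (X i) (h i) m 1) q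
          - 1 / 2 * h i 2 q := by
      funext i q; rw [S.wst_two]
    rw [e]
    exact (i2.q_mono hθ0 c2).q_sub ((hh 2).q_kmul (1 / 2))
  refine ⟨fun a => vecB_bd G hb hθ hs (i0.q_mono hθ0 c) (i1.q_mono hθ0 c) y2 a,
    fun a => ?_, ?_⟩
  · have e : (fun i => fun q => S.wkb (lam i) (r i) (F i) (X i) m (h i) a q
        + h i 2 q / 2 * (F i).N a q) = fun i q =>
        (S.wst (lam i) (r i) (F i) (X i) (h i) m 0 q * (F i).P1 a q +
        S.wst (lam i) (r i) (F i) (X i) (h i) m 1 q * (F i).P2 a q) +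
        S.dir (r i).w (S.wst (lam i) (r i) (F i) (X i) (h i) m 1) q * (F i).N a q := by
      funext i q
      simp only [DAlg.wkb, Frm.vec]
      rw [S.wst_two]; ring
    rw [e]
    have hsl : ∀ i, 0 ≤ s i / lam i := fun i => div_nonneg (hs i) (hlpos i).le
    have hsρ : ∀ i, 0 ≤ s i * (θ i / lam i) := fun i => mul_nonneg (hs i) (hρ i)
    have l1 : ∀ i, s i / lam i * 1 ≤ s i * (θ i / (b i * lam i)) := fun i => by
      have h1 : s i * (θ i / (b i * lam i)) = (s i / lam i) * (θ i / b i) := by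
        have := (hb0 i).ne'; have := (hlpos i).ne'
        field_simp
      rw [h1]
      exact mul_le_mul_of_nonneg_left ((one_le_div (hb0 i)).2 (hθ i)) (hsl i)
    have l2 : ∀ i, s i * (θ i / lam i) * (1 / b i) ≤ s i * (θ i / (b i * lam i)) :=
      fun i => le_of_eq (by
        have := (hb0 i).ne'; have := (hlpos i).ne'
        field_simp)
    exact (((i0.q_mul (gP1 a) hθ0 hsl hone).q_mono hθ0 l1).q_add
      ((i1.q_mul (gP2 a) hθ0 hsl hone).q_mono hθ0 l1)).q_add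
      ((i2.q_mul (gN a) hθ0 hsρ hb1).q_mono hθ0 l2)
  · obtain ⟨d0, d1, d2⟩ := wdiffB_bd G hb hθ hlam hs hh m
    have hc : ∀ i, ‖(Complex.I * (lam i : ℂ))‖ ≤ lam i := fun i => by
      rw [norm_mul, Complex.norm_I, one_mul, Complex.norm_real, Real.norm_eq_abs,
        abs_of_pos (hlpos i)]
    have hd : ∀ i, 0 ≤ s i * (θ i / lam i) ^ m / lam i := fun i =>
      div_nonneg (mul_nonneg (hs i) (pow_nonneg (hρ i) _)) (hlpos i).le
    have l3 : ∀ i, lam i * (s i * (θ i / lam i) ^ m / lam i) ≤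
        s i * (θ i / lam i) ^ m := fun i => by
      refine le_of_eq ?_
      have := (hlpos i).ne'
      field_simp
    intro c
    fin_cases c
    · have e : (fun i => S.wres (lam i) (r i) (F i) (X i) m (h i) 0) = fun i q =>
          2 * ((Complex.I * (lam i : ℂ)) * (S.wst (lam i) (r i) (F i) (X i) (h i) m 0 q
            - S.wst (lam i) (r i) (F i) (X i) (h i) (m + 1) 0 q)) := by
        funext i q
        simp only [DAlg.wres, Matrix.cons_val_zero]
        ring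
      show S.FO _ _ (fun i => S.wres (lam i) (r i) (F i) (X i) m (h i) 0)
      rw [e]
      exact ((d0.q_cmul hθ0 hd hc).q_mono hθ0 l3).q_kmul 2
    · have e : (fun i => S.wres (lam i) (r i) (F i) (X i) m (h i) 1) = fun i q =>
          ((Complex.I * (lam i : ℂ)) * (S.wst (lam i) (r i) (F i) (X i) (h i) m 1 q
            - S.wst (lam i) (r i) (F i) (X i) (h i) (m + 1) 1 q)) := by
        funext i q
        simp only [DAlg.wres, Matrix.cons_val_one, Matrix.cons_val_zero]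
      show S.FO _ _ (fun i => S.wres (lam i) (r i) (F i) (X i) m (h i) 1)
      rw [e]
      exact (d1.q_cmul hθ0 hd hc).q_mono hθ0 l3
    · have e : (fun i => S.wres (lam i) (r i) (F i) (X i) m (h i) 2) = fun i q => 0 := by
        funext i q
        simp only [DAlg.wres, Matrix.cons_val]
      show S.FO _ _ (fun i => S.wres (lam i) (r i) (F i) (X i) m (h i) 2)
      rw [e]
      exact DAlg.FO.q_zero

end Vale.Agent.P205.F
end
end

section

/-!
The perturbation theorem `T1U` for compact surfaces: assembly (the blocks `Iter`, `StageF`,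
`Pieces` are hypotheses here), the version for a fixed metric, and the version for sequences.
-/

set_option linter.unusedSectionVars false

noncomputable section

namespace Vale.Agent.P205.F

open scoped Manifold ContDiff

universe u

section Abstract

variable {P : Type u} {κ : Type} [Fintype κ] {S : DAlg P κ}

/-- `T1U` for the target metric `G` -/
def DAlg.T1G (S : DAlg P κ) (G : κ → κ → P → ℂ) : Prop :=
    ∃ κ1 : ℝ, 0 < κ1 ∧ ∀ (ι : Type u) (Lam δ : ι → ℝ) (f : ι → Fin 4 → P → ℂ) (c0 : ℝ),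
      0 < c0 → (∀ i, 1 ≤ Lam i) → (∀ i, 0 < δ i) → (∀ i, δ i ≤ 1) →
      (∀ i a, S.Sm (f i a)) → (∀ i a, Rl (f i a)) →
      (∀ a, S.FO Lam (fun _ => 1) (fun i => f i a)) →
      (∀ j a, S.FO Lam (fun _ => 1) (fun i => S.D j (f i a))) →
      (∀ i p, ∃ j1 j2 j k, c0 * Lam i ^ 2 ≤
        (gram3 (S.Dv j1 (f i)) (S.Dv j2 (f i)) (S.Dv j (S.Dv k (f i))) p).re) →
      (∀ i j k p, ‖G j k p - S.met (f i) j k p - δ i * G j k p‖ ≤ κ1 * δ i) →
      (∀ j k, S.FO Lam δ (fun i p => G j k p - S.met (f i) j k p)) →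
      ∃ δ0 : ℝ, 0 < δ0 ∧ ∀ i, δ i ≤ δ0 →
        ∃ F : Fin 4 → P → ℂ, (∀ a, S.Sm (F a)) ∧ (∀ a, Rl (F a)) ∧
          ∀ j k p, S.met F j k p = G j k p

/-- boxes exist for all precisions -/
def DAlg.HasBoxes (S : DAlg P κ) (G : κ → κ → P → ℂ) : Prop :=
  ∀ κ0 : ℝ, 0 < κ0 → ∃ n : ℕ, Nonempty (Boxes S (Fin n) G κ0)

theorem DAlg.T1U.t1g (h : S.T1U) {G : κ → κ → P → ℂ} (h1 : S.IsT G) (h2 : ∀ j k, Rl (G j k))
    (h3 : ∀ j k, S.Sm (G j k)) (h4 : S.HasBoxes G) : S.T1G G := by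
  obtain ⟨κ0, hκ0, h⟩ := h
  obtain ⟨n, ⟨B⟩⟩ := h4 κ0 hκ0
  exact h (Fin n) G h1 h2 h3 B

/-- the version for sequences: one exact map -/
def DAlg.T1S (S : DAlg P κ) (G : κ → κ → P → ℂ) : Prop :=
    ∃ κ1 : ℝ, 0 < κ1 ∧ ∀ (Lam δ : ℕ → ℝ) (f : ℕ → Fin 4 → P → ℂ) (c0 : ℝ),
      0 < c0 → (∀ i, 1 ≤ Lam i) → (∀ i, 0 < δ i) → (∀ i, δ i ≤ 1) →
      Filter.Tendsto δ Filter.atTop (nhds 0) →
      (∀ i a, S.Sm (f i a)) → (∀ i a, Rl (f i a)) →
      (∀ a, S.FO Lam (fun _ => 1) (fun i => f i a)) →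
      (∀ j a, S.FO Lam (fun _ => 1) (fun i => S.D j (f i a))) →
      (∀ i p, ∃ j1 j2 j k, c0 * Lam i ^ 2 ≤
        (gram3 (S.Dv j1 (f i)) (S.Dv j2 (f i)) (S.Dv j (S.Dv k (f i))) p).re) →
      (∀ i j k p, ‖G j k p - S.met (f i) j k p - δ i * G j k p‖ ≤ κ1 * δ i) →
      (∀ j k, S.FO Lam δ (fun i p => G j k p - S.met (f i) j k p)) →
        ∃ F : Fin 4 → P → ℂ, (∀ a, S.Sm (F a)) ∧ (∀ a, Rl (F a)) ∧
          ∀ j k p, S.met F j k p = G j k p

theorem DAlg.T1G.t1s {G : κ → κ → P → ℂ} (h : S.T1G G) : S.T1S G := by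
  obtain ⟨κ1, hκ1, h⟩ := h
  refine ⟨κ1, hκ1, fun Lam δ f c0 hc hL hδ hδ1 hlim hs hr h1 h2 h3 h4 h5 => ?_⟩
  obtain ⟨δ0, hδ0, h6⟩ := h (ULift.{u} ℕ) (fun i => Lam i.down) (fun i => δ i.down)
    (fun i => f i.down) c0 hc (fun i => hL _) (fun i => hδ _) (fun i => hδ1 _)
    (fun i => hs _) (fun i => hr _) (fun a => DAlg.FO.reindex ULift.down (h1 a))
    (fun j a => DAlg.FO.reindex ULift.down (h2 j a)) (fun i => h3 _) (fun i => h4 _)
    (fun j k => DAlg.FO.reindex ULift.down (h5 j k))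
  obtain ⟨i, hi⟩ := (hlim.eventually_le_const hδ0).exists
  exact h6 ⟨i⟩ hi

/-- **(ST)** the stage -/
theorem DAlg.stageF_all (S : DAlg P κ) (Q : Type) [Fintype Q] : S.StageF Q :=
  DAlg.stageF (DAlg.prep S Q)
    (DAlg.absU (DAlg.kerAlg S (DAlg.wkbAlg S)) (DAlg.kerB_of S (DAlg.wkbB S))
      (DAlg.kerLin S (DAlg.wkbLin S)))
    (DAlg.quadAlg S Q) (DAlg.kerB_of S (DAlg.wkbB S)) (DAlg.wkbB S)

end Abstract

variable {E : Type} [NormedAddCommGroup E] [NormedSpace ℝ E] [FiniteDimensional ℝ E]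
variable {M : Type u} [TopologicalSpace M] [T2Space M] [CompactSpace M] [ChartedSpace E M]
  [IsManifold 𝓘(ℝ, E) ∞ M]
variable {A : Type} [Fintype A]

/-- `T1U` for the algebra of a compact manifold from the blocks -/
theorem Cov.t1u_of (K : Cov E M) (b : Module.Basis A ℝ E) (hI : (K.dalg b).Iter)
    (hP : (K.dalg b).Pieces) : (K.dalg b).T1U :=
  hI (fun Q _ => DAlg.stageF_all (K.dalg b) Q) hP (K.complete b) (K.smoothing b)

/-- the exact smooth isometric map from a sequence of approximate maps -/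
theorem Cov.t1s_of [Nonempty M] (K : Cov E M) (b : Module.Basis (Fin 2) ℝ E)
    (g : Bundle.ContMDiffRiemannianMetric 𝓘(ℝ, E) ∞ E (fun x : M => TangentSpace 𝓘(ℝ, E) x))
    (h : (K.dalg b).T1U) : (K.dalg b).T1S (K.G b g) :=
  (h.t1g (K.G_isT b g) (K.G_rl b g) (K.G_contMDiff b g)
    (fun _ h0 => K.exists_boxes b g h0)).t1s

/-- an exact map gives a smooth isometric map into `ℝ⁴` -/
theorem Cov.isom_of_met (K : Cov E M) (b : Module.Basis (Fin 2) ℝ E)
    (g : Bundle.ContMDiffRiemannianMetric 𝓘(ℝ, E) ∞ E (fun x : M => TangentSpace 𝓘(ℝ, E) x))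
    (h : ∃ F : Fin 4 → M → ℂ, (∀ a, (K.dalg b).Sm (F a)) ∧ (∀ a, Rl (F a)) ∧
      ∀ j k p, (K.dalg b).met F j k p = K.G b g j k p) :
    ∃ X : Fin 4 → M → ℝ, (∀ i, ContMDiff 𝓘(ℝ, E) 𝓘(ℝ) ∞ (X i)) ∧
      ∀ (m : M) (v w : TangentSpace 𝓘(ℝ, E) m),
        ∑ i, mvfderiv 𝓘(ℝ, E) (X i) m v * mvfderiv 𝓘(ℝ, E) (X i) m w = g.inner m v w := by
  obtain ⟨F, h1, h2, h3⟩ := h
  exact K.exists_real b g F h1 h2 h3

end Vale.Agent.P205.F
end
end

section

/-!
Facts on the cover needed for the data of the scheme T1W (P205).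
-/

noncomputable section

set_option linter.unusedSectionVars false

open scoped Manifold ContDiff Topology
open Set Filter

namespace Vale.Agent.P205.TW

open Vale.Agent.P205.F

universe u

section abs

variable {P : Type u} {κ : Type} [Fintype κ] {I : Type} {S : DAlg P κ} {L : Line S I}

/-- the involution of the cover -/
theorem isInv_cover : IsInv L.cover L.sg where
  inv := Line.sg_sg
  sm _ hu := Line.sm_sg hu
  D j _ hu p := Line.D_sg j hu p

/-- positive functions on the cover are bounded below -/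
theorem posS_cover (h : PosS S) : PosS L.cover := by
  intro u hu hpos
  obtain ⟨C, hC⟩ := L.cover.bdd hu.1
  set v : P → ℂ := fun p => L.ev u p * L.ev u p - ∑ k, L.od u k p * L.od u k p with hv
  have hval : ∀ x : L.Pt, v (L.pi x) = u x * u (L.sg x) := by
    intro x
    simp only [hv]
    rw [Line.ev_pi]
    simp_rw [Line.od_pi]
    have h1 := Line.n_unit x
    rw [Fin.sum_univ_four] at h1 ⊢
    linear_combination (-((u x - u (L.sg x)) / 2) ^ 2) * h1
  have hsm : S.Sm v := by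
    have h1 : S.Sm (fun p => ∑ k, L.od u k p * L.od u k p) :=
      Line.sm_sum3 S fun k => S.sm_mul (hu.1.2 k) (hu.1.2 k)
    have h2 : v = L.ev u * L.ev u + fun p => (-1 : ℂ) * ∑ k, L.od u k p * L.od u k p := by
      funext p; simp only [hv, Pi.add_apply, Pi.mul_apply]; ring
    rw [h2]
    exact S.sm_add (S.sm_mul hu.1.1 hu.1.1) (Line.sm_cmul S _ h1)
  have hre : ∀ x : L.Pt, u x = ((u x).re : ℂ) := fun x => Complex.ext rfl (hu.2 x)
  have hval2 : ∀ x : L.Pt, v (L.pi x) = (((u x).re * (u (L.sg x)).re : ℝ) : ℂ) := by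
    intro x
    rw [hval, hre x, hre (L.sg x)]
    push_cast
    simp
  obtain ⟨c, hc, hc2⟩ := h v ⟨hsm, fun p => by
    have := hval2 (L.s0 p)
    rw [Line.pi_s0] at this
    rw [this]; exact Complex.ofReal_im _⟩ (fun p => by
    have := hval2 (L.s0 p)
    rw [Line.pi_s0] at this
    rw [this, Complex.ofReal_re]
    exact mul_pos (hpos _) (hpos _))
  refine ⟨c / (|C| + 1), by positivity, fun x => ?_⟩
  have h1 := hc2 (L.pi x)
  rw [hval2, Complex.ofReal_re] at h1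
  have h2 : (u (L.sg x)).re ≤ |C| + 1 :=
    ((Complex.re_le_norm _).trans (hC _)).trans ((le_abs_self C).trans (by linarith))
  rw [div_le_iff₀ (by positivity)]
  calc c ≤ (u x).re * (u (L.sg x)).re := h1
    _ ≤ (u x).re * (|C| + 1) := mul_le_mul_of_nonneg_left h2 (hpos x).le

/-- lift of a ray -/
def liftRay (L : Line S I) (r : Ray P κ) : Ray L.Pt κ where
  Ψ x := r.Ψ (L.pi x)
  t j x := r.t j (L.pi x)
  w j x := r.w j (L.pi x)
  β j x := r.β j (L.pi x)
  K := L.pi ⁻¹' r.K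

lemma dir_lift {c : κ → P → ℂ} {u : L.Pt → ℂ} (hu : L.cover.Sm u) {i : I} {x : L.Pt}
    (hi : L.pi x ∈ L.V i) {s : ℂ} (hs : ∀ k, L.n k x = s * L.m i k (L.pi x)) :
    L.cover.dir (fun j x => c j (L.pi x)) u x =
      S.dir c (L.ev u) (L.pi x) + s * S.dir c (L.be u i) (L.pi x) := by
  unfold DAlg.dir
  rw [Finset.mul_sum, ← Finset.sum_add_distrib]
  refine Finset.sum_congr rfl fun j _ => ?_
  rw [Line.cover_D, Line.Dc_be hu hi hs]; ring

lemma dir_pi (c : κ → P → ℂ) (u : P → ℂ) (x : L.Pt) :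
    L.cover.dir (fun j x => c j (L.pi x)) (fun x => u (L.pi x)) x = S.dir c u (L.pi x) := by
  unfold DAlg.dir
  refine Finset.sum_congr rfl fun j _ => ?_
  rw [Line.D_pi]

theorem liftRay_ok {r : Ray P κ} (h : r.Ok S) : (liftRay L r).Ok L.cover where
  smΨ := Line.sm_pi_iff.2 h.smΨ
  smt j := Line.sm_pi_iff.2 (h.smt j)
  smw j := Line.sm_pi_iff.2 (h.smw j)
  smβ j := Line.sm_pi_iff.2 (h.smβ j)
  rΨ x := h.rΨ _
  rt j x := h.rt j _
  rw' j x := h.rw' j _
  rβ j x := h.rβ j _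
  tΨ x hx := (dir_pi _ _ _).trans (h.tΨ _ hx)
  wΨ x hx := (dir_pi _ _ _).trans (h.wΨ _ hx)
  dec := by
    intro u hu j x hx
    obtain ⟨i, hi⟩ := L.cov (L.pi x)
    obtain ⟨s, -, hs⟩ := Line.sheet hi
    have h1 := h.dec (L.ev u) hu.1 j (L.pi x) hx
    have h2 := h.dec (L.be u i) (Line.sm_be hu i) j (L.pi x) hx
    have e1 : L.cover.dir (liftRay L r).t u x =
        S.dir r.t (L.ev u) (L.pi x) + s * S.dir r.t (L.be u i) (L.pi x) := dir_lift hu hi hs
    have e2 : L.cover.dir (liftRay L r).w u x =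
        S.dir r.w (L.ev u) (L.pi x) + s * S.dir r.w (L.be u i) (L.pi x) := dir_lift hu hi hs
    have e3 : L.cover.D j (liftRay L r).Ψ x = S.D j r.Ψ (L.pi x) := by
      show L.cover.D j (fun x => r.Ψ (L.pi x)) x = _
      rw [Line.D_pi]
    rw [e1, e2, e3, Line.cover_D, Line.Dc_be hu hi hs, h1, h2]
    show _ = _ + r.β j (L.pi x) * _
    ring

end abs

section man

variable {E : Type} [NormedAddCommGroup E] [NormedSpace ℝ E]
  {M : Type u} [TopologicalSpace M] [ChartedSpace E M] (K : Cov E M)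
  (b : Module.Basis (Fin 2) ℝ E) [IsManifold 𝓘(ℝ, E) ∞ M] (H : ImmN E M)

/-- over `V i` all derivations are combinations of the derivations of the chart `i` -/
lemma exists_comb {i : Fin K.n} {p : M} (hp : p ∈ K.V i) (j : Fin K.n × Fin 2) :
    ∃ c0 c1 : ℝ, (∀ u : M → ℂ, ContMDiff 𝓘(ℝ, E) 𝓘(ℝ, ℂ) ∞ u →
      K.Dv b j u p = c0 * K.Dv b (i, 0) u p + c1 * K.Dv b (i, 1) u p) ∧
      (∀ k, K.Dv b j H.F p k = c0 * raw K b H i 0 p k + c1 * raw K b H i 1 p k) := by
  have : FiniteDimensional ℝ E := Module.Basis.finiteDimensional_of_finite b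
  obtain ⟨c, hc⟩ := exists_coeff K b hp j
  let x : Fin K.n × Fin 2 → E := fun j => K.X b j p
  have h2 : x j = c 0 • x (i, 0) + c 1 • x (i, 1) := hc.trans (Fin.sum_univ_two _)
  refine ⟨c 0, c 1, fun u hu => ?_, fun k => ?_⟩
  · let G : E →L[ℝ] ℂ := mfderiv 𝓘(ℝ, E) 𝓘(ℝ, ℂ) u p
    have h1 : ∀ j, K.Dv b j u p = G (x j) := fun j => K.Dv_eq b hu j p
    rw [h1, h1, h1, h2, map_add, map_smul, map_smul, Complex.real_smul, Complex.real_smul]
  · let G : E →L[ℝ] EuclideanSpace ℝ (Fin 4) :=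
      mfderiv 𝓘(ℝ, E) 𝓘(ℝ, EuclideanSpace ℝ (Fin 4)) H.F p
    have h1 : ∀ j, K.Dv b j H.F p = G (x j) := fun j => K.Dv_eq b H.smF j p
    have h3 : K.Dv b j H.F p = c 0 • K.Dv b (i, 0) H.F p + c 1 • K.Dv b (i, 1) H.F p := by
      rw [h1, h1, h1, h2, map_add, map_smul, map_smul]
    rw [h3, ← Dv_raw K b H hp 0, ← Dv_raw K b H hp 1]
    simp

variable [CompactSpace M]

/-- positive functions on `M` are bounded below -/
theorem posS_dalg : PosS (K.dalg b) := by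
  intro u hu hpos
  have h1 : ContMDiff 𝓘(ℝ, E) 𝓘(ℝ, ℂ) ∞ u := (K.dalg_Sm b).1 hu.1
  have h2 : Continuous fun p => (u p).re := Complex.continuous_re.comp h1.continuous
  rcases isEmpty_or_nonempty M with he | he
  · exact ⟨1, one_pos, fun p => (he.false p).elim⟩
  · obtain ⟨q, -, hq⟩ := isCompact_univ.exists_isMinOn univ_nonempty h2.continuousOn
    exact ⟨(u q).re, hpos q, fun p => hq (mem_univ p)⟩

/-- components of the immersion -/
def ImmN.Fc (k : Fin 4) (p : M) : ℂ := ((H.F p k : ℝ) : ℂ)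

/-- components of the normal field -/
def ImmN.xc (k : Fin 4) (p : M) : ℂ := ((H.ξ p k : ℝ) : ℂ)

lemma sm_Fc (k : Fin 4) : (K.dalg b).Sm (H.Fc k) :=
  (K.dalg_Sm b).2 (Complex.ofRealCLM.contDiff.comp_contMDiff
    ((EuclideanSpace.proj k : EuclideanSpace ℝ (Fin 4) →L[ℝ] ℝ).contDiff.comp_contMDiff H.smF))

lemma sm_xc (k : Fin 4) : (K.dalg b).Sm (H.xc k) :=
  (K.dalg_Sm b).2 (Complex.ofRealCLM.contDiff.comp_contMDiff
    ((EuclideanSpace.proj k : EuclideanSpace ℝ (Fin 4) →L[ℝ] ℝ).contDiff.comp_contMDiff H.smξ))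

lemma D_Fc (j : Fin K.n × Fin 2) (k : Fin 4) (p : M) :
    (K.dalg b).D j (H.Fc k) p = ((K.Dv b j H.F p k : ℝ) : ℂ) := by
  rw [Cov.dalg_D]
  exact congrFun (K.Dv_clm b (Complex.ofRealCLM.comp
    (EuclideanSpace.proj k : EuclideanSpace ℝ (Fin 4) →L[ℝ] ℝ)) H.smF j) p

/-- two complex coefficients annihilating the coordinate derivatives of `F` vanish -/
lemma coeff_zero {i : Fin K.n} {p : M} (hp : p ∈ K.V i) {A B : ℂ}
    (h : ∀ k, A * ((raw K b H i 0 p k : ℝ) : ℂ) + B * ((raw K b H i 1 p k : ℝ) : ℂ) = 0) :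
    A = 0 ∧ B = 0 := by
  have hli := raw_indep K b H (K.V_sub i hp)
  rw [LinearIndependent.pair_iff] at hli
  have h1 := hli A.re B.re (by
    funext k
    have := congrArg Complex.re (h k)
    simpa using this)
  have h2 := hli A.im B.im (by
    funext k
    have := congrArg Complex.im (h k)
    simpa using this)
  exact ⟨Complex.ext h1.1 h2.1, Complex.ext h1.2 h2.2⟩

/-- linear relations between the derivatives of the immersion hold for all functions -/
theorem imm_dalg (p : M) (c : Fin K.n × Fin 2 → ℂ)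
    (h : ∀ a, ∑ j, c j * (K.dalg b).D j (H.Fc a) p = 0) (u : M → ℂ) (hu : (K.dalg b).Sm u) :
    ∑ j, c j * (K.dalg b).D j u p = 0 := by
  obtain ⟨i, hi⟩ := K.cov p
  choose c0 c1 hc hF using fun j => exists_comb K b H hi j
  have hu' : ∀ j, (K.dalg b).D j u p = c0 j * (K.dalg b).D (i, 0) u p
      + c1 j * (K.dalg b).D (i, 1) u p := fun j => hc j u ((K.dalg_Sm b).1 hu)
  have hz : (∑ j, c j * (c0 j : ℂ)) = 0 ∧ (∑ j, c j * (c1 j : ℂ)) = 0 := by
    apply coeff_zero K b H hi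
    intro k
    rw [← h k, Finset.sum_mul, Finset.sum_mul, ← Finset.sum_add_distrib]
    refine Finset.sum_congr rfl fun j _ => ?_
    rw [D_Fc, hF j k]; push_cast; ring
  rw [Finset.sum_congr rfl fun j _ => congrArg (c j * ·) (hu' j)]
  have : ∀ A B : ℂ, ∑ j, c j * (c0 j * A + c1 j * B) =
      (∑ j, c j * (c0 j : ℂ)) * A + (∑ j, c j * (c1 j : ℂ)) * B := by
    intro A B
    rw [Finset.sum_mul, Finset.sum_mul, ← Finset.sum_add_distrib]
    exact Finset.sum_congr rfl fun j _ => by ring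
  refine (this _ _).trans ?_
  rw [hz.1, hz.2]; ring

/-- the same on the cover: two derivations span at every point -/
theorem comb_cover {i : Fin K.n} {x : (lineM K b H).Pt} (hx : (lineM K b H).pi x ∈ K.V i)
    (j : Fin K.n × Fin 2) :
    ∃ c0 c1 : ℝ, ∀ u, (lineM K b H).cover.Sm u → (lineM K b H).cover.D j u x =
      c0 * (lineM K b H).cover.D (i, 0) u x + c1 * (lineM K b H).cover.D (i, 1) u x := by
  obtain ⟨c0, c1, hc, -⟩ := exists_comb K b H hx j
  refine ⟨c0, c1, fun u hu => ?_⟩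
  obtain ⟨s, -, hs⟩ := Line.sheet (L := lineM K b H) (i := i) hx
  have h1 := hc _ ((K.dalg_Sm b).1 hu.1)
  have h2 := hc _ ((K.dalg_Sm b).1 (Line.sm_be hu i))
  rw [Line.cover_D, Line.cover_D, Line.cover_D, Line.Dc_be hu hx hs, Line.Dc_be hu hx hs,
    Line.Dc_be hu hx hs]
  simp only [Cov.dalg_D]
  rw [h1, h2]; ring

theorem dim2_cover : Dim2 (lineM K b H).cover := by
  intro x
  obtain ⟨i, hi⟩ := K.cov ((lineM K b H).pi x)
  choose c0 c1 hc using fun j => comb_cover K b H hi j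
  refine ⟨c0, c1, fun u => RD (lineM K b H).cover (i, 0) u x,
    fun u => RD (lineM K b H).cover (i, 1) u x, fun j u hu => ?_⟩
  have h1 := hc j _ hu
  simp only [RD]
  rw [h1]
  simp

/-- the immersion on the cover -/
def XC (a : Fin 4) (x : (lineM K b H).Pt) : ℂ := H.Fc a ((lineM K b H).pi x)

/-- the even normal field on the cover -/
def q1C (a : Fin 4) (x : (lineM K b H).Pt) : ℂ := H.xc a ((lineM K b H).pi x)

/-- the odd normal field on the cover -/
def q2C (a : Fin 4) (x : (lineM K b H).Pt) : ℂ := (lineM K b H).n a x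

theorem rsm_XC (a : Fin 4) : RSm (lineM K b H).cover (XC K b H a) :=
  ⟨Line.sm_pi_iff.2 (sm_Fc K b H a), fun _ => Complex.ofReal_im _⟩

theorem rsm_q1C (a : Fin 4) : RSm (lineM K b H).cover (q1C K b H a) :=
  ⟨Line.sm_pi_iff.2 (sm_xc K b H a), fun _ => Complex.ofReal_im _⟩

theorem rsm_q2C (a : Fin 4) : RSm (lineM K b H).cover (q2C K b H a) :=
  ⟨Line.sm_n a, Line.n_real a⟩

theorem ev_XC (a : Fin 4) : Evn (lineM K b H).sg (XC K b H a) := fun _ => rfl

theorem ev_q1C (a : Fin 4) : Evn (lineM K b H).sg (q1C K b H a) := fun _ => rfl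

theorem od_q2C (a : Fin 4) : Odd' (lineM K b H).sg (q2C K b H a) := fun x => Line.n_sg a x

lemma D_XC (j : Fin K.n × Fin 2) (a : Fin 4) (x : (lineM K b H).Pt) :
    (lineM K b H).cover.D j (XC K b H a) x =
      ((K.Dv b j H.F ((lineM K b H).pi x) a : ℝ) : ℂ) := by
  show (lineM K b H).cover.D j (fun x => H.Fc a ((lineM K b H).pi x)) x = _
  rw [Line.D_pi]
  exact D_Fc K b H j a _

lemma dot_ofReal {P : Type*} (f g : Fin 4 → P → ℂ) (x : P) (a c : Fin 4 → ℝ)
    (hf : ∀ k, f k x = ((a k : ℝ) : ℂ)) (hg : ∀ k, g k x = ((c k : ℝ) : ℂ)) :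
    dot f g x = ((dt4 a c : ℝ) : ℂ) := by
  unfold dot dt4
  push_cast
  exact Finset.sum_congr rfl fun k _ => by rw [hf, hg]

/-- the normal frame on the cover -/
theorem frame_cover : CNFr (lineM K b H).cover (XC K b H) (q1C K b H) (q2C K b H) where
  s1 a := (rsm_q1C K b H a).1
  s2 a := (rsm_q2C K b H a).1
  r1 a := (rsm_q1C K b H a).2
  r2 a := (rsm_q2C K b H a).2
  n11 x := by
    rw [dot_ofReal _ _ x (H.xi ((lineM K b H).pi x)) (H.xi ((lineM K b H).pi x))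
      (fun _ => rfl) (fun _ => rfl), xi_unit]; simp
  n22 x := by
    rw [dot_ofReal _ _ x x.1.2 x.1.2 (fun _ => rfl) (fun _ => rfl)]
    have h : okM K b H x.1.1 x.1.2 := x.2
    rw [h.1]; simp
  n12 x := by
    rw [dot_ofReal _ _ x (H.xi ((lineM K b H).pi x)) x.1.2 (fun _ => rfl) (fun _ => rfl),
      dt4_comm]
    have h : okM K b H x.1.1 x.1.2 := x.2
    have h2 : dt4 x.1.2 (H.xi ((lineM K b H).pi x)) = 0 := h.2.1
    rw [h2]; simp
  t1 j x := by
    show dot (q1C K b H) (fun k => (lineM K b H).cover.D j (XC K b H k)) x = 0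
    rw [dot_ofReal _ _ x (H.xi ((lineM K b H).pi x))
      (fun k => K.Dv b j H.F ((lineM K b H).pi x) k) (fun _ => rfl) (fun k => D_XC K b H j k x)]
    obtain ⟨i, hi⟩ := K.cov ((lineM K b H).pi x)
    obtain ⟨c, hc⟩ := Dv_comb K b H hi j
    have h1 : (fun k => K.Dv b j H.F ((lineM K b H).pi x) k) =
        fun k => c 0 * raw K b H i 0 ((lineM K b H).pi x) k
          + c 1 * raw K b H i 1 ((lineM K b H).pi x) k := funext hc
    rw [h1]
    have e0 := xi_raw K b H (K.V_sub i hi) 0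
    have e1 := xi_raw K b H (K.V_sub i hi) 1
    have h2 : dt4 (H.xi ((lineM K b H).pi x))
        (fun k => c 0 * raw K b H i 0 ((lineM K b H).pi x) k
          + c 1 * raw K b H i 1 ((lineM K b H).pi x) k) =
        c 0 * dt4 (H.xi ((lineM K b H).pi x)) (raw K b H i 0 ((lineM K b H).pi x)) +
        c 1 * dt4 (H.xi ((lineM K b H).pi x)) (raw K b H i 1 ((lineM K b H).pi x)) := by
      unfold dt4
      rw [Finset.mul_sum, Finset.mul_sum, ← Finset.sum_add_distrib]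
      exact Finset.sum_congr rfl fun k _ => by ring
    rw [h2, e0, e1]; simp
  t2 j x := by
    show dot (q2C K b H) (fun k => (lineM K b H).cover.D j (XC K b H k)) x = 0
    rw [dot_ofReal _ _ x x.1.2
      (fun k => K.Dv b j H.F ((lineM K b H).pi x) k) (fun _ => rfl) (fun k => D_XC K b H j k x)]
    have h : okM K b H x.1.1 x.1.2 := x.2
    have h2 : dt4 x.1.2 (fun k => K.Dv b j H.F ((lineM K b H).pi x) k) = 0 := h.2.2 j
    rw [h2]; simp

/-- linear relations between the derivatives of the immersion hold for all functions (cover) -/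
theorem imm_cover (x : (lineM K b H).Pt) (c : Fin K.n × Fin 2 → ℂ)
    (h : ∀ a, ∑ j, c j * (lineM K b H).cover.D j (XC K b H a) x = 0) (u : (lineM K b H).Pt → ℂ)
    (hu : (lineM K b H).cover.Sm u) :
    ∑ j, c j * (lineM K b H).cover.D j u x = 0 := by
  obtain ⟨i, hi⟩ := (lineM K b H).cov ((lineM K b H).pi x)
  obtain ⟨s, -, hs⟩ := Line.sheet (L := lineM K b H) (i := i) hi
  have h0 : ∀ a, ∑ j, c j * (K.dalg b).D j (H.Fc a) ((lineM K b H).pi x) = 0 := by
    intro a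
    rw [← h a]
    refine Finset.sum_congr rfl fun j _ => ?_
    rw [D_XC, D_Fc]
  have h1 := imm_dalg K b H _ c h0 _ hu.1
  have h2 := imm_dalg K b H _ c h0 _ (Line.sm_be hu i)
  have h3 : ∀ j, (lineM K b H).cover.D j u x = (K.dalg b).D j ((lineM K b H).ev u)
      ((lineM K b H).pi x) + s * (K.dalg b).D j ((lineM K b H).be u i) ((lineM K b H).pi x) := by
    intro j
    rw [Line.cover_D, Line.Dc_be hu hi hs]
  simp_rw [h3, mul_add]
  rw [Finset.sum_add_distrib, h1]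
  have h4 : ∑ j, c j * (s * (K.dalg b).D j ((lineM K b H).be u i) ((lineM K b H).pi x)) =
      s * ∑ j, c j * (K.dalg b).D j ((lineM K b H).be u i) ((lineM K b H).pi x) := by
    rw [Finset.mul_sum]
    exact Finset.sum_congr rfl fun j _ => by ring
  rw [h4, h2]; ring

end man

end Vale.Agent.P205.TW
end
end

section

/-!
P205, scheme T1W: descent of the model sequence from the cover to the surface, and the immersion
into `ℝ⁴` with a unit normal field obtained from an immersion into `ℝ³`.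
-/

noncomputable section

set_option linter.unusedSectionVars false

open scoped Manifold ContDiff Topology
open Set Filter

namespace Vale.Agent.P205.TW

open Vale.Agent.P205.F

universe u

section abs

variable {P : Type u} {κ : Type} [Fintype κ] {I : Type} {S : DAlg P κ}

/-- even model sequences exist on `S` with involution `τ` and metric `g` for every precision
`κ1`: the hypotheses of `DAlg.T1S` -/
def ModC (S : DAlg P κ) (τ : P → P) (g : κ → κ → P → ℂ) : Prop :=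
  ∀ κ1 : ℝ, 0 < κ1 → ∃ (Lam δ : ℕ → ℝ) (f : ℕ → Fin 4 → P → ℂ) (c0 : ℝ),
    0 < c0 ∧ (∀ i, 1 ≤ Lam i) ∧ (∀ i, 0 < δ i) ∧ (∀ i, δ i ≤ 1) ∧
    Filter.Tendsto δ Filter.atTop (nhds 0) ∧
    (∀ i a, S.Sm (f i a)) ∧ (∀ i a, Rl (f i a)) ∧ (∀ i a, Evn τ (f i a)) ∧
    (∀ a, S.FO Lam (fun _ => 1) (fun i => f i a)) ∧
    (∀ j a, S.FO Lam (fun _ => 1) (fun i => S.D j (f i a))) ∧
    (∀ i p, ∃ j1 j2 j k, c0 * Lam i ^ 2 ≤
      (gram3 (S.Dv j1 (f i)) (S.Dv j2 (f i)) (S.Dv j (S.Dv k (f i))) p).re) ∧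
    (∀ i j k p, ‖g j k p - S.met (f i) j k p - δ i * g j k p‖ ≤ κ1 * δ i) ∧
    (∀ j k, S.FO Lam δ (fun i p => g j k p - S.met (f i) j k p))

/-- the cover is a covering in the sense of `IsCov` -/
theorem isCov_cover (L : Line S I) : IsCov L.cover S L.pi where
  surj p := ⟨L.s0 p, Line.pi_s0 p⟩
  sm _ h := Line.sm_pi_iff.1 h
  D j u := Line.D_pi j u

/-- descent: an exact map on the base from even model sequences on the cover -/
theorem descend (L : Line S I) {g : κ → κ → P → ℂ} (h : S.T1S g)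
    (hm : ModC L.cover L.sg (fun j k x => g j k (L.pi x))) :
    ∃ F : Fin 4 → P → ℂ, (∀ a, S.Sm (F a)) ∧ (∀ a, Rl (F a)) ∧
      ∀ j k p, S.met F j k p = g j k p := by
  obtain ⟨κ1, hκ1, h⟩ := h
  obtain ⟨Lam, δ, f, c0, hc0, hL, hδ, hδ1, hlim, hs, hr, he, h1, h2, h3, h4, h5⟩ := hm κ1 hκ1
  have hC := isCov_cover L
  -- the maps on the base
  let F : ℕ → Fin 4 → P → ℂ := fun i a => L.ev (f i a)
  have hF : ∀ i a, f i a = fun x => F i a (L.pi x) := fun i a =>
    funext fun x => Line.eq_ev_of_even (he i a) x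
  have hF' : ∀ i, f i = fun a x => F i a (L.pi x) := fun i => funext fun a => hF i a
  have hmet : ∀ i j k x, L.cover.met (f i) j k x = S.met (F i) j k (L.pi x) := by
    intro i j k x
    rw [hF' i]
    exact hC.met (F i) j k x
  refine h Lam δ F c0 hc0 hL hδ hδ1 hlim (fun i a => (hs i a).1) (fun i a => ?_) (fun a => ?_)
    (fun j a => ?_) (fun i p => ?_) (fun i j k p => ?_) (fun j k => ?_)
  · refine hC.rl ?_
    rw [← hF i a]
    exact hr i a
  · refine hC.fo ?_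
    have : (fun i => f i a) = fun i x => F i a (L.pi x) := funext fun i => hF i a
    rw [← this]
    exact h1 a
  · refine hC.fo ?_
    have : (fun i => L.cover.D j (f i a)) = fun i x => S.D j (F i a) (L.pi x) := by
      funext i
      rw [hF i a, Line.D_pi]
    rw [← this]
    exact h2 j a
  · obtain ⟨x, rfl⟩ := hC.surj p
    obtain ⟨j1, j2, j, k, h6⟩ := h3 i x
    refine ⟨j1, j2, j, k, ?_⟩
    rw [← hC.gram (F i) j1 j2 j k x, ← hF' i]
    exact h6
  · obtain ⟨x, rfl⟩ := hC.surj p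
    have h6 := h4 i j k x
    rw [hmet] at h6
    exact h6
  · refine hC.fo ?_
    have : (fun i x => g j k (L.pi x) - L.cover.met (f i) j k x) =
        fun i x => g j k (L.pi x) - S.met (F i) j k (L.pi x) := by
      funext i x
      rw [hmet]
    exact this ▸ h5 j k

end abs

section man

variable {E : Type} [NormedAddCommGroup E] [NormedSpace ℝ E]
  {M : Type u} [TopologicalSpace M] [ChartedSpace E M]

/-- `ℝ³ → ℝ⁴` -/
def inc34 : EuclideanSpace ℝ (Fin 3) →L[ℝ] EuclideanSpace ℝ (Fin 4) :=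
  LinearMap.toContinuousLinearMap
    { toFun := fun x => WithLp.toLp 2 ![x 0, x 1, x 2, 0]
      map_add' := fun x y => by
        ext k
        fin_cases k <;> simp
      map_smul' := fun c x => by
        ext k
        fin_cases k <;> simp }

/-- the final statement for a surface with an immersion and a unit normal field, from the blocks -/
theorem full_of_blocks [FiniteDimensional ℝ E] [T2Space M] [CompactSpace M] [Nonempty M]
    [IsManifold 𝓘(ℝ, E) ∞ M] (b : Module.Basis (Fin 2) ℝ E) (K : Cov E M) (H : ImmN E M)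
    (g : Bundle.ContMDiffRiemannianMetric 𝓘(ℝ, E) ∞ E (fun x : M => TangentSpace 𝓘(ℝ, E) x))
    (hT : (K.dalg b).T1U)
    (hm : ModC (lineM K b H).cover (lineM K b H).sg
      (fun j k x => K.G b g j k ((lineM K b H).pi x))) :
    ∃ X : Fin 4 → M → ℝ, (∀ i, ContMDiff 𝓘(ℝ, E) 𝓘(ℝ) ∞ (X i)) ∧
      ∀ (m : M) (v w : TangentSpace 𝓘(ℝ, E) m),
        ∑ i, mvfderiv 𝓘(ℝ, E) (X i) m v * mvfderiv 𝓘(ℝ, E) (X i) m w = g.inner m v w :=
  K.isom_of_met b g (descend (lineM K b H) (K.t1s_of b g hT) hm)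

end man

end Vale.Agent.P205.TW
end
end

section

/-!
P205, scheme T1W, DATA on the cover (C3): `DIn` for the cover of a pair `(F, ξ)` (`ImmN E M`) and
the lift of a Riemannian metric of `M`.
-/

noncomputable section

set_option linter.unusedSectionVars false

open scoped Manifold ContDiff Topology RealInnerProductSpace
open Set Filter

namespace Vale.Agent.P205.TW.DC

open Vale.Agent.P205.F Vale.Agent.P205.TW Vale.Agent.P205.TW.Data

universe u

section man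

variable {E : Type} [NormedAddCommGroup E] [NormedSpace ℝ E]
  {M : Type u} [TopologicalSpace M] [ChartedSpace E M] [IsManifold 𝓘(ℝ, E) ∞ M] [CompactSpace M]
  (K : Cov E M) (b : Module.Basis (Fin 2) ℝ E)

/-! ### real functions on `M` as elements of the differential function space -/

/-- complexification -/
def cx (u : M → ℝ) : M → ℂ := fun p => ((u p : ℝ) : ℂ)

lemma sm_cx {u : M → ℝ} (hu : ContMDiff 𝓘(ℝ, E) 𝓘(ℝ, ℝ) ∞ u) : (K.dalg b).Sm (cx u) :=
  (K.dalg_Sm b).2 (Complex.ofRealCLM.contDiff.comp_contMDiff hu)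

lemma rl_cx (u : M → ℝ) : Rl (cx u) := fun _ => Complex.ofReal_im _

lemma D_cx {u : M → ℝ} (hu : ContMDiff 𝓘(ℝ, E) 𝓘(ℝ, ℝ) ∞ u) (j : Fin K.n × Fin 2) (p : M) :
    (K.dalg b).D j (cx u) p = ((K.Dv b j u p : ℝ) : ℂ) := by
  rw [Cov.dalg_D]
  exact congrFun (K.Dv_clm b Complex.ofRealCLM hu j) p

/-- components of a vector valued function -/
def cv (Ψ : M → EuclideanSpace ℝ (Fin 4)) (k : Fin 4) : M → ℂ := fun p => ((Ψ p k : ℝ) : ℂ)

lemma sm_cv {Ψ : M → EuclideanSpace ℝ (Fin 4)}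
    (h : ContMDiff 𝓘(ℝ, E) 𝓘(ℝ, EuclideanSpace ℝ (Fin 4)) ∞ Ψ) (k : Fin 4) :
    (K.dalg b).Sm (cv Ψ k) :=
  (K.dalg_Sm b).2 (Complex.ofRealCLM.contDiff.comp_contMDiff
    ((EuclideanSpace.proj k : EuclideanSpace ℝ (Fin 4) →L[ℝ] ℝ).contDiff.comp_contMDiff h))

lemma rl_cv (Ψ : M → EuclideanSpace ℝ (Fin 4)) (k : Fin 4) : Rl (cv Ψ k) :=
  fun _ => Complex.ofReal_im _

lemma D_cv {Ψ : M → EuclideanSpace ℝ (Fin 4)}
    (h : ContMDiff 𝓘(ℝ, E) 𝓘(ℝ, EuclideanSpace ℝ (Fin 4)) ∞ Ψ) (j : Fin K.n × Fin 2) (k : Fin 4)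
    (p : M) : (K.dalg b).D j (cv Ψ k) p = ((K.Dv b j Ψ p k : ℝ) : ℂ) := by
  rw [Cov.dalg_D]
  exact congrFun (K.Dv_clm b (Complex.ofRealCLM.comp
    (EuclideanSpace.proj k : EuclideanSpace ℝ (Fin 4) →L[ℝ] ℝ)) h j) p

variable (H : ImmN E M)

/-- the unit vector of a point of the cover -/
def nv (x : (lineM K b H).Pt) : EuclideanSpace ℝ (Fin 4) := WithLp.toLp 2 x.1.2

lemma nv_NM (x : (lineM K b H).Pt) : NM K b H ((lineM K b H).pi x) (nv K b H x) := x.2

lemma n_nv (k : Fin 4) (x : (lineM K b H).Pt) :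
    (lineM K b H).n k x = ((nv K b H x k : ℝ) : ℂ) := rfl

lemma sum_nv (v : EuclideanSpace ℝ (Fin 4)) (x : (lineM K b H).Pt) :
    ∑ k, ((v k : ℝ) : ℂ) * (lineM K b H).n k x = ((⟪v, nv K b H x⟫ : ℝ) : ℂ) := by
  rw [inner_eq_dt4, dt4]
  push_cast
  rfl

/-- the odd function of a section -/
def oc (Ψ : M → EuclideanSpace ℝ (Fin 4)) : (lineM K b H).Pt → ℂ := odl (lineM K b H) (cv Ψ)

lemma oc_eq (Ψ : M → EuclideanSpace ℝ (Fin 4)) (x : (lineM K b H).Pt) :
    oc K b H Ψ x = ((⟪Ψ ((lineM K b H).pi x), nv K b H x⟫ : ℝ) : ℂ) := sum_nv K b H _ x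

lemma oc_od (Ψ : M → EuclideanSpace ℝ (Fin 4)) : Odd' (lineM K b H).sg (oc K b H Ψ) :=
  fun x => odl_sg x

variable {Ψ : M → EuclideanSpace ℝ (Fin 4)}
  (hΨ : ContMDiff 𝓘(ℝ, E) 𝓘(ℝ, EuclideanSpace ℝ (Fin 4)) ∞ Ψ)

include hΨ in
lemma rsm_oc : RSm (lineM K b H).cover (oc K b H Ψ) :=
  ⟨sm_odl (fun k => sm_cv K b hΨ k), rl_odl (fun k => rl_cv Ψ k)⟩

lemma sec_oc (hs : Sec (NM K b H) Ψ) (k : Fin 4) (x : (lineM K b H).Pt) :
    cv Ψ k ((lineM K b H).pi x) = odl (lineM K b H) (cv Ψ) x * (lineM K b H).n k x := by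
  have h1 := hs _ _ (nv_NM K b H x)
  have h2 : odl (lineM K b H) (cv Ψ) x = ((⟪Ψ ((lineM K b H).pi x), nv K b H x⟫ : ℝ) : ℂ) :=
    oc_eq K b H Ψ x
  rw [h2, n_nv, ← Complex.ofReal_mul, cv]
  congr 1
  have h3 := congrArg (fun v : EuclideanSpace ℝ (Fin 4) => v k) h1
  exact h3

include hΨ in
lemma D_oc (hs : Sec (NM K b H) Ψ) (j : Fin K.n × Fin 2) (x : (lineM K b H).Pt) :
    (lineM K b H).cover.D j (oc K b H Ψ) x =
      ((⟪K.Dv b j Ψ ((lineM K b H).pi x), nv K b H x⟫ : ℝ) : ℂ) := by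
  rw [oc, D_odl (fun k x => sec_oc K b H hs k x), ← sum_nv]
  refine Finset.sum_congr rfl fun k _ => ?_
  rw [D_cv K b hΨ]

lemma sec_sq (hs : Sec (NM K b H) Ψ) {p : M} {n : EuclideanSpace ℝ (Fin 4)}
    (hn : NM K b H p n) : ⟪Ψ p, Ψ p⟫ = ⟪Ψ p, n⟫ * ⟪Ψ p, n⟫ := by
  have h1 := hs p n hn
  conv_lhs => rw [h1]
  rw [real_inner_smul_left, real_inner_smul_right, (lineM_NM K b H).unit p n hn, mul_one]

/-! ### the ray -/

variable {N : M → EuclideanSpace ℝ (Fin 4) → Prop} (D : MData K b N)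

/-- the ray of the radial function -/
def rayM : Ray M (Fin K.n × Fin 2) where
  Ψ := cx D.r
  t j := cx (D.v j)
  w j := cx (D.w j)
  β j := cx (D.β j)
  K := KrC (cx D.r)

lemma mem_rayM {p : M} : p ∈ (rayM K b D).K ↔ 1 / 2 ≤ D.r p ∧ D.r p ≤ 5 / 2 := Iff.rfl

lemma dir_cx (c : Fin K.n × Fin 2 → M → ℝ) {u : M → ℂ}
    (hu : ContMDiff 𝓘(ℝ, E) 𝓘(ℝ, ℂ) ∞ u) (p : M) :
    (K.dalg b).dir (fun j => cx (c j)) u p = Cov.dfE u p (∑ j, c j p • K.XE b j p) := by
  have : FiniteDimensional ℝ E := Module.Basis.finiteDimensional_of_finite b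
  rw [Cov.clm_exp (Cov.dfE u p) (c := fun j => c j p) (w := fun j => K.XE b j p) rfl, DAlg.dir]
  refine Finset.sum_congr rfl fun j _ => ?_
  rw [Cov.dalg_D, K.Dv_eqE b hu, Complex.real_smul]
  rfl

theorem rayM_ok : (rayM K b D).Ok (K.dalg b) where
  smΨ := sm_cx K b D.smr
  smt j := sm_cx K b (D.smv j)
  smw j := sm_cx K b (D.smw j)
  smβ j := sm_cx K b (D.smβ j)
  rΨ := rl_cx _
  rt j := rl_cx _
  rw' j := rl_cx _
  rβ j := rl_cx _
  tΨ p hp := by
    rw [mem_rayM] at hp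
    have h1 := D.vr p hp.1 hp.2
    show ∑ j, cx (D.v j) p * (K.dalg b).D j (cx D.r) p = 1
    simp only [D_cx K b D.smr, cx]
    rw [← Complex.ofReal_one, ← h1]
    push_cast
    rfl
  wΨ p hp := by
    rw [mem_rayM] at hp
    have h1 := D.wr p hp.1 hp.2
    show ∑ j, cx (D.w j) p * (K.dalg b).D j (cx D.r) p = 0
    simp only [D_cx K b D.smr, cx]
    rw [← Complex.ofReal_zero, ← h1]
    push_cast
    rfl
  dec u hu j p hp := by
    have : FiniteDimensional ℝ E := Module.Basis.finiteDimensional_of_finite b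
    rw [mem_rayM] at hp
    have h1 : K.XE b j p = K.Dv b j D.r p • (∑ k, D.v k p • K.XE b k p)
      + D.β j p • (∑ k, D.w k p • K.XE b k p) := D.dec p hp.1 hp.2 j
    have e1 : (K.dalg b).dir (rayM K b D).t u p =
        Cov.dfE u p (∑ k, D.v k p • K.XE b k p) := dir_cx K b D.v hu p
    have e2 : (K.dalg b).dir (rayM K b D).w u p =
        Cov.dfE u p (∑ k, D.w k p • K.XE b k p) := dir_cx K b D.w hu p
    have e3 : (K.dalg b).D j (rayM K b D).Ψ p = ((K.Dv b j D.r p : ℝ) : ℂ) :=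
      D_cx K b D.smr j p
    rw [e1, e2, e3, Cov.dalg_D, K.Dv_eqE b hu, h1, map_add, map_smul, map_smul,
      Complex.real_smul, Complex.real_smul]
    rfl

/-! ### the metric -/

section met

variable (g : Bundle.ContMDiffRiemannianMetric 𝓘(ℝ, E) ∞ E
    (fun x : M => TangentSpace 𝓘(ℝ, E) x))

/-- lift of the metric -/
def gC (j k : Fin K.n × Fin 2) (x : (lineM K b H).Pt) : ℂ := K.G b g j k ((lineM K b H).pi x)

lemma qfm_gC (x : (lineM K b H).Pt) (ξ : Fin K.n × Fin 2 → ℝ) :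
    qfm (gC K b H g) x ξ = Cov.gE g ((lineM K b H).pi x)
      (∑ j, ξ j • K.XE b j ((lineM K b H).pi x)) (∑ j, ξ j • K.XE b j ((lineM K b H).pi x)) := by
  have : FiniteDimensional ℝ E := Module.Basis.finiteDimensional_of_finite b
  have h1 := congrArg Complex.re (K.G_quad b g ((lineM K b H).pi x) ξ)
  rw [Complex.ofReal_re] at h1
  rw [← h1, Complex.re_sum, qfm]
  refine Finset.sum_congr rfl fun j _ => ?_
  rw [Complex.re_sum]
  refine Finset.sum_congr rfl fun k _ => ?_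
  have h3 : gC K b H g j k x = K.G b g j k ((lineM K b H).pi x) := rfl
  rw [← h3, ← Complex.ofReal_mul, Complex.re_ofReal_mul]
  ring

theorem tsm_gC : TSm (lineM K b H).cover (gC K b H g) := by
  have : FiniteDimensional ℝ E := Module.Basis.finiteDimensional_of_finite b
  exact ⟨isT_lift (K.G_isT b g), fun j k => ⟨Line.sm_pi_iff.2 (K.G_contMDiff b g j k),
    fun x => K.G_rl b g j k _⟩⟩

theorem gC_nonneg (x : (lineM K b H).Pt) (ξ : Fin K.n × Fin 2 → ℝ) :
    0 ≤ qfm (gC K b H g) x ξ := by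
  rw [qfm_gC]
  generalize (∑ j, ξ j • K.XE b j ((lineM K b H).pi x) : E) = v
  by_cases hv : v = 0
  · rw [hv, map_zero]
  · exact (g.pos ((lineM K b H).pi x) v hv).le

theorem gC_rank (x : (lineM K b H).Pt) : ∃ a c, 0 < (gC K b H g a a x).re * (gC K b H g c c x).re
    - (gC K b H g a c x).re ^ 2 := by
  have : FiniteDimensional ℝ E := Module.Basis.finiteDimensional_of_finite b
  obtain ⟨i, hi⟩ := K.cov ((lineM K b H).pi x)
  refine ⟨(i, 0), (i, 1), ?_⟩
  set G : Fin 2 → Fin 2 → ℝ := fun a c => (K.G b g (i, a) (i, c) ((lineM K b H).pi x)).re with hG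
  have hpos : ∀ s t : ℝ, (s ≠ 0 ∨ t ≠ 0) → 0 < s * s * G 0 0 + 2 * (s * t) * G 0 1
      + t * t * G 1 1 := by
    intro s t hst
    let c : Fin K.n × Fin 2 → ℝ := fun j => if j.1 = i then (if j.2 = 0 then s else t) else 0
    have hc0 : c (i, 0) = s := by simp [c]
    have hc1 : c (i, 1) = t := by simp [c]
    have hsum : ∀ f : Fin K.n × Fin 2 → ℂ, ∑ j, (c j : ℂ) * f j = s * f (i, 0) + t * f (i, 1) := by
      intro f
      rw [Fintype.sum_prod_type, Finset.sum_eq_single i]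
      · rw [Fin.sum_univ_two, hc0, hc1]
      · intro j _ hj
        refine Finset.sum_eq_zero fun a _ => ?_
        simp [c, hj]
      · intro h
        exact (h (Finset.mem_univ _)).elim
    have h1 := K.G_posT b g ((lineM K b H).pi x) c (by
      rcases hst with h | h
      · refine ⟨K.co b i 0, K.co_contMDiff b i 0, ?_⟩
        rw [hsum (fun j => (K.dalg b).D j (K.co b i 0) ((lineM K b H).pi x)), Cov.dalg_D,
          Cov.dalg_D, K.Dv_co b hi, K.Dv_co b hi]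
        simpa using h
      · refine ⟨K.co b i 1, K.co_contMDiff b i 1, ?_⟩
        rw [hsum (fun j => (K.dalg b).D j (K.co b i 1) ((lineM K b H).pi x)), Cov.dalg_D,
          Cov.dalg_D, K.Dv_co b hi, K.Dv_co b hi]
        simpa using h)
    have h2 : ∑ j, ∑ k, (c j : ℂ) * (c k : ℂ) * K.G b g j k ((lineM K b H).pi x) =
        s * (s * K.G b g (i, 0) (i, 0) ((lineM K b H).pi x)
          + t * K.G b g (i, 0) (i, 1) ((lineM K b H).pi x))
        + t * (s * K.G b g (i, 1) (i, 0) ((lineM K b H).pi x)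
          + t * K.G b g (i, 1) (i, 1) ((lineM K b H).pi x)) := by
      have h3 : ∀ j, ∑ k, (c j : ℂ) * (c k : ℂ) * K.G b g j k ((lineM K b H).pi x) =
          (c j : ℂ) * ∑ k, (c k : ℂ) * K.G b g j k ((lineM K b H).pi x) := by
        intro j
        rw [Finset.mul_sum]
        exact Finset.sum_congr rfl fun k _ => by ring
      rw [Finset.sum_congr rfl fun j _ => h3 j, hsum, hsum, hsum]
    rw [h2] at h1
    have h4 : K.G b g (i, 1) (i, 0) ((lineM K b H).pi x) =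
        K.G b g (i, 0) (i, 1) ((lineM K b H).pi x) := congrFun ((K.G_isT b g).1 (i, 1) (i, 0)) _
    rw [h4] at h1
    simp only [Complex.add_re, Complex.re_ofReal_mul] at h1
    simp only [hG]
    linarith
  have h0 := hpos 1 0 (Or.inl one_ne_zero)
  have h1 := hpos 0 1 (Or.inr one_ne_zero)
  have h2 := hpos (G 1 1) (-G 0 1) (Or.inl (by linarith))
  have h3 : 0 < G 1 1 := by linarith
  have h4 : 0 < G 1 1 * (G 0 0 * G 1 1 - G 0 1 ^ 2) := by
    calc 0 < _ := h2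
      _ = _ := by ring
  exact (pos_iff_pos_of_mul_pos h4).1 h3

end met

/-! ### the odd sign, nondegeneracy -/

section fin

variable (D : MData K b (NM K b H))

/-- the odd function of the phase -/
def psiC : (lineM K b H).Pt → ℂ := oc K b H D.Ψ

/-- the odd sign -/
def eC : (lineM K b H).Pt → ℂ := oc K b H D.ν

lemma nu_sq (x : (lineM K b H).Pt) (hr : D.r ((lineM K b H).pi x) < 3) :
    ⟪D.ν ((lineM K b H).pi x), nv K b H x⟫ * ⟪D.ν ((lineM K b H).pi x), nv K b H x⟫ = 1 := by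
  rw [← sec_sq K b H D.secν (nv_NM K b H x), D.ν1 _ hr]

lemma eC_sq (x : (lineM K b H).Pt) (hr : D.r ((lineM K b H).pi x) < 3) :
    eC K b H D x * eC K b H D x = 1 := by
  rw [eC, oc_eq, ← Complex.ofReal_mul, nu_sq K b H D x hr, Complex.ofReal_one]

lemma D_eC (x : (lineM K b H).Pt) (hr : D.r ((lineM K b H).pi x) < 3)
    (j : Fin K.n × Fin 2) : (lineM K b H).cover.D j (eC K b H D) x = 0 := by
  rw [eC, D_oc K b H D.smν D.secν]
  have h1 : ∀ᶠ q in 𝓝 ((lineM K b H).pi x), ⟪D.ν q, D.ν q⟫ = 1 := by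
    have h2 : {q | D.r q < 3} ∈ 𝓝 ((lineM K b H).pi x) :=
      (isOpen_lt D.smr.continuous continuous_const).mem_nhds hr
    filter_upwards [h2] with q hq
    exact D.ν1 q hq
  have h3 := Dv_unit K b D.smν h1 j
  have h4 := D.secν _ _ (nv_NM K b H x)
  have h5 := nu_sq K b H D x hr
  rw [h4, real_inner_smul_right] at h3
  have h6 : ⟪D.ν ((lineM K b H).pi x), nv K b H x⟫ ≠ 0 := by
    intro h0
    rw [h0, zero_mul] at h5
    exact zero_ne_one h5
  rcases mul_eq_zero.1 h3 with h | h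
  · exact (h6 h).elim
  · rw [h, Complex.ofReal_zero]

lemma nd_psiC (x : (lineM K b H).Pt) (hr : D.r ((lineM K b H).pi x) ≤ 11 / 10 ∨
    19 / 10 ≤ D.r ((lineM K b H).pi x)) :
    ∃ j, (lineM K b H).cover.D j (psiC K b H D) x ≠ 0 := by
  obtain ⟨j, hj⟩ := D.nd _ hr _ (nv_NM K b H x)
  refine ⟨j, ?_⟩
  rw [psiC, D_oc K b H D.smΨ D.secΨ]
  exact Complex.ofReal_ne_zero.2 hj

lemma wne_rayM (x : (lineM K b H).Pt) (hx : (lineM K b H).pi x ∈ (rayM K b D).K) :
    ∃ a, (lineM K b H).cover.dir (liftRay (lineM K b H) (rayM K b D)).w (XC K b H a) x ≠ 0 := by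
  have hx' := (mem_rayM K b D).1 hx
  have h1 := D.wne _ hx'.1 hx'.2
  by_contra hne
  push Not at hne
  apply h1
  have h2 : mfderiv 𝓘(ℝ, E) 𝓘(ℝ, EuclideanSpace ℝ (Fin 4)) H.F ((lineM K b H).pi x)
      (∑ k, D.w k ((lineM K b H).pi x) • K.X b k ((lineM K b H).pi x)) =
      mfderiv 𝓘(ℝ, E) 𝓘(ℝ, EuclideanSpace ℝ (Fin 4)) H.F ((lineM K b H).pi x) 0 := by
    rw [map_zero]
    let T : E →L[ℝ] EuclideanSpace ℝ (Fin 4) :=
      mfderiv 𝓘(ℝ, E) 𝓘(ℝ, EuclideanSpace ℝ (Fin 4)) H.F ((lineM K b H).pi x)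
    let v : Fin K.n × Fin 2 → E := fun k => K.X b k ((lineM K b H).pi x)
    have e1 : ∀ j, T (v j) = K.Dv b j H.F ((lineM K b H).pi x) :=
      fun j => (K.Dv_eq b H.smF j _).symm
    show T (∑ k, D.w k ((lineM K b H).pi x) • v k) = 0
    rw [map_sum]
    ext a
    have h3 := hne a
    have h4 : (lineM K b H).cover.dir (liftRay (lineM K b H) (rayM K b D)).w (XC K b H a) x =
        ∑ k, ((D.w k ((lineM K b H).pi x) : ℝ) : ℂ) *
          ((K.Dv b k H.F ((lineM K b H).pi x) a : ℝ) : ℂ) := by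
      unfold DAlg.dir
      refine Finset.sum_congr rfl fun k _ => ?_
      rw [D_XC]
      rfl
    rw [h4] at h3
    have h5 : ∑ k, D.w k ((lineM K b H).pi x) * K.Dv b k H.F ((lineM K b H).pi x) a = 0 := by
      exact_mod_cast h3
    have h6 : (∑ k, T (D.w k ((lineM K b H).pi x) • v k)) a =
        ∑ k, D.w k ((lineM K b H).pi x) * K.Dv b k H.F ((lineM K b H).pi x) a := by
      refine (map_sum (EuclideanSpace.proj a : EuclideanSpace ℝ (Fin 4) →L[ℝ] ℝ) _ _).trans ?_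
      refine Finset.sum_congr rfl fun k _ => ?_
      rw [map_smul, e1]
      rfl
    rw [h6, h5]
    rfl
  exact H.imm _ h2

variable (g : Bundle.ContMDiffRiemannianMetric 𝓘(ℝ, E) ∞ E
    (fun x : M => TangentSpace 𝓘(ℝ, E) x))

/-- the qualitative input of the data block on the cover -/
def dIn (hp : PrimC (lineM K b H).cover (lineM K b H).sg (gC K b H g)) :
    DIn (lineM K b H).cover (lineM K b H).sg (gC K b H g) where
  F := XC K b H
  q1 := q1C K b H
  q2 := q2C K b H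
  ψ := psiC K b H D
  r := liftRay (lineM K b H) (rayM K b D)
  e := eC K b H D
  inv := isInv_cover
  gT := tsm_gC K b H g
  gev _ _ _ := rfl
  gpos := gC_nonneg K b H g
  grank := gC_rank K b H g
  rF := rsm_XC K b H
  nf := frame_cover K b H
  Fev := ev_XC K b H
  q1ev := ev_q1C K b H
  q2od := od_q2C K b H
  imm := imm_cover K b H
  rψ := rsm_oc K b H D.smΨ
  ψod := oc_od K b H _
  nd x hx := nd_psiC K b H D x hx
  ray := liftRay_ok (rayM_ok K b D)
  rK := rfl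
  Ψev _ := rfl
  tev _ _ := rfl
  wev _ _ := rfl
  βev _ _ := rfl
  wne x hx := wne_rayM K b H D x hx
  re := rsm_oc K b H D.smν
  eod := oc_od K b H _
  esq x hx := eC_sq K b H D x (by
    have h1 : D.r ((lineM K b H).pi x) ≤ 5 / 2 := hx
    linarith)
  eD x hx j := D_eC K b H D x (by
    have h1 : D.r ((lineM K b H).pi x) ≤ 5 / 2 := hx
    linarith) j
  prim := hp

/-- **(C3)**, up to the primitive decomposition -/
theorem geoC_of_prim [T2Space M]
    (hp : PrimC (lineM K b H).cover (lineM K b H).sg (gC K b H g)) :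
    Nonempty (GeoC (lineM K b H).cover (lineM K b H).sg (gC K b H g)) := by
  obtain ⟨D⟩ := exists_mdataN K b H
  exact geoC_of (posS_cover (posS_dalg K b)) (dIn K b H D g hp)

end fin

end man

end Vale.Agent.P205.TW.DC
end
end

section

/-!
P205, scheme T1W, block DATA on the cover: odd functions from sections of the line field,
primitive decomposition on the cover (`PrimC`).
-/

noncomputable section

set_option linter.unusedSectionVars false

open scoped Manifold ContDiff Topology RealInnerProductSpace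
open Set Filter

namespace Vale.Agent.P205.TW.Data

open Vale.Agent.P205.F

/-- the space of values -/
abbrev W4 : Type := EuclideanSpace ℝ (Fin 4)

variable {E : Type*} [NormedAddCommGroup E] [NormedSpace ℝ E]
  {M : Type*} [TopologicalSpace M] [ChartedSpace E M] (K : Cov E M)
  (b : Module.Basis (Fin 2) ℝ E) [IsManifold 𝓘(ℝ, E) ∞ M] [CompactSpace M] (H : ImmN E M)

/-- the unit vector of a point of the cover -/
def nv (x : (lineM K b H).Pt) : W4 := WithLp.toLp 2 x.1.2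

lemma NM_nv (x : (lineM K b H).Pt) : NM K b H ((lineM K b H).pi x) (nv K b H x) := x.2

/-- the odd function of a section -/
def oddf (B : M → W4) (x : (lineM K b H).Pt) : ℂ :=
  ((⟪B ((lineM K b H).pi x), nv K b H x⟫ : ℝ) : ℂ)

lemma oddf_eq (B : M → W4) (x : (lineM K b H).Pt) :
    oddf K b H B x = 0 + ∑ k, ((B ((lineM K b H).pi x) k : ℝ) : ℂ) * (lineM K b H).n k x := by
  unfold oddf
  rw [inner_eq_dt4, dt4, zero_add]
  push_cast
  rfl

lemma sm_comp4 {B : M → W4} (hB : ContMDiff 𝓘(ℝ, E) 𝓘(ℝ, W4) ∞ B) (k : Fin 4) :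
    (K.dalg b).Sm (fun p => ((B p k : ℝ) : ℂ)) :=
  (K.dalg_Sm b).2 (Complex.ofRealCLM.contDiff.comp_contMDiff
    ((EuclideanSpace.proj k : W4 →L[ℝ] ℝ).contDiff.comp_contMDiff hB))

lemma D_comp4 {B : M → W4} (hB : ContMDiff 𝓘(ℝ, E) 𝓘(ℝ, W4) ∞ B) (j : Fin K.n × Fin 2)
    (k : Fin 4) (p : M) :
    (K.dalg b).D j (fun p => ((B p k : ℝ) : ℂ)) p = ((K.Dv b j B p k : ℝ) : ℂ) := by
  rw [Cov.dalg_D]
  exact congrFun (K.Dv_clm b (Complex.ofRealCLM.comp
    (EuclideanSpace.proj k : W4 →L[ℝ] ℝ)) hB j) p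

lemma smc_oddf {B : M → W4} (hB : ContMDiff 𝓘(ℝ, E) 𝓘(ℝ, W4) ∞ B) :
    (lineM K b H).Smc (oddf K b H B) :=
  Line.smc_of (a := fun _ => 0) (b := fun k p => ((B p k : ℝ) : ℂ))
    ((K.dalg b).sm_const 0) (fun k => sm_comp4 K b hB k) (oddf_eq K b H B)

lemma rl_oddf (B : M → W4) : Rl (oddf K b H B) := fun _ => Complex.ofReal_im _

lemma odd_oddf (B : M → W4) : Odd' (lineM K b H).sg (oddf K b H B) := by
  intro x
  rw [oddf_eq, oddf_eq, Line.pi_sg]
  simp only [Line.n_sg, mul_neg, Finset.sum_neg_distrib, zero_add]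

lemma od_oddf {B : M → W4} (hsec : Sec (NM K b H) B) (k : Fin 4) :
    (lineM K b H).od (oddf K b H B) k = fun p => ((B p k : ℝ) : ℂ) := by
  rw [Line.od_of (a := fun _ => 0) (b := fun k p => ((B p k : ℝ) : ℂ)) (oddf_eq K b H B)]
  funext p
  have h1 := hsec p (nv K b H ((lineM K b H).s0 p)) (NM_nv K b H ((lineM K b H).s0 p))
  have h2 : B p k = ⟪B p, nv K b H ((lineM K b H).s0 p)⟫ * nv K b H ((lineM K b H).s0 p) k := by
    conv_lhs => rw [h1]
    rfl
  rw [h2, inner_eq_dt4, dt4]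
  push_cast
  rw [Finset.sum_mul]
  refine Finset.sum_congr rfl fun l _ => ?_
  rw [mul_assoc]
  rfl

/-- derivative of the odd function of a section -/
theorem D_oddf {B : M → W4} (hB : ContMDiff 𝓘(ℝ, E) 𝓘(ℝ, W4) ∞ B) (hsec : Sec (NM K b H) B)
    (j : Fin K.n × Fin 2) :
    (lineM K b H).cover.D j (oddf K b H B) = oddf K b H (K.Dv b j B) := by
  funext x
  rw [Line.cover_D, Line.Dc, Line.ev_of (a := fun _ => 0)
    (b := fun k p => ((B p k : ℝ) : ℂ)) (oddf_eq K b H B), oddf_eq]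
  simp only [od_oddf K b H hsec, D_comp4 K b hB, (K.dalg b).D_const, Pi.zero_apply]

/-- product of an even function and the odd function of a section -/
lemma oddf_smul (f : M → ℝ) (B : M → W4) (x : (lineM K b H).Pt) :
    oddf K b H (fun p => f p • B p) x =
      ((f ((lineM K b H).pi x) : ℝ) : ℂ) * oddf K b H B x := by
  unfold oddf
  rw [real_inner_smul_left]
  push_cast
  rfl

/-- square of the odd function of a unit section -/
lemma oddf_sq {ν : M → W4} (hsec : Sec (NM K b H) ν) {x : (lineM K b H).Pt}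
    (h1 : ⟪ν ((lineM K b H).pi x), ν ((lineM K b H).pi x)⟫ = 1) :
    oddf K b H ν x * oddf K b H ν x = 1 := by
  have h2 := hsec _ _ (NM_nv K b H x)
  have h3 : ⟪ν ((lineM K b H).pi x), nv K b H x⟫ * ⟪ν ((lineM K b H).pi x), nv K b H x⟫ = 1 := by
    have h4 := congrArg (fun v => ⟪ν ((lineM K b H).pi x), v⟫) h2
    simp only [real_inner_smul_right] at h4
    rw [← h4, h1]
  unfold oddf
  exact_mod_cast h3

/-- derivative of the odd function of a unit section -/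
lemma D_oddf_unit {ν : M → W4} (hν : ContMDiff 𝓘(ℝ, E) 𝓘(ℝ, W4) ∞ ν)
    (hsec : Sec (NM K b H) ν) {x : (lineM K b H).Pt}
    (h1 : ∀ᶠ q in 𝓝 ((lineM K b H).pi x), ⟪ν q, ν q⟫ = 1) (j : Fin K.n × Fin 2) :
    oddf K b H (K.Dv b j ν) x = 0 := by
  have h2 := Dv_unit K b hν h1 j
  have h3 := (lineM_NM K b H).loc ((lineM K b H).pi x)
  obtain ⟨μ, O, hO, hpO, -, hμ⟩ := h3
  have h4 := (hμ _ hpO _).1 (NM_nv K b H x)
  have h5 := hsec _ _ (NM_nv K b H x)
  have h6 : ⟪K.Dv b j ν ((lineM K b H).pi x), nv K b H x⟫ = 0 := by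
    rw [h5, real_inner_smul_right] at h2
    rcases mul_eq_zero.1 h2 with h | h
    · exfalso
      have h7 := h1.self_of_nhds
      rw [h5, h, zero_smul, inner_zero_left] at h7
      exact zero_ne_one h7
    · exact h
  unfold oddf
  rw [h6, Complex.ofReal_zero]

/-- relations for real functions hold for complex functions -/
lemma rel_complex {p : M} {c : Fin K.n × Fin 2 → ℝ}
    (h : ∀ u : M → ℝ, ContMDiff 𝓘(ℝ, E) 𝓘(ℝ, ℝ) ∞ u → ∑ j, c j * K.Dv b j u p = 0)
    {u : M → ℂ} (hu : (K.dalg b).Sm u) : ∑ j, (c j : ℂ) * (K.dalg b).D j u p = 0 := by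
  have hu' : ContMDiff 𝓘(ℝ, E) 𝓘(ℝ, ℂ) ∞ u := (K.dalg_Sm b).1 hu
  have h1 := h (fun p => (u p).re) (Complex.reCLM.contDiff.comp_contMDiff hu')
  have h2 := h (fun p => (u p).im) (Complex.imCLM.contDiff.comp_contMDiff hu')
  have e1 : ∀ j, K.Dv b j (fun p => (u p).re) p = (K.Dv b j u p).re := fun j =>
    congrFun (K.Dv_clm b Complex.reCLM hu' j) p
  have e2 : ∀ j, K.Dv b j (fun p => (u p).im) p = (K.Dv b j u p).im := fun j =>
    congrFun (K.Dv_clm b Complex.imCLM hu' j) p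
  simp only [e1] at h1
  simp only [e2] at h2
  apply Complex.ext
  · rw [Complex.re_sum, Complex.zero_re, ← h1]
    refine Finset.sum_congr rfl fun j _ => ?_
    rw [Complex.re_ofReal_mul, Cov.dalg_D]
  · rw [Complex.im_sum, Complex.zero_im, ← h2]
    refine Finset.sum_congr rfl fun j _ => ?_
    rw [Complex.im_ofReal_mul, Cov.dalg_D]

/-- **PRIM on the cover** -/
theorem primC_cover [T2Space M]
    (g : Fin K.n × Fin 2 → Fin K.n × Fin 2 → (lineM K b H).Pt → ℂ)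
    (hg : ∀ (x : (lineM K b H).Pt) (ξ : Fin K.n × Fin 2 → ℝ),
      (∃ u : M → ℝ, ContMDiff 𝓘(ℝ, E) 𝓘(ℝ, ℝ) ∞ u ∧
        ∑ j, ξ j * K.Dv b j u ((lineM K b H).pi x) ≠ 0) → 0 < qfm g x ξ) :
    PrimC (lineM K b H).cover (lineM K b H).sg g := by
  intro T hT hev ⟨c, hc, hpos⟩
  have hTe : ∀ j k x, T j k x = ((((lineM K b H).ev (T j k) ((lineM K b H).pi x)).re : ℝ) : ℂ) := by
    intro j k x
    have h1 := Line.eq_ev_of_even (L := lineM K b H) (hev j k) x
    have h2 : (T j k x).im = 0 := (hT.2 j k).2 x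
    rw [← h1]
    exact Complex.ext rfl h2
  let T' : Fin K.n × Fin 2 → Fin K.n × Fin 2 → M → ℝ := fun j k p =>
    ((lineM K b H).ev (T j k) p).re
  have hTen : TenM K b T' := by
    refine ⟨?_, ?_, ?_, ?_⟩
    · intro j k
      exact Complex.reCLM.contDiff.comp_contMDiff ((K.dalg_Sm b).1 (hT.2 j k).1.1)
    · intro j k p
      show ((lineM K b H).ev (T j k) p).re = ((lineM K b H).ev (T k j) p).re
      rw [hT.1.1 j k]
    · intro p c' h k
      have h1 := hT.1.2 ((lineM K b H).s0 p) (fun j => (c' j : ℂ)) (by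
        intro u hu
        obtain ⟨i, hi⟩ := (lineM K b H).cov ((lineM K b H).pi ((lineM K b H).s0 p))
        obtain ⟨s, -, hs⟩ := Line.sheet (L := lineM K b H) (i := i) hi
        have h3 : ∀ j, (lineM K b H).cover.D j u ((lineM K b H).s0 p) =
            (K.dalg b).D j ((lineM K b H).ev u) p +
              s * (K.dalg b).D j ((lineM K b H).be u i) p := by
          intro j
          rw [Line.cover_D, Line.Dc_be hu hi hs]
          rfl
        simp_rw [h3, mul_add]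
        rw [Finset.sum_add_distrib, rel_complex K b h hu.1, zero_add]
        have h4 : ∑ j, (c' j : ℂ) * (s * (K.dalg b).D j ((lineM K b H).be u i) p) =
            s * ∑ j, (c' j : ℂ) * (K.dalg b).D j ((lineM K b H).be u i) p := by
          rw [Finset.mul_sum]
          exact Finset.sum_congr rfl fun j _ => by ring
        rw [h4, rel_complex K b h (Line.sm_be hu i), mul_zero]) k
      have h2 : ∑ j, (c' j : ℂ) * T j k ((lineM K b H).s0 p) =
          ((∑ j, c' j * T' j k p : ℝ) : ℂ) := by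
        push_cast
        refine Finset.sum_congr rfl fun j _ => ?_
        rw [hTe j k]
        rfl
      rw [h2] at h1
      exact_mod_cast h1
    · intro p ξ hξ
      have h1 := hg ((lineM K b H).s0 p) ξ hξ
      have h2 := hpos ((lineM K b H).s0 p) ξ
      have h3 : qfm T ((lineM K b H).s0 p) ξ = ∑ j, ∑ k, T' j k p * ξ j * ξ k := by
        unfold qfm
        refine Finset.sum_congr rfl fun j _ => Finset.sum_congr rfl fun k _ => ?_
        rw [hTe j k, Complex.ofReal_re]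
        rfl
      rw [← h3]
      exact lt_of_lt_of_le (mul_pos hc h1) h2
  obtain ⟨n, a, φ, ν, sa, sφ, sν, secν, hν1, hdec⟩ := exists_prim K b hTen (lineM_NM K b H)
  have hsm : ∀ {u : M → ℝ}, ContMDiff 𝓘(ℝ, E) 𝓘(ℝ, ℝ) ∞ u → (K.dalg b).Sm (fun p => (u p : ℂ)) :=
    fun {u} hu => (K.dalg_Sm b).2 (Complex.ofRealCLM.contDiff.comp_contMDiff hu)
  have hsec' : ∀ m, Sec (NM K b H) (fun p => φ m p • ν m p) := by
    intro m p n hn
    show φ m p • ν m p = ⟪φ m p • ν m p, n⟫ • n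
    rw [real_inner_smul_left, mul_smul, ← secν m p n hn]
  refine ⟨n, fun m x => ((a m ((lineM K b H).pi x) : ℝ) : ℂ),
    fun m => oddf K b H (fun p => φ m p • ν m p), ?_, ?_, ?_, ?_, ?_⟩
  · intro m
    exact ⟨Line.sm_pi_iff.2 (hsm (sa m)), fun _ => Complex.ofReal_im _⟩
  · intro m
    exact ⟨smc_oddf K b H ((sφ m).smul (sν m)), rl_oddf K b H _⟩
  · intro m x
    rfl
  · intro m
    exact odd_oddf K b H _
  · intro j k x
    rw [hTe j k x]
    have h1 := hdec j k ((lineM K b H).pi x)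
    have h2 : ((((lineM K b H).ev (T j k) ((lineM K b H).pi x)).re : ℝ) : ℂ) =
        ((T' j k ((lineM K b H).pi x) : ℝ) : ℂ) := rfl
    rw [h2, h1]
    push_cast
    refine Finset.sum_congr rfl fun m _ => ?_
    by_cases h0 : a m ((lineM K b H).pi x) = 0
    · rw [h0]; simp
    · have hu := hν1 m _ h0
      have hD : ∀ j, (lineM K b H).cover.D j (oddf K b H (fun p => φ m p • ν m p)) x =
          ((K.Dv b j (φ m) ((lineM K b H).pi x) : ℝ) : ℂ) * oddf K b H (ν m) x := by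
        intro j
        have hsmm : ContMDiff 𝓘(ℝ, E) 𝓘(ℝ, W4) ∞ (fun p => φ m p • ν m p) := (sφ m).smul (sν m)
        rw [D_oddf K b H hsmm (hsec' m)]
        have h3 : oddf K b H (K.Dv b j (fun p => φ m p • ν m p)) x =
            oddf K b H (fun p => K.Dv b j (φ m) p • ν m p) x +
              oddf K b H (fun p => φ m p • K.Dv b j (ν m) p) x := by
          unfold oddf
          rw [Dv_smul K b (sφ m) (sν m), inner_add_left]
          push_cast
          rfl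
        rw [h3, oddf_smul, oddf_smul, D_oddf_unit K b H (sν m) (secν m) hu, mul_zero, add_zero]
      rw [hD j, hD k]
      have h4 := oddf_sq K b H (secν m) hu.self_of_nhds
      linear_combination (-((a m ((lineM K b H).pi x) : ℂ) ^ 2 *
        (((K.Dv b j (φ m) ((lineM K b H).pi x) : ℝ) : ℂ) *
        ((K.Dv b k (φ m) ((lineM K b H).pi x) : ℝ) : ℂ)))) * h4

end Vale.Agent.P205.TW.Data
end
end

section

/-!
P205, scheme T1W, block C5: pointwise hypotheses (`PtOk`), parity, and `FO` for `f`.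
-/

noncomputable section

namespace Vale.Agent.P205.TW

open Vale.Agent.P205.F

universe u

variable {P : Type u} {κ : Type} [Fintype κ] {S : DAlg P κ}

section pt

variable {ψ e v : P → ℂ} {r : Ray P κ} {cG cσ : ℝ} {X q1 q2 : Fin 4 → P → ℂ}

theorem Fix.norm_e (hF : Fix S ψ e v r) {s : P → ℂ} (hs : S.Zs (Kc r.Ψ) s) (p : P) :
    ‖e p * s p‖ = ‖s p‖ := by
  have h := hF.e2 hs p
  by_cases h0 : s p = 0
  · rw [h0, mul_zero]
  · have h1 : e p * e p = 1 := mul_right_cancel₀ h0 (by rw [h, one_mul])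
    have h2 : ‖e p‖ * ‖e p‖ = 1 := by rw [← norm_mul, h1, norm_one]
    have h3 : ‖e p‖ = 1 := by nlinarith [norm_nonneg (e p)]
    rw [norm_mul, h3, one_mul]

/-- pointwise hypotheses of FORMULA -/
theorem mkT_pt (hF : Fix S ψ e v r) (hcG : 0 < cG) (hcσ : 0 < cσ)
    {ι : Type} {Λ : ι → ℝ} {τ0 c1 : ℝ} (L : LoopC S Λ r.Ψ v τ0 c1) (h1 : 0 < c1) (i : ι)
    {C c0 cn : ℝ} (hC : 5 ≤ C) (hCG : 4 / cG ≤ C) (hCσ : 2 / Real.sqrt cσ ≤ C) (hcn : 0 < cn)
    (p : P) (ht : ∀ j, ‖r.t j p‖ ≤ C) (hw : ∀ j, ‖r.w j p‖ ≤ C) (hβ : ∀ j, ‖r.β j p‖ ≤ C)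
    (hDψ : ∀ j, ‖S.D j ψ p‖ ≤ C) (hDr : ∀ j, ‖S.D j r.Ψ p‖ ≤ C)
    (hDX : ∀ j a, ‖S.D j (X a) p‖ ≤ C)
    (det : ∃ a b, c0 ≤ (S.met X a a p * S.met X b b p - S.met X a b p ^ 2).re)
    (nd : ((r.Ψ p).re ≤ 11 / 10 ∨ 19 / 10 ≤ (r.Ψ p).re) → ∃ j, cn ≤ |(S.D j ψ p).re|) :
    TData.PtOk S (mkT S ψ e v r cG cσ X q1 q2 (L.c i) (L.s i) (L.h i) (L.A i) (L.B i))
      C c0 c1 (cn / C) τ0 p := by
  have hC0 : 0 < C := by linarith
  refine ⟨ht, hw, hDX, hDψ, hDr, (iv1_bd hcG p).trans hCG, (is1_bd hcσ p).trans hCσ,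
    (iv1_bd (by norm_num) p).trans (by norm_num; linarith), ?_, det, ?_⟩
  · show 1 ≤ (iv1 (15 / 16) v p).re
    have h := hF.iv_mul p
    have hr1 : (iv1 (15 / 16) v p).im = 0 := rl_iv1 p
    have hr2 := hF.rv p
    have h3 := congrArg Complex.re h
    rw [Complex.mul_re, hr1, hr2, mul_zero, sub_zero, Complex.one_re] at h3
    have h4 := hF.v1 p
    by_contra hlt
    push Not at hlt
    have h5 : 0 < (v p).re := by linarith
    nlinarith
  · by_cases hh : c1 ≤ ‖L.h i p‖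
    · left
      refine ⟨?_, ?_⟩
      · by_contra hK
        have : L.h i p = 0 := (L.zh i).apply (fun h => hK (hF.Kc_sub h))
        rw [this, norm_zero] at hh
        linarith
      · show c1 ≤ ‖e p * L.h i p‖
        rw [hF.norm_e (L.zh i)]
        exact hh
    · right
      have hr : (r.Ψ p).re ≤ 11 / 10 ∨ 19 / 10 ≤ (r.Ψ p).re := by
        by_contra hcon
        push Not at hcon
        exact hh (L.nd2 i p hcon.1.le hcon.2.le)
      obtain ⟨hc, hs⟩ := (L.nd1 i p).resolve_left hh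
      obtain ⟨j, hj⟩ := nd hr
      have hj' : cn ≤ ‖S.D j ψ p‖ := hj.trans (Complex.abs_re_le_norm _)
      refine ⟨hc, ?_, fun hK => ?_, fun _ => ⟨j, ?_⟩⟩
      · show ‖e p * L.s i p‖ ≤ _
        rw [hF.norm_e (L.zs i)]
        exact hs
      · show cn / C ≤ ‖S.dir r.t ψ p‖ + ‖S.dir r.w ψ p‖
        rw [div_le_iff₀ hC0]
        have hd := hF.ray.dec ψ hF.smψ j p hK
        rw [hd] at hj'
        have h1 : ‖S.D j r.Ψ p * S.dir r.t ψ p‖ ≤ C * ‖S.dir r.t ψ p‖ := by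
          rw [norm_mul]
          exact mul_le_mul_of_nonneg_right (hDr j) (norm_nonneg _)
        have h2 : ‖r.β j p * S.dir r.w ψ p‖ ≤ C * ‖S.dir r.w ψ p‖ := by
          rw [norm_mul]
          exact mul_le_mul_of_nonneg_right (hβ j) (norm_nonneg _)
        have h3 := norm_add_le (S.D j r.Ψ p * S.dir r.t ψ p) (r.β j p * S.dir r.w ψ p)
        linarith only [h3, h2, h1, hj']
      · show cn / C ≤ ‖S.D j ψ p‖
        rw [div_le_iff₀ hC0]
        have := norm_nonneg (S.D j ψ p)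
        (by_contra nlg; linarith only [nlg, mul_nonneg (le_of_lt (sub_pos.2 hC0)) (sub_nonneg.2 hj'), mul_pos (sub_pos.2 hcn) (sub_pos.2 hC0), mul_nonneg (sub_nonneg.2 hC) (le_of_lt (sub_pos.2 hcn)), mul_nonneg (mul_self_nonneg (1 : ℝ)) (le_of_lt (sub_pos.2 (not_le.1 nlg)))])

/-- parity of the data -/
theorem mkT_par {τ : P → P} (hτ : IsInv S τ) (hψ : Odd' τ ψ) (smψ : S.Sm ψ) (he : Odd' τ e)
    (hv : Evn τ v) (ht : ∀ j, Evn τ (r.t j)) (hw : ∀ j, Evn τ (r.w j)) (hr : Evn τ r.Ψ)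
    (smX : ∀ a, S.Sm (X a)) (hX : ∀ a, Evn τ (X a)) (h1 : ∀ a, Evn τ (q1 a))
    (h2 : ∀ a, Odd' τ (q2 a)) {ι : Type} {Λ : ι → ℝ} {τ0 c1 : ℝ}
    (L : LoopC S Λ r.Ψ v τ0 c1) (i : ι) :
    (mkT S ψ e v r cG cσ X q1 q2 (L.c i) (L.s i) (L.h i) (L.A i) (L.B i)).Par τ := by
  have hDX : ∀ j a p, S.D j (X a) (τ p) = S.D j (X a) p := fun j a p =>
    D_even hτ (smX a) (hX a) j p
  have hDψ : ∀ j p, S.D j ψ (τ p) = - S.D j ψ p := fun j p => D_odd hτ smψ hψ j p
  have hXt : ∀ a p, S.dirv r.t X a (τ p) = S.dirv r.t X a p := fun a p => by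
    simp only [DAlg.dirv, DAlg.dir, hDX, ht _ p]
  have hXw : ∀ a p, S.dirv r.w X a (τ p) = S.dirv r.w X a p := fun a p => by
    simp only [DAlg.dirv, DAlg.dir, hDX, hw _ p]
  have hψw : ∀ p, S.dir r.w ψ (τ p) = - S.dir r.w ψ p := fun p => by
    simp only [DAlg.dir, hDψ, hw _ p, mul_neg, Finset.sum_neg_distrib]
  have hG : ∀ p, Gw S ψ r X (τ p) = Gw S ψ r X p := fun p => by
    simp only [Gw, pre, TData.Gww, TData.Eww, TData.Xw, TData.ψw, dot, hXw, hψw, neg_mul_neg]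
  have hd : ∀ p, Gd S ψ r X (τ p) = Gd S ψ r X p := fun p => by
    have := hG p
    simp only [Gw] at this
    simp only [Gd, this]
    simp only [pre, TData.dX, TData.Ett, TData.Etw, TData.Eww, TData.Xw, TData.Xt, dot, hXw, hXt]
  have hL := fun p => L.ev i (τ p) p (hr p)
  refine ⟨hX, h1, h2, hψ, ht, hw, fun p => iv1_comp τ hG p, fun p => is1_comp τ hd p,
    fun p => ?_, fun p => ?_⟩
  · show L.A i (τ p) * iv1 (15 / 16) v (τ p) = L.A i p * iv1 (15 / 16) v p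
    rw [(hL p).2.2.2.1, iv1_comp τ hv p]
  · show e (τ p) * (L.B i (τ p) * iv1 (15 / 16) v (τ p)) = -(e p * (L.B i p * iv1 (15 / 16) v p))
    rw [(hL p).2.2.2.2, iv1_comp τ hv p, he p]
    ring

end pt

section fo

variable {ι : Type*} {d : ι → TData P κ} {ρ : ℝ} {μ ε : ι → ℝ}

/-- `f` is bounded at scale `μ` -/
theorem fo_f (H : TData.Hyp S d ρ μ ε) (hμ : ∀ i, 1 ≤ μ i)
    (hX : ∀ a, S.FO μ (fun _ => 1) (fun i => (d i).X a)) (a : Fin 4) :
    S.FO μ (fun _ => 1) (fun i => (d i).f S ρ (μ i) a) := by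
  have hμ0 : ∀ i, 0 ≤ μ i := fun i => le_trans zero_le_one (hμ i)
  have up : ∀ {u : ι → P → ℂ}, S.FO μ (fun _ => 1) u → S.FO μ μ u :=
    fun hu => hu.mono_s' hμ hμ0
  have h1 : S.FO μ (fun _ => 1) (fun i p => (1 / μ i : ℂ) *
      ((d i).c1 S ρ p * (d i).Xt S a p + (d i).c2 S ρ p * (d i).Xw S a p)) :=
    fo_div1 H.μ0 (up (fo_add (fo_mul H.dc1.1 (H.sXt a).1) (fo_mul H.dc2.1 (H.sXw a).1)))
  have h2 : S.FO μ (fun _ => 1) (fun i p => (1 / μ i : ℂ) * (ρ * (d i).E S ρ (μ i) a p)) :=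
    fo_div1 H.μ0 (up ((H.dE a).1.const_mul (ρ : ℂ)))
  exact (((hX a).add h1).add h2).congr fun i p => by
    simp only [Pi.add_apply, TData.f]
    ring

end fo

end Vale.Agent.P205.TW
end
end

section

/-!
P205, scheme T1W, block C5: the sequence of approximate maps (`ModelC`) from the blocks.

`TensC D ..`: the tensor facts (block TENS, helper203).
`model_of`: GeoC + NASH + CHI + FORMULA + TENS give `ModelC S τ g κ1` for every `κ1 > 0`.
-/

noncomputable section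

namespace Vale.Agent.P205.TW

open Vale.Agent.P205.F

universe u

variable {P : Type u} {κ : Type} [Fintype κ] {S : DAlg P κ} {τ : P → P} {g : κ → κ → P → ℂ}

/-- the approximate maps needed by `T1U` (sequence form), even under `τ` -/
def ModelC (S : DAlg P κ) (τ : P → P) (g : κ → κ → P → ℂ) (κ1 : ℝ) : Prop :=
  ∃ (Lam δ : ℕ → ℝ) (f : ℕ → Fin 4 → P → ℂ) (c0 : ℝ), 0 < c0 ∧ (∀ i, 1 ≤ Lam i) ∧
    (∀ i, 0 < δ i) ∧ (∀ i, δ i ≤ 1) ∧ Filter.Tendsto δ Filter.atTop (nhds 0) ∧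
    (∀ i a, S.Sm (f i a)) ∧ (∀ i a, Rl (f i a)) ∧ (∀ i a, Evn τ (f i a)) ∧
    (∀ a, S.FO Lam (fun _ => 1) (fun i => f i a)) ∧
    (∀ j a, S.FO Lam (fun _ => 1) (fun i => S.D j (f i a))) ∧
    (∀ i p, ∃ j1 j2 j k, c0 * Lam i ^ 2 ≤
      (gram3 (S.Dv j1 (f i)) (S.Dv j2 (f i)) (S.Dv j (S.Dv k (f i))) p).re) ∧
    (∀ i j k p, ‖g j k p - S.met (f i) j k p - δ i * g j k p‖ ≤ κ1 * δ i) ∧
    (∀ j k, S.FO Lam δ (fun i p => g j k p - S.met (f i) j k p))

/-- `g(c, c')` -/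
def gcc (g : κ → κ → P → ℂ) (c c' : κ → P → ℂ) : P → ℂ := fun p =>
  ∑ j, ∑ k, g j k p * c j p * c' k p

/-- `g_tt - g_tw² / g_ww` -/
def m2C (g : κ → κ → P → ℂ) (r : Ray P κ) (c : ℝ) : P → ℂ := fun p =>
  gcc g r.t r.t p - gcc g r.t r.w p ^ 2 * iv1 c (gcc g r.w r.w) p

/-- the metric of the slow map -/
def gSC (S : DAlg P κ) (g : κ → κ → P → ℂ) (ψ : P → ℂ) (r : Ray P κ) (c : ℝ) (v : P → ℂ)
    (δ : ℝ) (j k : κ) : P → ℂ := fun p =>
  (1 - δ) * (g j k p - (1 - v p ^ 2) * m2C g r c p * (S.D j r.Ψ p * S.D k r.Ψ p))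
    - S.D j ψ p * S.D k ψ p

/-- admissible mean functions -/
structure VOk (S : DAlg P κ) (r v : P → ℂ) : Prop where
  sm : RSm S v
  v1 : ∀ p, 15 / 16 ≤ (v p).re ∧ (v p).re ≤ 1
  zv : S.Zs (Kc r) (fun p => v p - 1)
  ev : ∀ p q, r p = r q → v p = v q

/-- tensor facts for one mean function `v` -/
structure TensA (D : GeoC S τ g) (cG cσ c0 C η0 : ℝ) (v : P → ℂ) : Prop where
  ts : ∀ δ : ℝ, 0 ≤ δ → δ ≤ 1 / 16 →
    TSm S (fun j k p => gSC S g D.ψ D.r D.c v δ j k p - S.met D.X0 j k p)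
  ev : ∀ δ : ℝ, ∀ j k, Evn τ (fun p => gSC S g D.ψ D.r D.c v δ j k p - S.met D.X0 j k p)
  pos : ∀ δ : ℝ, 0 ≤ δ → δ ≤ 1 / 16 → ∃ c' : ℝ, 0 < c' ∧ ∀ p ξ, c' * qfm g p ξ ≤
    qfm (fun j k p => gSC S g D.ψ D.r D.c v δ j k p - S.met D.X0 j k p) p ξ
  low : ∀ δ : ℝ, 0 ≤ δ → δ ≤ 1 / 16 → ∀ X : Fin 4 → P → ℂ, (∀ a, RSm S (X a)) →
    (∀ j k p, ‖S.met X j k p - gSC S g D.ψ D.r D.c v δ j k p‖ ≤ η0) →
    (∀ p ∈ D.r.K, cG ≤ (Gw S D.ψ D.r X p).re) ∧ (∀ p ∈ D.r.K, cσ ≤ (Gd S D.ψ D.r X p).re) ∧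
    (∀ p, ∃ a b, c0 ≤ (S.met X a a p * S.met X b b p - S.met X a b p ^ 2).re) ∧
    ∀ j a p, ‖S.D j (X a) p‖ ≤ C
  met : ∃ C2 : ℝ, 0 < C2 ∧ ∀ δ : ℝ, 0 ≤ δ → δ ≤ 1 / 16 → ∀ η : ℝ, 0 < η → η ≤ η0 →
    ∀ X : Fin 4 → P → ℂ, (∀ a, RSm S (X a)) →
    (∀ j k p, ‖S.met X j k p - gSC S g D.ψ D.r D.c v δ j k p‖ ≤ η) →
    ∀ d : TData P κ, d.X = X → d.ψ = D.ψ → d.r = D.r → (∀ p, d.iv p * v p = 1) →
    (∀ p ∈ D.r.K, d.iG p * d.Gww S 1 p = 1) →
    ∀ j k p, ‖d.Q S 1 j k p - (1 - δ) * g j k p‖ ≤ C2 * η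

/-- **(TENS)** tensor facts; all constants in `TensA` are independent of `v` -/
def TensC (D : GeoC S τ g) : Prop :=
  ∃ cG cσ c0 C η0 : ℝ, 0 < cG ∧ 0 < cσ ∧ 0 < c0 ∧ 0 < C ∧ 0 < η0 ∧
    (∀ p, c0 ≤ (∑ j, ∑ k, (S.met D.X0 j j p * S.met D.X0 k k p
      - S.met D.X0 j k p ^ 2)).re) ∧
    ∀ v : P → ℂ, VOk S D.r.Ψ v → TensA D cG cσ c0 C η0 v

theorem sup_fin {α : Type*} [Finite α] {u : α → P → ℂ} (hu : ∀ a, S.Sm (u a)) :
    ∃ C : ℝ, 0 ≤ C ∧ ∀ a p, ‖u a p‖ ≤ C := by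
  have := Fintype.ofFinite α
  choose C hC using fun a => S.bdd (hu a)
  refine ⟨∑ a, |C a|, Finset.sum_nonneg fun a _ => abs_nonneg _, fun a p => ?_⟩
  exact (hC a p).trans ((le_abs_self _).trans
    (Finset.single_le_sum (f := fun a => |C a|) (fun a _ => abs_nonneg _) (Finset.mem_univ a)))

theorem sm_Q {d : TData P κ} (hr : d.r.Ok S) (hψ : S.Sm d.ψ) (hX : ∀ a, S.Sm (d.X a))
    (hG : S.Sm d.iG) (hv : S.Sm d.iv) (j k : κ) : S.Sm (d.Q S 1 j k) := by
  have h1 := sm_dirv (S := S) hr.smw hX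
  have h2 := sm_dirv (S := S) hr.smt hX
  have h3 := S.sm_dir hr.smw hψ
  have h4 := S.sm_dir hr.smt hψ
  have hGtt : S.Sm (d.Gtt S 1) := S.sm_add (S.sm_dot h2 h2) (S.sm_smul _ (S.sm_mul h4 h4))
  have hGtw : S.Sm (d.Gtw S 1) := S.sm_add (S.sm_dot h2 h1) (S.sm_smul _ (S.sm_mul h4 h3))
  have hM2 : S.Sm (d.M2 S 1) := S.sm_sub hGtt (S.sm_mul (S.sm_mul hGtw hGtw) hG)
  have hm : S.Sm (S.met d.X j k) := S.sm_dot (fun a => S.sm_D j (hX a)) (fun a => S.sm_D k (hX a))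
  have hψψ : S.Sm (fun p => ((1 : ℝ) : ℂ) ^ 2 * (S.D j d.ψ p * S.D k d.ψ p)) :=
    S.sm_smul _ (S.sm_mul (S.sm_D j hψ) (S.sm_D k hψ))
  have hiv : S.Sm (d.iv ^ 2 - 1) := S.sm_sub (S.sm_pow hv 2) S.sm_one
  exact S.sm_add (S.sm_add hm hψψ) (S.sm_mul (S.sm_mul hiv hM2)
    (S.sm_mul (S.sm_D j hr.smΨ) (S.sm_D k hr.smΨ)))

/-- the slow maps -/
theorem exists_slow (D : GeoC S τ g) (hN : NashC S) {cG cσ c0 C η0 : ℝ} (hc0 : 0 < c0)
    (h0 : ∀ p, c0 ≤ (∑ j, ∑ k, (S.met D.X0 j j p * S.met D.X0 k k p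
      - S.met D.X0 j k p ^ 2)).re) {v : P → ℂ}
    (hT : TensA D cG cσ c0 C η0 v) {δ η : ℝ} (hδ : 0 ≤ δ) (hδ1 : δ ≤ 1 / 16) (hη : 0 < η) :
    ∃ X q1 q2 : Fin 4 → P → ℂ, (∀ a, RSm S (X a)) ∧ CNFr S X q1 q2 ∧
      (∀ a p, ‖X a p - D.X0 a p‖ ≤ η) ∧
      (∀ j k p, ‖S.met X j k p - gSC S g D.ψ D.r D.c v δ j k p‖ ≤ η) ∧
      (∀ a, Evn τ (X a)) ∧ (∀ a, Evn τ (q1 a)) ∧ ∀ a, Odd' τ (q2 a) := by
  obtain ⟨n, a, φ, ha, hφ, hae, hφo, hdec⟩ := D.prim _ (hT.ts δ hδ hδ1) (hT.ev δ)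
    (hT.pos δ hδ hδ1)
  obtain ⟨Y, p1, p2, hY, hYr, hNY, hcl, hmet, heq⟩ := hN n a φ D.X0 D.q1 D.q2 c0 η
    (fun i => (ha i).1) (fun i => (ha i).2) (fun i => (hφ i).1) (fun i => (hφ i).2)
    (fun a => (D.rX a).1) (fun a => (D.rX a).2) D.nf hc0 h0 hη
  obtain ⟨e1, e2, e3⟩ := heq τ (fun j u hu _ p => D.inv.D j u hu p) (fun a p => D.Xev a p)
    (fun a p => D.q1ev a p) (fun a p => D.q2od a p) (fun i p => hae i p) (fun i p => hφo i p)
  refine ⟨Y, p1, p2, fun a => ⟨hY a, hYr a⟩, hNY, hcl, fun j k p => ?_, e1, e2, e3⟩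
  have h := hmet j k p
  rw [← hdec j k p] at h
  have e : S.met D.X0 j k p + (gSC S g D.ψ D.r D.c v δ j k p - S.met D.X0 j k p) =
    gSC S g D.ψ D.r D.c v δ j k p := by ring
  rw [e] at h
  exact h

/-- **MODEL** -/
theorem model_of (D : GeoC S τ g) (hN : NashC S) (hχ : ChiC S) (hL : TData.LowerC S)
    (hT : TensC D) {κ1 : ℝ} (hκ : 0 < κ1) : ModelC S τ g κ1 := by
  obtain ⟨cG, cσ, c0, C', η0, hcG, hcσ, hc0, hC', hη0, hA0, hT⟩ := hT
  -- fixed bounds
  obtain ⟨Ct, hCt0, hCt⟩ := sup_fin D.ray.smt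
  obtain ⟨Cw, hCw0, hCw⟩ := sup_fin D.ray.smw
  obtain ⟨Cβ, hCβ0, hCβ⟩ := sup_fin D.ray.smβ
  obtain ⟨Cψ, hCψ0, hCψ⟩ := sup_fin (S := S) (u := fun j => S.D j D.ψ) fun j => S.sm_D j D.rψ.1
  obtain ⟨Cr, hCr0, hCr⟩ := sup_fin (S := S) (u := fun j => S.D j D.r.Ψ)
    fun j => S.sm_D j D.ray.smΨ
  have hG0 : 0 ≤ 4 / cG := by positivity
  have hσ0 : 0 ≤ 2 / Real.sqrt cσ := by positivity
  set C : ℝ := 5 + 4 / cG + 2 / Real.sqrt cσ + C' + Ct + Cw + Cβ + Cψ + Cr with hCdef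
  have hC5 : 5 ≤ C := by linarith only [hσ0, hG0, hCr0, hCψ0, hCβ0, hCw0, hCt0, hC']
  have hC0 : 0 < C := by linarith only [hσ0, hG0, hCr0, hCψ0, hCβ0, hCw0, hCt0, hC']
  -- loops
  obtain ⟨τ0, hτ0, -, hgram⟩ := TData.formula_gram hL C c0 (D.c / C) 1 hC0 hc0
    (div_pos D.cpos hC0) one_pos
  obtain ⟨v, c1, hc1, hv, hv1, hzv, hvr, N, hloop⟩ := hχ D.r.Ψ ⟨D.ray.smΨ, D.ray.rΨ⟩ τ0 hτ0
  obtain ⟨c, hc, hgram⟩ := hgram c1 hc1
  have hT := hT v ⟨hv, hv1, hzv, hvr⟩
  obtain ⟨C2, hC2, hmet⟩ := hT.met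
  have hF : Fix S D.ψ D.e v D.r := ⟨D.ray, D.rK, D.rψ.1, D.rψ.2, D.re.1, D.re.2, D.esq, D.eD,
    hv.1, hv.2, hv1, hzv⟩
  -- parameters
  set ε : ℕ → ℝ := fun i => 1 / ((i : ℝ) + 1) ^ 2 with hε
  set δ : ℕ → ℝ := fun i => 1 / (16 * ((i : ℝ) + 1)) with hδ
  have hi1 : ∀ i : ℕ, (1 : ℝ) ≤ (i : ℝ) + 1 := fun i => by
    have : (0 : ℝ) ≤ (i : ℝ) := Nat.cast_nonneg i
    linarith only [this]
  have hi0 : ∀ i : ℕ, (0 : ℝ) < (i : ℝ) + 1 := fun i => by linarith [hi1 i]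
  have hεpos : ∀ i, 0 < ε i := fun i => div_pos one_pos (pow_pos (hi0 i) 2)
  have hε1 : ∀ i, ε i ≤ 1 := fun i => by
    simp only [hε]
    rw [div_le_one (pow_pos (hi0 i) 2)]
    exact one_le_pow₀ (hi1 i)
  have hδpos : ∀ i, 0 < δ i := fun i => by simp only [hδ]; have := hi0 i; positivity
  have hδ16 : ∀ i, δ i ≤ 1 / 16 := fun i => by
    simp only [hδ]
    rw [div_le_div_iff₀ (by have := hi0 i; (clear * -; positivity)) (by norm_num)]
    linarith only [hi1 i]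
  set η : ℕ → ℝ := fun i => min η0 (κ1 * δ i / (2 * C2)) with hη
  have hηpos : ∀ i, 0 < η i := fun i =>
    lt_min hη0 (div_pos (mul_pos hκ (hδpos i)) (by positivity))
  have hη0' : ∀ i, η i ≤ η0 := fun i => min_le_left _ _
  have hη1 : ∀ i, C2 * η i ≤ κ1 * δ i / 2 := fun i => by
    have h1 : η i ≤ κ1 * δ i / (2 * C2) := min_le_right _ _
    calc C2 * η i ≤ C2 * (κ1 * δ i / (2 * C2)) := mul_le_mul_of_nonneg_left h1 hC2.le
      _ = κ1 * δ i / 2 := by field_simp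
  -- slow maps
  choose X q1 q2 hX hNF hcl hXm hXe hq1e hq2o using fun i =>
    exists_slow D hN hc0 hA0 hT (hδpos i).le (hδ16 i) (hηpos i)
  have hlow := fun i => hT.low (δ i) (hδpos i).le (hδ16 i) (X i) (hX i)
    (fun j k p => (hXm i j k p).trans (hη0' i))
  have hS : ∀ i, Slo S D.ψ D.r cG cσ (X i) (q1 i) (q2 i) := fun i =>
    ⟨fun a => (hX i a).1, fun a => (hX i a).2, hNF i, (hlow i).1, (hlow i).2.1⟩
  -- the slow metric
  set dq : ℕ → TData P κ := fun i =>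
    mkT S D.ψ D.e v D.r cG cσ (X i) (q1 i) (q2 i) 0 0 0 0 0 with hdq
  have hsmG : ∀ i, S.Sm (iv1 cG (Gw S D.ψ D.r (X i))) := fun i =>
    sm_iv1 (sm_Gw D.ray D.rψ.1 (hS i).smX) (rl_Gw D.ray D.rψ.1 D.rψ.2 (hS i).smX (hS i).rX)
  have hsmσ : ∀ i, S.Sm (is1 cσ (Gd S D.ψ D.r (X i))) := fun i =>
    sm_is1 (sm_Gd D.ray D.rψ.1 (hS i).smX) (rl_Gd D.ray D.rψ.1 D.rψ.2 (hS i).smX (hS i).rX)
  have hQ : ∀ i j k p, ‖(dq i).Q S 1 j k p - (1 - δ i) * g j k p‖ ≤ C2 * η i :=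
    fun i => hmet (δ i) (hδpos i).le (hδ16 i) (η i) (hηpos i) (hη0' i) (X i) (hX i) (hXm i)
      (dq i) rfl rfl rfl hF.iv_mul
      (fun p hp => iv1_mul hcG (rl_Gw D.ray D.rψ.1 D.rψ.2 (hS i).smX (hS i).rX p)
        ((hS i).hG p hp))
  have hsmQ : ∀ i j k, S.Sm ((dq i).Q S 1 j k) := fun i j k =>
    sm_Q (d := dq i) D.ray D.rψ.1 (hS i).smX (hsmG i) hF.smiv j k
  -- uniform bounds of the slow functions
  have bq1 : ∀ a, ∃ B : ℝ, ∀ i p, ‖q1 i a p‖ ≤ B := fun a => ⟨1, fun i p => by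
    have h := (hNF i).n11 p
    have hr := (hNF i).r1
    have h1 : ∑ b, (q1 i b p).re ^ 2 = 1 := by
      have h2 := congrArg Complex.re h
      simp only [dot, Complex.re_sum, Complex.mul_re, hr _ p, mul_zero, sub_zero,
        Complex.one_re] at h2
      rw [← h2]
      exact Finset.sum_congr rfl fun b _ => by ring
    have h3 : (q1 i a p).re ^ 2 ≤ 1 := by
      rw [← h1]
      exact Finset.single_le_sum (f := fun b => (q1 i b p).re ^ 2) (fun _ _ => sq_nonneg _)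
        (Finset.mem_univ a)
    have h4 : q1 i a p = (((q1 i a p).re : ℝ) : ℂ) :=
      Complex.ext (by simp) (by simp [hr a p])
    rw [h4, Complex.norm_real, Real.norm_eq_abs]
    exact (sq_le_one_iff_abs_le_one _).1 h3⟩
  have bq2 : ∀ a, ∃ B : ℝ, ∀ i p, ‖q2 i a p‖ ≤ B := fun a => ⟨1, fun i p => by
    have h := (hNF i).n22 p
    have hr := (hNF i).r2
    have h1 : ∑ b, (q2 i b p).re ^ 2 = 1 := by
      have h2 := congrArg Complex.re h
      simp only [dot, Complex.re_sum, Complex.mul_re, hr _ p, mul_zero, sub_zero,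
        Complex.one_re] at h2
      rw [← h2]
      exact Finset.sum_congr rfl fun b _ => by ring
    have h3 : (q2 i a p).re ^ 2 ≤ 1 := by
      rw [← h1]
      exact Finset.single_le_sum (f := fun b => (q2 i b p).re ^ 2) (fun _ _ => sq_nonneg _)
        (Finset.mem_univ a)
    have h4 : q2 i a p = (((q2 i a p).re : ℝ) : ℂ) :=
      Complex.ext (by simp) (by simp [hr a p])
    rw [h4, Complex.norm_real, Real.norm_eq_abs]
    exact (sq_le_one_iff_abs_le_one _).1 h3⟩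
  have bX : ∀ a, ∃ B : ℝ, ∀ i p, ‖X i a p‖ ≤ B := fun a => by
    obtain ⟨B, hB⟩ := S.bdd (D.rX a).1
    refine ⟨B + η0, fun i p => ?_⟩
    have h1 := hcl i a p
    have h2 := hη0' i
    have h3 := norm_add_le (X i a p - D.X0 a p) (D.X0 a p)
    rw [sub_add_cancel] at h3
    linarith only [hB p, h3, h2, h1]
  have bQ : ∀ j k, ∃ B : ℝ, ∀ i p,
      ‖((1 / δ i : ℝ) : ℂ) * (g j k p - (dq i).Q S 1 j k p)‖ ≤ B := fun j k => by
    obtain ⟨B, hB⟩ := S.bdd (D.gT.2 j k).1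
    refine ⟨B + κ1, fun i p => ?_⟩
    have h1 := (hQ i j k p).trans (hη1 i)
    have e : g j k p - (dq i).Q S 1 j k p =
      ((δ i : ℝ) : ℂ) * g j k p - ((dq i).Q S 1 j k p - (1 - δ i) * g j k p) := by ring
    have h2 : ‖g j k p - (dq i).Q S 1 j k p‖ ≤ δ i * B + κ1 * δ i := by
      rw [e]
      refine (norm_sub_le _ _).trans (add_le_add ?_ ?_)
      · rw [norm_mul, Complex.norm_real, Real.norm_eq_abs, abs_of_pos (hδpos i)]
        exact mul_le_mul_of_nonneg_left (hB p) (hδpos i).le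
      · have : 0 ≤ κ1 * δ i := (mul_pos hκ (hδpos i)).le
        linarith only [this, h1]
    rw [norm_mul, Complex.norm_real, Real.norm_eq_abs, abs_of_pos (by have := hδpos i; (clear * -; positivity))]
    calc 1 / δ i * ‖g j k p - (dq i).Q S 1 j k p‖ ≤ 1 / δ i * (δ i * B + κ1 * δ i) :=
          mul_le_mul_of_nonneg_left h2 (by have := hδpos i; positivity)
      _ = B + κ1 := by have := (hδpos i).ne'; field_simp
  -- frequencies
  let α := (κ × Fin 4) ⊕ (Fin 4 ⊕ Fin 4 ⊕ Fin 4) ⊕ (κ ⊕ κ ⊕ κ ⊕ κ) ⊕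
    (Unit ⊕ Unit ⊕ Unit ⊕ Unit) ⊕ (κ × κ)
  let U : α → ℕ → P → ℂ := Sum.elim (fun x i => S.D x.1 (X i x.2))
    (Sum.elim (Sum.elim (fun a i => X i a) (Sum.elim (fun a i => q1 i a) (fun a i => q2 i a)))
    (Sum.elim (Sum.elim (fun j _ => S.D j D.ψ) (Sum.elim (fun j _ => S.D j D.r.Ψ)
      (Sum.elim (fun j _ => D.r.t j) (fun j _ => D.r.w j))))
    (Sum.elim (Sum.elim (fun _ i => iv1 cG (Gw S D.ψ D.r (X i)))
      (Sum.elim (fun _ i => is1 cσ (Gd S D.ψ D.r (X i)))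
        (Sum.elim (fun _ _ => iv1 (15 / 16) v) (fun _ _ => D.e))))
      (fun x i p => ((1 / δ i : ℝ) : ℂ) * (g x.1 x.2 p - (dq i).Q S 1 x.1 x.2 p)))))
  have hUs : ∀ x i, S.Sm (U x i) := by
    rintro (⟨j, a⟩ | (a | a | a) | (j | j | j | j) | (_ | _ | _ | _) | ⟨j, k⟩) i
    · exact S.sm_D j (hX i a).1
    · exact (hX i a).1
    · exact (hNF i).s1 a
    · exact (hNF i).s2 a
    · exact S.sm_D j D.rψ.1
    · exact S.sm_D j D.ray.smΨ
    · exact D.ray.smt j
    · exact D.ray.smw j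
    · exact hsmG i
    · exact hsmσ i
    · exact hF.smiv
    · exact D.re.1
    · exact S.sm_smul _ (S.sm_sub (D.gT.2 j k).1 (hsmQ i j k))
  have hUb : ∀ x, ∃ B : ℝ, ∀ i p, ‖U x i p‖ ≤ B := by
    rintro (⟨j, a⟩ | (a | a | a) | (j | j | j | j) | (_ | _ | _ | _) | ⟨j, k⟩)
    · exact ⟨C', fun i p => (hlow i).2.2.2 j a p⟩
    · exact bX a
    · exact bq1 a
    · exact bq2 a
    · exact ⟨Cψ, fun _ p => hCψ j p⟩
    · exact ⟨Cr, fun _ p => hCr j p⟩
    · exact ⟨Ct, fun _ p => hCt j p⟩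
    · exact ⟨Cw, fun _ p => hCw j p⟩
    · exact ⟨_, fun i p => iv1_bd hcG p⟩
    · exact ⟨_, fun i p => is1_bd hcσ p⟩
    · exact ⟨_, fun i p => iv1_bd (by norm_num) p⟩
    · exact const_bdd S D.re.1
    · exact bQ j k
  obtain ⟨n0, hn0⟩ := exists_mu S hUs hUb ε hεpos hε1
  obtain ⟨hμ1, hεμ, hSL⟩ := hn0 (fun i => max (n0 i) N) (fun i => le_max_left _ _)
  obtain ⟨L⟩ := hloop (fun i => max (n0 i) N) (fun i => le_max_right _ _)
  set μ : ℕ → ℝ := fun i => 2 * Real.pi * ((max (n0 i) N : ℕ) : ℝ) with hμ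
  have hμ0 : ∀ i, 0 ≤ μ i := fun i => le_trans zero_le_one (hμ1 i)
  have hSC : SloC S μ ε D.ψ D.e v D.r cG cσ X q1 q2 :=
    ⟨fun j a => hSL (Sum.inl (j, a)), fun a => hSL (Sum.inr (Sum.inl (Sum.inr (Sum.inl a)))),
      fun a => hSL (Sum.inr (Sum.inl (Sum.inr (Sum.inr a)))),
      fun j => hSL (Sum.inr (Sum.inr (Sum.inl (Sum.inl j)))),
      fun j => hSL (Sum.inr (Sum.inr (Sum.inl (Sum.inr (Sum.inl j))))),
      fun j => hSL (Sum.inr (Sum.inr (Sum.inl (Sum.inr (Sum.inr (Sum.inl j)))))),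
      fun j => hSL (Sum.inr (Sum.inr (Sum.inl (Sum.inr (Sum.inr (Sum.inr j)))))),
      hSL (Sum.inr (Sum.inr (Sum.inr (Sum.inl (Sum.inl ()))))),
      hSL (Sum.inr (Sum.inr (Sum.inr (Sum.inl (Sum.inr (Sum.inl ())))))),
      hSL (Sum.inr (Sum.inr (Sum.inr (Sum.inl (Sum.inr (Sum.inr (Sum.inl ()))))))),
      hSL (Sum.inr (Sum.inr (Sum.inr (Sum.inl (Sum.inr (Sum.inr (Sum.inr ())))))))⟩
  -- the data
  set d : ℕ → TData P κ := fun i => mkT S D.ψ D.e v D.r cG cσ (X i) (q1 i) (q2 i)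
    (L.c i) (L.s i) (L.h i) (L.A i) (L.B i) with hd
  have H : TData.Hyp S d 1 μ ε := ⟨one_pos, fun i => lt_of_lt_of_le one_pos (hμ1 i),
    fun i => (hεpos i).le, hε1, fun i => mkT_ok hF hcG hcσ (hS i) L i,
    mkT_cls hF hμ1 hεμ hSC L⟩
  have hpt : ∀ i p, TData.PtOk S (d i) C c0 c1 (D.c / C) τ0 p := fun i p =>
    mkT_pt hF hcG hcσ L hc1 i hC5 (by linarith) (by linarith only [hG0, hCr0, hCψ0, hCβ0, hCw0, hCt0, hC']) D.cpos p
      (fun j => (hCt j p).trans (by linarith)) (fun j => (hCw j p).trans (by linarith))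
      (fun j => (hCβ j p).trans (by linarith)) (fun j => (hCψ j p).trans (by linarith))
      (fun j => (hCr j p).trans (by linarith))
      (fun j a => ((hlow i).2.2.2 j a p).trans (by linarith only [hσ0, hG0, hCr0, hCψ0, hCβ0, hCw0, hCt0])) ((hlow i).2.2.1 p) (D.nd p)
  obtain ⟨ε0, hε0, hgr⟩ := hgram d μ ε H hpt
  have hFm := fun j k => TData.formula_met H j k
  -- uniform constant for the metric error
  choose C3 hC30 hC3 using fun x : κ × κ => (hFm x.1 x.2).apply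
  set C4 : ℝ := ∑ x : κ × κ, C3 x with hC4
  have hC40 : 0 ≤ C4 := Finset.sum_nonneg fun x _ => hC30 x
  have hC4' : ∀ i j k p,
      ‖S.met ((d i).f S 1 (μ i)) j k p - (d i).Q S 1 j k p‖ ≤ C4 * ε i := fun i j k p => by
    refine (hC3 (j, k) i p).trans (mul_le_mul_of_nonneg_right ?_ (hεpos i).le)
    exact Finset.single_le_sum (f := C3) (fun x _ => hC30 x) (Finset.mem_univ (j, k))
  -- tail
  obtain ⟨i0, hi0'⟩ : ∃ i0 : ℕ, ∀ i, i0 ≤ i → ε i ≤ ε0 ∧ C4 * ε i ≤ κ1 * δ i / 2 := by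
    obtain ⟨m1, hm1⟩ := exists_nat_ge (1 / ε0)
    obtain ⟨m2, hm2⟩ := exists_nat_ge (32 * C4 / κ1)
    refine ⟨max m1 m2, fun i hi => ⟨?_, ?_⟩⟩
    · have h1 : (m1 : ℝ) ≤ i := by exact_mod_cast (le_max_left m1 m2).trans hi
      have h2 : 1 / ε0 ≤ (i : ℝ) + 1 := by linarith only [h1, hm1]
      have h3 : (i : ℝ) + 1 ≤ ((i : ℝ) + 1) ^ 2 := by (by_contra nlg; linarith only [nlg, mul_pos (sub_pos.2 (not_le.1 nlg)) (sub_pos.2 (not_le.1 nlg)), mul_nonneg (sq_nonneg (↑i + 1 : ℝ)) (sub_nonneg.2 (hi1 i)), mul_nonneg (sq_nonneg (↑i + 1 : ℝ)) (le_of_lt (sub_pos.2 (not_le.1 nlg)))])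
      simp only [hε]
      rw [div_le_iff₀ (pow_pos (hi0 i) 2)]
      rw [div_le_iff₀ hε0] at h2
      (by_contra nlg; linarith only [nlg, mul_nonneg (sub_nonneg.2 h2) (sub_nonneg.2 h2), mul_nonneg (le_of_lt (sub_pos.2 hε0)) (sub_nonneg.2 h3), mul_pos (sub_pos.2 (not_le.1 nlg)) (sub_pos.2 hε0), h2])
    · have h1 : (m2 : ℝ) ≤ i := by exact_mod_cast (le_max_right m1 m2).trans hi
      have h2 : 32 * C4 / κ1 ≤ (i : ℝ) + 1 := by linarith only [h1, hm2]
      rw [div_le_iff₀ hκ] at h2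
      simp only [hε, hδ]
      have h3 := hi0 i
      have e1 : C4 * (1 / ((i : ℝ) + 1) ^ 2) = C4 / ((i : ℝ) + 1) ^ 2 := by ring
      have e2 : κ1 * (1 / (16 * ((i : ℝ) + 1))) / 2 = κ1 / (32 * ((i : ℝ) + 1)) := by
        field_simp
        norm_num
      rw [e1, e2, div_le_div_iff₀ (by (clear * -; positivity)) (by (clear * -; positivity))]
      (by_contra nlg; linarith only [nlg, mul_nonneg (sub_nonneg.2 h2) (sub_nonneg.2 h2), mul_nonneg (sub_nonneg.2 hC40) (sub_nonneg.2 h2), mul_pos (sub_pos.2 (not_le.1 nlg)) (sub_pos.2 hκ)])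
  -- conclusion
  refine ⟨fun i => μ (i + i0), fun i => δ (i + i0), fun i => (d (i + i0)).f S 1 (μ (i + i0)), c,
    hc, fun i => hμ1 _, fun i => hδpos _, fun i => (hδ16 _).trans (by norm_num), ?_,
    fun i a => H.smf _ a, fun i a => (H.ok _).rf _ a, fun i a => ?_,
    fun a => (fo_f H hμ1 (fun a => (hSL (Sum.inr (Sum.inl (Sum.inl a)))).1) a).reindex
      (fun i => i + i0), fun j a => (H.foDf j a).reindex (fun i => i + i0), fun i p => ?_,
    fun i j k p => ?_, fun j k => ?_⟩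
  · have h1 : Filter.Tendsto δ Filter.atTop (nhds 0) := by
      have h2 := (tendsto_one_div_add_atTop_nhds_zero_nat (𝕜 := ℝ)).const_mul (1 / 16 : ℝ)
      rw [mul_zero] at h2
      refine h2.congr fun i => ?_
      simp only [hδ]
      have := (hi0 i).ne'
      field_simp
    exact h1.comp (Filter.tendsto_add_atTop_nat i0)
  · exact (mkT_par D.inv D.ψod D.rψ.1 D.eod (fun p => hvr _ _ (D.Ψev p)) D.tev D.wev D.Ψev
      (hS _).smX (hXe _) (hq1e _) (hq2o _) L (i + i0)).f_even D.inv (hS _).smX D.rψ.1 1 _ a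
  · obtain ⟨a, b, j, h⟩ := hgr (i + i0) (hi0' _ (Nat.le_add_left _ _)).1 p
    exact ⟨a, b, j, j, h⟩
  · have h1 := hC4' (i + i0) j k p
    have h2 := (hQ (i + i0) j k p).trans (hη1 (i + i0))
    have h3 := (hi0' (i + i0) (Nat.le_add_left _ _)).2
    have e : g j k p - S.met ((d (i + i0)).f S 1 (μ (i + i0))) j k p
        - ((δ (i + i0) : ℝ) : ℂ) * g j k p =
        -((dq (i + i0)).Q S 1 j k p - (1 - δ (i + i0)) * g j k p)
        - (S.met ((d (i + i0)).f S 1 (μ (i + i0))) j k p - (d (i + i0)).Q S 1 j k p) := by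
      have : (d (i + i0)).Q S 1 j k p = (dq (i + i0)).Q S 1 j k p := rfl
      rw [this]
      ring
    rw [e]
    refine (norm_sub_le _ _).trans ?_
    rw [norm_neg]
    linarith
  · have h1 : S.FO μ δ (fun i p => g j k p - (dq i).Q S 1 j k p) := by
      have h2 := (hSL (Sum.inr (Sum.inr (Sum.inr (Sum.inr (j, k)))))).1
      have h3 := DAlg.FO.real_mul (r := δ) (fun i => (hδpos i).le) h2
      refine (h3.congr_s fun i => mul_one _).congr fun i p => ?_
      show ((δ i : ℝ) : ℂ) * (((1 / δ i : ℝ) : ℂ) * (g j k p - (dq i).Q S 1 j k p)) = _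
      rw [← mul_assoc, ← Complex.ofReal_mul, mul_one_div_cancel (hδpos i).ne',
        Complex.ofReal_one, one_mul]
    have h2 : S.FO μ δ (fun i p => S.met ((d i).f S 1 (μ i)) j k p - (d i).Q S 1 j k p) := by
      refine (hFm j k).mono_s (C := 16) (fun i => ?_) (fun i => (hδpos i).le) hμ0
      simp only [hε, hδ]
      have h3 := hi0 i
      have e1 : (16 : ℝ) * (1 / (16 * ((i : ℝ) + 1))) = 1 / ((i : ℝ) + 1) := by
        field_simp
      rw [e1, div_le_div_iff₀ (by (clear * -; positivity)) h3]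
      (by_contra nlg; linarith only [nlg, mul_pos (sub_pos.2 (not_le.1 nlg)) (sub_pos.2 h3), mul_nonneg (sq_nonneg (↑i + 1 : ℝ)) (sub_nonneg.2 (hi1 i))])
    have h3 : S.FO μ δ (fun i p => g j k p - S.met ((d i).f S 1 (μ i)) j k p) := by
      refine (h1.sub h2).congr fun i p => ?_
      show (g j k p - (d i).Q S 1 j k p)
        - (S.met ((d i).f S 1 (μ i)) j k p - (d i).Q S 1 j k p) = _
      ring
    exact h3.reindex (fun i => i + i0)

end Vale.Agent.P205.TW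
end
end

section

/-!
P205, scheme T1W: the slow metric of the geometric data `GeoC` (block C5): `GeoC.slow_main`.
-/

noncomputable section

namespace Vale.Agent.P205.TW

open Vale.Agent.P205.F

universe u

variable {P : Type u} {κ : Type} [Fintype κ] {S : DAlg P κ} {σ : P → P} {g : κ → κ → P → ℂ}

/-- the slow metric data of `GeoC` -/
def SlowD.ofGeo (D : GeoC S σ g) (V : P → ℂ) (hV : RSm S V)
    (hV1 : ∀ p, 15 / 16 ≤ (V p).re ∧ (V p).re ≤ 1) (hVK : ∀ p, p ∉ D.r.K → V p = 1) :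
    SlowD S g where
  X0 := D.X0
  ψ := D.ψ
  r := D.r
  V := V
  ig := iv1 D.c (gv g D.r.w D.r.w)
  ρ := 1
  c := D.c
  cpos := D.cpos
  ray := D.ray
  gT := D.gT.1
  smg := fun j k => (D.gT.2 j k).1
  rg := fun j k => (D.gT.2 j k).2
  gpos := fun j p => by
    classical
    have h := D.gpos p (Pi.single j 1)
    rw [qfm_eq, qf, rt_single] at h
    exact h
  pl := D.pl
  smV := hV.1
  rV := hV.2
  V0 := fun p => by linarith [(hV1 p).1]
  V1 := fun p => (hV1 p).2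
  V2 := fun p => by nlinarith [(hV1 p).1]
  VK := hVK
  smig := sm_iv1 (SlowD.sm_gv (fun j k => (D.gT.2 j k).1) D.ray.smw D.ray.smw)
    (SlowD.rl_gv (fun j k => (D.gT.2 j k).2) D.ray.rw' D.ray.rw')
  rig := rl_iv1
  igg := fun p hp => by
    refine iv1_mul D.cpos (SlowD.rl_gv (fun j k => (D.gT.2 j k).2) D.ray.rw' D.ray.rw' p) ?_
    rw [gv_eq (fun j k => (D.gT.2 j k).2) D.ray.rw' D.ray.rw', Complex.ofReal_re]
    have h := D.gww p hp
    rwa [qfm_eq] at h
  gww := fun p hp => by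
    rw [gv_eq (fun j k => (D.gT.2 j k).2) D.ray.rw' D.ray.rw', Complex.ofReal_re]
    have h := D.gww p hp
    rwa [qfm_eq] at h
  smψ := D.rψ.1
  rψ := D.rψ.2
  ψs := fun p ξ => by
    have h := D.ψsmall p ξ
    rw [qfm_eq] at h
    simpa using h
  smX := fun a => (D.rX a).1
  rX := fun a => (D.rX a).2
  X0s := fun p ξ => by
    have h := D.short p ξ
    rwa [qfm_eq, qfm_eq] at h

/-- admissible mean functions -/
structure VOkS (S : DAlg P κ) (σ : P → P) (r v : P → ℂ) : Prop where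
  rs : RSm S v
  b : ∀ p, 15 / 16 ≤ (v p).re ∧ (v p).re ≤ 1
  z : S.Zs (Kc r) (fun p => v p - 1)
  ev : Evn σ v

namespace GeoC

variable (D : GeoC S σ g)

theorem VK {v : P → ℂ} (hv : VOkS S σ D.r.Ψ v) (p : P) (hp : p ∉ D.r.K) : v p = 1 := by
  have h1 : p ∉ Kc D.r.Ψ := fun h => hp (by
    rw [D.rK]
    exact ⟨by linarith [h.1], by linarith [h.2]⟩)
  have h2 := hv.z [] p h1
  have h3 : v p - 1 = 0 := h2
  linear_combination h3

/-- the slow metric data -/
def sl {v : P → ℂ} (hv : VOkS S σ D.r.Ψ v) : SlowD S g :=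
  SlowD.ofGeo D v hv.rs hv.b (D.VK hv)

/-- `g_tt - g_tw² / g_ww` -/
def m2 : P → ℂ := fun p => gv g D.r.t D.r.t p - gv g D.r.t D.r.w p * gv g D.r.t D.r.w p *
  iv1 D.c (gv g D.r.w D.r.w) p

/-- **the slow metric** -/
def gS (v : P → ℂ) (δ : ℝ) (j k : κ) : P → ℂ := fun p =>
  (1 - δ) * (g j k p - (1 - v p ^ 2) * D.m2 p * (S.D j D.r.Ψ p * S.D k D.r.Ψ p))
    - S.D j D.ψ p * S.D k D.ψ p

theorem gS_eq {v : P → ℂ} (hv : VOkS S σ D.r.Ψ v) (δ : ℝ) (j k : κ) :
    (D.sl hv).gS δ j k = D.gS v δ j k := by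
  funext p
  have h : ((D.sl hv).gS δ j k) p = (1 - δ) * (g j k p - (1 - v p ^ 2) * D.m2 p *
    (S.D j D.r.Ψ p * S.D k D.r.Ψ p)) - ((1 : ℝ) : ℂ) ^ 2 * (S.D j D.ψ p * S.D k D.ψ p) := rfl
  rw [h, gS]
  push_cast
  ring

theorem rlmet {X : Fin 4 → P → ℂ} (h : ∀ a, RSm S (X a)) (j k : κ) : Rl (S.met X j k) :=
  Rl.dot (fun a => SlowD.rlD (h a).1 (h a).2 j) (fun a => SlowD.rlD (h a).1 (h a).2 k)

theorem smmet {X : Fin 4 → P → ℂ} (h : ∀ a, RSm S (X a)) (j k : κ) : S.Sm (S.met X j k) :=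
  S.sm_dot (fun a => S.sm_D j (h a).1) (fun a => S.sm_D k (h a).1)

theorem gv_even {T : κ → κ → P → ℂ} (hT : ∀ j k, Evn σ (T j k)) {c d : κ → P → ℂ}
    (hc : ∀ j, Evn σ (c j)) (hd : ∀ j, Evn σ (d j)) : Evn σ (gv T c d) := fun p => by
  simp only [gv, hT _ _ p, hc _ p, hd _ p]

theorem m2_even : Evn σ D.m2 := fun p => by
  have h1 := gv_even D.gev D.tev D.tev p
  have h2 := gv_even D.gev D.tev D.wev p
  have h3 := iv1_comp (c := D.c) (u := gv g D.r.w D.r.w) σ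
    (fun p => gv_even D.gev D.wev D.wev p) p
  simp only [m2, h1, h2, h3]

theorem gS_even {v : P → ℂ} (hv : VOkS S σ D.r.Ψ v) (δ : ℝ) (j k : κ) :
    Evn σ (D.gS v δ j k) := fun p => by
  have h1 := D.gev j k p
  have h2 := hv.ev p
  have h3 := D.m2_even p
  have h4 := fun j => D_even D.inv D.ray.smΨ D.Ψev j p
  have h5 := fun j => D_odd D.inv D.rψ.1 D.ψod j p
  simp only [gS, h1, h2, h3, h4, h5]
  ring

theorem met_even {X : Fin 4 → P → ℂ} (hτ : IsInv S σ) (h : ∀ a, S.Sm (X a))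
    (he : ∀ a, Evn σ (X a)) (j k : κ) : Evn σ (S.met X j k) := fun p => by
  have h1 := fun j a => D_even hτ (h a) (he a) j p
  simp only [DAlg.met, dot, DAlg.Dv, h1]

/-- (A1) -/
theorem slow_low {v : P → ℂ} (hv : VOkS S σ D.r.Ψ v) {δ : ℝ} (h0 : 0 ≤ δ) (h1 : δ ≤ 1 / 4) :
    TSm S (fun j k p => D.gS v δ j k p - S.met D.X0 j k p) ∧
    (∀ j k, Evn σ (fun p => D.gS v δ j k p - S.met D.X0 j k p)) ∧
    ∀ p ξ, 1 / 4 * qfm g p ξ ≤ qfm (fun j k p => D.gS v δ j k p - S.met D.X0 j k p) p ξ := by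
  classical
  have e : (fun j k p => D.gS v δ j k p - S.met D.X0 j k p) =
      fun j k p => (D.sl hv).gS δ j k p - S.met (D.sl hv).X0 j k p := by
    funext j k p
    rw [D.gS_eq hv]
    rfl
  refine ⟨⟨?_, fun j k => ⟨?_, ?_⟩⟩, fun j k p => ?_, fun p ξ => ?_⟩
  · rw [e]
    exact isT_sub ((D.sl hv).isT_gS δ) (isT_met (D.sl hv).smX)
  · rw [e]
    exact S.sm_sub ((D.sl hv).smgS δ j k) (smmet D.rX j k)
  · rw [e]
    exact Rl.sub ((D.sl hv).rlgS δ j k) (rlmet D.rX j k)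
  · simp only [D.gS_even hv δ j k p, met_even D.inv (fun a => (D.rX a).1) D.Xev j k p]
  · rw [e, qfm_eq, qfm_eq]
    exact (D.sl hv).qf_gS_sub δ h0 h1 p ξ

/-- (A0) -/
theorem slow_start : ∃ c0 : ℝ, 0 < c0 ∧ ∀ p, c0 ≤
    (∑ j, ∑ k, (S.met D.X0 j j p * S.met D.X0 k k p - S.met D.X0 j k p ^ 2)).re := by
  classical
  have hc := D.cpos
  refine ⟨D.c ^ 2 * D.c, by positivity, fun p => ?_⟩
  obtain ⟨a, b, α, β, h4, -, -⟩ := D.pl.bas p
  have hq0 : ∀ ξ, 0 ≤ qf g p ξ := fun ξ => by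
    have := D.gpos p ξ
    rwa [qfm_eq] at this
  have hq1 : ∀ ξ, D.c * qf g p ξ ≤ qf (S.met D.X0) p ξ := fun ξ => by
    have := D.imm p ξ
    rwa [qfm_eq, qfm_eq] at this
  have hT := isT_met (S := S) (fun a => (D.rX a).1)
  have hdet := fun c d => det_cmp (T := S.met D.X0) (g := g) hT.1 D.gT.1.1 (p := p)
    hc.le hq0 hq1 c d
  have hr := fun j k => rlmet D.rX j k p
  have e : ∀ j k, (S.met D.X0 j j p * S.met D.X0 k k p - S.met D.X0 j k p ^ 2).re =
      (S.met D.X0 j j p).re * (S.met D.X0 k k p).re - (S.met D.X0 j k p).re ^ 2 := by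
    intro j k
    simp only [sq, Complex.sub_re, Complex.mul_re, hr]
    ring
  have hnn : ∀ j k, 0 ≤ (S.met D.X0 j j p * S.met D.X0 k k p - S.met D.X0 j k p ^ 2).re := by
    intro j k
    rw [e]
    have h5 := det_cmp (T := S.met D.X0) (g := S.met D.X0) hT.1 hT.1 (p := p) (m := 0)
      le_rfl (fun ξ => (mul_nonneg hc.le (hq0 ξ)).trans (hq1 ξ)) (fun ξ => by
        rw [zero_mul]; exact (mul_nonneg hc.le (hq0 ξ)).trans (hq1 ξ))
      (Pi.single j 1) (Pi.single k 1)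
    simp only [rt_single] at h5
    simpa using h5
  have h6 : D.c ^ 2 * D.c ≤ (S.met D.X0 a a p * S.met D.X0 b b p - S.met D.X0 a b p ^ 2).re := by
    rw [e]
    have h7 := hdet (Pi.single a 1) (Pi.single b 1)
    simp only [rt_single] at h7
    exact (mul_le_mul_of_nonneg_left h4 (sq_nonneg _)).trans h7
  simp only [Complex.re_sum]
  refine h6.trans ?_
  refine le_trans ?_ (Finset.single_le_sum (f := fun j => ∑ k,
    (S.met D.X0 j j p * S.met D.X0 k k p - S.met D.X0 j k p ^ 2).re)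
    (fun j _ => Finset.sum_nonneg fun k _ => hnn j k) (Finset.mem_univ a))
  exact Finset.single_le_sum (f := fun k =>
    (S.met D.X0 a a p * S.met D.X0 k k p - S.met D.X0 a k p ^ 2).re)
    (fun k _ => hnn a k) (Finset.mem_univ b)

theorem vok1 : VOkS S σ D.r.Ψ (fun _ => 1) := by
  refine ⟨⟨S.sm_const 1, fun _ => by simp⟩, fun _ => by norm_num, fun w p hp => ?_,
    fun _ => rfl⟩
  have h : (fun _ : P => (1 : ℂ) - 1) = fun _ => (0 : ℂ) := by
    funext _; ring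
  simp only [h]
  induction w with
  | nil => rfl
  | cons j w ih =>
    have h2 : ∀ w : List κ, S.wd w (fun _ : P => (0 : ℂ)) = 0 := by
      intro w
      induction w with
      | nil => rfl
      | cons j w ih =>
        rw [DAlg.wd_cons, ih]
        exact S.D_const j 0
    rw [h2]
    rfl

/-- **the slow metric, all facts** -/
theorem slow_main : ∃ cG cσ c0 C η0 : ℝ, 0 < cG ∧ 0 < cσ ∧ 0 < c0 ∧ 0 < C ∧ 0 < η0 ∧
    (∀ p, c0 ≤
      (∑ j, ∑ k, (S.met D.X0 j j p * S.met D.X0 k k p - S.met D.X0 j k p ^ 2)).re) ∧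
    ∀ v, VOkS S σ D.r.Ψ v →
      (∀ δ : ℝ, 0 ≤ δ → δ ≤ 1 / 4 → ∀ X : Fin 4 → P → ℂ, (∀ a, RSm S (X a)) →
        (∀ j k p, ‖S.met X j k p - D.gS v δ j k p‖ ≤ η0) →
        (∀ p ∈ D.r.K, cG ≤ (Gw S D.ψ D.r X p).re) ∧
        (∀ p ∈ D.r.K, cσ ≤ (Gd S D.ψ D.r X p).re) ∧
        (∀ p, ∃ a b, c0 ≤ (S.met X a a p * S.met X b b p - S.met X a b p ^ 2).re) ∧
        (∀ j a p, ‖S.D j (X a) p‖ ≤ C)) ∧
      ∃ C2 : ℝ, 0 < C2 ∧ ∀ δ : ℝ, 0 ≤ δ → δ ≤ 1 / 4 → ∀ η : ℝ, η ≤ η0 →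
        ∀ d : TData P κ, (∀ a, RSm S (d.X a)) → d.ψ = D.ψ → d.r = D.r →
        (∀ j k p, ‖S.met d.X j k p - D.gS v δ j k p‖ ≤ η) →
        (∀ p ∈ D.r.K, d.iv p * v p = 1) → (∀ p, p ∉ D.r.K → d.iv p = 1) →
        (∀ p ∈ D.r.K, d.iG p * d.Gww S 1 p = 1) →
        ∀ j k p, ‖d.Q S 1 j k p - (1 - δ) * g j k p‖ ≤ C2 * η := by
  obtain ⟨c0', hc0', hst⟩ := D.slow_start
  obtain ⟨Bd, Br, Bβ, BM, Bψ, hB1⟩ := (D.sl D.vok1).exists_bds
  have hB : ∀ v (hv : VOkS S σ D.r.Ψ v), (D.sl hv).Bds Bd Br Bβ BM Bψ := fun v hv =>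
    ⟨hB1.d1, hB1.r1, hB1.β1, hB1.M1, hB1.ψ1, hB1.d, hB1.r, hB1.β, hB1.M, hB1.ψ⟩
  set c1 := min (D.c / 16) (1 / 16 * (D.c / (2 * (Br * Bβ)) ^ 2)) with hc1'
  have hc := D.cpos
  have hr1 := hB1.r1
  have hβ1 := hB1.β1
  have hd1 := hB1.d1
  have hM1 := hB1.M1
  have hψ1 := hB1.ψ1
  have hc1 : 0 < c1 := by positivity
  refine ⟨c1, c1 * c1, min c0' c1, Bd + BM * Br ^ 2 + Bψ + 1, min (5 / 32 * (D.c / (4 * Bd))) 1,
    hc1, by positivity, by positivity, by positivity, by positivity,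
    fun p => (min_le_left _ _).trans (hst p), fun v hv => ⟨fun δ h0 hδ X hX hm => ?_, ?_⟩⟩
  · have hm' : ∀ j k p, ‖S.met X j k p - (D.sl hv).gS δ j k p‖ ≤
        min (5 / 32 * (D.c / (4 * Bd))) 1 := fun j k p => by
      rw [D.gS_eq hv]; exact hm j k p
    obtain ⟨b1, b2, b3, b4⟩ := (hB v hv).bounds h0 hδ (fun a => (hX a).1) (fun a => (hX a).2) hm'
    have hGw : ∀ p ∈ D.r.K, c1 ≤ (Gw S D.ψ D.r X p).re := fun p hp => by
      have e1 : Gw S D.ψ D.r X p = gv (S.met X) D.r.w D.r.w p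
          + ((1 : ℝ) : ℂ) ^ 2 * (S.dir D.r.w D.ψ p * S.dir D.r.w D.ψ p) := by
        rw [← dot_dirv]; rfl
      have h4 : (S.dir D.r.w D.ψ p).im = 0 := Rl.dir D.ray.rw' D.rψ.1 D.rψ.2 p
      have e2 : (((1 : ℝ) : ℂ) ^ 2 * (S.dir D.r.w D.ψ p * S.dir D.r.w D.ψ p)).re =
          (S.dir D.r.w D.ψ p).re ^ 2 := by
        rw [← Complex.ofReal_pow, Complex.re_ofReal_mul, Complex.mul_re, h4]
        ring
      rw [e1, Complex.add_re, e2]
      have := b1 p hp
      have h5 : c1 ≤ (gv (S.met X) D.r.w D.r.w p).re := this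
      linarith only [sq_nonneg (S.dir D.r.w D.ψ p).re, h5]
    refine ⟨hGw, fun p hp => ?_, fun p => ?_, b4⟩
    · have e1 : Gd S D.ψ D.r X p = (gv (S.met X) D.r.t D.r.t p * gv (S.met X) D.r.w D.r.w p
          - gv (S.met X) D.r.t D.r.w p * gv (S.met X) D.r.t D.r.w p) * Gw S D.ψ D.r X p := by
        rw [← dot_dirv, ← dot_dirv, ← dot_dirv]; rfl
      have h6 : (Gw S D.ψ D.r X p).im = 0 :=
        rl_Gw D.ray D.rψ.1 D.rψ.2 (fun a => (hX a).1) (fun a => (hX a).2) p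
      rw [e1, Complex.mul_re, h6, mul_zero, sub_zero]
      exact mul_le_mul (b2 p hp) (hGw p hp) hc1.le (hc1.le.trans (b2 p hp))
    · obtain ⟨a, b, h⟩ := b3 p
      exact ⟨a, b, (min_le_right _ _).trans h⟩
  · obtain ⟨C2, hC2, h2⟩ := (D.sl hv).err (hB v hv)
    refine ⟨C2, hC2, fun δ h0 hδ η hη d hX hψ hr hm hiv hiv1 hiG j k p => ?_⟩
    exact h2 δ h0 hδ d (fun a => (hX a).1) (fun a => (hX a).2) hr hψ hiG hiv hiv1 η hη
      (fun j k p => by rw [D.gS_eq hv]; exact hm j k p) j k p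

end GeoC

end Vale.Agent.P205.TW
end
end

section

/-!
P205, scheme T1W: **(TENS)**, `tensC`.
-/

noncomputable section

namespace Vale.Agent.P205.TW

open Vale.Agent.P205.F

universe u

variable {P : Type u} {κ : Type} [Fintype κ] {S : DAlg P κ} {τ : P → P} {g : κ → κ → P → ℂ}

theorem gcc_eq (c c' : κ → P → ℂ) : gcc g c c' = gv g c c' := by
  funext p
  simp only [gcc, gv]
  exact Finset.sum_congr rfl fun j _ => Finset.sum_congr rfl fun k _ => by ring

theorem m2C_eq (D : GeoC S τ g) : m2C g D.r D.c = D.m2 := by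
  funext p
  simp only [m2C, GeoC.m2, gcc_eq]
  ring

theorem gSC_eq (D : GeoC S τ g) (v : P → ℂ) (δ : ℝ) (j k : κ) :
    gSC S g D.ψ D.r D.c v δ j k = D.gS v δ j k := by
  funext p
  simp only [gSC, GeoC.gS, m2C_eq]

theorem VOk.toS {D : GeoC S τ g} {v : P → ℂ} (hv : VOk S D.r.Ψ v) : VOkS S τ D.r.Ψ v :=
  ⟨hv.sm, hv.v1, hv.zv, fun p => hv.ev _ _ (D.Ψev p)⟩

/-- **(TENS)** -/
theorem tensC (D : GeoC S τ g) : TensC D := by
  obtain ⟨cG, cσ, c0, C, η0, h1, h2, h3, h4, h5, h0, h⟩ := D.slow_main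
  refine ⟨cG, cσ, c0, C, η0, h1, h2, h3, h4, h5, h0, fun v hv => ?_⟩
  obtain ⟨hlow, C2, hC2, hmet⟩ := h v hv.toS
  refine ⟨fun δ hδ hδ1 => ?_, fun δ j k => ?_, fun δ hδ hδ1 => ⟨1 / 4, by norm_num, ?_⟩,
    fun δ hδ hδ1 X hX hm => ?_, C2, hC2, fun δ hδ hδ1 η hη hη0 X hX hm d hdX hψ hr hiv hG => ?_⟩
  · simp only [gSC_eq]
    exact (D.slow_low hv.toS hδ (by linarith)).1
  · simp only [gSC_eq]
    intro p
    simp only [D.gS_even hv.toS δ j k p, GeoC.met_even D.inv (fun a => (D.rX a).1) D.Xev j k p]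
  · simp only [gSC_eq]
    exact (D.slow_low hv.toS hδ (by linarith)).2.2
  · simp only [gSC_eq] at hm
    exact hlow δ hδ (by linarith) X hX hm
  · simp only [gSC_eq] at hm
    refine hmet δ hδ (by linarith) η hη0 d (by rw [hdX]; exact hX) hψ hr
      (by rw [hdX]; exact hm) (fun p _ => hiv p) (fun p hp => ?_) hG
    have h6 := hiv p
    rw [D.VK hv.toS p hp, mul_one] at h6
    exact h6

end Vale.Agent.P205.TW
end
end

section

/-!
P205, block CHI (8): the profile composed with `r`, in an abstract `DAlg`: `theorem chiC`.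
-/

noncomputable section

open scoped ContDiff

namespace Vale.Agent.P205.TW

open Vale.Agent.P205.F

universe u

variable {P : Type u} {κ : Type} [Fintype κ] {S : DAlg P κ}

theorem chi_exists_Nb (k : ℕ) : ∀ {u : P → ℂ}, S.Sm u → ∃ C : ℝ, 0 ≤ C ∧ S.Nb k C u := by
  induction k with
  | zero =>
    intro u hu
    obtain ⟨C, hC⟩ := S.bdd hu
    refine ⟨max C 0, le_max_right _ _, fun w hw p => ?_⟩
    have h0 : w = [] := List.length_eq_zero_iff.1 (Nat.le_zero.1 hw)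
    subst h0
    rw [S.wd_nil]
    exact (hC p).trans (le_max_left _ _)
  | succ k ih =>
    intro u hu
    obtain ⟨C, hC⟩ := S.bdd hu
    choose R hR0 hR using fun j : κ => ih (S.sm_D j hu)
    refine ⟨max C 0 + ∑ j, R j,
      add_nonneg (le_max_right _ _) (Finset.sum_nonneg fun j _ => hR0 j), fun w hw p => ?_⟩
    have hs : 0 ≤ ∑ j, R j := Finset.sum_nonneg fun j _ => hR0 j
    rcases List.eq_nil_or_concat' w with rfl | ⟨w', j, rfl⟩
    · rw [S.wd_nil]
      exact (hC p).trans ((le_max_left _ _).trans (le_add_of_nonneg_right hs))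
    · rw [S.wd_snoc]
      rw [List.length_append, List.length_singleton] at hw
      refine (hR j w' (by omega) p).trans ?_
      have h1 : R j ≤ ∑ j, R j :=
        Finset.single_le_sum (f := fun j => R j) (fun i _ => hR0 i) (Finset.mem_univ j)
      linarith [le_max_right C 0]

/-- a fixed function is slow -/
theorem chi_fo_fixed {ι : Type*} {Λ : ι → ℝ} (hΛ : ∀ i, 1 ≤ Λ i) {u : P → ℂ} (hu : S.Sm u) :
    S.FO Λ (fun _ => 1) (fun _ => u) := by
  refine ⟨fun _ => hu, fun k => ?_⟩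
  obtain ⟨C, hC0, hC⟩ := chi_exists_Nb k hu
  refine ⟨C, hC0, fun i w hw p => ?_⟩
  have h1 : (1 : ℝ) ≤ Λ i ^ w.length := one_le_pow₀ (hΛ i)
  have h2 := hC w hw p
  linarith only [mul_nonneg (sub_nonneg.2 hC0) (sub_nonneg.2 h1), h2]

/-- composition of a fast one-variable function with a fixed function -/
theorem chi_bd_comp {r : P → ℂ} (hr : RSm S r) (k : ℕ) : ∃ c : ℝ, 0 ≤ c ∧
    ∀ (F : ℝ → ℂ) (B μ : ℝ), ContDiff ℝ ∞ F → 1 ≤ μ → 0 ≤ B →
      (∀ j ≤ k, ∀ x, ‖iteratedDeriv j F x‖ ≤ B * μ ^ j) →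
      S.Bd μ k (c * B) (fun p => F (r p).re) := by
  induction k with
  | zero =>
    refine ⟨1, zero_le_one, fun F B μ hF hμ hB h w hw p => ?_⟩
    have h0 : w = [] := List.length_eq_zero_iff.1 (Nat.le_zero.1 hw)
    subst h0
    rw [S.wd_nil]
    have := h 0 le_rfl (r p).re
    simpa using this
  | succ k ih =>
    obtain ⟨c, hc, ih⟩ := ih
    choose R hR0 hR using fun j : κ => chi_exists_Nb (S := S) k (S.sm_D j hr.1)
    have hs : 0 ≤ ∑ j, R j := Finset.sum_nonneg fun j _ => hR0 j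
    refine ⟨max 1 (2 ^ k * c * ∑ j, R j), le_max_of_le_left zero_le_one,
      fun F B μ hF hμ hB h w hw p => ?_⟩
    have hμ0 : 0 ≤ μ := by linarith
    rcases List.eq_nil_or_concat' w with rfl | ⟨w', j, rfl⟩
    · rw [S.wd_nil]
      have h1 := h 0 (Nat.zero_le _) (r p).re
      simp only [iteratedDeriv_zero, pow_zero, mul_one] at h1
      simp only [List.length_nil, pow_zero, mul_one]
      exact h1.trans (le_mul_of_one_le_left hB (le_max_left _ _))
    · rw [S.wd_snoc, S.D_comp j hF hr.1 hr.2]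
      have hF' : ContDiff ℝ ∞ (deriv F) := (contDiff_infty_iff_deriv.1 hF).2
      have e1 := ih (deriv F) (B * μ) μ hF' hμ (by positivity) (fun i hi x => by
        rw [← iteratedDeriv_succ']
        refine (h (i + 1) (by omega) x).trans (le_of_eq ?_)
        ring)
      have hRj : R j ≤ ∑ j, R j :=
        Finset.single_le_sum (f := fun j => R j) (fun i _ => hR0 i) (Finset.mem_univ j)
      have e2 : S.Bd μ k (∑ j, R j) (S.D j r) := fun w hw p => by
        have h1 : (1 : ℝ) ≤ μ ^ w.length := one_le_pow₀ hμ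
        have h2 := hR j w hw p
        linarith only [mul_nonneg (sub_nonneg.2 hs) (sub_nonneg.2 h1), h2, hRj]
      have hw' : w'.length ≤ k := by
        rw [List.length_append, List.length_singleton] at hw
        omega
      have e3 := (e1.mul (S.sm_comp hF' hr.1 hr.2) (S.sm_D j hr.1) e2) w' hw' p
      have e4 : (fun p => deriv F (r p).re * S.D j r p)
          = (fun p => deriv F (r p).re) * S.D j r := rfl
      rw [e4]
      refine e3.trans ?_
      rw [List.length_append, List.length_singleton, pow_succ]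
      have e5 : 2 ^ k * (c * (B * μ) * ∑ j, R j) * μ ^ w'.length
          = (2 ^ k * c * ∑ j, R j) * (B * (μ ^ w'.length * μ)) := by ring
      have e6 : max 1 (2 ^ k * c * ∑ j, R j) * B * (μ ^ w'.length * μ)
          = max 1 (2 ^ k * c * ∑ j, R j) * (B * (μ ^ w'.length * μ)) := by ring
      rw [e5, e6]
      exact mul_le_mul_of_nonneg_right (le_max_right _ _) (by positivity)

theorem contDiff_ofReal' {F : ℝ → ℝ} (hF : ContDiff ℝ ∞ F) :
    ContDiff ℝ ∞ (fun x => ((F x : ℝ) : ℂ)) := Complex.ofRealCLM.contDiff.comp hF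

theorem iteratedDeriv_ofReal (k : ℕ) : ∀ {F : ℝ → ℝ}, ContDiff ℝ ∞ F → ∀ x,
    iteratedDeriv k (fun x => ((F x : ℝ) : ℂ)) x = ((iteratedDeriv k F x : ℝ) : ℂ) := by
  induction k with
  | zero =>
    intro F _ x
    simp
  | succ k ih =>
    intro F hF x
    have h1 : deriv (fun x => ((F x : ℝ) : ℂ)) = fun x => ((deriv F x : ℝ) : ℂ) := by
      funext y
      exact ((hF.differentiable (by simp)).differentiableAt.hasDerivAt (x := y)).ofReal_comp.deriv
    rw [iteratedDeriv_succ', iteratedDeriv_succ', h1, ih (contDiff_infty_iff_deriv.1 hF).2]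

/-- the family `F i ∘ r` -/
theorem chi_fo {ι : Type*} {Λ : ι → ℝ} (hΛ : ∀ i, 1 ≤ Λ i) {r : P → ℂ} (hr : RSm S r)
    {B : ℕ → ℝ} {F : ι → ℝ → ℝ} (hF : ∀ i, FBd B (Λ i) (F i)) :
    S.FO Λ (fun _ => 1) (fun i p => ((F i (r p).re : ℝ) : ℂ)) := by
  refine ⟨fun i => S.sm_comp (contDiff_ofReal' (hF i).1) hr.1 hr.2, fun k => ?_⟩
  obtain ⟨c, hc, h⟩ := chi_bd_comp hr k
  set Bm : ℝ := ∑ j ∈ Finset.range (k + 1), |B j| with hBm
  have hBm0 : 0 ≤ Bm := Finset.sum_nonneg fun j _ => abs_nonneg _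
  refine ⟨c * Bm, by positivity, fun i => ?_⟩
  have hΛ0 : 0 ≤ Λ i := by linarith [hΛ i]
  rw [mul_one]
  refine h _ Bm (Λ i) (contDiff_ofReal' (hF i).1) (hΛ i) hBm0 fun j hj x => ?_
  rw [iteratedDeriv_ofReal j (hF i).1, Complex.norm_real]
  refine ((hF i).2 j x).trans (mul_le_mul_of_nonneg_right ?_ (by positivity))
  exact (le_abs_self _).trans (Finset.single_le_sum (f := fun j => |B j|)
    (fun _ _ => abs_nonneg _) (Finset.mem_range.2 (by omega)))

/-! ### supports -/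

/-- functions built from one-variable functions of `r` which vanish off `[3/5, 12/5]` -/
inductive ZC (S : DAlg P κ) (r : P → ℂ) : (P → ℂ) → Prop
  | mul (G : ℝ → ℂ) (v : P → ℂ) (hG : ContDiff ℝ ∞ G)
      (h0 : ∀ x, (x < 3 / 5 ∨ 12 / 5 < x) → G x = 0) (hv : S.Sm v) :
      ZC S r (fun p => G (r p).re * v p)
  | add (u v : P → ℂ) (hu : ZC S r u) (hv : ZC S r v) : ZC S r (u + v)

omit [Fintype κ] in
theorem ZC.sm {r u : P → ℂ} (hr : RSm S r) (h : ZC S r u) : S.Sm u := by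
  induction h with
  | mul G v hG h0 hv => exact S.sm_mul (S.sm_comp hG hr.1 hr.2) hv
  | add u v _ _ h1 h2 => exact S.sm_add h1 h2

theorem off_cases {r : P → ℂ} {p : P} (hp : p ∉ Kc r) : (r p).re < 3 / 5 ∨ 12 / 5 < (r p).re := by
  by_contra hcon
  push Not at hcon
  exact hp hcon

omit [Fintype κ] in
theorem ZC.off {r u : P → ℂ} (h : ZC S r u) {p : P} (hp : p ∉ Kc r) : u p = 0 := by
  induction h with
  | mul G v hG h0 hv =>
    simp only
    rw [h0 _ (off_cases hp), zero_mul]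
  | add u v _ _ h1 h2 => rw [Pi.add_apply, h1, h2, add_zero]

omit [Fintype κ] in
theorem ZC.D {r u : P → ℂ} (hr : RSm S r) (j : κ) (h : ZC S r u) : ZC S r (S.D j u) := by
  induction h with
  | mul G v hG h0 hv =>
    have hG' : ContDiff ℝ ∞ (deriv G) := (contDiff_infty_iff_deriv.1 hG).2
    have h0' : ∀ x, (x < 3 / 5 ∨ 12 / 5 < x) → deriv G x = 0 := by
      intro x hx
      have hev : G =ᶠ[nhds x] fun _ => (0 : ℂ) := by
        rcases hx with hx | hx
        · filter_upwards [isOpen_Iio.mem_nhds hx] with y hy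
          exact h0 y (Or.inl hy)
        · filter_upwards [isOpen_Ioi.mem_nhds hx] with y hy
          exact h0 y (Or.inr hy)
      rw [hev.deriv_eq, deriv_const]
    have e : S.D j (fun p => G (r p).re * v p) =
        (fun p => deriv G (r p).re * (S.D j r p * v p)) + (fun p => G (r p).re * S.D j v p) := by
      have e1 : (fun p => G (r p).re * v p) = (fun p => G (r p).re) * v := rfl
      rw [e1, S.D_mul j (S.sm_comp hG hr.1 hr.2) hv, S.D_comp j hG hr.1 hr.2]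
      funext p
      simp only [Pi.add_apply, Pi.mul_apply]
      ring
    rw [e]
    exact ZC.add _ _ (ZC.mul _ _ hG' h0' (S.sm_mul (S.sm_D j hr.1) hv))
      (ZC.mul _ _ hG h0 (S.sm_D j hv))
  | add u v hu hv h1 h2 =>
    rw [S.D_add j (hu.sm hr) (hv.sm hr)]
    exact ZC.add _ _ h1 h2

theorem ZC.zs {r u : P → ℂ} (hr : RSm S r) (h : ZC S r u) : S.Zs (Kc r) u := by
  intro w p hp
  have h1 : ZC S r (S.wd w u) := by
    induction w with
    | nil => exact h
    | cons j w ih => exact ih.D hr j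
  exact h1.off hp

theorem chi_zs {r : P → ℂ} (hr : RSm S r) {F : ℝ → ℝ} (hF : ContDiff ℝ ∞ F)
    (h0 : ∀ x, (x < 3 / 5 ∨ 12 / 5 < x) → F x = 0) :
    S.Zs (Kc r) (fun p => ((F (r p).re : ℝ) : ℂ)) := by
  have h1 : ZC S r (fun p => (fun x => ((F x : ℝ) : ℂ)) (r p).re * (fun _ => (1 : ℂ)) p) :=
    ZC.mul _ _ (contDiff_ofReal' hF) (fun x hx => by rw [h0 x hx, Complex.ofReal_zero])
      (S.sm_const 1)
  have e : (fun p => (fun x => ((F x : ℝ) : ℂ)) (r p).re * (fun _ => (1 : ℂ)) p) =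
      fun p => ((F (r p).re : ℝ) : ℂ) := by
    funext p
    simp
  rw [← e]
  exact h1.zs hr

omit [Fintype κ] in
theorem chi_D {r : P → ℂ} (hr : RSm S r) {F : ℝ → ℝ} (hF : ContDiff ℝ ∞ F) {d : ℝ} {p : P}
    (hd : HasDerivAt F d (r p).re) (j : κ) :
    S.D j (fun p => ((F (r p).re : ℝ) : ℂ)) p = (d : ℂ) * S.D j r p := by
  rw [S.D_comp j (contDiff_ofReal' hF) hr.1 hr.2]
  simp only
  rw [hd.ofReal_comp.deriv]

theorem chiC : ChiC S := by
  intro r hr τ0 hτ
  obtain ⟨Q⟩ := exists_profile hτ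
  refine ⟨fun p => ((Q.V (r p).re : ℝ) : ℂ), Q.c₁, Q.c₁_pos,
    ⟨S.sm_comp (contDiff_ofReal' Q.V_smooth) hr.1 hr.2, Rl.ofReal _⟩,
    fun p => ⟨by simpa using Q.V_pos _, by simpa using Q.V_le _⟩, ?_, fun p q hpq => by
      simp only [hpq], 1, fun n hn => ?_⟩
  · have h1 := chi_zs (S := S) hr (F := fun x => Q.V x - 1) (Q.V_smooth.sub contDiff_const)
      (fun x hx => by rw [Q.V_off x hx, sub_self])
    have e : (fun p => ((Q.V (r p).re - 1 : ℝ) : ℂ)) = fun p => ((Q.V (r p).re : ℝ) : ℂ) - 1 := by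
      funext p
      push_cast
      ring
    rw [e] at h1
    exact h1
  have hΛ : ∀ i, 1 ≤ 2 * Real.pi * (n i : ℝ) := fun i => one_le_mun (hn i)
  have hDr : ∀ j, S.FO (fun i => 2 * Real.pi * (n i : ℝ)) (fun _ => 1) (fun _ => S.D j r) :=
    fun j => chi_fo_fixed hΛ (S.sm_D j hr.1)
  refine ⟨{
    c := fun i p => ((Q.c (n i) (r p).re : ℝ) : ℂ)
    s := fun i p => ((Q.s (n i) (r p).re : ℝ) : ℂ)
    h := fun i p => ((Q.h (n i) (r p).re : ℝ) : ℂ)
    A := fun i p => ((Q.C (n i) (r p).re : ℝ) : ℂ)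
    B := fun i p => ((Q.Sn (n i) (r p).re : ℝ) : ℂ)
    fc := chi_fo hΛ hr fun i => Q.c_bd (n i) (hn i)
    fs := chi_fo hΛ hr fun i => Q.s_bd (n i) (hn i)
    fh := chi_fo hΛ hr fun i => Q.h_bd (n i) (hn i)
    fA := chi_fo hΛ hr fun i => Q.C_bd (n i) (hn i)
    fB := chi_fo hΛ hr fun i => Q.Sn_bd (n i) (hn i)
    rc := fun i => Rl.ofReal _
    rs := fun i => Rl.ofReal _
    rh := fun i => Rl.ofReal _
    rA := fun i => Rl.ofReal _
    rB := fun i => Rl.ofReal _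
    circ := fun i p => by exact_mod_cast congrArg (fun x : ℝ => (x : ℂ)) (Q.circ (n i) (r p).re)
    dc := fun j => by
      refine DAlg.FO.congr DAlg.FO.zero fun i p => ?_
      rw [chi_D hr (Q.c_bd (n i) (hn i)).1 (Q.c_deriv (n i) (hn i) (r p).re) j]
      push_cast
      simp only [Pi.zero_apply]
      ring
    ds := fun j => by
      refine DAlg.FO.congr DAlg.FO.zero fun i p => ?_
      rw [chi_D hr (Q.s_bd (n i) (hn i)).1 (Q.s_deriv (n i) (hn i) (r p).re) j]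
      push_cast
      simp only [Pi.zero_apply]
      ring
    dA := fun j => by
      have h1 := (chi_fo (S := S) hΛ hr fun i => Q.eC_bd (n i) (hn i)).mul (hDr j)
      refine (h1.congr_s fun i => one_mul 1).congr fun i p => ?_
      rw [chi_D hr (Q.C_bd (n i) (hn i)).1 (Q.C_deriv (n i) (hn i) (r p).re) j]
      push_cast
      simp only [Pi.mul_apply]
      ring
    dB := fun j => by
      have h1 := (chi_fo (S := S) hΛ hr fun i => Q.eS_bd (n i) (hn i)).mul (hDr j)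
      refine (h1.congr_s fun i => one_mul 1).congr fun i p => ?_
      rw [chi_D hr (Q.Sn_bd (n i) (hn i)).1 (Q.Sn_deriv (n i) (hn i) (r p).re) j]
      push_cast
      simp only [Pi.mul_apply]
      ring
    zc := fun i => by
      have h1 := chi_zs (S := S) hr (F := fun x => Q.c (n i) x - 1)
        ((Q.c_bd (n i) (hn i)).1.sub contDiff_const)
        (fun x hx => by rw [Q.c_off (n i) (hn i) x hx, sub_self])
      have e : (fun p => ((Q.c (n i) (r p).re - 1 : ℝ) : ℂ)) =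
          fun p => ((Q.c (n i) (r p).re : ℝ) : ℂ) - 1 := by
        funext p
        push_cast
        ring
      rw [e] at h1
      exact h1
    zs := fun i => chi_zs hr (Q.s_bd (n i) (hn i)).1 (Q.s_off (n i) (hn i))
    zh := fun i => chi_zs hr (Q.h_bd (n i) (hn i)).1 (Q.h_off (n i) (hn i))
    zA := fun i => chi_zs hr (Q.C_bd (n i) (hn i)).1 (Q.C_off (n i) (hn i))
    zB := fun i => chi_zs hr (Q.Sn_bd (n i) (hn i)).1 (Q.Sn_off (n i) (hn i))
    nd1 := fun i p => by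
      rw [Complex.norm_real, Complex.norm_real, Complex.ofReal_re]
      rcases Q.nondeg (n i) (hn i) (r p).re with ⟨_, _, h3⟩ | ⟨_, h2, h3⟩
      · left
        exact h3.trans (le_abs_self _)
      · right
        exact ⟨h2, h3⟩
    nd2 := fun i p h1 h2 => by
      rw [Complex.norm_real]
      rcases Q.nondeg (n i) (hn i) (r p).re with ⟨_, _, h3⟩ | ⟨h3 | h3, _, _⟩
      · exact h3.trans (le_abs_self _)
      · linarith
      · linarith
    ev := fun i p q hpq => by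
      simp only [hpq]
      exact ⟨trivial, trivial, trivial, trivial, trivial⟩ }⟩

end Vale.Agent.P205.TW
end
end

section

/-!
P205, scheme T1W: final assembly.
-/

noncomputable section

set_option linter.unusedSectionVars false

open scoped Manifold ContDiff Topology
open Set Filter

namespace Vale.Agent.P205.TW

open Vale.Agent.P205.F

universe u

variable {E : Type} [NormedAddCommGroup E] [NormedSpace ℝ E]
  {M : Type u} [TopologicalSpace M] [ChartedSpace E M] (K : Cov E M)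
  (b : Module.Basis (Fin 2) ℝ E) [IsManifold 𝓘(ℝ, E) ∞ M] (H : ImmN E M) [CompactSpace M]
  (g : Bundle.ContMDiffRiemannianMetric 𝓘(ℝ, E) ∞ E (fun x : M => TangentSpace 𝓘(ℝ, E) x))

/-- positivity of the lifted metric -/
theorem gC_pos (x : (lineM K b H).Pt) (ξ : Fin K.n × Fin 2 → ℝ)
    (h : ∃ u : M → ℝ, ContMDiff 𝓘(ℝ, E) 𝓘(ℝ, ℝ) ∞ u ∧
      ∑ j, ξ j * K.Dv b j u ((lineM K b H).pi x) ≠ 0) : 0 < qfm (DC.gC K b H g) x ξ := by
  have : FiniteDimensional ℝ E := Module.Basis.finiteDimensional_of_finite b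
  obtain ⟨u, hu, h1⟩ := h
  have h2 := K.G_posT b g ((lineM K b H).pi x) ξ ⟨fun p => ((u p : ℝ) : ℂ),
    (K.dalg_Sm b).2 (Complex.ofRealCLM.contDiff.comp_contMDiff hu), by
      have e : ∀ j, (K.dalg b).D j (fun p => ((u p : ℝ) : ℂ)) ((lineM K b H).pi x) =
          ((K.Dv b j u ((lineM K b H).pi x) : ℝ) : ℂ) := fun j => by
        rw [Cov.dalg_D, K.Dv_ofReal b hu]
      rw [Finset.sum_congr rfl fun j _ => congrArg (((ξ j : ℝ) : ℂ) * ·) (e j)]
      have e2 : (∑ j, ((ξ j : ℝ) : ℂ) * ((K.Dv b j u ((lineM K b H).pi x) : ℝ) : ℂ)) =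
          ((∑ j, ξ j * K.Dv b j u ((lineM K b H).pi x) : ℝ) : ℂ) := by push_cast; rfl
      refine fun h0 => h1 ?_
      exact_mod_cast e2.symm.trans h0⟩
  refine lt_of_lt_of_eq h2 ?_
  rw [Complex.re_sum, qfm]
  refine Finset.sum_congr rfl fun j _ => ?_
  rw [Complex.re_sum]
  refine Finset.sum_congr rfl fun k _ => ?_
  have h3 : DC.gC K b H g j k x = K.G b g j k ((lineM K b H).pi x) := rfl
  rw [← h3, ← Complex.ofReal_mul, Complex.re_ofReal_mul]
  ring

/-- the geometric data on the cover -/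
theorem exists_geo [T2Space M] :
    Nonempty (GeoC (lineM K b H).cover (lineM K b H).sg (DC.gC K b H g)) :=
  DC.geoC_of_prim K b H g (Data.primC_cover K b H _ (gC_pos K b H g))

/-- the model sequences on the cover -/
theorem modC_cover [T2Space M] : ModC (lineM K b H).cover (lineM K b H).sg
      (fun j k x => K.G b g j k ((lineM K b H).pi x)) := by
  intro κ1 hκ1
  obtain ⟨D⟩ := exists_geo K b H g
  exact model_of D (nashC (dim2_cover K b H)) chiC (TData.lowerC _) (tensC D) hκ1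

/-- **The theorem** for surfaces with an immersion into `ℝ⁴` and a unit normal field (block `Iter`
as hypothesis). -/
theorem full_of_immN {E : Type} [NormedAddCommGroup E] [NormedSpace ℝ E]
    (hE : Module.finrank ℝ E = 2) {M : Type u} [TopologicalSpace M] [T2Space M] [CompactSpace M]
    [ChartedSpace E M] [IsManifold 𝓘(ℝ, E) ∞ M] (H : ImmN E M)
    (g : Bundle.ContMDiffRiemannianMetric 𝓘(ℝ, E) ∞ E (fun x : M => TangentSpace 𝓘(ℝ, E) x))
    (hI : ∀ (K : Cov E M) (b : Module.Basis (Fin 2) ℝ E), (K.dalg b).Iter) :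
    ∃ X : Fin 4 → M → ℝ, (∀ i, ContMDiff 𝓘(ℝ, E) 𝓘(ℝ) ∞ (X i)) ∧
      ∀ (m : M) (v w : TangentSpace 𝓘(ℝ, E) m),
        ∑ i, mvfderiv 𝓘(ℝ, E) (X i) m v * mvfderiv 𝓘(ℝ, E) (X i) m w = g.inner m v w := by
  rcases isEmpty_or_nonempty M with he | he
  · exact ⟨fun _ _ => 0, fun _ => contMDiff_const, fun m => (he.false m).elim⟩
  · have hfin : FiniteDimensional ℝ E :=
      FiniteDimensional.of_finrank_pos (by rw [hE]; exact two_pos)
    obtain ⟨K⟩ := Cov.exists (E := E) (M := M)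
    have b := Module.finBasisOfFinrankEq ℝ E hE
    exact full_of_blocks b K H g (K.t1u_of b (hI K b) (DAlg.pieces _)) (modC_cover K b H g)

end Vale.Agent.P205.TW
end
end

section

/-!
Every compact smooth surface carries the data `ImmN`.
-/

noncomputable section

open scoped Manifold ContDiff Topology

namespace Vale.Agent.P205.TW

variable {E : Type*} [NormedAddCommGroup E] [NormedSpace ℝ E]
  {M : Type*} [TopologicalSpace M] [T2Space M] [CompactSpace M] [ChartedSpace E M]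
  [IsManifold 𝓘(ℝ, E) ∞ M]

/-- an immersion into `ℝ⁴` with a unit normal field exists on every closed surface -/
theorem exists_immN (hE : Module.finrank ℝ E = 2) : Nonempty (ImmN E M) := by
  have : FiniteDimensional ℝ E := Module.finite_of_finrank_eq_succ (n := 1) (by omega)
  obtain ⟨F, q, hF, hq, hn⟩ := Vale.Agent.P205.Top.exists_imm_unitNormal (E := E) (M := M) hE
  exact immN_of_pair F q hF.sm hF.inj hq.sm (fun p v => hq.orth p v)
    (fun p h => by
      have := hn p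
      rw [h, norm_zero] at this
      exact zero_ne_one this)

end Vale.Agent.P205.TW
end
end

section

/-!
P205: every closed Riemannian surface has a smooth isometric immersion into `ℝ⁴`.
-/

noncomputable section

open scoped Manifold ContDiff Topology

namespace Vale.Agent.P205.TW

open Vale.Agent.P205.F

universe u

/-- **Every closed smooth Riemannian surface has a smooth isometric immersion into `ℝ⁴`.** -/
theorem full {E : Type} [NormedAddCommGroup E] [NormedSpace ℝ E]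
    (hE : Module.finrank ℝ E = 2) {M : Type u} [TopologicalSpace M] [T2Space M] [CompactSpace M]
    [ChartedSpace E M] [IsManifold 𝓘(ℝ, E) ∞ M]
    (g : Bundle.ContMDiffRiemannianMetric 𝓘(ℝ, E) ∞ E (fun x : M => TangentSpace 𝓘(ℝ, E) x)) :
    ∃ X : Fin 4 → M → ℝ, (∀ i, ContMDiff 𝓘(ℝ, E) 𝓘(ℝ) ∞ (X i)) ∧
      ∀ (m : M) (v w : TangentSpace 𝓘(ℝ, E) m),
        ∑ i, mvfderiv 𝓘(ℝ, E) (X i) m v * mvfderiv 𝓘(ℝ, E) (X i) m w = g.inner m v w := by
  obtain ⟨H⟩ := exists_immN (E := E) (M := M) hE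
  exact full_of_immN hE H g fun K b => DAlg.iter _

end Vale.Agent.P205.TW
end
end
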